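import Vale.Agent.Lib.P031.Imp

/-!
# Mertens theorems with an absolute constant
-/

namespace Vale.Agent.Lib.P031.Mertens
open Finset Filter

/-- primes in the half open interval from y to z -/
noncomputable def prIoc (y z : ℝ) : Finset ℕ :=
  (range (⌊z⌋₊ + 1)).filter (fun q => q.Prime ∧ y < (q : ℝ) ∧ (q : ℝ) ≤ z)

/-- the sum of log p / p over the primes up to N -/
noncomputable def mertensA (N : ℕ) : ℝ := ∑ p ∈ Nat.primesLE N, Real.log p / p

/-- the sum of 1 / p over the primes up to N -/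
noncomputable def mertensS (N : ℕ) : ℝ := ∑ p ∈ Nat.primesLE N, 1 / (p : ℝ)

theorem mertens_log_factorial (N : ℕ) :
    Real.log (N.factorial : ℝ) =
      ∑ p ∈ Nat.primesLE N, (N.factorial.factorization p : ℝ) * Real.log p := by
  rw [Real.log_nat_eq_sum_factorization]
  rw [Finsupp.sum_of_support_subset]
  · intro p hp
    rw [Nat.support_factorization] at hp
    have h1 := Nat.prime_of_mem_primeFactors hp
    have h2 := Nat.dvd_of_mem_primeFactors hp
    rw [Nat.mem_primesLE]
    exact ⟨(h1.dvd_factorial).1 h2, h1⟩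
  · intro i _
    simp

theorem mertens_fac_lower {N p : ℕ} (hp : p.Prime) (hpN : p ≤ N) :
    (N : ℝ) / p - 1 ≤ (N.factorial.factorization p : ℝ) := by
  have h1 : N / p ≤ N.factorial.factorization p := by
    rw [Nat.factorization_factorial hp (Nat.lt_add_one (Nat.log p N))]
    have h2 : 1 ≤ Nat.log p N := Nat.log_pos hp.one_lt hpN
    have h3 : (1 : ℕ) ∈ Ico 1 (Nat.log p N + 1) := by
      rw [mem_Ico]
      omega
    have h4 := Finset.single_le_sum (f := fun i => N / p ^ i) (fun i _ => Nat.zero_le _) h3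
    simpa using h4
  have h2 : N < p * (N / p + 1) := Nat.lt_mul_div_succ N hp.pos
  have h3 : (N : ℝ) < p * ((N / p : ℕ) + 1) := by exact_mod_cast h2
  have h4 : (N : ℝ) / p < (N / p : ℕ) + 1 := by
    rw [div_lt_iff₀ (by exact_mod_cast hp.pos)]
    linarith
  have h5 : ((N / p : ℕ) : ℝ) ≤ (N.factorial.factorization p : ℝ) := by exact_mod_cast h1
  linarith

theorem mertens_fac_upper {N p : ℕ} (hp : p.Prime) :
    (N.factorial.factorization p : ℝ) ≤ (N : ℝ) / (p - 1) := by
  have h1 := Nat.factorization_factorial_le_div_pred hp N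
  have h2 : ((N / (p - 1) : ℕ) : ℝ) ≤ (N : ℝ) / ((p - 1 : ℕ) : ℝ) := Nat.cast_div_le
  have h3 : ((p - 1 : ℕ) : ℝ) = (p : ℝ) - 1 := by
    rw [Nat.cast_sub hp.one_lt.le]
    simp
  rw [h3] at h2
  refine le_trans ?_ h2
  exact_mod_cast h1

theorem mertens_log_succ {N : ℕ} (hN : 1 ≤ N) :
    Real.log ((N : ℝ) + 1) - Real.log N ≤ 1 / N := by
  have hN' : (0 : ℝ) < N := by exact_mod_cast hN
  rw [← Real.log_div (by positivity) (by positivity)]
  have h := Real.log_le_sub_one_of_pos (x := ((N : ℝ) + 1) / N) (by positivity)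
  have e : ((N : ℝ) + 1) / N - 1 = 1 / N := by
    field_simp
    ring
  linarith

theorem mertens_aux1 {N : ℕ} (hN : 1 ≤ N) :
    ∑ n ∈ Icc 2 N, Real.log n / ((n : ℝ) * (n - 1)) ≤ 2 - (Real.log N + 2) / N := by
  induction N, hN using Nat.le_induction with
  | base => simp
  | succ N hN ih =>
    rw [Finset.sum_Icc_succ_top (by omega)]
    have hN' : (0 : ℝ) < N := by exact_mod_cast hN
    have h1 := mertens_log_succ hN
    have h2 : Real.log ((N + 1 : ℕ) : ℝ) / (((N + 1 : ℕ) : ℝ) * (((N + 1 : ℕ) : ℝ) - 1))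
        ≤ (Real.log N + 2) / N - (Real.log ((N + 1 : ℕ) : ℝ) + 2) / ((N + 1 : ℕ) : ℝ) := by
      push_cast
      rw [div_sub_div _ _ (by positivity) (by positivity)]
      have e : ((N : ℝ) + 1) * ((N : ℝ) + 1 - 1) = N * (N + 1) := by ring
      rw [e]
      apply div_le_div_of_nonneg_right _ (by positivity)
      have h3 : ((N : ℝ) + 1) * (Real.log ((N : ℝ) + 1) - Real.log N) ≤ 2 := by
        have h4 : (1 : ℝ) ≤ N := by exact_mod_cast hN
        calc ((N : ℝ) + 1) * (Real.log ((N : ℝ) + 1) - Real.log N) ≤ (N + 1) * (1 / N) := by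
              gcongr
          _ = 1 + 1 / N := by field_simp
          _ ≤ 1 + 1 := by
              gcongr
              rw [div_le_one hN']
              exact h4
          _ = 2 := by norm_num
      nlinarith
    linarith

theorem mertens_aux1' (N : ℕ) :
    ∑ p ∈ Nat.primesLE N, Real.log p / ((p : ℝ) * (p - 1)) ≤ 2 := by
  rcases Nat.eq_zero_or_pos N with h | h
  · subst h
    simp
  · have h1 := mertens_aux1 h
    have h2 : ∑ p ∈ Nat.primesLE N, Real.log p / ((p : ℝ) * (p - 1))
        ≤ ∑ n ∈ Icc 2 N, Real.log n / ((n : ℝ) * (n - 1)) := by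
      apply Finset.sum_le_sum_of_subset_of_nonneg
      · intro p hp
        rw [Nat.mem_primesLE] at hp
        rw [mem_Icc]
        exact ⟨hp.2.two_le, hp.1⟩
      · intro n hn _
        rw [mem_Icc] at hn
        have h3 : (2 : ℝ) ≤ n := by exact_mod_cast hn.1
        apply div_nonneg (Real.log_nonneg (by linarith))
        apply mul_nonneg <;> linarith
    have h4 : 0 ≤ (Real.log N + 2) / N := by
      have h5 : 0 ≤ Real.log N := Real.log_natCast_nonneg N
      positivity
    linarith

theorem mertens_upper {N : ℕ} (hN : 1 ≤ N) : mertensA N ≤ Real.log N + Real.log 4 := by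
  have hN' : (0 : ℝ) < N := by exact_mod_cast hN
  have h1 : ∑ p ∈ Nat.primesLE N, ((N : ℝ) / p - 1) * Real.log p ≤ Real.log (N.factorial : ℝ) := by
    rw [mertens_log_factorial]
    apply Finset.sum_le_sum
    intro p hp
    rw [Nat.mem_primesLE] at hp
    apply mul_le_mul_of_nonneg_right (mertens_fac_lower hp.2 hp.1)
    exact Real.log_natCast_nonneg p
  have h2 : ∑ p ∈ Nat.primesLE N, ((N : ℝ) / p - 1) * Real.log p
      = N * mertensA N - Chebyshev.theta N := by
    rw [Chebyshev.theta_eq_sum_primesLE_log, mertensA, Finset.mul_sum, ← Finset.sum_sub_distrib]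
    apply Finset.sum_congr rfl
    intro p _
    ring
  have h3 : Real.log (N.factorial : ℝ) ≤ N * Real.log N := by
    rw [← Real.log_pow]
    apply Real.log_le_log (by exact_mod_cast N.factorial_pos)
    exact_mod_cast Nat.factorial_le_pow N
  have h4 : Chebyshev.theta N ≤ Real.log 4 * N := Chebyshev.theta_le_log4_mul_x hN'.le
  rw [h2] at h1
  have h5 : N * mertensA N ≤ N * (Real.log N + Real.log 4) := by linarith
  exact le_of_mul_le_mul_left h5 hN'

theorem mertens_lower {N : ℕ} (hN : 1 ≤ N) : Real.log N - 3 ≤ mertensA N := by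
  have hN' : (0 : ℝ) < N := by exact_mod_cast hN
  have h1 : Real.log (N.factorial : ℝ) ≤ ∑ p ∈ Nat.primesLE N, ((N : ℝ) / (p - 1)) * Real.log p := by
    rw [mertens_log_factorial]
    apply Finset.sum_le_sum
    intro p hp
    rw [Nat.mem_primesLE] at hp
    apply mul_le_mul_of_nonneg_right (mertens_fac_upper hp.2)
    exact Real.log_natCast_nonneg p
  have h2 : ∑ p ∈ Nat.primesLE N, ((N : ℝ) / (p - 1)) * Real.log p
      = N * (mertensA N + ∑ p ∈ Nat.primesLE N, Real.log p / ((p : ℝ) * (p - 1))) := by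
    rw [mertensA, ← Finset.sum_add_distrib, Finset.mul_sum]
    apply Finset.sum_congr rfl
    intro p hp
    rw [Nat.mem_primesLE] at hp
    have h3 : (2 : ℝ) ≤ p := by exact_mod_cast hp.2.two_le
    have h4 : (p : ℝ) ≠ 0 := by linarith
    have h5 : (p : ℝ) - 1 ≠ 0 := by linarith
    field_simp
    ring
  have h3 : N * Real.log N - N ≤ Real.log (N.factorial : ℝ) := by
    have h4 := Real.pow_div_factorial_le_exp (x := (N : ℝ)) hN'.le N
    have h5 : (0 : ℝ) < N.factorial := by exact_mod_cast N.factorial_pos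
    have h6 := Real.log_le_log (by positivity) h4
    rw [Real.log_exp, Real.log_div (by positivity) h5.ne', Real.log_pow] at h6
    linarith
  have h4 := mertens_aux1' N
  rw [h2] at h1
  have h5 : N * (Real.log N - 3) ≤ N * mertensA N := by nlinarith
  exact le_of_mul_le_mul_left h5 hN'

theorem mertens_first {N : ℕ} (hN : 1 ≤ N) : |mertensA N - Real.log N| ≤ 3 := by
  rw [abs_le]
  have h1 := mertens_upper hN
  have h2 := mertens_lower hN
  have h3 : Real.log 4 ≤ 3 := by
    have := Real.log_le_sub_one_of_pos (x := 4) (by norm_num)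
    linarith
  constructor <;> linarith

theorem mertens_step (N : ℕ) (hN : 2 ≤ N) :
    mertensS (N + 1) - mertensS N
      = (mertensA (N + 1) - mertensA N) / Real.log ((N : ℝ) + 1) := by
  have hlog : Real.log ((N : ℝ) + 1) ≠ 0 := by
    have h2 : (2 : ℝ) ≤ N := by exact_mod_cast hN
    exact (Real.log_pos (by linarith)).ne'
  unfold mertensS mertensA
  have e : Nat.primesLE (N + 1)
      = if (N + 1).Prime then insert (N + 1) (Nat.primesLE N) else Nat.primesLE N := by
    ext p
    split_ifs with h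
    · rw [mem_insert, Nat.mem_primesLE, Nat.mem_primesLE]
      constructor
      · rintro ⟨h1, h2⟩
        rcases Nat.lt_or_ge N p with h3 | h3
        · left; omega
        · right; exact ⟨h3, h2⟩
      · rintro (h1 | ⟨h1, h2⟩)
        · rw [h1]; exact ⟨le_refl _, h⟩
        · exact ⟨by omega, h2⟩
    · rw [Nat.mem_primesLE, Nat.mem_primesLE]
      constructor
      · rintro ⟨h1, h2⟩
        refine ⟨?_, h2⟩
        rcases Nat.lt_or_ge N p with h3 | h3
        · exfalso
          have : p = N + 1 := by omega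
          rw [this] at h2
          exact h h2
        · exact h3
      · rintro ⟨h1, h2⟩
        exact ⟨by omega, h2⟩
  rw [e]
  split_ifs with h
  · have hn : N + 1 ∉ Nat.primesLE N := by
      rw [Nat.mem_primesLE]
      omega
    rw [Finset.sum_insert hn, Finset.sum_insert hn]
    push_cast
    have h3 : ((N : ℝ) + 1) ≠ 0 := by positivity
    field_simp
    ring
  · simp

theorem mertens_second_nat {m N : ℕ} (hm : 2 ≤ m) (hmN : m ≤ N) :
    |mertensS N - mertensS m - (Real.log (Real.log N) - Real.log (Real.log m))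
      - (mertensA N - Real.log N) / Real.log N + (mertensA m - Real.log m) / Real.log m|
      ≤ 4 * (1 / Real.log m - 1 / Real.log N) := by
  induction N, hmN using Nat.le_induction with
  | base => simp
  | succ N hmN ih =>
    have hN2 : 2 ≤ N := le_trans hm hmN
    have hN2' : (2 : ℝ) ≤ N := by exact_mod_cast hN2
    have hl : 0 < Real.log N := Real.log_pos (by linarith)
    have hl1 : Real.log N < Real.log ((N : ℝ) + 1) := Real.log_lt_log (by linarith) (by linarith)
    have hl2 : 0 < Real.log ((N : ℝ) + 1) := lt_trans hl hl1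
    have hd : Real.log ((N : ℝ) + 1) - Real.log N ≤ 1 := by
      have h1 := mertens_log_succ (N := N) (by omega)
      have h2 : (1 : ℝ) / N ≤ 1 := by
        rw [div_le_one (by linarith)]
        linarith
      linarith
    have hstep := mertens_step N hN2
    have hR := mertens_first (N := N) (by omega)
    -- the two logarithm inequalities
    have hq1 : Real.log (Real.log ((N : ℝ) + 1)) - Real.log (Real.log N)
        ≤ (Real.log ((N : ℝ) + 1) - Real.log N) / Real.log N := by
      rw [← Real.log_div hl2.ne' hl.ne']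
      have h := Real.log_le_sub_one_of_pos (x := Real.log ((N : ℝ) + 1) / Real.log N)
        (by positivity)
      have e : Real.log ((N : ℝ) + 1) / Real.log N - 1
          = (Real.log ((N : ℝ) + 1) - Real.log N) / Real.log N := by
        field_simp
      linarith
    have hq2 : (Real.log ((N : ℝ) + 1) - Real.log N) / Real.log ((N : ℝ) + 1)
        ≤ Real.log (Real.log ((N : ℝ) + 1)) - Real.log (Real.log N) := by
      have h := Real.log_le_sub_one_of_pos (x := Real.log N / Real.log ((N : ℝ) + 1))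
        (by positivity)
      rw [Real.log_div hl.ne' hl2.ne'] at h
      have e : Real.log N / Real.log ((N : ℝ) + 1) - 1
          = - ((Real.log ((N : ℝ) + 1) - Real.log N) / Real.log ((N : ℝ) + 1)) := by
        field_simp
        ring
      linarith
    have hdiff : (Real.log ((N : ℝ) + 1) - Real.log N) / Real.log N
        - (Real.log ((N : ℝ) + 1) - Real.log N) / Real.log ((N : ℝ) + 1)
        ≤ 1 / Real.log N - 1 / Real.log ((N : ℝ) + 1) := by
      have h1 : 0 ≤ 1 / Real.log N - 1 / Real.log ((N : ℝ) + 1) := by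
        rw [sub_nonneg]
        exact one_div_le_one_div_of_le hl hl1.le
      have h2 : (Real.log ((N : ℝ) + 1) - Real.log N)
          * (1 / Real.log N - 1 / Real.log ((N : ℝ) + 1))
          ≤ 1 * (1 / Real.log N - 1 / Real.log ((N : ℝ) + 1)) :=
        mul_le_mul_of_nonneg_right hd h1
      calc _ = (Real.log ((N : ℝ) + 1) - Real.log N)
          * (1 / Real.log N - 1 / Real.log ((N : ℝ) + 1)) := by ring
        _ ≤ _ := h2
        _ = _ := one_mul _
    have hpos : 0 ≤ 1 / Real.log N - 1 / Real.log ((N : ℝ) + 1) := by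
      rw [sub_nonneg]
      exact one_div_le_one_div_of_le hl hl1.le
    have hRR : |(mertensA N - Real.log N) * (1 / Real.log N - 1 / Real.log ((N : ℝ) + 1))|
        ≤ 3 * (1 / Real.log N - 1 / Real.log ((N : ℝ) + 1)) := by
      rw [abs_mul, abs_of_nonneg hpos]
      exact mul_le_mul_of_nonneg_right hR hpos
    push_cast
    set L0 := Real.log N with hL0
    set L1 := Real.log ((N : ℝ) + 1) with hL1
    have key : mertensS (N + 1) - mertensS m - (Real.log L1 - Real.log (Real.log m))
          - (mertensA (N + 1) - L1) / L1 + (mertensA m - Real.log m) / Real.log m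
        = (mertensS N - mertensS m - (Real.log L0 - Real.log (Real.log m))
          - (mertensA N - L0) / L0 + (mertensA m - Real.log m) / Real.log m)
          + ((L1 - L0) / L1 - (Real.log L1 - Real.log L0)
            + (mertensA N - L0) * (1 / L0 - 1 / L1)) := by
      have hs : mertensS (N + 1) = mertensS N + (mertensA (N + 1) - mertensA N) / L1 := by
        linarith
      rw [hs]
      field_simp
      ring
    rw [key]
    have h1 : |(L1 - L0) / L1 - (Real.log L1 - Real.log L0)
            + (mertensA N - L0) * (1 / L0 - 1 / L1)| ≤ 4 * (1 / L0 - 1 / L1) := by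
      rw [abs_le] at hRR ⊢
      constructor <;> linarith [hRR.1, hRR.2]
    calc _ ≤ _ := abs_add_le _ _
      _ ≤ 4 * (1 / Real.log m - 1 / L0) + 4 * (1 / L0 - 1 / L1) := add_le_add ih h1
      _ = _ := by ring

theorem mertens_second_nat' {m N : ℕ} (hm : 2 ≤ m) (hmN : m ≤ N) :
    |mertensS N - mertensS m - (Real.log (Real.log N) - Real.log (Real.log m))| ≤ 20 := by
  have h := mertens_second_nat hm hmN
  have hm2 : (2 : ℝ) ≤ m := by exact_mod_cast hm
  have hN2 : (2 : ℝ) ≤ N := by exact_mod_cast le_trans hm hmN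
  have hlog2 : (0.69 : ℝ) ≤ Real.log 2 := by linarith [Real.log_two_gt_d9]
  have hlm : 0.69 ≤ Real.log m := le_trans hlog2 (Real.log_le_log (by norm_num) hm2)
  have hlN : 0.69 ≤ Real.log N := le_trans hlog2 (Real.log_le_log (by norm_num) hN2)
  have hR1 := mertens_first (N := N) (by omega)
  have hR2 := mertens_first (N := m) (by omega)
  have b1 : |(mertensA N - Real.log N) / Real.log N| ≤ 3 / 0.69 := by
    rw [abs_div, abs_of_pos (show 0 < Real.log N by linarith)]
    exact div_le_div₀ (by norm_num) hR1 (by norm_num) hlN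
  have b2 : |(mertensA m - Real.log m) / Real.log m| ≤ 3 / 0.69 := by
    rw [abs_div, abs_of_pos (show 0 < Real.log m by linarith)]
    exact div_le_div₀ (by norm_num) hR2 (by norm_num) hlm
  have b3 : 1 / Real.log m ≤ 1.45 :=
    le_trans (one_div_le_one_div_of_le (by norm_num) hlm) (by norm_num)
  have b4 : 0 ≤ 1 / Real.log N := by positivity
  rw [abs_le] at *
  norm_num at b1 b2
  constructor <;> linarith [h.1, h.2, b1.1, b1.2, b2.1, b2.2]

theorem mertens_prIoc {y z : ℝ} (hy : 2 ≤ y) (hyz : y ≤ z) :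
    prIoc y z = Nat.primesLE ⌊z⌋₊ \ Nat.primesLE ⌊y⌋₊ := by
  ext q
  unfold prIoc
  rw [mem_filter, mem_range, Finset.mem_sdiff, Nat.mem_primesLE, Nat.mem_primesLE]
  constructor
  · rintro ⟨h1, h2, h3, h4⟩
    refine ⟨⟨by omega, h2⟩, ?_⟩
    rintro ⟨h5, _⟩
    have := (Nat.le_floor_iff (show 0 ≤ y by linarith)).1 h5
    linarith
  · rintro ⟨⟨h1, h2⟩, h3⟩
    refine ⟨by omega, h2, ?_, (Nat.le_floor_iff (show 0 ≤ z by linarith)).1 h1⟩
    by_contra h5
    push Not at h5
    exact h3 ⟨Nat.le_floor h5, h2⟩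

theorem mertens_loglog {y : ℝ} (hy : 2 ≤ y) :
    |Real.log (Real.log y) - Real.log (Real.log ⌊y⌋₊)| ≤ 1 := by
  have h1 : (2 : ℕ) ≤ ⌊y⌋₊ := Nat.le_floor (by exact_mod_cast hy)
  have h2 : (2 : ℝ) ≤ (⌊y⌋₊ : ℝ) := by exact_mod_cast h1
  have h3 : (⌊y⌋₊ : ℝ) ≤ y := Nat.floor_le (by linarith)
  have h4 : y < ⌊y⌋₊ + 1 := Nat.lt_floor_add_one y
  have hl : 0 < Real.log (⌊y⌋₊ : ℝ) := Real.log_pos (by linarith)
  have h5 : Real.log (⌊y⌋₊ : ℝ) ≤ Real.log y := Real.log_le_log (by linarith) h3
  have h6 : Real.log y ≤ 2 * Real.log (⌊y⌋₊ : ℝ) := by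
    have h7 : y ≤ (⌊y⌋₊ : ℝ) ^ 2 := by nlinarith
    have h8 := Real.log_le_log (by linarith) h7
    rw [Real.log_pow] at h8
    exact_mod_cast h8
  have h7 : Real.log (Real.log (⌊y⌋₊ : ℝ)) ≤ Real.log (Real.log y) := Real.log_le_log hl h5
  have h8 : Real.log (Real.log y) ≤ Real.log 2 + Real.log (Real.log (⌊y⌋₊ : ℝ)) := by
    rw [← Real.log_mul (by norm_num) hl.ne']
    exact Real.log_le_log (by linarith) h6
  have h9 : Real.log 2 ≤ 1 := by
    have := Real.log_le_sub_one_of_pos (x := 2) (by norm_num)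
    linarith
  rw [abs_le]
  constructor <;> linarith

theorem mertens_sum_explicit {y z : ℝ} (hy : 2 ≤ y) (hyz : y ≤ z) :
    |∑ q ∈ prIoc y z, 1 / (q : ℝ) - Real.log (Real.log z / Real.log y)| ≤ 22 := by
  have hsub : Nat.primesLE ⌊y⌋₊ ⊆ Nat.primesLE ⌊z⌋₊ := by
    intro p hp
    rw [Nat.mem_primesLE] at *
    exact ⟨le_trans hp.1 (Nat.floor_le_floor hyz), hp.2⟩
  have h1 : (2 : ℕ) ≤ ⌊y⌋₊ := Nat.le_floor (by exact_mod_cast hy)
  have e : ∑ q ∈ prIoc y z, 1 / (q : ℝ) = mertensS ⌊z⌋₊ - mertensS ⌊y⌋₊ := by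
    rw [mertens_prIoc hy hyz, mertensS, mertensS, Finset.sum_sdiff_eq_sub hsub]
  have hly : Real.log y ≠ 0 := (Real.log_pos (by linarith)).ne'
  have hlz : Real.log z ≠ 0 := (Real.log_pos (by linarith)).ne'
  rw [e, Real.log_div hlz hly]
  have a1 := mertens_second_nat' h1 (Nat.floor_le_floor hyz)
  have a2 := mertens_loglog hy
  have a3 := mertens_loglog (le_trans hy hyz)
  rw [abs_le] at *
  constructor <;> linarith [a1.1, a1.2, a2.1, a2.2, a3.1, a3.2]

theorem mertens_sum : ∃ c : ℝ, 1 ≤ c ∧ ∀ y z : ℝ, 2 ≤ y → y ≤ z →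
    |∑ q ∈ prIoc y z, 1 / (q : ℝ) - Real.log (Real.log z / Real.log y)| ≤ c :=
  ⟨22, by norm_num, fun _ _ hy hyz => mertens_sum_explicit hy hyz⟩

theorem mertens_aux2 {N : ℕ} (hN : 1 ≤ N) :
    ∑ n ∈ Icc 2 N, 1 / ((n : ℝ) * (n - 1)) ≤ 1 - 1 / N := by
  induction N, hN using Nat.le_induction with
  | base => simp
  | succ N hN ih =>
    rw [Finset.sum_Icc_succ_top (by omega)]
    have hN' : (0 : ℝ) < N := by exact_mod_cast hN
    have e : 1 / (((N + 1 : ℕ) : ℝ) * (((N + 1 : ℕ) : ℝ) - 1)) = 1 / N - 1 / ((N + 1 : ℕ) : ℝ) := by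
      push_cast
      rw [div_sub_div _ _ (by positivity) (by positivity)]
      congr 1 <;> ring
    linarith

theorem mertens_aux2' {y z : ℝ} (hy : 2 ≤ y) (hyz : y ≤ z) :
    ∑ q ∈ prIoc y z, 1 / ((q : ℝ) * (q - 1)) ≤ 1 := by
  have h1 : (2 : ℕ) ≤ ⌊z⌋₊ := Nat.le_floor (by push_cast; linarith)
  have h2 := mertens_aux2 (N := ⌊z⌋₊) (by omega)
  have h3 : ∑ q ∈ prIoc y z, 1 / ((q : ℝ) * (q - 1))
      ≤ ∑ n ∈ Icc 2 ⌊z⌋₊, 1 / ((n : ℝ) * (n - 1)) := by
    apply Finset.sum_le_sum_of_subset_of_nonneg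
    · intro p hp
      rw [mertens_prIoc hy hyz, Finset.mem_sdiff, Nat.mem_primesLE] at hp
      rw [mem_Icc]
      exact ⟨hp.1.2.two_le, hp.1.1⟩
    · intro n hn _
      rw [mem_Icc] at hn
      have h3 : (2 : ℝ) ≤ n := by exact_mod_cast hn.1
      apply div_nonneg zero_le_one
      apply mul_nonneg <;> linarith
  have h4 : (0 : ℝ) ≤ 1 / (⌊z⌋₊ : ℝ) := by positivity
  linarith

theorem mertens_prod : ∃ c : ℝ, 1 ≤ c ∧ ∀ y z : ℝ, 2 ≤ y → y ≤ z →
    ∏ q ∈ prIoc y z, (1 - 1 / (q : ℝ)) ≤ c * (Real.log y / Real.log z) ∧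
    Real.log y / Real.log z ≤ c * ∏ q ∈ prIoc y z, (1 - 1 / (q : ℝ)) := by
  refine ⟨Real.exp 23, Real.one_le_exp (by norm_num), fun y z hy hyz => ?_⟩
  have hprime : ∀ q ∈ prIoc y z, (2 : ℝ) ≤ q := by
    intro q hq
    unfold prIoc at hq
    rw [mem_filter] at hq
    exact_mod_cast hq.2.1.two_le
  have hly : 0 < Real.log y := Real.log_pos (by linarith)
  have hlz : 0 < Real.log z := Real.log_pos (by linarith)
  have hsum := mertens_sum_explicit hy hyz
  have haux := mertens_aux2' hy hyz
  rw [abs_le] at hsum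
  have hratio : Real.log y / Real.log z = Real.exp (- Real.log (Real.log z / Real.log y)) := by
    rw [← Real.log_inv, Real.exp_log (by positivity), inv_div]
  have up : ∏ q ∈ prIoc y z, (1 - 1 / (q : ℝ)) ≤ Real.exp (- ∑ q ∈ prIoc y z, 1 / (q : ℝ)) := by
    rw [← Finset.sum_neg_distrib, Real.exp_sum]
    apply Finset.prod_le_prod
    · intro q hq
      have := hprime q hq
      rw [sub_nonneg, div_le_one (by linarith)]
      linarith
    · intro q hq
      have := Real.add_one_le_exp (-(1 / (q : ℝ)))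
      linarith
  have lo : Real.exp (- (∑ q ∈ prIoc y z, 1 / (q : ℝ) + ∑ q ∈ prIoc y z, 1 / ((q : ℝ) * (q - 1))))
      ≤ ∏ q ∈ prIoc y z, (1 - 1 / (q : ℝ)) := by
    rw [← Finset.sum_add_distrib, ← Finset.sum_neg_distrib, Real.exp_sum]
    apply Finset.prod_le_prod
    · intro q _
      exact (Real.exp_pos _).le
    · intro q hq
      have h2 := hprime q hq
      have h3 : (0 : ℝ) < q := by linarith
      have h4 : (0 : ℝ) < (q : ℝ) - 1 := by linarith
      have e : 1 / (q : ℝ) + 1 / ((q : ℝ) * (q - 1)) = 1 / ((q : ℝ) - 1) := by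
        field_simp
        ring
      rw [e, Real.exp_neg]
      have h5 := Real.add_one_le_exp (1 / ((q : ℝ) - 1))
      have e2 : 1 - 1 / (q : ℝ) = (1 / ((q : ℝ) - 1) + 1)⁻¹ := by
        field_simp
        ring
      rw [e2]
      apply inv_anti₀ (by positivity) h5
  constructor
  · refine le_trans up ?_
    rw [hratio, ← Real.exp_add]
    apply Real.exp_le_exp.2
    linarith [hsum.1, hsum.2]
  · rw [hratio]
    have h1 : Real.exp (- Real.log (Real.log z / Real.log y))
        ≤ Real.exp 23 * Real.exp (- (∑ q ∈ prIoc y z, 1 / (q : ℝ)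
          + ∑ q ∈ prIoc y z, 1 / ((q : ℝ) * (q - 1)))) := by
      rw [← Real.exp_add]
      apply Real.exp_le_exp.2
      linarith [hsum.1, hsum.2]
    refine le_trans h1 ?_
    exact mul_le_mul_of_nonneg_left lo (Real.exp_pos _).le

end Vale.Agent.Lib.P031.Mertens
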