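import Vale.Agent.Lib.P031.AdmPP

/-!
# P031 APle: the cost functional of the attached pair is bounded by `BB`.

`b = σ^102`, `J ≤ 40 σ^9 + nn + 1` the number of primes. Let `P` be `PP σ w p (k+1)` (top prime `p k`), `rows_t` the number of
`i ≤ k` with `t ≤ blk (p i)`, `r_t` the number of `q ∈ bigP σ (mW w)` with `t ≤ blk q`; `Rt σ P t = rows_t + r_t`, and
`rows_t = k + 1` if `r_t > 0` (as `q < p 0`). So
`AP σ P = ∑_t b Qp (rows_t) + ∑_{t : rows_t = k+1} b (QQ (k + 1 + r_t) - QQ (k + 1))`.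
First sum: `Qp (rows) = QQ rows - QQ 1 = ∑_{j=1}^{rows-1} aa j` (`rows ≥ 1`), i.e. `∑_{j=1}^{k} aa j 1[t ≤ blk (p (k-j))]`, and
`∑_{t ≥ 1} b 1[t ≤ blk q] = b · blk q ≤ ll q`; so the first sum is `≤ ∑_{j=1}^k aa j xx p (k-j) = ∑_{j<k} aa (k-j) xx p j`.
Second sum: let `full_t` = number of `q ∈ bigP` with `t + 2 ≤ blk q`; then `cnt σ t w ≥ full_t (b - σ^84)` (normality,
`∏(q-1) ∣ w`), so `full_t ≤ cnt σ t w/b + J σ^(-18)`, `r_t ≤ full_t + part_t`, `∑_t part_t ≤ 2 J`. By the mean value theorem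
(`QQ (x + d) - QQ x ≤ d log (x + d)`; `QQ` monotone)
`QQ (k+1+r_t) ≤ QQ (k+1+cnt σ t w/b) + (part_t + J σ^(-18)) log (J + 2)`. Sum over `t`: the error is at most
`b (2 J + 5 σ^18 J σ^(-18)) log (J+2) ≤ 7 σ^102 · 50 σ^9 · C log σ ≤ σ^112`.
The case of `insert P0` is the same with `nn + 1` rows. -/

namespace P031

open Finset Real

private theorem aple_log : ∀ᶠ σ : ℝ in Filter.atTop,
    280 * Real.log (123 + 40 * σ ^ 9) ≤ σ := by
  filter_upwards [Filter.eventually_ge_atTop (10 ^ 8 : ℝ)] with σ hσ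
  have h0 : (0:ℝ) < σ := by linarith
  have h9 : (1:ℝ) ≤ σ ^ 9 := one_le_pow₀ (by linarith)
  have h2 : (123:ℝ) + 40 * σ ^ 9 ≤ σ ^ 10 := by
    calc (123:ℝ) + 40 * σ ^ 9 ≤ 163 * σ ^ 9 := by linarith
      _ ≤ σ * σ ^ 9 := mul_le_mul_of_nonneg_right (by linarith) (by linarith)
      _ = σ ^ 10 := by ring
  have h3 := Real.log_le_log (by linarith) h2
  rw [Real.log_pow] at h3
  have h4 : Real.log (√σ) ≤ √σ - 1 := Real.log_le_sub_one_of_pos (Real.sqrt_pos.mpr h0)
  rw [Real.log_sqrt h0.le] at h4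
  have h5 : √σ * √σ = σ := Real.mul_self_sqrt h0.le
  have h6 : (10000:ℝ) ≤ √σ := by
    rw [show (10000:ℝ) = √(10000 ^ 2) by rw [Real.sqrt_sq (by norm_num)]]
    exact Real.sqrt_le_sqrt (by linarith)
  have h7 : 10000 * √σ ≤ √σ * √σ := mul_le_mul_of_nonneg_right h6 (by linarith)
  push_cast at h3
  linarith

private theorem aple_Qp_le_one {x : ℝ} (hx : x ≤ 1) : Qp x = 0 := by
  unfold Qp
  rw [if_pos hx]

theorem aple_rows (k : ℕ) : ∀ (A : ℕ → Prop) [DecidablePred A],
    Qp ((((range (k + 1)).filter A).card : ℕ) : ℝ) ≤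
      ∑ j ∈ range k, aa (k - j) * (if A j then (1:ℝ) else 0) := by
  induction k with
  | zero =>
    intro A _
    have h1 : ((range (0 + 1)).filter A).card ≤ 1 := by
      refine (Finset.card_filter_le _ _).trans ?_
      simp
    rw [aple_Qp_le_one (by exact_mod_cast h1)]
    simp
  | succ k ih =>
    intro A _
    have hc : ((range (k + 1 + 1)).filter A).card =
        ((range (k + 1)).filter (fun i => A (i + 1))).card + (if A 0 then 1 else 0) := by
      rw [Finset.card_filter, Finset.card_filter, Finset.sum_range_succ']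
    have hs : ∑ j ∈ range (k + 1), aa (k + 1 - j) * (if A j then (1:ℝ) else 0) =
        ∑ j ∈ range k, aa (k - j) * (if A (j + 1) then (1:ℝ) else 0) +
          aa (k + 1) * (if A 0 then (1:ℝ) else 0) := by
      rw [Finset.sum_range_succ']
      simp only [Nat.sub_zero, Nat.add_sub_add_right]
    rw [hc, hs]
    have h1 := ih (fun i => A (i + 1))
    set r := ((range (k + 1)).filter (fun i => A (i + 1))).card with hr
    have hrk : r ≤ k + 1 := by
      have := Finset.card_filter_le (range (k + 1)) (fun i => A (i + 1))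
      rw [Finset.card_range] at this
      exact this
    by_cases hA : A 0
    · rw [if_pos hA, if_pos hA]
      have ha : 0 < aa (k + 1) := aa_pos (by omega)
      rcases Nat.eq_zero_or_pos r with h0 | h0
      · rw [h0]
        rw [aple_Qp_le_one (by norm_num)]
        have h2 := Qp_nonneg (r : ℝ)
        linarith
      · have h3 : (1:ℝ) ≤ (r : ℝ) := by exact_mod_cast h0
        rw [Qp_eq h3] at h1
        push_cast
        rw [Qp_eq (by linarith)]
        have h4 := aa_eq r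
        have h5 := aa_mono hrk
        linarith
    · rw [if_neg hA, if_neg hA, Nat.add_zero, mul_zero, add_zero]
      exact h1

private theorem aple_block {σ : ℝ} (hσ : 1 ≤ σ) (T : ℕ) {q : ℕ} (hq : 0 ≤ ll q) :
    ∑ t ∈ Finset.Icc 1 T, σ ^ 102 * (if t ≤ blk σ q then (1:ℝ) else 0) ≤ ll q := by
  have hb : (0:ℝ) < σ ^ 102 := by positivity
  rw [← Finset.mul_sum, ← Finset.sum_filter, Finset.sum_const, nsmul_eq_mul, mul_one]
  refine le_trans ?_ (blk_mul_le hσ hq)
  rw [mul_comm]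
  refine mul_le_mul_of_nonneg_right ?_ hb.le
  have h1 : (Finset.Icc 1 T).filter (fun t => t ≤ blk σ q) ⊆ Finset.Icc 1 (blk σ q) := by
    intro t ht
    rw [Finset.mem_filter, Finset.mem_Icc] at ht
    rw [Finset.mem_Icc]
    exact ⟨ht.1.1, ht.2⟩
  have h2 := Finset.card_le_card h1
  rw [Nat.card_Icc, Nat.add_sub_cancel] at h2
  exact_mod_cast h2

private theorem aple_prod_ne {R : Finset ℕ} (h : ∀ q ∈ R, q.Prime) :
    ∏ q ∈ R, (q - 1) ≠ 0 := by
  rw [Finset.prod_ne_zero_iff]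
  intro q hq
  have := (h q hq).two_le
  omega

private theorem aple_Om_prod (R : Finset ℕ) (h : ∀ q ∈ R, q.Prime) :
    Om (∏ q ∈ R, (q - 1)) = ∑ q ∈ R, Om (q - 1) := by
  classical
  induction R using Finset.induction_on with
  | empty => simp [Om]
  | insert a R ha ih =>
    have h1 : ∀ q ∈ R, q.Prime := fun q hq => h q (Finset.mem_insert_of_mem hq)
    have h2 := (h a (Finset.mem_insert_self a R)).two_le
    rw [Finset.prod_insert ha, Finset.sum_insert ha, Om_mul (by omega) (aple_prod_ne h1), ih h1]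

private theorem aple_cnt_prod (σ : ℝ) (t : ℕ) (R : Finset ℕ) (h : ∀ q ∈ R, q.Prime) :
    cnt σ t (∏ q ∈ R, (q - 1)) = ∑ q ∈ R, cnt σ t (q - 1) := by
  classical
  induction R using Finset.induction_on with
  | empty => simp [cnt]
  | insert a R ha ih =>
    have h1 : ∀ q ∈ R, q.Prime := fun q hq => h q (Finset.mem_insert_of_mem hq)
    have h2 := (h a (Finset.mem_insert_self a R)).two_le
    rw [Finset.prod_insert ha, Finset.sum_insert ha, cnt_mul σ t (by omega) (aple_prod_ne h1),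
      ih h1]

/-- properties of the primes of `bigP` -/
theorem aple_bigP : ∀ᶠ σ : ℝ in Filter.atTop, ∀ w ∈ Wfin σ, PW w ≤ EE σ →
    (∀ q ∈ bigP σ (mW w), q.Prime ∧ Normal σ q ∧ σ ^ 111 < ll q ∧ q ≤ PW w) ∧
    (∏ q ∈ bigP σ (mW w), (q - 1)) ∣ w ∧ w ≠ 0 ∧
    ((bigP σ (mW w)).card : ℝ) ≤ 40 * σ ^ 9 := by
  classical
  filter_upwards [normal_Om, Filter.eventually_ge_atTop (1 : ℝ)] with σ hOm hσ w hw hPW
  have h0 : (0:ℝ) < σ := by linarith
  have hw' : 1 ≤ w ∧ w ≤ EE σ - 1 ∧ WW σ w := by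
    unfold Wfin at hw
    rw [Finset.mem_filter, Finset.mem_Icc] at hw
    exact ⟨hw.1.1, hw.1.2, hw.2⟩
  have hWW := hw'.2.2
  have hw0 : w ≠ 0 := by omega
  obtain ⟨hm1, hm2⟩ := mW_spec hWW.2.1
  have hgood := hWW.2.2 (mW w) hm1
  have hm0 : mW w ≠ 0 := by
    intro h
    rw [h, Nat.totient_zero] at hm1
    exact hw0 hm1.symm
  have hq : ∀ q ∈ bigP σ (mW w), q.Prime ∧ Normal σ q ∧ σ ^ 111 < ll q ∧ q ≤ PW w := by
    intro q hq
    unfold bigP at hq
    rw [Finset.mem_filter] at hq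
    refine ⟨Nat.prime_of_mem_primeFactors hq.1, hgood.1 q hq.1 hq.2, hq.2, ?_⟩
    rw [← hm2]
    exact le_maxp hq.1
  have hdvd : (∏ q ∈ bigP σ (mW w), (q - 1)) ∣ w := by
    have := prod_sub_one_dvd_tot hm0 (bigP σ (mW w)) (by
      unfold bigP
      exact Finset.filter_subset _ _)
    rwa [hm1] at this
  refine ⟨hq, hdvd, hw0, ?_⟩
  have h1 : Om (∏ q ∈ bigP σ (mW w), (q - 1)) ≤ Om w := Om_dvd hdvd hw0
  rw [aple_Om_prod _ fun q h => (hq q h).1] at h1
  have h2 : (∑ q ∈ bigP σ (mW w), (Om (q - 1) : ℝ)) ≤ 20 * σ ^ 120 := by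
    refine le_trans ?_ hWW.1.2.1
    exact_mod_cast h1
  have h3 : ∑ q ∈ bigP σ (mW w), (σ ^ 111 / 2) ≤ ∑ q ∈ bigP σ (mW w), (Om (q - 1) : ℝ) := by
    refine Finset.sum_le_sum fun q h => ?_
    obtain ⟨ha, hb, hc, hd⟩ := hq q h
    have h4 : ll q ≤ σ ^ 120 + 1 := (le_EE_iff ha.two_le).1 (hd.trans hPW)
    have h5 := (hOm q ha hb h4).2 hc
    linarith
  rw [Finset.sum_const, nsmul_eq_mul] at h3
  have h4 : ((bigP σ (mW w)).card : ℝ) * (σ ^ 111 / 2) ≤ (40 * σ ^ 9) * (σ ^ 111 / 2) := by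
    calc ((bigP σ (mW w)).card : ℝ) * (σ ^ 111 / 2) ≤ 20 * σ ^ 120 := h3.trans h2
      _ = (40 * σ ^ 9) * (σ ^ 111 / 2) := by ring
  exact le_of_mul_le_mul_right h4 (by positivity)

/-- full blocks -/
private theorem aple_full {σ : ℝ} (hσ : 1 ≤ σ) {w t : ℕ} {R : Finset ℕ} (ht : 1 ≤ t) (hw : w ≠ 0)
    (hR : ∀ q ∈ R, q.Prime ∧ Normal σ q ∧ σ ^ 111 < ll q) (hd : (∏ q ∈ R, (q - 1)) ∣ w) :
    ((R.filter (fun q => t + 2 ≤ blk σ q)).card : ℝ) ≤
      (cnt σ t w : ℝ) / σ ^ 102 + (R.card : ℝ) / σ ^ 18 := by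
  classical
  have h0 : (0:ℝ) < σ := by linarith
  have hb : (0:ℝ) < σ ^ 102 := by positivity
  have h1 := cnt_dvd σ t hd hw
  rw [aple_cnt_prod σ t R fun q h => (hR q h).1] at h1
  have h2 : ∑ q ∈ R.filter (fun q => t + 2 ≤ blk σ q), cnt σ t (q - 1) ≤ cnt σ t w :=
    (Finset.sum_le_sum_of_subset (Finset.filter_subset _ _)).trans h1
  have h3 : ∑ q ∈ R.filter (fun q => t + 2 ≤ blk σ q), (1 - 1 / σ ^ 18) ≤
      ∑ q ∈ R.filter (fun q => t + 2 ≤ blk σ q), (cnt σ t (q - 1) : ℝ) / σ ^ 102 := by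
    refine Finset.sum_le_sum fun q h => ?_
    rw [Finset.mem_filter] at h
    obtain ⟨ha, hb, hc⟩ := hR q h.1
    exact step_lo hσ hb (le_trans (by positivity) hc.le) ht h.2
  rw [← Finset.sum_div, Finset.sum_const, nsmul_eq_mul] at h3
  have h4 : (∑ q ∈ R.filter (fun q => t + 2 ≤ blk σ q), (cnt σ t (q - 1) : ℝ)) / σ ^ 102 ≤
      (cnt σ t w : ℝ) / σ ^ 102 := by
    refine div_le_div_of_nonneg_right ?_ hb.le
    exact_mod_cast h2
  have h5 : ((R.filter (fun q => t + 2 ≤ blk σ q)).card : ℝ) / σ ^ 18 ≤ (R.card : ℝ) / σ ^ 18 := by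
    refine div_le_div_of_nonneg_right ?_ (by positivity)
    exact_mod_cast Finset.card_filter_le _ _
  have h6 : ((R.filter (fun q => t + 2 ≤ blk σ q)).card : ℝ) * (1 - 1 / σ ^ 18) =
      ((R.filter (fun q => t + 2 ≤ blk σ q)).card : ℝ) -
      ((R.filter (fun q => t + 2 ≤ blk σ q)).card : ℝ) / σ ^ 18 := by ring
  linarith

/-- partial blocks -/
private theorem aple_part {σ : ℝ} (T : ℕ) (R : Finset ℕ) :
    ∑ t ∈ Finset.Icc 1 T, ((R.filter (fun q => blk σ q < t + 2 ∧ t ≤ blk σ q)).card : ℝ) ≤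
      2 * (R.card : ℝ) := by
  classical
  have h1 : ∀ t, ((R.filter (fun q => blk σ q < t + 2 ∧ t ≤ blk σ q)).card : ℝ) =
      ∑ q ∈ R, if blk σ q < t + 2 ∧ t ≤ blk σ q then (1:ℝ) else 0 := by
    intro t
    rw [Finset.card_filter]
    push_cast
    rfl
  simp_rw [h1]
  rw [Finset.sum_comm]
  have h2 : ∀ q ∈ R, (∑ t ∈ Finset.Icc 1 T, if blk σ q < t + 2 ∧ t ≤ blk σ q then (1:ℝ) else 0) ≤
      2 := by
    intro q _
    have h3 := step_card' (B := blk σ q) (T := T)
    rw [Finset.card_filter] at h3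
    push_cast at h3
    exact h3
  refine (Finset.sum_le_sum h2).trans ?_
  rw [Finset.sum_const, nsmul_eq_mul, mul_comm]

private theorem aple_Rt (σ : ℝ) (u : ℕ → ℕ) (K t : ℕ) (R : Finset ℕ) :
    Rt σ ((range (K + 1)).image u ∪ R) t ≤
      ((range (K + 1)).filter (fun i => t ≤ blk σ (u i))).card +
        (R.filter (fun q => t ≤ blk σ q)).card := by
  classical
  unfold Rt
  rw [Finset.filter_union]
  refine (Finset.card_union_le _ _).trans (Nat.add_le_add_right ?_ _)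
  rw [Finset.filter_image]
  exact Finset.card_image_le

private theorem aple_split (σ : ℝ) (t : ℕ) (R : Finset ℕ) :
    (R.filter (fun q => t ≤ blk σ q)).card ≤
      (R.filter (fun q => t + 2 ≤ blk σ q)).card +
        (R.filter (fun q => blk σ q < t + 2 ∧ t ≤ blk σ q)).card := by
  classical
  refine le_trans (Finset.card_le_card ?_) (Finset.card_union_le _ _)
  intro q hq
  rw [Finset.mem_filter] at hq
  rw [Finset.mem_union, Finset.mem_filter, Finset.mem_filter]
  rcases le_or_gt (t + 2) (blk σ q) with h | h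
  · exact Or.inl ⟨hq.1, h⟩
  · exact Or.inr ⟨hq.1, h, hq.2⟩

/-- general form -/
theorem aple_gen : ∀ᶠ σ : ℝ in Filter.atTop, ∀ w ∈ Wfin σ, ∀ K ≤ nn, ∀ u : ℕ → ℕ,
    (∀ i ≤ K, PW w < u i) → u 0 ≤ EE σ → (∀ i < K, 0 ≤ ll (u i)) →
    AP σ ((range (K + 1)).image u ∪ bigP σ (mW w)) ≤
      ∑ j ∈ range K, aa (K - j) * ll (u j) + CC σ (K + 1) w + σ ^ 112 := by
  classical
  filter_upwards [aple_log, aple_bigP, Filter.eventually_ge_atTop (1 : ℝ)] with σ hlog hbig hσ
    w hw K hK u hu hu0 hul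
  have h0 : (0:ℝ) < σ := by linarith
  have hb : (0:ℝ) < σ ^ 102 := by positivity
  have hPW : PW w ≤ EE σ := ((hu 0 (Nat.zero_le _)).le).trans hu0
  obtain ⟨hR, hdvd, hw0, hJ⟩ := hbig w hw hPW
  set R := bigP σ (mW w) with hRdef
  set L := Real.log (123 + 40 * σ ^ 9) with hL
  have hL0 : 0 ≤ L := Real.log_nonneg (by
    have : (0:ℝ) < σ ^ 9 := by positivity
    linarith)
  have hK1 : (1:ℝ) ≤ (K:ℝ) + 1 := by
    have : (0:ℝ) ≤ K := Nat.cast_nonneg K
    linarith
  have hK121 : (K:ℝ) ≤ 121 := by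
    have : K ≤ 121 := hK
    exact_mod_cast this
  -- the inequality for one block
  have hblock : ∀ t ∈ Finset.Icc 1 (Tm σ),
      σ ^ 102 * Qp (Rt σ ((range (K + 1)).image u ∪ R) t : ℝ) ≤
        ∑ j ∈ range K, aa (K - j) * (σ ^ 102 * (if t ≤ blk σ (u j) then (1:ℝ) else 0)) +
        σ ^ 102 * (QQ (((K + 1 : ℕ) : ℝ) + (cnt σ t w : ℝ) / σ ^ 102) - QQ ((K + 1 : ℕ) : ℝ)) +
        σ ^ 102 * L * (((R.filter (fun q => blk σ q < t + 2 ∧ t ≤ blk σ q)).card : ℝ) +
          (R.card : ℝ) / σ ^ 18) := by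
    intro t ht
    have ht1 : 1 ≤ t := (Finset.mem_Icc.1 ht).1
    have hc0 : 0 ≤ (cnt σ t w : ℝ) / σ ^ 102 := by positivity
    set c : ℝ := (cnt σ t w : ℝ) / σ ^ 102 with hc
    have hpart0 : (0:ℝ) ≤ ((R.filter (fun q => blk σ q < t + 2 ∧ t ≤ blk σ q)).card : ℝ) +
        (R.card : ℝ) / σ ^ 18 := by positivity
    set e : ℝ := ((R.filter (fun q => blk σ q < t + 2 ∧ t ≤ blk σ q)).card : ℝ) +
        (R.card : ℝ) / σ ^ 18 with he
    have hQ0 : 0 ≤ QQ (((K + 1 : ℕ) : ℝ) + c) - QQ ((K + 1 : ℕ) : ℝ) := by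
      refine sub_nonneg.2 (QQ_mono ?_ (by linarith))
      push_cast
      exact hK1
    have hs : ∑ j ∈ range K, aa (K - j) * (σ ^ 102 * (if t ≤ blk σ (u j) then (1:ℝ) else 0)) =
        σ ^ 102 * ∑ j ∈ range K, aa (K - j) * (if t ≤ blk σ (u j) then (1:ℝ) else 0) := by
      rw [Finset.mul_sum]
      refine Finset.sum_congr rfl fun j _ => ?_
      ring
    rw [hs]
    have hkey : Qp (Rt σ ((range (K + 1)).image u ∪ R) t : ℝ) ≤
        ∑ j ∈ range K, aa (K - j) * (if t ≤ blk σ (u j) then (1:ℝ) else 0) +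
        (QQ (((K + 1 : ℕ) : ℝ) + c) - QQ ((K + 1 : ℕ) : ℝ)) + L * e := by
      have hRt := aple_Rt σ u K t R
      have hrows := aple_rows K (fun i => t ≤ blk σ (u i))
      have hLe : 0 ≤ L * e := mul_nonneg hL0 hpart0
      rcases Nat.eq_zero_or_pos (R.filter (fun q => t ≤ blk σ q)).card with hr | hr
      · rw [hr, Nat.add_zero] at hRt
        have h1 : Qp (Rt σ ((range (K + 1)).image u ∪ R) t : ℝ) ≤
            Qp ((((range (K + 1)).filter (fun i => t ≤ blk σ (u i))).card : ℕ) : ℝ) :=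
          Qp_mono (by exact_mod_cast hRt)
        linarith
      · obtain ⟨q, hq⟩ := Finset.card_pos.1 hr
        rw [Finset.mem_filter] at hq
        have hall : ∀ i ≤ K, t ≤ blk σ (u i) := by
          intro i hi
          have h1 := hR q hq.1
          exact hq.2.trans (blk_mono hσ h1.1.two_le (h1.2.2.2.trans (hu i hi).le))
        have hfil : (range (K + 1)).filter (fun i => t ≤ blk σ (u i)) = range (K + 1) := by
          refine Finset.filter_true_of_mem fun i hi => hall i ?_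
          have := Finset.mem_range.1 hi
          omega
        rw [hfil, Finset.card_range] at hRt hrows
        have hK1' : (1:ℝ) ≤ ((K + 1 : ℕ) : ℝ) := by
          push_cast
          exact hK1
        rw [Qp_eq hK1'] at hrows
        have hsplit := aple_split σ t R
        have hfull := aple_full hσ (w := w) (t := t) (R := R) ht1 hw0
          (fun q h => ⟨(hR q h).1, (hR q h).2.1, (hR q h).2.2.1⟩) hdvd
        set r := (R.filter (fun q => t ≤ blk σ q)).card with hrdef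
        have hr0 : (0:ℝ) ≤ (r:ℝ) := Nat.cast_nonneg r
        have hrc : (r:ℝ) ≤ c + e := by
          have h1 : (r:ℝ) ≤ ((R.filter (fun q => t + 2 ≤ blk σ q)).card : ℝ) +
              ((R.filter (fun q => blk σ q < t + 2 ∧ t ≤ blk σ q)).card : ℝ) := by
            exact_mod_cast hsplit
          linarith
        have hrJ : (r:ℝ) ≤ (R.card : ℝ) := by
          exact_mod_cast Finset.card_filter_le _ _
        have h1 : Qp (Rt σ ((range (K + 1)).image u ∪ R) t : ℝ) ≤
            QQ (((K + 1 : ℕ) : ℝ) + (r : ℝ)) := by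
          rw [← Qp_eq (by linarith)]
          exact Qp_mono (by exact_mod_cast hRt)
        have h2 : QQ (((K + 1 : ℕ) : ℝ) + (r : ℝ)) ≤ QQ (((K + 1 : ℕ) : ℝ) + c) + L * e := by
          rcases le_or_gt (r:ℝ) c with h3 | h3
          · have h4 := QQ_mono (x := ((K + 1 : ℕ) : ℝ) + (r : ℝ)) (y := ((K + 1 : ℕ) : ℝ) + c)
              (by linarith) (by linarith)
            linarith
          · have h4 := QQ_tangent (x := ((K + 1 : ℕ) : ℝ) + (r : ℝ)) (y := ((K + 1 : ℕ) : ℝ) + c)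
              (by linarith) (by linarith)
            have h5 : Real.log (((K + 1 : ℕ) : ℝ) + (r : ℝ)) ≤ L := by
              refine Real.log_le_log (by linarith) ?_
              push_cast
              linarith
            have h6 : 0 ≤ (L - Real.log (((K + 1 : ℕ) : ℝ) + (r : ℝ))) * ((r:ℝ) - c) :=
              mul_nonneg (by linarith) (by linarith)
            have h7 : 0 ≤ L * (e - ((r:ℝ) - c)) := mul_nonneg hL0 (by linarith)
            have h8 : Real.log (((K + 1 : ℕ) : ℝ) + (r : ℝ)) *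
                (((K + 1 : ℕ) : ℝ) + c - (((K + 1 : ℕ) : ℝ) + (r : ℝ))) =
                Real.log (((K + 1 : ℕ) : ℝ) + (r : ℝ)) * (c - r) := by ring
            rw [h8] at h4
            linarith
        linarith
    have h9 := mul_le_mul_of_nonneg_left hkey hb.le
    refine h9.trans (le_of_eq ?_)
    ring
  -- summation
  have hsum := Finset.sum_le_sum hblock
  have h3sum : ∑ t ∈ Finset.Icc 1 (Tm σ), σ ^ 102 * L *
      (((R.filter (fun q => blk σ q < t + 2 ∧ t ≤ blk σ q)).card : ℝ) + (R.card : ℝ) / σ ^ 18) =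
      σ ^ 102 * L * (∑ t ∈ Finset.Icc 1 (Tm σ),
      ((R.filter (fun q => blk σ q < t + 2 ∧ t ≤ blk σ q)).card : ℝ) +
      ((Tm σ + 1 - 1 : ℕ) : ℝ) * ((R.card : ℝ) / σ ^ 18)) := by
    rw [← Finset.mul_sum, Finset.sum_add_distrib, Finset.sum_const, Nat.card_Icc, nsmul_eq_mul]
  rw [Finset.sum_add_distrib, Finset.sum_add_distrib, Finset.sum_comm, h3sum] at hsum
  unfold AP
  refine hsum.trans ?_
  have hA : ∑ j ∈ range K, ∑ t ∈ Finset.Icc 1 (Tm σ),
      aa (K - j) * (σ ^ 102 * (if t ≤ blk σ (u j) then (1:ℝ) else 0)) ≤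
      ∑ j ∈ range K, aa (K - j) * ll (u j) := by
    refine Finset.sum_le_sum fun j hj => ?_
    have hj' := Finset.mem_range.1 hj
    rw [← Finset.mul_sum]
    exact mul_le_mul_of_nonneg_left (aple_block hσ (Tm σ) (hul j hj')) (aa_pos (by omega)).le
  have hB : ∑ t ∈ Finset.Icc 1 (Tm σ), σ ^ 102 *
      (QQ (((K + 1 : ℕ) : ℝ) + (cnt σ t w : ℝ) / σ ^ 102) - QQ ((K + 1 : ℕ) : ℝ)) =
      CC σ (K + 1) w := rfl
  have hT : (((Tm σ + 1 - 1 : ℕ)) : ℝ) * ((R.card : ℝ) / σ ^ 18) ≤ 5 * (R.card : ℝ) := by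
    rw [Nat.add_sub_cancel]
    have h1 := Tm_le hσ
    have h18 : (0:ℝ) < σ ^ 18 := by positivity
    calc (Tm σ : ℝ) * ((R.card : ℝ) / σ ^ 18) ≤ (5 * σ ^ 18) * ((R.card : ℝ) / σ ^ 18) :=
          mul_le_mul_of_nonneg_right h1 (by positivity)
      _ = 5 * (R.card : ℝ) := by field_simp
  have hP := aple_part (σ := σ) (Tm σ) R
  have hC : σ ^ 102 * L * (∑ t ∈ Finset.Icc 1 (Tm σ),
      ((R.filter (fun q => blk σ q < t + 2 ∧ t ≤ blk σ q)).card : ℝ) +
      ((Tm σ + 1 - 1 : ℕ) : ℝ) * ((R.card : ℝ) / σ ^ 18)) ≤ σ ^ 112 := by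
    calc σ ^ 102 * L * (∑ t ∈ Finset.Icc 1 (Tm σ),
          ((R.filter (fun q => blk σ q < t + 2 ∧ t ≤ blk σ q)).card : ℝ) +
          ((Tm σ + 1 - 1 : ℕ) : ℝ) * ((R.card : ℝ) / σ ^ 18))
        ≤ σ ^ 102 * L * (7 * (40 * σ ^ 9)) := by
          refine mul_le_mul_of_nonneg_left ?_ (mul_nonneg hb.le hL0)
          linarith
      _ = (280 * L) * σ ^ 111 := by ring
      _ ≤ σ * σ ^ 111 := mul_le_mul_of_nonneg_right hlog (pow_pos h0 111).le
      _ = σ ^ 112 := by ring
  linarith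

theorem AP_le : ∀ᶠ σ : ℝ in Filter.atTop, ∀ w ∈ Wfin σ, ∀ p : Fin nn → ℕ, StrictMono p →
    (∀ i, (p i).Prime ∧ Normal σ (p i) ∧ PW w < p i ∧ σ ^ 119 ≤ ll (p i) ∧ p i ≤ EE σ) →
    (∀ k, k < nn → AP σ (PP σ w p (k + 1)) ≤ BB (fun j => CC σ j w) (xx p) k + σ ^ 112) ∧
    (∀ P0 : ℕ, P0.Prime → Normal σ P0 → P0 ≤ EE σ → (∀ i, p i < P0) →
      AP σ (insert P0 (PP σ w p nn)) ≤ BB (fun j => CC σ j w) (xx p) nn + σ ^ 112) := by
  classical
  filter_upwards [aple_gen, Filter.eventually_ge_atTop (1 : ℝ)] with σ hgen hσ w hw p hp hpp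
  have h0 : (0:ℝ) < σ := by linarith
  have hll : ∀ i, 0 ≤ ll (p i) := fun i => le_trans (by positivity) (hpp i).2.2.2.1
  have hn0 : 0 < nn := by unfold nn; norm_num
  constructor
  · intro k hk
    have h1 := hgen w hw k hk.le (fun i => if h : i < nn then p ⟨i, h⟩ else 0)
      (by
        intro i hi
        have h2 : i < nn := by omega
        rw [dif_pos h2]
        exact (hpp _).2.2.1)
      (by
        rw [dif_pos hn0]
        exact (hpp _).2.2.2.2)
      (by
        intro i hi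
        have h2 : i < nn := by omega
        rw [dif_pos h2]
        exact hll _)
    have h2 : PP σ w p (k + 1) =
        (range (k + 1)).image (fun i => if h : i < nn then p ⟨i, h⟩ else 0) ∪ bigP σ (mW w) := by
      unfold PP
      congr 1
      ext q
      simp only [Finset.mem_image, Finset.mem_filter, Finset.mem_univ, true_and, Finset.mem_range]
      constructor
      · rintro ⟨i, hi, rfl⟩
        exact ⟨i.val, hi, by rw [dif_pos i.isLt]⟩
      · rintro ⟨i, hi, rfl⟩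
        have h3 : i < nn := by omega
        exact ⟨⟨i, h3⟩, hi, by rw [dif_pos h3]⟩
    rw [h2]
    refine h1.trans (le_of_eq ?_)
    unfold BB
    congr 2
    refine Finset.sum_congr rfl fun j hj => ?_
    have h3 : j < nn := by
      have := Finset.mem_range.1 hj
      omega
    unfold xx
    rw [dif_pos h3, dif_pos h3]
  · intro P0 hP0 hN0 hE0 hlt
    have h1 := hgen w hw nn le_rfl (fun i => if h : i < nn then p ⟨i, h⟩ else P0)
      (by
        intro i hi
        by_cases h2 : i < nn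
        · rw [dif_pos h2]
          exact (hpp _).2.2.1
        · rw [dif_neg h2]
          exact ((hpp ⟨0, hn0⟩).2.2.1).trans (hlt _))
      (by
        rw [dif_pos hn0]
        exact (hpp _).2.2.2.2)
      (by
        intro i hi
        rw [dif_pos hi]
        exact hll _)
    have h2 : insert P0 (PP σ w p nn) =
        (range (nn + 1)).image (fun i => if h : i < nn then p ⟨i, h⟩ else P0) ∪
          bigP σ (mW w) := by
      refine Finset.ext fun q => ?_
      rw [Finset.mem_insert, PP, Finset.mem_union, Finset.mem_union, Finset.mem_image,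
        Finset.mem_image]
      constructor
      · rintro (hq | ⟨i, hi, hq⟩ | hq)
        · exact Or.inl ⟨nn, Finset.mem_range.2 (Nat.lt_succ_self nn),
            by rw [dif_neg (lt_irrefl nn), hq]⟩
        · refine Or.inl ⟨i.val, Finset.mem_range.2 (Nat.lt_succ_of_lt i.isLt), ?_⟩
          rw [dif_pos i.isLt]
          exact hq
        · exact Or.inr hq
      · rintro (⟨i, hi, hq⟩ | hq)
        · by_cases h3 : i < nn
          · rw [dif_pos h3] at hq
            exact Or.inr (Or.inl ⟨⟨i, h3⟩, Finset.mem_filter.2 ⟨Finset.mem_univ _, h3⟩, hq⟩)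
          · rw [dif_neg h3] at hq
            exact Or.inl hq.symm
        · exact Or.inr (Or.inr hq)
    rw [h2]
    have h4 : ∑ j ∈ range nn, aa (nn - j) * ll (if h : j < nn then p ⟨j, h⟩ else P0) =
        ∑ j ∈ range nn, aa (nn - j) * xx p j := by
      refine Finset.sum_congr rfl fun j hj => ?_
      have h3 : j < nn := Finset.mem_range.1 hj
      unfold xx
      rw [dif_pos h3, dif_pos h3]
    rw [h4] at h1
    exact h1

end P031
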