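import Vale.Agent.Lib.P031.BasicQ

/-!
# P031 BasicC: elementary facts on `cnt`, `Om`, `CC`, `II`.
`cnt` and `Om` are additive on products of nonzero integers (`Nat.perm_primeFactorsList_mul`).
-/

namespace P031

open Finset Real

theorem cnt_mul (σ : ℝ) (t : ℕ) {m n : ℕ} (hm : m ≠ 0) (hn : n ≠ 0) :
    cnt σ t (m * n) = cnt σ t m + cnt σ t n := by
  unfold cnt
  rw [((Nat.perm_primeFactorsList_mul hm hn).filter _).length_eq, List.filter_append,
    List.length_append]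

theorem cnt_one (σ : ℝ) (t : ℕ) : cnt σ t 1 = 0 := by
  simp [cnt]

theorem Om_mul {m n : ℕ} (hm : m ≠ 0) (hn : n ≠ 0) : Om (m * n) = Om m + Om n := by
  unfold Om
  rw [(Nat.perm_primeFactorsList_mul hm hn).length_eq, List.length_append]

theorem cnt_le_Om (σ : ℝ) (t n : ℕ) : cnt σ t n ≤ Om n :=
  List.length_filter_le _ _

theorem cnt_dvd (σ : ℝ) (t : ℕ) {m n : ℕ} (h : m ∣ n) (hn : n ≠ 0) : cnt σ t m ≤ cnt σ t n := by
  obtain ⟨k, rfl⟩ := h
  have hm : m ≠ 0 := fun h => hn (by simp [h])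
  have hk : k ≠ 0 := fun h => hn (by simp [h])
  rw [cnt_mul σ t hm hk]
  exact Nat.le_add_right _ _

theorem Om_dvd {m n : ℕ} (h : m ∣ n) (hn : n ≠ 0) : Om m ≤ Om n := by
  obtain ⟨k, rfl⟩ := h
  have hm : m ≠ 0 := fun h => hn (by simp [h])
  have hk : k ≠ 0 := fun h => hn (by simp [h])
  rw [Om_mul hm hk]
  exact Nat.le_add_right _ _

private theorem basicC_sum_filter (f : ℕ → ℕ) (T : Finset ℕ) (L : List ℕ) :
    ∑ t ∈ T, (L.filter (fun q => f q = t)).length ≤ L.length := by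
  induction L with
  | nil => simp
  | cons a L ih =>
    have h : ∀ t ∈ T, ((a :: L).filter (fun q => f q = t)).length =
        (if f a = t then 1 else 0) + (L.filter (fun q => f q = t)).length := by
      intro t _
      by_cases hft : f a = t
      · simp [hft, add_comm]
      · simp [hft]
    rw [Finset.sum_congr rfl h, Finset.sum_add_distrib, List.length_cons, add_comm L.length]
    refine Nat.add_le_add ?_ ih
    rw [Finset.sum_ite_eq]
    split_ifs <;> omega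

/-- sum of the counts over any set of blocks is at most `Om` -/
theorem sum_cnt_le (σ : ℝ) (T : Finset ℕ) (n : ℕ) : ∑ t ∈ T, cnt σ t n ≤ Om n :=
  basicC_sum_filter (blk σ) T n.primeFactorsList

theorem CC_nonneg {σ : ℝ} (hσ : 1 ≤ σ) {k : ℕ} (hk : 1 ≤ k) (w : ℕ) : 0 ≤ CC σ k w := by
  have h0 : 0 < σ ^ 102 := by positivity
  refine Finset.sum_nonneg fun t _ => mul_nonneg h0.le (sub_nonneg.mpr ?_)
  have h1 : (1 : ℝ) ≤ k := by exact_mod_cast hk
  exact QQ_mono h1 (le_add_of_nonneg_right (div_nonneg (Nat.cast_nonneg _) h0.le))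

theorem CC_mono {σ : ℝ} (hσ : 1 ≤ σ) {j k : ℕ} (hjk : j ≤ k) (w : ℕ) : CC σ j w ≤ CC σ k w := by
  have h0 : 0 < σ ^ 102 := by positivity
  refine Finset.sum_le_sum fun t _ => mul_le_mul_of_nonneg_left ?_ h0.le
  exact QQ_incr (Nat.cast_nonneg _) (Nat.cast_le.mpr hjk)
    (div_nonneg (Nat.cast_nonneg _) h0.le)

theorem II_nonneg {σ : ℝ} (hσ : 1 ≤ σ) (n : ℕ) : 0 ≤ II σ n := by
  have h0 : 0 < σ ^ 102 := by positivity
  exact Finset.sum_nonneg fun t _ => mul_nonneg h0.le (Qp_nonneg _)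

theorem II_dvd {σ : ℝ} (hσ : 1 ≤ σ) {m n : ℕ} (h : m ∣ n) (hn : n ≠ 0) : II σ m ≤ II σ n := by
  have h0 : 0 < σ ^ 102 := by positivity
  refine Finset.sum_le_sum fun t _ => mul_le_mul_of_nonneg_left (Qp_mono ?_) h0.le
  exact div_le_div_of_nonneg_right (Nat.cast_le.mpr (cnt_dvd σ t h hn)) h0.le

end P031
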