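import Vale.Agent.Lib.P031.LL
import Vale.Agent.Lib.P031.BasicC

/-!
# P031 Step: effect of one normal prime on the functionals.

`b = σ^102`. Let `p` be normal, all prime factors of `n` smaller than `p`, `w_t = cnt σ t n / b`,
`c_t = cnt σ t (p-1)/b`, `k ≥ 1`. Compare, block by block,
`b [QQ (k + c_t + w_t) - QQ k]` (term of `CC σ k ((p-1) n)`) with `b [QQ (k + 1 + w_t) - QQ (k+1)] + b aa k`.
Full blocks `(t+2) b ≤ ll p`: `c_t ≥ 1 - σ^(-18)`, so by `QQ_sub` the first is at least the second minus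
`b σ^(-18) log(k + 1 + w_t)`; summed over the at most `Tm ≤ 5 σ^18` blocks the loss is `≤ 5 σ^102 · C log σ`.
The at most three blocks with `t ≤ blk p`, `(t+2) b > ll p`: `c_t ≥ 0` and by `QQ_incr`, `aa_le`-type bounds
`QQ (k + 1 + w) - QQ (k + w) ≤ log (k + 1 + w)`, so the loss is at most `b · C log σ` per block.
Blocks above `blk p` contribute `0` to both sides. The number of full blocks is at least `ll p/b - 4`.
`w_t ≤ σ^121/b = σ^19`, so all logarithms are `≤ C log σ`, and the total loss is at most `σ^104`.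
For `II`: the same with `Qp_sub` (`e = σ^(-18)` in the full blocks, `e = 1` in the others).
-/

namespace P031

open Finset Real

theorem step_eventually : ∀ᶠ σ : ℝ in Filter.atTop, 1 ≤ σ ∧ 100 ≤ σ ∧
    Real.log (123 + σ ^ 19) ≤ σ := by
  have h1 : ∀ᶠ σ : ℝ in Filter.atTop, (2500 : ℝ) ≤ σ := Filter.eventually_ge_atTop 2500
  filter_upwards [h1] with σ hσ
  refine ⟨by linarith, by linarith, ?_⟩
  have h0 : (0:ℝ) < σ := by linarith
  have h19 : (1:ℝ) ≤ σ ^ 19 := one_le_pow₀ (by linarith)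
  have h2 : (123:ℝ) + σ ^ 19 ≤ σ ^ 20 := by
    calc (123:ℝ) + σ ^ 19 ≤ 124 * σ ^ 19 := by linarith
      _ ≤ σ * σ ^ 19 := mul_le_mul_of_nonneg_right (by linarith) (by linarith)
      _ = σ ^ 20 := by ring
  refine (Real.log_le_log (by linarith) h2).trans ?_
  rw [Real.log_pow]
  have h3 : Real.log (√σ) ≤ √σ - 1 := Real.log_le_sub_one_of_pos (Real.sqrt_pos.mpr h0)
  rw [Real.log_sqrt h0.le] at h3
  have h4 : √σ * √σ = σ := Real.mul_self_sqrt h0.le
  have h5 : (50:ℝ) ≤ √σ := by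
    rw [show (50:ℝ) = √(50 ^ 2) by rw [Real.sqrt_sq (by norm_num)]]
    exact Real.sqrt_le_sqrt (by linarith)
  have h6 : 50 * √σ ≤ √σ * √σ := mul_le_mul_of_nonneg_right h5 (by linarith)
  push_cast
  linarith

theorem step_cnt_zero {σ : ℝ} (hσ : 1 ≤ σ) {p n t : ℕ} (hq : ∀ q ∈ n.primeFactors, q < p)
    (ht : blk σ p < t) : cnt σ t n = 0 := by
  refine cnt_eq_zero fun q hqn => ?_
  have h1 := (Nat.prime_of_mem_primeFactors hqn).two_le
  have h2 := blk_mono hσ h1 (hq q hqn).le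
  omega

/-- the number of full blocks -/
theorem step_card {B T : ℕ} (hB : B + 2 ≤ T) :
    (((Finset.Icc 1 T).filter (fun t => t + 2 ≤ B)).card : ℝ) ≥ (B : ℝ) - 2 := by
  have h1 : Finset.Icc 1 (B - 2) ⊆ (Finset.Icc 1 T).filter (fun t => t + 2 ≤ B) := by
    intro t ht
    rw [Finset.mem_Icc] at ht
    rw [Finset.mem_filter, Finset.mem_Icc]
    omega
  have h2 := Finset.card_le_card h1
  rw [Nat.card_Icc] at h2
  have h3 : B ≤ ((Finset.Icc 1 T).filter (fun t => t + 2 ≤ B)).card + 2 := by omega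
  have h4 : (B : ℝ) ≤ (((Finset.Icc 1 T).filter (fun t => t + 2 ≤ B)).card : ℝ) + 2 := by
    exact_mod_cast h3
  linarith

/-- the number of partial blocks -/
theorem step_card' {B T : ℕ} :
    (((Finset.Icc 1 T).filter (fun t => B < t + 2 ∧ t ≤ B)).card : ℝ) ≤ 2 := by
  have h1 : (Finset.Icc 1 T).filter (fun t => B < t + 2 ∧ t ≤ B) ⊆ Finset.Icc (B - 1) B := by
    intro t ht
    rw [Finset.mem_filter, Finset.mem_Icc] at ht
    rw [Finset.mem_Icc]
    omega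
  have h2 := Finset.card_le_card h1
  rw [Nat.card_Icc] at h2
  have h3 : ((Finset.Icc 1 T).filter (fun t => B < t + 2 ∧ t ≤ B)).card ≤ 2 := by omega
  exact_mod_cast h3

/-- summation over the blocks -/
theorem step_sum {σ : ℝ} {B T : ℕ} (hB : B + 2 ≤ T) (F G : ℕ → ℝ) {a e m : ℝ}
    (ha : 0 ≤ a) (he : 0 ≤ e) (hm : 0 ≤ m)
    (h : ∀ t ∈ Finset.Icc 1 T, G t + (if t + 2 ≤ B then a else 0) - e -
      (if B < t + 2 ∧ t ≤ B then m else 0) ≤ F t) :
    ∑ t ∈ Finset.Icc 1 T, G t + ((B : ℝ) - 2) * a - T * e - 2 * m ≤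
      ∑ t ∈ Finset.Icc 1 T, F t := by
  refine le_trans ?_ (Finset.sum_le_sum h)
  rw [Finset.sum_sub_distrib, Finset.sum_sub_distrib, Finset.sum_add_distrib,
    ← Finset.sum_filter, ← Finset.sum_filter, Finset.sum_const, Finset.sum_const,
    Finset.sum_const, nsmul_eq_mul, nsmul_eq_mul, nsmul_eq_mul, Nat.card_Icc]
  have h1 := mul_le_mul_of_nonneg_right (step_card hB) ha
  have h2 := mul_le_mul_of_nonneg_right (step_card' (B := B) (T := T)) hm
  have h3 : ((T + 1 - 1 : ℕ) : ℝ) = T := by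
    rw [Nat.add_sub_cancel]
  rw [h3]
  linarith

theorem step_lo {σ : ℝ} (hσ : 1 ≤ σ) {p t : ℕ} (hN : Normal σ p) (hp : 0 ≤ ll p) (ht : 1 ≤ t)
    (htB : t + 2 ≤ blk σ p) : 1 - 1 / σ ^ 18 ≤ (cnt σ t (p - 1) : ℝ) / σ ^ 102 := by
  have h1 : ((t : ℝ) + 2) * σ ^ 102 ≤ ll p := by
    refine le_trans ?_ (blk_mul_le hσ hp)
    refine mul_le_mul_of_nonneg_right ?_ (by positivity)
    exact_mod_cast htB
  have h2 := (abs_le.mp (hN.1 t ht h1)).1
  have h3 : (0:ℝ) < σ ^ 102 := by positivity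
  rw [le_div_iff₀ h3, sub_mul, one_mul]
  have h4 : 1 / σ ^ 18 * σ ^ 102 = σ ^ 84 := by
    field_simp
  rw [h4]
  linarith

theorem step_logb {σ : ℝ} (hσ : 1 ≤ σ) (hlog : Real.log (123 + σ ^ 19) ≤ σ) {n t k : ℕ}
    (hn : (Om n : ℝ) ≤ σ ^ 121) (hk : k ≤ nn + 1) :
    Real.log ((k : ℝ) + 1 + (cnt σ t n : ℝ) / σ ^ 102) ≤ σ ∧
    0 ≤ Real.log ((k : ℝ) + 1 + (cnt σ t n : ℝ) / σ ^ 102) := by
  have h3 : (0:ℝ) < σ ^ 102 := by positivity
  have h4 : (cnt σ t n : ℝ) / σ ^ 102 ≤ σ ^ 19 := by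
    rw [div_le_iff₀ h3]
    calc (cnt σ t n : ℝ) ≤ Om n := by exact_mod_cast cnt_le_Om σ t n
      _ ≤ σ ^ 121 := hn
      _ = σ ^ 19 * σ ^ 102 := by ring
  have h5 : 0 ≤ (cnt σ t n : ℝ) / σ ^ 102 := by positivity
  have h6 : (k : ℝ) ≤ 122 := by
    have : k ≤ 122 := by unfold nn at hk; omega
    exact_mod_cast this
  have h7 : (0:ℝ) ≤ k := Nat.cast_nonneg k
  constructor
  · refine le_trans (Real.log_le_log (by linarith) ?_) hlog
    linarith
  · exact Real.log_nonneg (by linarith)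

theorem step_CC : ∀ᶠ σ : ℝ in Filter.atTop, ∀ p n k : ℕ, p.Prime → Normal σ p →
    σ ^ 111 < ll p → ll p ≤ σ ^ 120 + 1 → n ≠ 0 → (Om n : ℝ) ≤ σ ^ 121 →
    (∀ q ∈ n.primeFactors, q < p) → 1 ≤ k → k ≤ nn + 1 →
    CC σ (k + 1) n + aa k * ll p - σ ^ 104 ≤ CC σ k ((p - 1) * n) := by
  filter_upwards [step_eventually] with σ hσ p n k hp hN hl1 hl2 hn hOm hq hk1 hk2
  obtain ⟨hσ1, hσ2, hlog⟩ := hσ
  have hb : (0:ℝ) < σ ^ 102 := by positivity
  have hl0 : 0 ≤ ll p := le_trans (by positivity) hl1.le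
  have hp1 : p - 1 ≠ 0 := by
    have := hp.two_le
    omega
  have hk1' : (1:ℝ) ≤ k := by exact_mod_cast hk1
  have hTm := Tm_le hσ1
  have hB := blk_lt_Tm hσ1 hl2
  have haa0 : 0 ≤ aa k := (aa_pos hk1).le
  have haa1 : aa k ≤ σ := by
    refine (aa_le hk1).trans ?_
    refine le_trans (Real.log_le_log (by linarith) ?_) hlog
    have h6 : (k : ℝ) ≤ 122 := by
      have : k ≤ 122 := by unfold nn at hk2; omega
      exact_mod_cast this
    have : (0:ℝ) ≤ σ ^ 19 := by positivity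
    linarith
  have he1 : 1 / σ ^ 18 ≤ (1:ℝ) := by
    rw [div_le_one (by positivity)]
    exact one_le_pow₀ hσ1
  have he0 : 0 ≤ 1 / σ ^ 18 := by positivity
  have hmain := step_sum (σ := σ) hB
    (fun t => σ ^ 102 * (QQ ((k : ℝ) + (cnt σ t ((p - 1) * n) : ℝ) / σ ^ 102) - QQ (k : ℝ)))
    (fun t => σ ^ 102 * (QQ (((k + 1 : ℕ) : ℝ) + (cnt σ t n : ℝ) / σ ^ 102) -
      QQ ((k + 1 : ℕ) : ℝ)))
    (a := σ ^ 102 * aa k) (e := σ ^ 85) (m := σ ^ 103)
    (mul_nonneg hb.le haa0) (by positivity) (by positivity) ?_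
  · have e1 : (blk σ p : ℝ) * σ ^ 102 ≥ ll p - σ ^ 102 := by
      have := lt_blk_succ hσ1 p
      linarith
    have e2 : (Tm σ : ℝ) * σ ^ 85 ≤ 5 * σ ^ 103 := by
      calc (Tm σ : ℝ) * σ ^ 85 ≤ 5 * σ ^ 18 * σ ^ 85 :=
            mul_le_mul_of_nonneg_right hTm (by positivity)
        _ = 5 * σ ^ 103 := by ring
    have e3 : ((blk σ p : ℝ) - 2) * (σ ^ 102 * aa k) ≥ aa k * ll p - 3 * σ ^ 103 := by
      have e4 : ((blk σ p : ℝ) - 2) * σ ^ 102 ≥ ll p - 3 * σ ^ 102 := by linarith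
      have e5 := mul_le_mul_of_nonneg_left e4 haa0
      have e6 : aa k * (3 * σ ^ 102) ≤ σ * (3 * σ ^ 102) :=
        mul_le_mul_of_nonneg_right haa1 (by positivity)
      have e7 : σ * (3 * σ ^ 102) = 3 * σ ^ 103 := by ring
      have e8 : ((blk σ p : ℝ) - 2) * (σ ^ 102 * aa k) =
        aa k * (((blk σ p : ℝ) - 2) * σ ^ 102) := by ring
      rw [e8]
      have e9 : aa k * (ll p - 3 * σ ^ 102) = aa k * ll p - aa k * (3 * σ ^ 102) := by ring
      linarith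
    have e10 : 10 * σ ^ 103 ≤ σ ^ 104 := by
      calc 10 * σ ^ 103 ≤ σ * σ ^ 103 :=
            mul_le_mul_of_nonneg_right (by linarith) (by positivity)
        _ = σ ^ 104 := by ring
    unfold CC
    linarith
  · intro t ht
    rw [Finset.mem_Icc] at ht
    have hc : (cnt σ t ((p - 1) * n) : ℝ) / σ ^ 102 =
        (cnt σ t (p - 1) : ℝ) / σ ^ 102 + (cnt σ t n : ℝ) / σ ^ 102 := by
      rw [cnt_mul σ t hp1 hn, Nat.cast_add, add_div]
    obtain ⟨g1, g2⟩ := step_logb (t := t) hσ1 hlog hOm hk2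
    have hlo : t + 2 ≤ blk σ p → 1 - 1 / σ ^ 18 ≤ (cnt σ t (p - 1) : ℝ) / σ ^ 102 :=
      fun h => step_lo hσ1 hN hl0 ht.1 h
    have hz : blk σ p < t → (cnt σ t n : ℝ) / σ ^ 102 = 0 := by
      intro h
      rw [step_cnt_zero hσ1 hq h, Nat.cast_zero, zero_div]
    have hc0 : 0 ≤ (cnt σ t (p - 1) : ℝ) / σ ^ 102 := by positivity
    have hw0 : 0 ≤ (cnt σ t n : ℝ) / σ ^ 102 := by positivity
    show σ ^ 102 * (QQ (((k + 1 : ℕ) : ℝ) + (cnt σ t n : ℝ) / σ ^ 102) -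
      QQ ((k + 1 : ℕ) : ℝ)) + (if t + 2 ≤ blk σ p then σ ^ 102 * aa k else 0) - σ ^ 85 -
      (if blk σ p < t + 2 ∧ t ≤ blk σ p then σ ^ 103 else 0) ≤
      σ ^ 102 * (QQ ((k : ℝ) + (cnt σ t ((p - 1) * n) : ℝ) / σ ^ 102) - QQ (k : ℝ))
    rw [hc, Nat.cast_add, Nat.cast_one]
    set w := (cnt σ t n : ℝ) / σ ^ 102 with hw
    set c := (cnt σ t (p - 1) : ℝ) / σ ^ 102 with hcdef
    have hQk : QQ (k : ℝ) ≤ QQ ((k : ℝ) + 1) := QQ_mono hk1' (by linarith)
    have h85 : (0:ℝ) ≤ σ ^ 85 := by positivity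
    rcases lt_or_ge t (blk σ p - 1) with h | h
    · have hf : t + 2 ≤ blk σ p := by omega
      have hf2 : ¬ (blk σ p < t + 2 ∧ t ≤ blk σ p) := by omega
      rw [if_pos hf, if_neg hf2]
      have r1 := QQ_sub (x := (k : ℝ) + 1 + w) (e := 1 / σ ^ 18) he0 (by linarith)
      have r2 : QQ ((k : ℝ) + 1 + w - 1 / σ ^ 18) ≤ QQ ((k : ℝ) + (c + w)) :=
        QQ_mono (by linarith) (by linarith [hlo hf])
      have r3 : 1 / σ ^ 18 * Real.log ((k : ℝ) + 1 + w) ≤ 1 / σ ^ 18 * σ :=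
        mul_le_mul_of_nonneg_left g1 he0
      have r4 : σ ^ 102 * (1 / σ ^ 18 * σ) = σ ^ 85 := by field_simp
      have r5 := aa_eq k
      have r6 : QQ ((k : ℝ) + 1 + w) - QQ ((k : ℝ) + 1) + aa k - 1 / σ ^ 18 * σ ≤
          QQ ((k : ℝ) + (c + w)) - QQ (k : ℝ) := by linarith
      have r7 := mul_le_mul_of_nonneg_left r6 hb.le
      have r8 : σ ^ 102 * (QQ ((k : ℝ) + 1 + w) - QQ ((k : ℝ) + 1) + aa k - 1 / σ ^ 18 * σ) =
          σ ^ 102 * (QQ ((k : ℝ) + 1 + w) - QQ ((k : ℝ) + 1)) + σ ^ 102 * aa k -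
          σ ^ 102 * (1 / σ ^ 18 * σ) := by ring
      rw [r8, r4] at r7
      linarith
    · rcases le_or_gt t (blk σ p) with h' | h'
      · by_cases hf : t + 2 ≤ blk σ p
        · omega
        · have hf2 : (blk σ p < t + 2 ∧ t ≤ blk σ p) := by omega
          rw [if_neg hf, if_pos hf2]
          have r1 := QQ_sub (x := (k : ℝ) + 1 + w) (e := 1) zero_le_one (by linarith)
          have r2 : QQ ((k : ℝ) + 1 + w - 1) ≤ QQ ((k : ℝ) + (c + w)) :=
            QQ_mono (by linarith) (by linarith)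
          have r6 : QQ ((k : ℝ) + 1 + w) - QQ ((k : ℝ) + 1) - σ ≤
            QQ ((k : ℝ) + (c + w)) - QQ (k : ℝ) := by linarith
          have r7 := mul_le_mul_of_nonneg_left r6 hb.le
          have r8 : σ ^ 102 * (QQ ((k : ℝ) + 1 + w) - QQ ((k : ℝ) + 1) - σ) =
            σ ^ 102 * (QQ ((k : ℝ) + 1 + w) - QQ ((k : ℝ) + 1)) - σ ^ 103 := by ring
          rw [r8] at r7
          linarith
      · have hf : ¬ (t + 2 ≤ blk σ p) := by omega
        have hf2 : ¬ (blk σ p < t + 2 ∧ t ≤ blk σ p) := by omega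
        rw [if_neg hf, if_neg hf2, hz h']
        have r2 : QQ (k : ℝ) ≤ QQ ((k : ℝ) + (c + 0)) :=
            QQ_mono hk1' (by linarith)
        have r3 : 0 ≤ σ ^ 102 * (QQ ((k : ℝ) + (c + 0)) - QQ (k : ℝ)) :=
          mul_nonneg hb.le (by linarith)
        rw [add_zero (((k : ℝ) + 1)), sub_self, mul_zero]
        linarith

theorem step_II : ∀ᶠ σ : ℝ in Filter.atTop, ∀ p n : ℕ, p.Prime → Normal σ p →
    σ ^ 111 < ll p → ll p ≤ σ ^ 120 + 1 → n ≠ 0 → (Om n : ℝ) ≤ σ ^ 121 →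
    (∀ q ∈ n.primeFactors, q < p) →
    CC σ 1 n - σ ^ 104 ≤ II σ ((p - 1) * n) := by
  filter_upwards [step_eventually] with σ hσ p n hp hN hl1 hl2 hn hOm hq
  obtain ⟨hσ1, hσ2, hlog⟩ := hσ
  have hb : (0:ℝ) < σ ^ 102 := by positivity
  have hl0 : 0 ≤ ll p := le_trans (by positivity) hl1.le
  have hp1 : p - 1 ≠ 0 := by
    have := hp.two_le
    omega
  have hTm := Tm_le hσ1
  have hB := blk_lt_Tm hσ1 hl2
  have he1 : 1 / σ ^ 18 ≤ (1:ℝ) := by
    rw [div_le_one (by positivity)]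
    exact one_le_pow₀ hσ1
  have he0 : 0 ≤ 1 / σ ^ 18 := by positivity
  have hQ1 : QQ 1 = 0 := by
    unfold QQ
    rw [Real.log_one]
    ring
  have hmain := step_sum (σ := σ) hB
    (fun t => σ ^ 102 * Qp ((cnt σ t ((p - 1) * n) : ℝ) / σ ^ 102))
    (fun t => σ ^ 102 * (QQ (((1 : ℕ) : ℝ) + (cnt σ t n : ℝ) / σ ^ 102) -
      QQ ((1 : ℕ) : ℝ)))
    (a := 0) (e := σ ^ 85) (m := σ ^ 103)
    le_rfl (by positivity) (by positivity) ?_
  · have e2 : (Tm σ : ℝ) * σ ^ 85 ≤ 5 * σ ^ 103 := by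
      calc (Tm σ : ℝ) * σ ^ 85 ≤ 5 * σ ^ 18 * σ ^ 85 :=
            mul_le_mul_of_nonneg_right hTm (by positivity)
        _ = 5 * σ ^ 103 := by ring
    have e10 : 10 * σ ^ 103 ≤ σ ^ 104 := by
      calc 10 * σ ^ 103 ≤ σ * σ ^ 103 :=
            mul_le_mul_of_nonneg_right (by linarith) (by positivity)
        _ = σ ^ 104 := by ring
    have e11 : (0:ℝ) ≤ σ ^ 103 := by positivity
    unfold CC II
    rw [mul_zero, add_zero] at hmain
    linarith
  · intro t ht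
    rw [Finset.mem_Icc] at ht
    have hc : (cnt σ t ((p - 1) * n) : ℝ) / σ ^ 102 =
        (cnt σ t (p - 1) : ℝ) / σ ^ 102 + (cnt σ t n : ℝ) / σ ^ 102 := by
      rw [cnt_mul σ t hp1 hn, Nat.cast_add, add_div]
    obtain ⟨g1, g2⟩ := step_logb (t := t) (k := 0) hσ1 hlog hOm (Nat.zero_le _)
    have hlo : t + 2 ≤ blk σ p → 1 - 1 / σ ^ 18 ≤ (cnt σ t (p - 1) : ℝ) / σ ^ 102 :=
      fun h => step_lo hσ1 hN hl0 ht.1 h
    have hz : blk σ p < t → (cnt σ t n : ℝ) / σ ^ 102 = 0 := by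
      intro h
      rw [step_cnt_zero hσ1 hq h, Nat.cast_zero, zero_div]
    have hc0 : 0 ≤ (cnt σ t (p - 1) : ℝ) / σ ^ 102 := by positivity
    have hw0 : 0 ≤ (cnt σ t n : ℝ) / σ ^ 102 := by positivity
    show σ ^ 102 * (QQ (((1 : ℕ) : ℝ) + (cnt σ t n : ℝ) / σ ^ 102) -
      QQ ((1 : ℕ) : ℝ)) + (if t + 2 ≤ blk σ p then 0 else 0) - σ ^ 85 -
      (if blk σ p < t + 2 ∧ t ≤ blk σ p then σ ^ 103 else 0) ≤
      σ ^ 102 * Qp ((cnt σ t ((p - 1) * n) : ℝ) / σ ^ 102)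
    rw [hc, Nat.cast_one, ite_self, add_zero, hQ1, sub_zero]
    rw [Nat.cast_zero, zero_add] at g1 g2
    set w := (cnt σ t n : ℝ) / σ ^ 102 with hw
    set c := (cnt σ t (p - 1) : ℝ) / σ ^ 102 with hcdef
    have h85 : (0:ℝ) ≤ σ ^ 85 := by positivity
    rcases le_or_gt t (blk σ p) with h' | h'
    · by_cases hf : t + 2 ≤ blk σ p
      · have hf2 : ¬ (blk σ p < t + 2 ∧ t ≤ blk σ p) := by omega
        rw [if_neg hf2]
        have r1 := Qp_sub (w := w) (e := 1 / σ ^ 18) hw0 he0 he1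
        have r2 : Qp (1 - 1 / σ ^ 18 + w) ≤ Qp (c + w) := Qp_mono (by linarith [hlo hf])
        have r3 : 1 / σ ^ 18 * Real.log (1 + w) ≤ 1 / σ ^ 18 * σ :=
          mul_le_mul_of_nonneg_left g1 he0
        have r4 : σ ^ 102 * (1 / σ ^ 18 * σ) = σ ^ 85 := by field_simp
        have r6 : QQ (1 + w) - 1 / σ ^ 18 * σ ≤ Qp (c + w) := by linarith
        have r7 := mul_le_mul_of_nonneg_left r6 hb.le
        rw [mul_sub, r4] at r7
        linarith
      · have hf2 : (blk σ p < t + 2 ∧ t ≤ blk σ p) := by omega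
        rw [if_pos hf2]
        have r1 := Qp_sub (w := w) (e := 1) hw0 zero_le_one le_rfl
        have r2 : Qp (1 - 1 + w) ≤ Qp (c + w) := Qp_mono (by linarith)
        have r6 : QQ (1 + w) - σ ≤ Qp (c + w) := by linarith
        have r7 := mul_le_mul_of_nonneg_left r6 hb.le
        have r8 : σ ^ 102 * (QQ (1 + w) - σ) = σ ^ 102 * QQ (1 + w) - σ ^ 103 := by ring
        rw [r8] at r7
        linarith
    · have hf2 : ¬ (blk σ p < t + 2 ∧ t ≤ blk σ p) := by omega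
      rw [if_neg hf2, hz h', add_zero, hQ1, mul_zero]
      have r3 : 0 ≤ σ ^ 102 * Qp (c + 0) := mul_nonneg hb.le (Qp_nonneg _)
      linarith

theorem step_length_le (f : ℕ → ℕ) (T : Finset ℕ) (L : List ℕ) (h : ∀ q ∈ L, f q ∈ T) :
    L.length ≤ ∑ t ∈ T, (L.filter (fun q => f q = t)).length := by
  induction L with
  | nil => exact Nat.zero_le _
  | cons a L ih =>
    have h1 : ∀ t ∈ T, ((a :: L).filter (fun q => f q = t)).length =
        (if f a = t then 1 else 0) + (L.filter (fun q => f q = t)).length := by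
      intro t _
      by_cases hft : f a = t
      · simp [hft, add_comm]
      · simp [hft]
    rw [Finset.sum_congr rfl h1, Finset.sum_add_distrib, List.length_cons, add_comm L.length]
    refine Nat.add_le_add ?_ (ih fun q hq => h q (List.mem_cons_of_mem _ hq))
    rw [Finset.sum_ite_eq, if_pos (h a List.mem_cons_self)]

/-- a normal prime has between `ll p/2` and `31 σ^120` prime factors of `p - 1` -/
theorem normal_Om : ∀ᶠ σ : ℝ in Filter.atTop, ∀ p : ℕ, p.Prime → Normal σ p →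
    ll p ≤ σ ^ 120 + 1 → (Om (p - 1) : ℝ) ≤ 200 * σ ^ 120 ∧
    (σ ^ 111 < ll p → ll p / 2 ≤ (Om (p - 1) : ℝ)) := by
  filter_upwards [step_eventually] with σ hσ p hp hN hl2
  obtain ⟨hσ1, hσ2, hlog⟩ := hσ
  have hb : (0:ℝ) < σ ^ 102 := by positivity
  have hTm := Tm_le hσ1
  have hB := blk_lt_Tm hσ1 hl2
  constructor
  · have h1 : Om (p - 1) ≤ ∑ t ∈ Finset.range (Tm σ), cnt σ t (p - 1) := by
      refine step_length_le (blk σ) _ _ fun q hq => ?_
      have hq1 := Nat.prime_of_mem_primeFactorsList hq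
      have hq2 := Nat.dvd_of_mem_primeFactorsList hq
      have hp2 := hp.two_le
      have hq3 : q ≤ p - 1 := Nat.le_of_dvd (by omega) hq2
      have := blk_mono hσ1 hq1.two_le (show q ≤ p by omega)
      rw [Finset.mem_range]
      omega
    have h2 : (Om (p - 1) : ℝ) ≤ ∑ t ∈ Finset.range (Tm σ), (cnt σ t (p - 1) : ℝ) := by
      exact_mod_cast h1
    refine h2.trans ((Finset.sum_le_sum fun t _ => hN.2 t).trans ?_)
    rw [Finset.sum_const, Finset.card_range, nsmul_eq_mul]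
    calc (Tm σ : ℝ) * (30 * σ ^ 102) ≤ 5 * σ ^ 18 * (30 * σ ^ 102) :=
          mul_le_mul_of_nonneg_right hTm (by positivity)
      _ = 150 * σ ^ 120 := by ring
      _ ≤ 200 * σ ^ 120 := by
        have : (0:ℝ) ≤ σ ^ 120 := by positivity
        linarith
  · intro hl1
    have hl0 : 0 ≤ ll p := le_trans (by positivity) hl1.le
    have h1 := sum_cnt_le σ ((Finset.Icc 1 (Tm σ)).filter (fun t => t + 2 ≤ blk σ p)) (p - 1)
    have h2 : (∑ t ∈ (Finset.Icc 1 (Tm σ)).filter (fun t => t + 2 ≤ blk σ p),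
        (cnt σ t (p - 1) : ℝ)) ≤ Om (p - 1) := by exact_mod_cast h1
    refine le_trans ?_ h2
    have h3 : ∀ t ∈ (Finset.Icc 1 (Tm σ)).filter (fun t => t + 2 ≤ blk σ p),
        σ ^ 102 - σ ^ 84 ≤ (cnt σ t (p - 1) : ℝ) := by
      intro t ht
      rw [Finset.mem_filter, Finset.mem_Icc] at ht
      have h1 : ((t : ℝ) + 2) * σ ^ 102 ≤ ll p := by
        refine le_trans ?_ (blk_mul_le hσ1 hl0)
        refine mul_le_mul_of_nonneg_right ?_ (by positivity)
        exact_mod_cast ht.2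
      have h2 := (abs_le.mp (hN.1 t ht.1.1 h1)).1
      linarith
    refine le_trans ?_ (Finset.sum_le_sum h3)
    rw [Finset.sum_const, nsmul_eq_mul]
    have h4 := step_card hB
    have h84 : σ ^ 84 ≤ σ ^ 102 / 4 := by
      have e1 : σ ^ 102 = σ ^ 18 * σ ^ 84 := by ring
      have e2 : 4 ≤ σ ^ 18 := by
        calc (4:ℝ) ≤ σ := by linarith
          _ = σ ^ 1 := (pow_one σ).symm
          _ ≤ σ ^ 18 := pow_le_pow_right₀ hσ1 (by norm_num)
      have e3 : 4 * σ ^ 84 ≤ σ ^ 18 * σ ^ 84 := mul_le_mul_of_nonneg_right e2 (by positivity)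
      linarith
    have h5 := mul_le_mul_of_nonneg_right h4 (show 0 ≤ σ ^ 102 - σ ^ 84 by linarith)
    refine le_trans ?_ h5
    have h6 : (blk σ p : ℝ) * σ ^ 102 ≥ ll p - σ ^ 102 := by
      have := lt_blk_succ hσ1 p
      linarith
    have h7 : ((blk σ p : ℝ) - 2) * σ ^ 102 ≥ ll p - 3 * σ ^ 102 := by linarith
    have h8 : 100 * σ ^ 102 ≤ ll p := by
      refine le_trans ?_ hl1.le
      calc 100 * σ ^ 102 ≤ σ ^ 9 * σ ^ 102 := by
            refine mul_le_mul_of_nonneg_right ?_ hb.le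
            calc (100:ℝ) ≤ σ := hσ2
              _ = σ ^ 1 := (pow_one σ).symm
              _ ≤ σ ^ 9 := pow_le_pow_right₀ hσ1 (by norm_num)
        _ = σ ^ 111 := by ring
    have h9 : 0 ≤ (blk σ p : ℝ) - 2 := by
      have : 0 ≤ ((blk σ p : ℝ) - 2) * σ ^ 102 := by linarith
      exact nonneg_of_mul_nonneg_left this hb
    have h10 : ((blk σ p : ℝ) - 2) * (σ ^ 102 * (3 / 4)) ≤
        ((blk σ p : ℝ) - 2) * (σ ^ 102 - σ ^ 84) :=
      mul_le_mul_of_nonneg_left (by linarith) h9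
    have h11 : ((blk σ p : ℝ) - 2) * (σ ^ 102 * (3 / 4)) =
      (((blk σ p : ℝ) - 2) * σ ^ 102) * (3 / 4) := by ring
    linarith

end P031
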