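import Vale.Agent.Lib.P031.BasicC

/-!
# P031 Tot: elementary facts on `maxp`, `Om` and Euler's function.
`φ(m) = ∏ p^(k-1) (p-1)`.
-/

namespace P031

open Finset

theorem tot_maxp_mem {m : ℕ} (hm : 1 < m) : maxp m ∈ m.primeFactors := by
  have hne : m.primeFactors.Nonempty := Nat.nonempty_primeFactors.2 hm
  obtain ⟨i, hi, h⟩ := Finset.exists_mem_eq_sup m.primeFactors hne id
  unfold maxp
  rw [h]
  exact hi

theorem maxp_prime {m : ℕ} (hm : 1 < m) : (maxp m).Prime :=
  Nat.prime_of_mem_primeFactors (tot_maxp_mem hm)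

theorem maxp_dvd {m : ℕ} (hm : 1 < m) : maxp m ∣ m :=
  Nat.dvd_of_mem_primeFactors (tot_maxp_mem hm)

theorem le_maxp {m q : ℕ} (hq : q ∈ m.primeFactors) : q ≤ maxp m :=
  Finset.le_sup (f := id) hq

theorem maxp_le_of_dvd {m n : ℕ} (h : m ∣ n) (hn : n ≠ 0) : maxp m ≤ maxp n :=
  Finset.sup_mono (Nat.primeFactors_mono h hn)

theorem tot_mul_prime {p m : ℕ} (hp : p.Prime) (hpm : ¬ p ∣ m) :
    Nat.totient (p * m) = (p - 1) * Nat.totient m :=
  Nat.totient_mul_of_prime_of_not_dvd hp hpm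

/-- a prime factor of `φ(m)` divides `p - 1` for a prime `p ∣ m`, or its square divides `m` -/
theorem prime_dvd_tot {m q : ℕ} (hm : m ≠ 0) (hq : q.Prime) (h : q ∣ Nat.totient m) :
    (∃ p ∈ m.primeFactors, q ∣ p - 1) ∨ q ^ 2 ∣ m := by
  rw [Nat.totient_eq_prod_factorization hm, Finsupp.prod,
    Prime.dvd_finsetProd_iff hq.prime] at h
  obtain ⟨p, hp, h⟩ := h
  rw [Nat.support_factorization] at hp
  rcases (Nat.Prime.dvd_mul hq).1 h with h | h
  · right
    have hpp := Nat.prime_of_mem_primeFactors hp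
    have h1 : q = p := (Nat.prime_dvd_prime_iff_eq hq hpp).1 (hq.dvd_of_dvd_pow h)
    subst h1
    have h2 : m.factorization q - 1 ≠ 0 := by
      intro h0
      rw [h0, pow_zero] at h
      exact hq.one_lt.ne' (Nat.dvd_one.1 h)
    exact (pow_dvd_pow q (by omega)).trans (Nat.ordProj_dvd m q)
  · exact Or.inl ⟨p, hp, h⟩

theorem prime_dvd_tot_le {m q : ℕ} (hm : m ≠ 0) (hq : q.Prime) (h : q ∣ Nat.totient m) :
    q ≤ maxp m := by
  rcases prime_dvd_tot hm hq h with ⟨p, hp, hqp⟩ | h2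
  · have hpp := Nat.prime_of_mem_primeFactors hp
    have h1 := Nat.le_of_dvd (Nat.sub_pos_of_lt hpp.one_lt) hqp
    have h3 := le_maxp hp
    omega
  · exact le_maxp (Nat.mem_primeFactors.2 ⟨hq, (dvd_pow_self q two_ne_zero).trans h2, hm⟩)

theorem prime_dvd_tot_lt {m q : ℕ} (hm : m ≠ 0) (hq : q.Prime) (h : q ∣ Nat.totient m)
    (h2 : ¬ (maxp m) ^ 2 ∣ m) : q < maxp m := by
  rcases prime_dvd_tot hm hq h with ⟨p, hp, hqp⟩ | h3
  · have hpp := Nat.prime_of_mem_primeFactors hp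
    have h1 := Nat.le_of_dvd (Nat.sub_pos_of_lt hpp.one_lt) hqp
    have h3 := le_maxp hp
    have h4 := hpp.one_lt
    omega
  · refine lt_of_le_of_ne (prime_dvd_tot_le hm hq h) ?_
    rintro rfl
    exact h2 h3

theorem tot_Om_prime {p : ℕ} (hp : p.Prime) : Om p = 1 := by
  unfold Om
  rw [Nat.primeFactorsList_prime hp]
  rfl

theorem tot_Om_one : Om 1 = 0 := by simp [Om]

theorem tot_Om_pos {k : ℕ} (hk : 2 ≤ k) : 1 ≤ Om k := by
  have h1 : k.minFac ∣ k := Nat.minFac_dvd k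
  have h2 := Om_dvd h1 (by omega)
  rwa [tot_Om_prime (Nat.minFac_prime (by omega))] at h2

theorem tot_Om_aux (m : ℕ) (hm : m ≠ 0) :
    Om m ≤ Om (Nat.totient m) + (if 2 ∣ m then 1 else 0) := by
  induction m using induction_on_primes with
  | zero => exact absurd rfl hm
  | one => simp [tot_Om_one]
  | prime_mul p a hp ih =>
    have ha : a ≠ 0 := right_ne_zero_of_mul hm
    have ih := ih ha
    have hta : Nat.totient a ≠ 0 := (Nat.totient_pos.2 (Nat.pos_of_ne_zero ha)).ne'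
    rw [Om_mul hp.ne_zero ha, tot_Om_prime hp]
    by_cases hpa : p ∣ a
    · rw [Nat.totient_mul_of_prime_of_dvd hp hpa, Om_mul hp.ne_zero hta, tot_Om_prime hp]
      have h1 : (if 2 ∣ a then 1 else 0) ≤ (if 2 ∣ p * a then 1 else 0) := by
        by_cases h2 : 2 ∣ a
        · rw [if_pos h2, if_pos (h2.mul_left p)]
        · rw [if_neg h2]
          exact Nat.zero_le _
      omega
    · rw [Nat.totient_mul_of_prime_of_not_dvd hp hpa]
      rcases hp.eq_two_or_odd with h2 | h2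
      · subst h2
        rw [if_neg hpa] at ih
        rw [if_pos (Dvd.intro a rfl)]
        simp only [Nat.add_one_sub_one, one_mul]
        omega
      · have h3 : 2 ≤ p - 1 := by
          have := hp.two_le
          omega
        rw [Om_mul (by omega) hta]
        have h4 := tot_Om_pos h3
        have h1 : (if 2 ∣ a then 1 else 0) ≤ (if 2 ∣ p * a then 1 else 0) := by
          by_cases h2 : 2 ∣ a
          · rw [if_pos h2, if_pos (h2.mul_left p)]
          · rw [if_neg h2]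
            exact Nat.zero_le _
        omega

/-- `Om m ≤ Om (φ m) + 1`: for odd `p`, `Om (φ(p^k)) ≥ k`, and `Om (φ(2^k)) = k - 1`. -/
theorem Om_le_tot {m : ℕ} (hm : m ≠ 0) : Om m ≤ Om (Nat.totient m) + 1 := by
  refine (tot_Om_aux m hm).trans ?_
  split_ifs <;> omega

theorem le_maxp_pow {m : ℕ} (hm : m ≠ 0) : m ≤ (maxp m) ^ (Om m) := by
  conv_lhs => rw [← Nat.prod_primeFactorsList hm]
  unfold Om
  refine List.prod_le_pow_card _ _ fun x hx => ?_
  exact le_maxp (List.mem_toFinset.2 hx)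

/-- `2 ^ Om n ≤ n` -/
theorem two_pow_Om_le {n : ℕ} (hn : n ≠ 0) : 2 ^ (Om n) ≤ n := by
  conv_rhs => rw [← Nat.prod_primeFactorsList hn]
  unfold Om
  refine List.pow_card_le_prod _ _ fun x hx => ?_
  exact (Nat.prime_of_mem_primeFactorsList hx).two_le

/-- the product of `p - 1` over the prime factors divides `φ(m)` -/
theorem prod_sub_one_dvd_tot {m : ℕ} (hm : m ≠ 0) (P : Finset ℕ) (hP : P ⊆ m.primeFactors) :
    (∏ p ∈ P, (p - 1)) ∣ Nat.totient m := by
  rw [Nat.totient_eq_prod_factorization hm, Finsupp.prod, Nat.support_factorization]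
  exact (Finset.prod_dvd_prod_of_subset P m.primeFactors (fun p => p - 1) hP).trans
    (Finset.prod_dvd_prod_of_dvd _ _ fun p _ => Dvd.intro_left _ rfl)

/-- choose a preimage with the least `maxp` -/
theorem mW_spec {w : ℕ} (h : ∃ m : ℕ, Nat.totient m = w) :
    Nat.totient (mW w) = w ∧ maxp (mW w) = PW w := by
  have h1 : ∃ m : ℕ, Nat.totient m = w ∧ maxp m = PW w := by
    obtain ⟨m, hm⟩ := h
    exact Nat.sInf_mem (s := {k | ∃ m : ℕ, Nat.totient m = w ∧ maxp m = k}) ⟨maxp m, m, hm, rfl⟩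
  unfold mW
  rw [dif_pos h1]
  exact h1.choose_spec

theorem PW_le {w m : ℕ} (h : Nat.totient m = w) : PW w ≤ maxp m :=
  Nat.sInf_le ⟨m, h, rfl⟩

end P031
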