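import Vale.Agent.Lib.P031.LL
import Vale.Agent.Lib.P031.Tot
import Vale.Agent.Lib.P031.BasicC

/-!
# P031 WFacts: properties of `lowp`, `GoodPre`, `WW`; heredity.
-/

namespace P031

open Finset Real

theorem lowp_dvd (t : ℝ) {m : ℕ} (hm : m ≠ 0) : lowp t m ∣ m := by
  unfold lowp
  conv_rhs => rw [← Nat.prod_factorization_pow_eq_self hm]
  exact Finset.prod_dvd_prod_of_subset _ _ _ (Finset.filter_subset _ _)

theorem lowp_ne_zero (t : ℝ) (m : ℕ) : lowp t m ≠ 0 := by
  unfold lowp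
  rw [Finset.prod_ne_zero_iff]
  intro p hp
  have hp' := Nat.prime_of_mem_primeFactors (Finset.mem_of_mem_filter p hp)
  exact pow_ne_zero _ hp'.ne_zero

theorem lowp_primeFactors (t : ℝ) {m : ℕ} (hm : m ≠ 0) :
    ∀ q, q ∈ (lowp t m).primeFactors ↔ (q ∈ m.primeFactors ∧ ll q ≤ t) := by
  intro q
  constructor
  · intro h
    have hq := Nat.prime_of_mem_primeFactors h
    have hd := Nat.dvd_of_mem_primeFactors h
    unfold lowp at hd
    obtain ⟨p, hp, hqp⟩ := (hq.prime.dvd_finsetProd_iff _).mp hd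
    have hp1 := Finset.mem_filter.mp hp
    have hpp := Nat.prime_of_mem_primeFactors hp1.1
    have hqp' : q ∣ p := hq.dvd_of_dvd_pow hqp
    have heq : q = p := (Nat.prime_dvd_prime_iff_eq hq hpp).mp hqp'
    rw [heq]
    exact hp1
  · rintro ⟨h1, h2⟩
    have hq := Nat.prime_of_mem_primeFactors h1
    refine Nat.mem_primeFactors.mpr ⟨hq, ?_, lowp_ne_zero t m⟩
    unfold lowp
    refine dvd_trans ?_ (Finset.dvd_prod_of_mem (fun p => p ^ m.factorization p)
      (Finset.mem_filter.mpr ⟨h1, h2⟩))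
    refine dvd_pow_self q ?_
    have := hq.factorization_pos_of_dvd hm (Nat.dvd_of_mem_primeFactors h1)
    omega

theorem lowp_eq_self {t : ℝ} {m : ℕ} (hm : m ≠ 0) (h : ∀ q ∈ m.primeFactors, ll q ≤ t) :
    lowp t m = m := by
  unfold lowp
  rw [Finset.filter_true_of_mem h]
  exact Nat.prod_factorization_pow_eq_self hm

private theorem wfacts_pf {m p : ℕ} (hp : p.Prime) (hm : m ≠ 0) :
    (p * m).primeFactors = insert p m.primeFactors := by
  rw [Nat.primeFactors_mul hp.ne_zero hm, hp.primeFactors]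
  rfl

private theorem wfacts_fac {m p q : ℕ} (hp : p.Prime) (hm : m ≠ 0) (hpm : ¬ p ∣ m)
    (hq : q ∈ m.primeFactors) : (p * m).factorization q = m.factorization q := by
  rw [Nat.factorization_mul hp.ne_zero hm]
  have hne : q ≠ p := by
    rintro rfl
    exact hpm (Nat.dvd_of_mem_primeFactors hq)
  simp [hp.factorization, hne.symm]

theorem lowp_mul_prime_of_le {t : ℝ} {m p : ℕ} (hp : p.Prime) (hpm : ¬ p ∣ m) (hm : m ≠ 0)
    (h : ll p ≤ t) : lowp t (p * m) = p * lowp t m := by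
  unfold lowp
  rw [wfacts_pf hp hm, Finset.filter_insert, if_pos h, Finset.prod_insert]
  · have h1 : (p * m).factorization p = 1 := by
      rw [Nat.factorization_mul hp.ne_zero hm]
      simp [hp.factorization, Nat.factorization_eq_zero_of_not_dvd hpm]
    rw [h1, pow_one]
    congr 1
    refine Finset.prod_congr rfl fun q hq => ?_
    rw [wfacts_fac hp hm hpm (Finset.mem_of_mem_filter q hq)]
  · intro hmem
    exact hpm (Nat.dvd_of_mem_primeFactors (Finset.mem_of_mem_filter p hmem))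

theorem lowp_mul_prime_of_lt {t : ℝ} {m p : ℕ} (hp : p.Prime) (hpm : ¬ p ∣ m) (hm : m ≠ 0)
    (h : t < ll p) : lowp t (p * m) = lowp t m := by
  unfold lowp
  rw [wfacts_pf hp hm, Finset.filter_insert, if_neg (not_le.mpr h)]
  refine Finset.prod_congr rfl fun q hq => ?_
  rw [wfacts_fac hp hm hpm (Finset.mem_of_mem_filter q hq)]

/-- a normal prime above `y1` has a prime factor of `p - 1` in block `1` -/
theorem normal_factor : ∀ᶠ σ : ℝ in Filter.atTop, ∀ p : ℕ, Normal σ p → σ ^ 111 < ll p →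
    ∃ q : ℕ, q.Prime ∧ q ∣ p - 1 ∧ blk σ q = 1 := by
  filter_upwards [Filter.eventually_ge_atTop (2 : ℝ)] with σ hσ p hN hl
  have h0 : (0 : ℝ) < σ := by linarith
  have h1 : (1 : ℝ) ≤ σ := by linarith
  have hp84 : (0 : ℝ) < σ ^ 84 := by positivity
  have hp102 : (0 : ℝ) < σ ^ 102 := by positivity
  have hlt : σ ^ 84 < σ ^ 102 := pow_lt_pow_right₀ (by linarith) (by norm_num)
  have h3 : ((1 : ℕ) + 2 : ℝ) * σ ^ 102 ≤ ll p := by
    refine le_trans ?_ hl.le
    have h9 : σ ^ 111 = σ ^ 9 * σ ^ 102 := by ring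
    have h4 : (4 : ℝ) ≤ σ ^ 9 := by
      calc (4 : ℝ) ≤ 2 ^ 9 := by norm_num
        _ ≤ σ ^ 9 := pow_le_pow_left₀ (by norm_num) hσ 9
    rw [h9]
    refine mul_le_mul_of_nonneg_right ?_ hp102.le
    push_cast
    linarith
  have hc := hN.1 1 le_rfl h3
  have hc1 := (abs_le.mp hc).1
  have hpos : (0 : ℝ) < cnt σ 1 (p - 1) := by linarith
  exact exists_of_cnt_pos (by exact_mod_cast hpos)

theorem GoodPre_of_mul {σ : ℝ} (hσ : 1 ≤ σ) {p m : ℕ} (hp : p.Prime) (hpm : ¬ p ∣ m) (hm : m ≠ 0)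
    (h : GoodPre σ (p * m)) (hl : σ ^ 111 < ll p) : GoodPre σ m := by
  obtain ⟨h1, h2, h3⟩ := h
  refine ⟨fun q hq hlq => h1 q ?_ hlq, ?_, fun t ht => ?_⟩
  · rw [wfacts_pf hp hm]
    exact Finset.mem_insert_of_mem hq
  · rwa [lowp_mul_prime_of_lt hp hpm hm hl] at h2
  · refine le_trans (II_dvd hσ ?_ ?_) (h3 t ht)
    · refine Nat.totient_dvd_of_dvd ?_
      rcases le_or_gt (ll p) t with h | h
      · rw [lowp_mul_prime_of_le hp hpm hm h]
        exact Dvd.intro_left p rfl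
      · rw [lowp_mul_prime_of_lt hp hpm hm h]
    · exact (Nat.totient_pos.mpr (Nat.pos_of_ne_zero (lowp_ne_zero _ _))).ne'

theorem Rg_of_dvd {σ : ℝ} {u v : ℕ} (h : Rg σ v) (huv : u ∣ v) : Rg σ u := by
  obtain ⟨h1, h2, h3, h4⟩ := h
  refine ⟨Nat.pos_of_dvd_of_pos huv h1, ?_, ?_, ?_⟩
  · refine le_trans ?_ h2
    exact_mod_cast Om_dvd huv h1.ne'
  · intro q hq hb hd
    exact h3 q hq hb (hd.trans huv)
  · intro p hp hl hd
    exact h4 p hp hl (hd.trans huv)

/-- `p ^ 2 ∣ N` would give `p (p-1) ∣ φ(N)` -/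
theorem not_sq_of_Rg {σ : ℝ} {N p : ℕ} (h : Rg σ (Nat.totient N)) (hp : p.Prime)
    (hl : σ ^ 111 < ll p) : ¬ p ^ 2 ∣ N := by
  intro hd
  refine h.2.2.2 p hp hl ?_
  have h1 := Nat.totient_dvd_of_dvd hd
  rw [Nat.totient_prime_pow hp (by norm_num)] at h1
  simpa using h1

/-- Heredity. Every preimage `μ` of `φ m` is prime to `p` (else `(p-1)^2 ∣ (p-1) φ(m)`, contradicting `Sq`
by `normal_factor`), so `p μ` is a preimage of `(p-1) φ(m)`, hence good, and `μ` is good by `GoodPre_of_mul`. -/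
theorem WW_hered : ∀ᶠ σ : ℝ in Filter.atTop, ∀ p m : ℕ, p.Prime → σ ^ 111 < ll p → ¬ p ∣ m →
    WW σ ((p - 1) * Nat.totient m) → WW σ (Nat.totient m) := by
  filter_upwards [normal_factor, Filter.eventually_ge_atTop (1 : ℝ)] with σ hnf hσ p m hp hl hpm hW
  obtain ⟨hR, -, hG⟩ := hW
  have hm : m ≠ 0 := by
    rintro rfl
    exact hpm (dvd_zero p)
  refine ⟨Rg_of_dvd hR (Dvd.intro_left _ rfl), ⟨m, rfl⟩, fun μ hμ => ?_⟩
  have hμ0 : μ ≠ 0 := by
    rintro rfl
    rw [Nat.totient_zero] at hμ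
    exact (Nat.totient_pos.mpr (Nat.pos_of_ne_zero hm)).ne hμ
  have hgm : GoodPre σ (p * m) := hG _ (tot_mul_prime hp hpm)
  have hNp : Normal σ p := hgm.1 p
    (Nat.mem_primeFactors.mpr ⟨hp, Dvd.intro m rfl, mul_ne_zero hp.ne_zero hm⟩) hl
  have hpμ : ¬ p ∣ μ := by
    intro hd
    obtain ⟨q, hq, hqd, hqb⟩ := hnf p hNp hl
    have h1 : (p - 1) ∣ Nat.totient m := by
      rw [← hμ, ← Nat.totient_prime hp]
      exact Nat.totient_dvd_of_dvd hd
    refine hR.2.2.1 q hq hqb.ge ?_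
    rw [pow_two]
    exact mul_dvd_mul hqd (hqd.trans h1)
  have hgμ : GoodPre σ (p * μ) := hG _ (by rw [tot_mul_prime hp hpμ, hμ])
  exact GoodPre_of_mul hσ hp hpμ hμ0 hgμ hl

/-- the top prime of a preimage of `w ∈ WW` can be split off, if it is above `y1` -/
theorem WW_split : ∀ᶠ σ : ℝ in Filter.atTop, ∀ N : ℕ, WW σ (Nat.totient N) →
    σ ^ 111 < ll (maxp N) →
    (maxp N).Prime ∧ Normal σ (maxp N) ∧ N = maxp N * (N / maxp N) ∧ ¬ maxp N ∣ N / maxp N ∧
    N / maxp N ≠ 0 ∧ maxp (N / maxp N) < maxp N ∧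
    Nat.totient N = (maxp N - 1) * Nat.totient (N / maxp N) ∧
    WW σ (Nat.totient (N / maxp N)) := by
  filter_upwards [WW_hered, Filter.eventually_ge_atTop (1 : ℝ)] with σ hher hσ N hW hl
  have hN0 : N ≠ 0 := by
    rintro rfl
    exact absurd hW.1.1 (by simp)
  have hN1 : N ≠ 1 := by
    rintro rfl
    have h1 : (maxp 1) = 0 := by simp [maxp]
    rw [h1] at hl
    have h2 : ll 0 = 0 := by simp [ll]
    rw [h2] at hl
    have : (0 : ℝ) ≤ σ ^ 111 := by positivity
    linarith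
  have hN : 1 < N := by omega
  have hP := maxp_prime hN
  have hPN := maxp_dvd hN
  have hsplit : N = maxp N * (N / maxp N) := (Nat.mul_div_cancel' hPN).symm
  have hnd : ¬ maxp N ∣ N / maxp N := by
    intro hd
    refine not_sq_of_Rg hW.1 hP hl ?_
    rw [pow_two]
    conv_rhs => rw [hsplit]
    exact mul_dvd_mul_left _ hd
  have hq0 : N / maxp N ≠ 0 := by
    intro h
    rw [h] at hsplit
    omega
  have htot : Nat.totient N = (maxp N - 1) * Nat.totient (N / maxp N) := by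
    conv_lhs => rw [hsplit]
    exact tot_mul_prime hP hnd
  refine ⟨hP, ?_, hsplit, hnd, hq0, ?_, htot, ?_⟩
  · exact (hW.2.2 N rfl).1 _ (Nat.mem_primeFactors.mpr ⟨hP, hPN, hN0⟩) hl
  · rcases Nat.lt_or_ge 1 (N / maxp N) with h | h
    · have hp2 := maxp_prime h
      have hd2 := maxp_dvd h
      have hdN : maxp (N / maxp N) ∣ N := hd2.trans (Nat.div_dvd_of_dvd hPN)
      have hle := le_maxp (Nat.mem_primeFactors.mpr ⟨hp2, hdN, hN0⟩)
      refine lt_of_le_of_ne hle ?_
      intro heq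
      rw [heq] at hd2
      exact hnd hd2
    · have h1 : N / maxp N = 1 := le_antisymm h (Nat.pos_of_ne_zero hq0)
      rw [h1]
      have h2 : (maxp 1) = 0 := by simp [maxp]
      rw [h2]
      exact hP.pos
  · refine hher _ _ hP hl hnd ?_
    rw [← htot]
    exact hW

private theorem wfacts_ll_two : ll 2 < 0 := by
  unfold ll
  refine Real.log_neg (Real.log_pos (by norm_num)) ?_
  have h := Real.log_two_lt_d9
  push_cast
  linarith

private theorem wfacts_II_one (σ : ℝ) : II σ 1 = 0 := by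
  unfold II
  refine Finset.sum_eq_zero fun t _ => ?_
  rw [cnt_one]
  simp [Qp]

theorem WW_one : ∀ᶠ σ : ℝ in Filter.atTop, WW σ 1 ∧ PW 1 ≤ 1 := by
  filter_upwards [Filter.eventually_ge_atTop (1 : ℝ)] with σ hσ
  have h0 : (0 : ℝ) < σ := by linarith
  refine ⟨⟨⟨one_pos, ?_, ?_, ?_⟩, ⟨1, Nat.totient_one⟩, ?_⟩, ?_⟩
  · have : Om 1 = 0 := by simp [Om]
    rw [this]
    push_cast
    positivity
  · intro q hq _ hd
    have h1 := Nat.eq_one_of_dvd_one hd
    have h2 := hq.two_le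
    nlinarith only [h1, h2]
  · intro p hp _ hd
    have h1 := Nat.eq_one_of_dvd_one hd
    have h2 := hp.two_le
    have h3 := Nat.eq_one_of_mul_eq_one_right h1
    omega
  · intro m hm
    have hm12 : m = 1 ∨ m = 2 := Nat.totient_eq_one_iff.mp hm
    have hm0 : m ≠ 0 := by rcases hm12 with h | h <;> omega
    have hlow : ∀ t, Nat.totient (lowp t m) = 1 := by
      intro t
      have h1 := Nat.totient_dvd_of_dvd (lowp_dvd t hm0)
      rw [hm] at h1
      exact Nat.eq_one_of_dvd_one h1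
    refine ⟨?_, ?_, ?_⟩
    · intro p hp hl
      exfalso
      have hpp := Nat.prime_of_mem_primeFactors hp
      have hd := Nat.dvd_of_mem_primeFactors hp
      have hp2 : p = 2 := by
        have := Nat.le_of_dvd (Nat.pos_of_ne_zero hm0) hd
        have := hpp.two_le
        rcases hm12 with h | h <;> omega
      rw [hp2] at hl
      have h3 := wfacts_ll_two
      have : (0 : ℝ) < σ ^ 111 := by positivity
      linarith
    · rw [hlow]
      have : Om 1 = 0 := by simp [Om]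
      rw [this]
      push_cast
      positivity
    · intro t ht
      rw [hlow, wfacts_II_one]
      have h1 : (0 : ℝ) < σ ^ 119 := by positivity
      have h2 : (0 : ℝ) < t := by linarith
      positivity
  · refine (PW_le (m := 1) Nat.totient_one).trans ?_
    simp [maxp]

/-- prime factors of `w ∈ WW` are smaller than `PW w` if `PW w` is above `y1`
(`(PW w)^2 ∤ mW w`, `prime_dvd_tot_lt`) and at most `PW w` always -/
theorem WW_primeFactors : ∀ᶠ σ : ℝ in Filter.atTop, ∀ w : ℕ, WW σ w →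
    ∀ q ∈ w.primeFactors, q ≤ PW w ∧ (σ ^ 111 < ll (PW w) → q < PW w) := by
  filter_upwards [Filter.eventually_ge_atTop (1 : ℝ)] with σ hσ w hW q hq
  obtain ⟨hm1, hm2⟩ := mW_spec hW.2.1
  have hqp := Nat.prime_of_mem_primeFactors hq
  have hqd : q ∣ Nat.totient (mW w) := by
    rw [hm1]
    exact Nat.dvd_of_mem_primeFactors hq
  have hm0 : mW w ≠ 0 := by
    intro h
    rw [h, Nat.totient_zero] at hm1
    exact hW.1.1.ne hm1
  rw [← hm2]
  refine ⟨prime_dvd_tot_le hm0 hqp hqd, fun hl => prime_dvd_tot_lt hm0 hqp hqd ?_⟩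
  have hgt : 1 < mW w := by
    rcases Nat.lt_or_ge 1 (mW w) with h | h
    · exact h
    · exfalso
      have h1 : mW w = 1 := by omega
      rw [h1, Nat.totient_one] at hm1
      rw [← hm1] at hq
      simp at hq
  refine not_sq_of_Rg ?_ (maxp_prime hgt) hl
  rw [hm1]
  exact hW.1

end P031
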