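import Vale.Agent.Lib.P031.TDefs
import Vale.Agent.Lib.P031.WFacts
import Vale.Agent.Lib.P031.Step

/-!
# P031 AdmPP: the admissible pair attached to a tuple.

`m = mW w`, `φ(m) = w`. By `Rg σ w` the primes of `bigP σ m` divide `m` exactly once (`not_sq_of_Rg`), so
`m = lowp (σ^111) m · ∏_{q ∈ bigP} q` and `w = ff σ w · ∏_{q ∈ bigP σ m} (q - 1)`. The primes of `bigP σ m` are normal
(`GoodPre`), each has `Om (q-1) ≥ ll q/2 ≥ σ^111/2` (`normal_Om`), and `∏ (q-1) ∣ w`, so there are at most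
`20 σ^120/(σ^111/2) = 40 σ^9` of them. They are `≤ maxp m = PW w < p i`. The prime factors of
`ff σ w = φ(lowp (σ^111) m)` are `≤ maxp (lowp …)`, so have `ll ≤ σ^111` (or are `2`, `ll 2 < 0`), `Om ≤ σ^113` by `GoodPre`.
-/

namespace P031

open Finset Real

private theorem admpp_tot (L : ℕ) (B : Finset ℕ) (hB : ∀ q ∈ B, q.Prime ∧ ¬ q ∣ L) :
    Nat.totient (L * ∏ q ∈ B, q) = Nat.totient L * ∏ q ∈ B, (q - 1) := by
  induction B using Finset.induction_on with
  | empty => simp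
  | insert p B hp ih =>
    have hpp := hB p (Finset.mem_insert_self p B)
    have ihB := ih (fun q hq => hB q (Finset.mem_insert_of_mem hq))
    have hnd : ¬ p ∣ L * ∏ q ∈ B, q := by
      intro hd
      rcases hpp.1.dvd_mul.mp hd with h | h
      · exact hpp.2 h
      · obtain ⟨q, hq, hpq⟩ := (hpp.1.prime.dvd_finsetProd_iff _).mp h
        have hqp := (hB q (Finset.mem_insert_of_mem hq)).1
        have heq := (Nat.prime_dvd_prime_iff_eq hpp.1 hqp).mp hpq
        rw [heq] at hp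
        exact hp hq
    rw [Finset.prod_insert hp, Finset.prod_insert hp, mul_left_comm, tot_mul_prime hpp.1 hnd, ihB]
    ring

private theorem admpp_mem_bigP {σ : ℝ} {m q : ℕ} :
    q ∈ bigP σ m ↔ q ∈ m.primeFactors ∧ σ ^ 111 < ll q := by
  unfold bigP
  rw [Finset.mem_filter]

private theorem admpp_split {σ : ℝ} {m : ℕ} (hm : m ≠ 0) (hR : Rg σ (Nat.totient m)) :
    m = lowp (σ ^ 111) m * ∏ q ∈ bigP σ m, q := by
  have h1 : m = ∏ p ∈ m.primeFactors, p ^ m.factorization p := by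
    conv_lhs => rw [← Nat.prod_factorization_pow_eq_self hm]
    rfl
  have h2 : ∏ q ∈ bigP σ m, q =
      ∏ p ∈ m.primeFactors.filter (fun p => ¬ ll p ≤ σ ^ 111), p ^ m.factorization p := by
    have h3 : m.primeFactors.filter (fun p => ¬ ll p ≤ σ ^ 111) = bigP σ m := by
      ext q
      rw [admpp_mem_bigP, Finset.mem_filter, not_le]
    rw [h3]
    apply Finset.prod_congr rfl
    intro q hq
    obtain ⟨hq1, hq2⟩ := admpp_mem_bigP.mp hq
    have hqp := Nat.prime_of_mem_primeFactors hq1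
    have h4 : 0 < m.factorization q :=
      hqp.factorization_pos_of_dvd hm (Nat.dvd_of_mem_primeFactors hq1)
    have h5 : ¬ 2 ≤ m.factorization q := by
      rw [← hqp.pow_dvd_iff_le_factorization hm]
      exact not_sq_of_Rg hR hqp hq2
    have h6 : m.factorization q = 1 := by omega
    rw [h6, pow_one]
  rw [h2]
  unfold lowp
  rw [Finset.prod_filter_mul_prod_filter_not]
  exact h1

private theorem admpp_w {σ : ℝ} {m : ℕ} (hm : m ≠ 0) (hR : Rg σ (Nat.totient m)) :
    Nat.totient m = Nat.totient (lowp (σ ^ 111) m) * ∏ q ∈ bigP σ m, (q - 1) := by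
  have h1 := admpp_split hm hR
  have h2 := admpp_tot (lowp (σ ^ 111) m) (bigP σ m) (by
    intro q hq
    obtain ⟨hq1, hq2⟩ := admpp_mem_bigP.mp hq
    refine ⟨Nat.prime_of_mem_primeFactors hq1, fun hd => ?_⟩
    have h3 : q ∈ (lowp (σ ^ 111) m).primeFactors :=
      Nat.mem_primeFactors.mpr ⟨Nat.prime_of_mem_primeFactors hq1, hd, lowp_ne_zero _ _⟩
    have h4 := ((lowp_primeFactors (σ ^ 111) hm q).mp h3).2
    linarith)
  rw [← h2, ← h1]

private theorem admpp_Om_prod (B : Finset ℕ) (hB : ∀ q ∈ B, q.Prime) :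
    (∏ q ∈ B, (q - 1)) ≠ 0 ∧ Om (∏ q ∈ B, (q - 1)) = ∑ q ∈ B, Om (q - 1) := by
  induction B using Finset.induction_on with
  | empty => simp [tot_Om_one]
  | insert p B hp ih =>
    have hpp := hB p (Finset.mem_insert_self p B)
    obtain ⟨ih1, ih2⟩ := ih (fun q hq => hB q (Finset.mem_insert_of_mem hq))
    have hp1 : p - 1 ≠ 0 := by
      have := hpp.two_le
      omega
    rw [Finset.prod_insert hp, Finset.sum_insert hp]
    exact ⟨mul_ne_zero hp1 ih1, by rw [Om_mul hp1 ih1, ih2]⟩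

private theorem admpp_facts : ∀ᶠ σ : ℝ in Filter.atTop, ∀ w ∈ Wfin σ, ∀ p : Fin nn → ℕ,
    (∀ i, PW w < p i ∧ p i ≤ EE σ) →
    (∀ q ∈ bigP σ (mW w), q.Prime ∧ σ ^ 111 < ll q ∧ Normal σ q ∧ q ≤ EE σ ∧ ∀ i, q < p i) ∧
    (((bigP σ (mW w)).card : ℝ) ≤ 40 * σ ^ 9) ∧
    w = ff σ w * ∏ q ∈ bigP σ (mW w), (q - 1) ∧
    0 < ff σ w ∧ (∀ q ∈ (ff σ w).primeFactors, ll q ≤ σ ^ 111) ∧ (Om (ff σ w) : ℝ) ≤ σ ^ 113 := by
  filter_upwards [normal_Om, Filter.eventually_ge_atTop (200 : ℝ)] with σ hNOm hσ w hw p hp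
  have hσ0 : 0 < σ := by linarith
  have hW : WW σ w := by
    classical
    unfold Wfin at hw
    exact (Finset.mem_filter.mp hw).2
  obtain ⟨hRg, hex, hgood⟩ := hW
  obtain ⟨hm1, hm2⟩ := mW_spec hex
  have hG := hgood (mW w) hm1
  have hwpos : 0 < w := hRg.1
  have hm0 : mW w ≠ 0 := by
    intro h
    rw [h, Nat.totient_zero] at hm1
    omega
  have hRg' : Rg σ (Nat.totient (mW w)) := by
    rw [hm1]
    exact hRg
  have i0 : Fin nn := ⟨0, by unfold nn; norm_num⟩
  have hbig : ∀ q ∈ bigP σ (mW w),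
      q.Prime ∧ σ ^ 111 < ll q ∧ Normal σ q ∧ q ≤ EE σ ∧ ∀ i, q < p i := by
    intro q hq
    obtain ⟨hq1, hq2⟩ := admpp_mem_bigP.mp hq
    have hle : q ≤ PW w := by
      rw [← hm2]
      exact le_maxp hq1
    refine ⟨Nat.prime_of_mem_primeFactors hq1, hq2, hG.1 q hq1 hq2, ?_, ?_⟩
    · exact (hle.trans (hp i0).1.le).trans (hp i0).2
    · intro i
      exact lt_of_le_of_lt hle (hp i).1
  have hsub : bigP σ (mW w) ⊆ (mW w).primeFactors := by
    intro q hq
    exact (admpp_mem_bigP.mp hq).1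
  have hdvd := prod_sub_one_dvd_tot hm0 (bigP σ (mW w)) hsub
  rw [hm1] at hdvd
  have hOm := Om_dvd hdvd hwpos.ne'
  obtain ⟨-, hOmEq⟩ := admpp_Om_prod (bigP σ (mW w)) (fun q hq => (hbig q hq).1)
  rw [hOmEq] at hOm
  have hcard : ((bigP σ (mW w)).card : ℝ) ≤ 40 * σ ^ 9 := by
    have h1 : ∑ q ∈ bigP σ (mW w), (σ ^ 111 / 2) ≤ ∑ q ∈ bigP σ (mW w), (Om (q - 1) : ℝ) := by
      apply Finset.sum_le_sum
      intro q hq
      obtain ⟨hqp, hql, hqN, hqE, -⟩ := hbig q hq
      have h2 := (hNOm q hqp hqN ((le_EE_iff hqp.two_le).mp hqE)).2 hql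
      linarith
    have h3 : ∑ q ∈ bigP σ (mW w), (Om (q - 1) : ℝ) ≤ (Om w : ℝ) := by
      exact_mod_cast hOm
    rw [Finset.sum_const, nsmul_eq_mul] at h1
    have h4 : ((bigP σ (mW w)).card : ℝ) * (σ ^ 111 / 2) ≤ 20 * σ ^ 120 :=
      h1.trans (h3.trans hRg.2.1)
    have h5 : 20 * σ ^ 120 = 40 * σ ^ 9 * (σ ^ 111 / 2) := by ring
    rw [h5] at h4
    exact le_of_mul_le_mul_right h4 (by positivity)
  have hwff : w = ff σ w * ∏ q ∈ bigP σ (mW w), (q - 1) := by
    have h1 := admpp_w hm0 hRg'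
    rw [hm1] at h1
    exact h1
  refine ⟨hbig, hcard, hwff, ?_, ?_, hG.2.1⟩
  · exact Nat.totient_pos.mpr (Nat.pos_of_ne_zero (lowp_ne_zero _ _))
  · intro q hq
    have hqp := Nat.prime_of_mem_primeFactors hq
    have hqd : q ∣ Nat.totient (lowp (σ ^ 111) (mW w)) := Nat.dvd_of_mem_primeFactors hq
    have hle := prime_dvd_tot_le (lowp_ne_zero _ _) hqp hqd
    have hgt : 1 < lowp (σ ^ 111) (mW w) := by
      rcases Nat.lt_or_ge 1 (lowp (σ ^ 111) (mW w)) with h | h
      · exact h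
      · exfalso
        have h1 : lowp (σ ^ 111) (mW w) = 1 :=
          le_antisymm h (Nat.pos_of_ne_zero (lowp_ne_zero _ _))
        rw [h1, Nat.totient_one] at hqd
        exact hqp.one_lt.ne' (Nat.dvd_one.mp hqd)
    have hmem := tot_maxp_mem hgt
    have h2 := ((lowp_primeFactors (σ ^ 111) hm0 _).mp hmem).2
    exact (ll_mono hqp.two_le hle).trans h2

private theorem admpp_mem_PP {σ : ℝ} {w : ℕ} {p : Fin nn → ℕ} {k q : ℕ} :
    q ∈ PP σ w p k ↔ (∃ i : Fin nn, i.val < k ∧ p i = q) ∨ q ∈ bigP σ (mW w) := by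
  unfold PP
  rw [Finset.mem_union, Finset.mem_image]
  constructor
  · rintro (⟨i, hi, hq⟩ | h)
    · exact Or.inl ⟨i, (Finset.mem_filter.mp hi).2, hq⟩
    · exact Or.inr h
  · rintro (⟨i, hi, hq⟩ | h)
    · exact Or.inl ⟨i, Finset.mem_filter.mpr ⟨Finset.mem_univ _, hi⟩, hq⟩
    · exact Or.inr h

private theorem admpp_prod {σ : ℝ} {w : ℕ} {p : Fin nn → ℕ} (hmono : StrictMono p)
    (hbig : ∀ q ∈ bigP σ (mW w), ∀ i, q < p i) (k : ℕ) :
    ∏ q ∈ PP σ w p k, (q - 1) =
      (∏ i ∈ Finset.univ.filter (fun i : Fin nn => i.val < k), (p i - 1)) *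
        ∏ q ∈ bigP σ (mW w), (q - 1) := by
  have hdis : Disjoint ((Finset.univ.filter (fun i : Fin nn => i.val < k)).image p)
      (bigP σ (mW w)) := by
    rw [Finset.disjoint_left]
    intro q hq hq2
    obtain ⟨i, -, rfl⟩ := Finset.mem_image.mp hq
    exact lt_irrefl _ (hbig _ hq2 i)
  have h1 : PP σ w p k =
      (Finset.univ.filter (fun i : Fin nn => i.val < k)).image p ∪ bigP σ (mW w) := by
    ext q
    rw [admpp_mem_PP, Finset.mem_union, Finset.mem_image]
    simp only [Finset.mem_filter, Finset.mem_univ, true_and]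
  rw [h1, Finset.prod_union hdis, Finset.prod_image (fun i _ j _ h => hmono.injective h)]

private theorem admpp_card {σ : ℝ} {w : ℕ} {p : Fin nn → ℕ} (k : ℕ) :
    (PP σ w p k).card ≤ nn + (bigP σ (mW w)).card := by
  have h1 : PP σ w p k ⊆
      (Finset.univ : Finset (Fin nn)).image p ∪ bigP σ (mW w) := by
    intro q hq
    rw [admpp_mem_PP] at hq
    rw [Finset.mem_union, Finset.mem_image]
    rcases hq with ⟨i, -, h⟩ | h
    · exact Or.inl ⟨i, Finset.mem_univ _, h⟩
    · exact Or.inr h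
  refine (Finset.card_le_card h1).trans ((Finset.card_union_le _ _).trans ?_)
  have h2 : ((Finset.univ : Finset (Fin nn)).image p).card ≤ nn := by
    refine Finset.card_image_le.trans ?_
    simp
  omega

theorem adm_PP : ∀ᶠ σ : ℝ in Filter.atTop, ∀ w ∈ Wfin σ, ∀ p : Fin nn → ℕ, StrictMono p →
    (∀ i, (p i).Prime ∧ Normal σ (p i) ∧ PW w < p i ∧ σ ^ 119 ≤ ll (p i) ∧ p i ≤ EE σ) →
    (∀ k, k ≤ nn → Adm σ (PP σ w p k) (ff σ w) ∧ vv (PP σ w p k) (ff σ w) = vt w p k) ∧
    (∀ k (hk : k < nn), maxs (PP σ w p (k + 1)) = p ⟨k, hk⟩) ∧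
    (∀ P0 : ℕ, P0.Prime → Normal σ P0 → P0 ≤ EE σ → (∀ i, p i < P0) →
      Adm σ (insert P0 (PP σ w p nn)) (ff σ w) ∧
      vv (insert P0 (PP σ w p nn)) (ff σ w) = (P0 - 1) * vt w p nn ∧
      maxs (insert P0 (PP σ w p nn)) = P0) := by
  filter_upwards [admpp_facts, Filter.eventually_ge_atTop (200 : ℝ)] with
    σ hfacts hσ w hw p hmono hp
  obtain ⟨hbig, hcard, hwff, hfpos, hfsm, hfOm⟩ :=
    hfacts w hw p (fun i => ⟨(hp i).2.2.1, (hp i).2.2.2.2⟩)
  have hσ0 : 0 < σ := by linarith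
  have hσ1 : 1 ≤ σ := by linarith
  have h119 : σ ^ 111 < σ ^ 119 := pow_lt_pow_right₀ (by linarith) (by norm_num)
  have hpr : ∀ k, ∀ q ∈ PP σ w p k, q.Prime ∧ σ ^ 111 < ll q ∧ Normal σ q ∧ q ≤ EE σ := by
    intro k q hq
    rcases admpp_mem_PP.mp hq with ⟨i, -, rfl⟩ | h
    · exact ⟨(hp i).1, lt_of_lt_of_le h119 (hp i).2.2.2.1, (hp i).2.1, (hp i).2.2.2.2⟩
    · have := hbig q h
      exact ⟨this.1, this.2.1, this.2.2.1, this.2.2.2.1⟩
  have hcardPP : ∀ k, ((PP σ w p k).card : ℝ) + 1 ≤ σ ^ 10 := by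
    intro k
    have h1 : ((PP σ w p k).card : ℝ) ≤ (nn : ℝ) + ((bigP σ (mW w)).card : ℝ) := by
      exact_mod_cast admpp_card k
    have h2 : (nn : ℝ) = 121 := by
      unfold nn
      norm_num
    have h3 : (1 : ℝ) ≤ σ ^ 9 := one_le_pow₀ hσ1
    have h4 : σ ^ 10 = σ * σ ^ 9 := by ring
    have h5 : 200 * σ ^ 9 ≤ σ * σ ^ 9 := mul_le_mul_of_nonneg_right hσ (by linarith)
    linarith
  have hvv : ∀ k, vv (PP σ w p k) (ff σ w) = vt w p k := by
    intro k
    unfold vv vt
    rw [admpp_prod hmono (fun q hq => (hbig q hq).2.2.2.2) k]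
    conv_rhs => rw [hwff]
    ring
  refine ⟨?_, ?_, ?_⟩
  · intro k _
    refine ⟨⟨hpr k, ?_, hfpos, hfsm, hfOm⟩, hvv k⟩
    have := hcardPP k
    linarith
  · intro k hk
    unfold maxs
    apply le_antisymm
    · apply Finset.sup_le
      intro q hq
      rcases admpp_mem_PP.mp hq with ⟨i, hi, rfl⟩ | h
      · have : i ≤ ⟨k, hk⟩ := by
          rw [Fin.le_def]
          simp only
          omega
        exact hmono.monotone this
      · exact ((hbig q h).2.2.2.2 _).le
    · refine Finset.le_sup (f := id) ?_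
      rw [admpp_mem_PP]
      exact Or.inl ⟨⟨k, hk⟩, by simp, rfl⟩
  · intro P0 hP0 hN0 hE0 hlt
    have i0 : Fin nn := ⟨0, by unfold nn; norm_num⟩
    have hall : ∀ q ∈ PP σ w p nn, q < P0 := by
      intro q hq
      rcases admpp_mem_PP.mp hq with ⟨i, -, rfl⟩ | h
      · exact hlt i
      · exact ((hbig q h).2.2.2.2 i0).trans (hlt i0)
    have hnot : P0 ∉ PP σ w p nn := fun h => lt_irrefl _ (hall P0 h)
    refine ⟨⟨?_, ?_, hfpos, hfsm, hfOm⟩, ?_, ?_⟩
    · intro q hq
      rcases Finset.mem_insert.mp hq with rfl | h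
      · refine ⟨hP0, ?_, hN0, hE0⟩
        have h1 := ll_mono (hp i0).1.two_le (hlt i0).le
        have h2 := (hp i0).2.2.2.1
        linarith
      · exact hpr nn q h
    · rw [Finset.card_insert_of_notMem hnot]
      push_cast
      exact hcardPP nn
    · have h1 := hvv nn
      unfold vv at h1 ⊢
      rw [Finset.prod_insert hnot, ← h1]
      ring
    · unfold maxs
      rw [Finset.sup_insert]
      apply sup_eq_left.mpr
      apply Finset.sup_le
      intro q hq
      exact (hall q hq).le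

/-- the tuple is determined by the admissible pair (`PP σ w p k` and `ff σ w` determine `p_i`, `i < k`, and `w`):
for tuples over `w`, `w'` with `PP σ w p k = PP σ w' p' k` and `ff σ w = ff σ w'`, `1 ≤ k ≤ nn`: the `k` largest elements are the
`p_i`, the others form `bigP σ (mW w)`, and `w = ff σ w ∏_{bigP} (q - 1)`. -/
theorem PP_inj : ∀ᶠ σ : ℝ in Filter.atTop, ∀ w ∈ Wfin σ, ∀ w' ∈ Wfin σ, ∀ p p' : Fin nn → ℕ,
    StrictMono p → StrictMono p' →
    (∀ i, (p i).Prime ∧ Normal σ (p i) ∧ PW w < p i ∧ σ ^ 119 ≤ ll (p i) ∧ p i ≤ EE σ) →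
    (∀ i, (p' i).Prime ∧ Normal σ (p' i) ∧ PW w' < p' i ∧ σ ^ 119 ≤ ll (p' i) ∧ p' i ≤ EE σ) →
    ∀ k, k ≤ nn → PP σ w p k = PP σ w' p' k → ff σ w = ff σ w' →
    w = w' ∧ ∀ i : Fin nn, i.val < k → p i = p' i := by
  filter_upwards [admpp_facts] with σ hfacts w hw w' hw' p p' hmono hmono' hp hp' k hk hPP hff
  obtain ⟨hbig, -, hwff, -, -, -⟩ := hfacts w hw p (fun i => ⟨(hp i).2.2.1, (hp i).2.2.2.2⟩)
  obtain ⟨hbig', -, hwff', -, -, -⟩ :=
    hfacts w' hw' p' (fun i => ⟨(hp' i).2.2.1, (hp' i).2.2.2.2⟩)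
  set F : Finset (Fin nn) := Finset.univ.filter (fun i : Fin nn => i.val < k) with hF
  set A := F.image p with hA
  set A' := F.image p' with hA'
  have hcA : A.card = F.card := Finset.card_image_of_injective _ hmono.injective
  have hcA' : A'.card = F.card := Finset.card_image_of_injective _ hmono'.injective
  have hmemA : ∀ q, q ∈ A ↔ ∃ i : Fin nn, i.val < k ∧ p i = q := by
    intro q
    rw [hA, Finset.mem_image]
    simp only [hF, Finset.mem_filter, Finset.mem_univ, true_and]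
  have hmemA' : ∀ q, q ∈ A' ↔ ∃ i : Fin nn, i.val < k ∧ p' i = q := by
    intro q
    rw [hA', Finset.mem_image]
    simp only [hF, Finset.mem_filter, Finset.mem_univ, true_and]
  have hlt : ∀ x ∈ bigP σ (mW w), ∀ y ∈ A, x < y := by
    intro x hx y hy
    obtain ⟨i, -, rfl⟩ := (hmemA y).mp hy
    exact (hbig x hx).2.2.2.2 i
  have hlt' : ∀ x ∈ bigP σ (mW w'), ∀ y ∈ A', x < y := by
    intro x hx y hy
    obtain ⟨i, -, rfl⟩ := (hmemA' y).mp hy
    exact (hbig' x hx).2.2.2.2 i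
  have hmem : ∀ q, (q ∈ A ∨ q ∈ bigP σ (mW w)) ↔ (q ∈ A' ∨ q ∈ bigP σ (mW w')) := by
    intro q
    rw [hmemA, hmemA', ← admpp_mem_PP, ← admpp_mem_PP, hPP]
  have hAA : A = A' := by
    apply Finset.eq_of_subset_of_card_le
    · intro x hx
      by_contra hx'
      have hxB' : x ∈ bigP σ (mW w') := by
        rcases (hmem x).mp (Or.inl hx) with h | h
        · exact absurd h hx'
        · exact h
      obtain ⟨y, hy, hyA⟩ : ∃ y ∈ A', y ∉ A := by
        by_contra hcon
        push Not at hcon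
        have hsub : A' ⊆ A.erase x := by
          intro y hy
          rw [Finset.mem_erase]
          refine ⟨?_, hcon y hy⟩
          rintro rfl
          exact hx' hy
        have h1 := Finset.card_le_card hsub
        rw [Finset.card_erase_of_mem hx] at h1
        have h2 : 0 < A.card := Finset.card_pos.mpr ⟨x, hx⟩
        omega
      have hyB : y ∈ bigP σ (mW w) := by
        rcases (hmem y).mpr (Or.inl hy) with h | h
        · exact absurd h hyA
        · exact h
      have h1 := hlt y hyB x hx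
      have h2 := hlt' x hxB' y hy
      omega
    · rw [hcA, hcA']
  have hBB : bigP σ (mW w) = bigP σ (mW w') := by
    ext q
    constructor
    · intro hq
      rcases (hmem q).mp (Or.inr hq) with h | h
      · rw [← hAA] at h
        exact absurd (hlt q hq q h) (lt_irrefl q)
      · exact h
    · intro hq
      rcases (hmem q).mpr (Or.inr hq) with h | h
      · rw [hAA] at h
        exact absurd (hlt' q hq q h) (lt_irrefl q)
      · exact h
  refine ⟨?_, ?_⟩
  · rw [hwff, hwff', hBB, hff]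
  · have hcard : A.card = k := by
      rw [hcA, hF]
      have h1 : (Finset.univ.filter (fun i : Fin nn => i.val < k)).card =
          ((Finset.range nn).filter (fun i => i < k)).card := by
        rw [← Finset.card_map Fin.valEmbedding]
        congr 1
        ext i
        simp only [Finset.mem_map, Finset.mem_filter, Finset.mem_univ, true_and,
          Fin.valEmbedding_apply, Finset.mem_range]
        constructor
        · rintro ⟨j, hj, rfl⟩
          exact ⟨j.2, hj⟩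
        · rintro ⟨h1, h2⟩
          exact ⟨⟨i, h1⟩, h2, rfl⟩
      rw [h1]
      have h2 : (Finset.range nn).filter (fun i => i < k) = Finset.range k := by
        ext i
        simp only [Finset.mem_filter, Finset.mem_range]
        omega
      rw [h2, Finset.card_range]
    have e1 := Finset.orderEmbOfFin_unique hcard (f := fun j : Fin k => p ⟨j.val, by omega⟩)
      (fun j => (hmemA _).mpr ⟨⟨j.val, by omega⟩, j.2, rfl⟩)
      (fun a b hab => hmono (by
        rw [Fin.lt_def]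
        exact hab))
    have e2 := Finset.orderEmbOfFin_unique hcard (f := fun j : Fin k => p' ⟨j.val, by omega⟩)
      (fun j => by
        rw [hAA]
        exact (hmemA' _).mpr ⟨⟨j.val, by omega⟩, j.2, rfl⟩)
      (fun a b hab => hmono' (by
        rw [Fin.lt_def]
        exact hab))
    intro i hi
    have e3 := congrFun (e1.trans e2.symm) ⟨i.val, hi⟩
    exact e3

end P031
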