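import Vale.Agent.Lib.P031.Thin
import Vale.Agent.Lib.P031.Tot

/-!
# P031 Crude: crude bound for the sum of the reciprocals of the totient values with at most `20 s` prime factors.

Proof. Choose a preimage `m_w` for each `w ∈ S` (injective): `∑_w 1/w ≤ ∑_m 1/φ(m)`. If `p ∣ m` then `p - 1 ∣ w`, more
precisely `∑_{p ∣ m} Om (p - 1) ≤ Om w ≤ 20 s` (distinct primes `p`: `∏ (p-1) ∣ φ(m)`). Call `p` thick if
`2 Om (p-1) ≥ ll p`; then `∑_{p ∣ m thick} ll p ≤ 40 s`. With `λ = σ^(-60)`,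
`1 ≤ exp(40 s λ) ∏_{p ∣ m thick} exp(-λ ll p)`. By `euler_le` (with `h p k = 1/φ(p^k)` for thin `p`,
`exp(-λ ll p)/φ(p^k)` for thick `p`, `∑_k 1/φ(p^k) = p/(p-1)^2 ≤ 1/(p-1) + 1/(p-1)^2`)
`∑_m 1/φ(m) ≤ exp(40 σ^60) exp(2 C + ∑_{p thick} exp(-λ ll p) (1/(p-1)+1/(p-1)^2))`,
and by `mert_int` on unit intervals `∑_{p} exp(-λ ll p)/(p-1) ≤ C ∑_j exp(-λ j) ≤ C/λ = C σ^60` (and `p = 2`).
Primes `p ∣ m` satisfy `p ≤ EE σ + 1`.
-/

namespace P031

open Finset Real

/-- the Rankin factor -/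
noncomputable def crude_e (lam : ℝ) (p : ℕ) : ℝ :=
  if ll p ≤ 2 * (Om (p - 1) : ℝ) then Real.exp (-(lam * ll p)) else 1

theorem crude_e_pos (lam : ℝ) (p : ℕ) : 0 < crude_e lam p := by
  unfold crude_e
  split_ifs
  · exact exp_pos _
  · exact one_pos

theorem crude_geom {lam : ℝ} (h0 : 0 < lam) (h1 : lam ≤ 1) (J : ℕ) :
    ∑ j ∈ range J, Real.exp (-(lam * j)) ≤ 2 / lam := by
  have hr : Real.exp (-lam) ≤ 1 - lam / 2 := by
    have h2 : 1 + lam ≤ Real.exp lam := by linarith [Real.add_one_le_exp lam]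
    rw [Real.exp_neg]
    have h3 : (Real.exp lam)⁻¹ ≤ (1 + lam)⁻¹ := inv_anti₀ (by positivity) h2
    refine h3.trans ?_
    rw [inv_le_iff_one_le_mul₀ (by positivity)]
    nlinarith
  have hexp : ∀ j : ℕ, Real.exp (-(lam * j)) = Real.exp (-lam) ^ j := by
    intro j
    rw [← Real.exp_nat_mul]
    congr 1
    ring
  simp_rw [hexp]
  have h4 := mul_neg_geom_sum (Real.exp (-lam)) J
  have h5 : 0 ≤ Real.exp (-lam) ^ J := by positivity
  have h6 : 0 ≤ ∑ j ∈ range J, Real.exp (-lam) ^ j := Finset.sum_nonneg fun j _ => by positivity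
  rw [le_div_iff₀ h0]
  nlinarith only [hr, h4, h5, h6]

/-- the sum over the thick primes -/
theorem crude_thick {C : ℝ} (hC : 1 ≤ C)
    (hmert : ∀ α β : ℝ, 0 ≤ α → α ≤ β → ∀ S : Finset ℕ,
      (∀ p ∈ S, p.Prime ∧ α ≤ ll p ∧ ll p ≤ β) → ∑ p ∈ S, 1 / ((p : ℝ) - 1) ≤ (β - α) + C)
    {lam : ℝ} (h0 : 0 < lam) (h1 : lam ≤ 1) (T : Finset ℕ)
    (hT : ∀ p ∈ T, p.Prime ∧ 0 ≤ ll p) :
    ∑ p ∈ T, Real.exp (-(lam * ll p)) * (1 / ((p : ℝ) - 1)) ≤ (1 + C) * (2 / lam) := by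
  classical
  have hmaps : ∀ p ∈ T, ⌊ll p⌋₊ ∈ range (T.sup (fun p => ⌊ll p⌋₊) + 1) := by
    intro p hp
    rw [Finset.mem_range]
    exact Nat.lt_succ_of_le (Finset.le_sup (f := fun p => ⌊ll p⌋₊) hp)
  rw [← Finset.sum_fiberwise_of_maps_to hmaps]
  calc _ ≤ ∑ j ∈ range (T.sup (fun p => ⌊ll p⌋₊) + 1), Real.exp (-(lam * j)) * (1 + C) := by
        refine Finset.sum_le_sum fun j _ => ?_
        have h3 : ∀ p ∈ T.filter (fun p => ⌊ll p⌋₊ = j),
            Real.exp (-(lam * ll p)) * (1 / ((p : ℝ) - 1)) ≤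
              Real.exp (-(lam * j)) * (1 / ((p : ℝ) - 1)) := by
          intro p hp
          rw [Finset.mem_filter] at hp
          obtain ⟨hp1, hp2⟩ := hT p hp.1
          have h4 : (2 : ℝ) ≤ p := by exact_mod_cast hp1.two_le
          have h5 : (j : ℝ) ≤ ll p := by
            rw [← hp.2]
            exact Nat.floor_le hp2
          refine mul_le_mul_of_nonneg_right ?_ (one_div_nonneg.2 (by linarith))
          apply Real.exp_le_exp.2
          have := mul_le_mul_of_nonneg_left h5 h0.le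
          linarith
        refine (Finset.sum_le_sum h3).trans ?_
        rw [← Finset.mul_sum]
        refine mul_le_mul_of_nonneg_left ?_ (Real.exp_pos _).le
        have h6 := hmert j (j + 1) (Nat.cast_nonneg j) (by linarith)
          (T.filter (fun p => ⌊ll p⌋₊ = j)) (by
            intro p hp
            rw [Finset.mem_filter] at hp
            obtain ⟨hp1, hp2⟩ := hT p hp.1
            refine ⟨hp1, ?_, ?_⟩
            · rw [← hp.2]
              exact Nat.floor_le hp2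
            · have := (Nat.lt_floor_add_one (ll p)).le
              rw [hp.2] at this
              exact this)
        linarith
    _ ≤ _ := by
        rw [← Finset.sum_mul, mul_comm]
        exact mul_le_mul_of_nonneg_left (crude_geom h0 h1 _) (by linarith)

theorem crude_Om_prod (P : Finset ℕ) (hP : ∀ p ∈ P, p.Prime) :
    Om (∏ p ∈ P, (p - 1)) = ∑ p ∈ P, Om (p - 1) := by
  classical
  induction P using Finset.induction_on with
  | empty => simp [Om]
  | insert a s ha ih =>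
    have h1 : a - 1 ≠ 0 := by
      have := (hP a (Finset.mem_insert_self a s)).two_le
      omega
    have h2 : ∏ p ∈ s, (p - 1) ≠ 0 := by
      rw [Finset.prod_ne_zero_iff]
      intro p hp
      have := (hP p (Finset.mem_insert_of_mem hp)).two_le
      omega
    rw [Finset.prod_insert ha, Finset.sum_insert ha, Om_mul h1 h2,
      ih fun p hp => hP p (Finset.mem_insert_of_mem hp)]

/-- the product of the Rankin factors -/
theorem crude_prod_e {lam N : ℝ} (h0 : 0 ≤ lam) {m : ℕ} (hm : m ≠ 0)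
    (hN : (Om (Nat.totient m) : ℝ) ≤ N) :
    Real.exp (-(lam * (2 * N))) ≤ ∏ p ∈ m.primeFactors, crude_e lam p := by
  classical
  have hm0 : Nat.totient m ≠ 0 := (Nat.totient_pos.2 (Nat.pos_of_ne_zero hm)).ne'
  have h1 : ∏ p ∈ m.primeFactors, crude_e lam p =
      Real.exp (-(lam * ∑ p ∈ m.primeFactors.filter (fun p => ll p ≤ 2 * (Om (p - 1) : ℝ)),
        ll p)) := by
    unfold crude_e
    rw [Finset.prod_ite, Finset.prod_const_one, mul_one, Finset.mul_sum, ← Finset.sum_neg_distrib,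
      Real.exp_sum]
  rw [h1]
  apply Real.exp_le_exp.2
  have h2 : ∑ p ∈ m.primeFactors.filter (fun p => ll p ≤ 2 * (Om (p - 1) : ℝ)), ll p ≤ 2 * N := by
    calc ∑ p ∈ m.primeFactors.filter (fun p => ll p ≤ 2 * (Om (p - 1) : ℝ)), ll p
        ≤ ∑ p ∈ m.primeFactors.filter (fun p => ll p ≤ 2 * (Om (p - 1) : ℝ)),
          2 * (Om (p - 1) : ℝ) :=
          Finset.sum_le_sum fun p hp => (Finset.mem_filter.1 hp).2
      _ = 2 * ((∑ p ∈ m.primeFactors.filter (fun p => ll p ≤ 2 * (Om (p - 1) : ℝ)),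
          Om (p - 1) : ℕ) : ℝ) := by
          rw [← Finset.mul_sum]
          push_cast
          rfl
      _ ≤ 2 * N := by
          rw [← crude_Om_prod _ fun p hp =>
            Nat.prime_of_mem_primeFactors (Finset.mem_filter.1 hp).1]
          have h3 := Om_dvd (prod_sub_one_dvd_tot hm
            (m.primeFactors.filter (fun p => ll p ≤ 2 * (Om (p - 1) : ℝ)))
            (Finset.filter_subset _ _)) hm0
          have h4 : ((Om (∏ p ∈ m.primeFactors.filter
            (fun p => ll p ≤ 2 * (Om (p - 1) : ℝ)), (p - 1)) : ℕ) : ℝ) ≤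
              (Om (Nat.totient m) : ℝ) := by exact_mod_cast h3
          linarith
  have h3 := mul_le_mul_of_nonneg_left h2 h0
  linarith

/-- Euler's function as a product -/
theorem crude_tot {m : ℕ} (hm : m ≠ 0) : (Nat.totient m : ℝ) =
    ∏ p ∈ m.primeFactors, ((p : ℝ) ^ (m.factorization p - 1) * ((p : ℝ) - 1)) := by
  rw [Nat.totient_eq_prod_factorization hm, Finsupp.prod, Nat.support_factorization,
    Nat.cast_prod]
  refine Finset.prod_congr rfl fun p hp => ?_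
  have h1 : 1 ≤ p := (Nat.prime_of_mem_primeFactors hp).one_le
  push_cast [h1]
  rfl

/-- local factors -/
theorem crude_local (lam : ℝ) {q : ℕ} (hq : q.Prime) (K : ℕ) :
    ∑ k ∈ Finset.Icc 1 K, crude_e lam q / ((q : ℝ) ^ (k - 1) * ((q : ℝ) - 1)) ≤
      crude_e lam q * (2 / ((q : ℝ) - 1)) := by
  have h2 : (2 : ℝ) ≤ q := by exact_mod_cast hq.two_le
  have he := crude_e_pos lam q
  have h3 : ∀ k ∈ Finset.Icc 1 K, crude_e lam q / ((q : ℝ) ^ (k - 1) * ((q : ℝ) - 1)) ≤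
      crude_e lam q / ((q : ℝ) - 1) * (1 / 2) ^ (k - 1) := by
    intro k _
    have h4 : (2 : ℝ) ^ (k - 1) ≤ (q : ℝ) ^ (k - 1) := pow_le_pow_left₀ (by norm_num) h2 _
    have h5 : (0 : ℝ) < (q : ℝ) - 1 := by linarith
    rw [one_div, inv_pow, ← div_eq_mul_inv, div_div, mul_comm ((q : ℝ) - 1)]
    exact div_le_div_of_nonneg_left he.le (by positivity)
      (mul_le_mul_of_nonneg_right h4 h5.le)
  refine (Finset.sum_le_sum h3).trans ?_
  rw [← Finset.mul_sum]
  have h6 : ∑ k ∈ Finset.Icc 1 K, (1 / 2 : ℝ) ^ (k - 1) ≤ 2 := by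
    have h7 : Finset.Icc 1 K = Finset.Ico 1 (K + 1) := by
      ext x
      simp only [Finset.mem_Icc, Finset.mem_Ico]
      omega
    rw [h7, Finset.sum_Ico_eq_sum_range]
    refine le_trans (le_of_eq ?_) (sum_geometric_two_le K)
    simp only [Nat.add_sub_cancel_left, Nat.add_sub_cancel]
  have h8 : 0 ≤ crude_e lam q / ((q : ℝ) - 1) := div_nonneg he.le (by linarith)
  calc crude_e lam q / ((q : ℝ) - 1) * ∑ k ∈ Finset.Icc 1 K, (1 / 2 : ℝ) ^ (k - 1)
      ≤ crude_e lam q / ((q : ℝ) - 1) * 2 := mul_le_mul_of_nonneg_left h6 h8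
    _ = crude_e lam q * (2 / ((q : ℝ) - 1)) := by ring

theorem crude_ll_nonneg {q : ℕ} (hq : 3 ≤ q) : 0 ≤ ll q := by
  unfold ll
  apply Real.log_nonneg
  have h1 : (3 : ℝ) ≤ q := by exact_mod_cast hq
  rw [Real.le_log_iff_exp_le (by linarith)]
  have := Real.exp_one_lt_d9
  linarith

theorem crude_ll_two : -1 ≤ ll 2 := by
  unfold ll
  have h1 := Real.log_two_gt_d9
  have h2 : (0 : ℝ) < Real.log 2 := by linarith
  have h3 := Real.one_sub_inv_le_log_of_pos h2
  have h4 : (Real.log 2)⁻¹ ≤ 2 := by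
    rw [inv_le_comm₀ h2 (by norm_num)]
    linarith
  push_cast
  linarith

/-- the sum of the local factors -/
theorem crude_sum {C₁ C₂ : ℝ} (hC₂ : 1 ≤ C₂)
    (hthin : ∀ S : Finset ℕ, (∀ p ∈ S, p.Prime ∧ 2 * (Om (p - 1) : ℝ) < ll p) →
      ∑ p ∈ S, 1 / ((p : ℝ) - 1) ≤ C₁)
    (hmert : ∀ α β : ℝ, 0 ≤ α → α ≤ β → ∀ S : Finset ℕ,
      (∀ p ∈ S, p.Prime ∧ α ≤ ll p ∧ ll p ≤ β) → ∑ p ∈ S, 1 / ((p : ℝ) - 1) ≤ (β - α) + C₂)
    {lam : ℝ} (h0 : 0 < lam) (h1 : lam ≤ 1) (Q : Finset ℕ) (hQ : ∀ q ∈ Q, q.Prime) :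
    ∑ q ∈ Q, crude_e lam q * (2 / ((q : ℝ) - 1)) ≤ 2 * C₁ + 6 + 2 * ((1 + C₂) * (2 / lam)) := by
  classical
  rw [← Finset.sum_filter_add_sum_filter_not Q (fun q => ll q ≤ 2 * (Om (q - 1) : ℝ))]
  have hthin' : ∑ q ∈ Q.filter (fun q => ¬ ll q ≤ 2 * (Om (q - 1) : ℝ)),
      crude_e lam q * (2 / ((q : ℝ) - 1)) ≤ 2 * C₁ := by
    have h2 : ∀ q ∈ Q.filter (fun q => ¬ ll q ≤ 2 * (Om (q - 1) : ℝ)),
        crude_e lam q * (2 / ((q : ℝ) - 1)) = 2 * (1 / ((q : ℝ) - 1)) := by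
      intro q hq
      rw [crude_e, if_neg (Finset.mem_filter.1 hq).2]
      ring
    rw [Finset.sum_congr rfl h2, ← Finset.mul_sum]
    have h3 := hthin (Q.filter (fun q => ¬ ll q ≤ 2 * (Om (q - 1) : ℝ))) (by
      intro q hq
      rw [Finset.mem_filter] at hq
      exact ⟨hQ q hq.1, not_le.1 hq.2⟩)
    linarith
  have hthick : ∑ q ∈ Q.filter (fun q => ll q ≤ 2 * (Om (q - 1) : ℝ)),
      crude_e lam q * (2 / ((q : ℝ) - 1)) ≤ 6 + 2 * ((1 + C₂) * (2 / lam)) := by
    rw [← Finset.sum_filter_add_sum_filter_not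
      (Q.filter (fun q => ll q ≤ 2 * (Om (q - 1) : ℝ))) (fun q => 0 ≤ ll q)]
    have h2 : ∑ q ∈ (Q.filter (fun q => ll q ≤ 2 * (Om (q - 1) : ℝ))).filter
        (fun q => 0 ≤ ll q), crude_e lam q * (2 / ((q : ℝ) - 1)) ≤
          2 * ((1 + C₂) * (2 / lam)) := by
      have h3 : ∀ q ∈ (Q.filter (fun q => ll q ≤ 2 * (Om (q - 1) : ℝ))).filter
          (fun q => 0 ≤ ll q), crude_e lam q * (2 / ((q : ℝ) - 1)) =
            2 * (Real.exp (-(lam * ll q)) * (1 / ((q : ℝ) - 1))) := by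
        intro q hq
        rw [crude_e, if_pos (Finset.mem_filter.1 (Finset.mem_filter.1 hq).1).2]
        ring
      rw [Finset.sum_congr rfl h3, ← Finset.mul_sum]
      refine mul_le_mul_of_nonneg_left ?_ (by norm_num)
      refine crude_thick hC₂ hmert h0 h1 _ ?_
      intro q hq
      rw [Finset.mem_filter, Finset.mem_filter] at hq
      exact ⟨hQ q hq.1.1, hq.2⟩
    have h4 : ∑ q ∈ (Q.filter (fun q => ll q ≤ 2 * (Om (q - 1) : ℝ))).filter
        (fun q => ¬ 0 ≤ ll q), crude_e lam q * (2 / ((q : ℝ) - 1)) ≤ 6 := by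
      have hsub : (Q.filter (fun q => ll q ≤ 2 * (Om (q - 1) : ℝ))).filter
          (fun q => ¬ 0 ≤ ll q) ⊆ {2} := by
        intro q hq
        rw [Finset.mem_filter, Finset.mem_filter] at hq
        rw [Finset.mem_singleton]
        have h5 := (hQ q hq.1.1).two_le
        by_contra h6
        exact hq.2 (crude_ll_nonneg (by omega))
      have hnn : ∀ q ∈ ({2} : Finset ℕ), q ∉ (Q.filter (fun q => ll q ≤ 2 *
          (Om (q - 1) : ℝ))).filter (fun q => ¬ 0 ≤ ll q) →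
            0 ≤ crude_e lam q * (2 / ((q : ℝ) - 1)) := by
        intro q hq _
        rw [Finset.mem_singleton] at hq
        subst hq
        have := crude_e_pos lam 2
        norm_num
        exact this.le
      refine (Finset.sum_le_sum_of_subset_of_nonneg hsub hnn).trans ?_
      rw [Finset.sum_singleton]
      have h7 : crude_e lam 2 ≤ 3 := by
        unfold crude_e
        split_ifs
        · have h8 := crude_ll_two
          have h9 : -(lam * ll 2) ≤ 1 := by nlinarith only [h0, h1, h8]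
          refine (Real.exp_le_exp.2 h9).trans ?_
          have := Real.exp_one_lt_d9
          linarith
        · norm_num
      norm_num
      linarith
    linarith
  linarith

theorem crude : ∀ᶠ σ : ℝ in Filter.atTop, ∀ S : Finset ℕ,
    (∀ w ∈ S, w ≠ 0 ∧ w ≤ EE σ ∧ (∃ m : ℕ, Nat.totient m = w) ∧ (Om w : ℝ) ≤ 20 * σ ^ 120) →
    ∑ w ∈ S, 1 / (w : ℝ) ≤ Real.exp (σ ^ 61) := by
  classical
  obtain ⟨C₁, hC₁, hthin⟩ := thin
  obtain ⟨C₂, hC₂, hmert⟩ := mert_int
  filter_upwards [Filter.eventually_ge_atTop (50 + 4 * C₂ + 2 * C₁)] with σ hσ S hS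
  have hσ1 : 1 ≤ σ := by linarith
  have hσ0 : 0 < σ := by linarith
  have hσ60 : 1 ≤ σ ^ 60 := one_le_pow₀ hσ1
  obtain ⟨lam, hlam⟩ : ∃ lam : ℝ, lam = 1 / σ ^ 60 := ⟨_, rfl⟩
  have h0 : 0 < lam := by rw [hlam]; positivity
  have h1 : lam ≤ 1 := by
    rw [hlam, div_le_one (by positivity)]
    exact hσ60
  -- the preimages
  have hch : ∀ w : ℕ, ∃ m : ℕ, w ∈ S → Nat.totient m = w := by
    intro w
    by_cases hw : w ∈ S
    · obtain ⟨m, hm⟩ := (hS w hw).2.2.1
      exact ⟨m, fun _ => hm⟩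
    · exact ⟨0, fun h => absurd h hw⟩
  choose mm hmm using hch
  have hinj : Set.InjOn mm (S : Set ℕ) := by
    intro a ha b hb hab
    rw [← hmm a ha, ← hmm b hb, hab]
  have hsum : ∑ w ∈ S, 1 / (w : ℝ) = ∑ m ∈ S.image mm, 1 / (Nat.totient m : ℝ) := by
    rw [Finset.sum_image hinj]
    refine Finset.sum_congr rfl fun w hw => ?_
    rw [hmm w hw]
  have hM : ∀ m ∈ S.image mm, m ≠ 0 ∧ Nat.totient m ≤ EE σ ∧
      (Om (Nat.totient m) : ℝ) ≤ 20 * σ ^ 120 := by
    intro m hm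
    rw [Finset.mem_image] at hm
    obtain ⟨w, hw, rfl⟩ := hm
    obtain ⟨hw0, hw1, -, hw2⟩ := hS w hw
    rw [hmm w hw]
    refine ⟨?_, hw1, hw2⟩
    intro h
    apply hw0
    rw [← hmm w hw, h, Nat.totient_zero]
  obtain ⟨Q, hQdef⟩ : ∃ Q : Finset ℕ, Q = (range (EE σ + 2)).filter Nat.Prime := ⟨_, rfl⟩
  have hQ : ∀ q ∈ Q, q.Prime := by
    intro q hq
    rw [hQdef, Finset.mem_filter] at hq
    exact hq.2
  have hMQ : ∀ m ∈ S.image mm, m ≠ 0 ∧ ∀ q ∈ m.primeFactors, q ∈ Q := by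
    intro m hm
    obtain ⟨hm0, hm1, -⟩ := hM m hm
    refine ⟨hm0, fun q hq => ?_⟩
    rw [hQdef, Finset.mem_filter, Finset.mem_range]
    have hqp := Nat.prime_of_mem_primeFactors hq
    refine ⟨?_, hqp⟩
    have h2 := prod_sub_one_dvd_tot hm0 {q} (Finset.singleton_subset_iff.2 hq)
    rw [Finset.prod_singleton] at h2
    have h3 := Nat.le_of_dvd (Nat.totient_pos.2 (Nat.pos_of_ne_zero hm0)) h2
    omega
  -- pointwise bound
  have hpt : ∀ m ∈ S.image mm, 1 / (Nat.totient m : ℝ) ≤ Real.exp (40 * σ ^ 60) *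
      ∏ q ∈ m.primeFactors, crude_e lam q / ((q : ℝ) ^ (m.factorization q - 1) * ((q : ℝ) - 1)) := by
    intro m hm
    obtain ⟨hm0, -, hm2⟩ := hM m hm
    rw [Finset.prod_div_distrib, ← crude_tot hm0]
    have h2 := crude_prod_e h0.le hm0 hm2
    have h3 : lam * (2 * (20 * σ ^ 120)) = 40 * σ ^ 60 := by
      rw [hlam]
      field_simp
      ring
    rw [h3] at h2
    have h4 : (0 : ℝ) < (Nat.totient m : ℝ) := by
      exact_mod_cast Nat.totient_pos.2 (Nat.pos_of_ne_zero hm0)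
    rw [← mul_div_assoc]
    apply div_le_div_of_nonneg_right _ h4.le
    calc (1 : ℝ) = Real.exp (40 * σ ^ 60) * Real.exp (-(40 * σ ^ 60)) := by
          rw [← Real.exp_add]
          simp
      _ ≤ _ := mul_le_mul_of_nonneg_left h2 (Real.exp_pos _).le
  have heul := euler_le Q
    (fun q k => crude_e lam q / ((q : ℝ) ^ (k - 1) * ((q : ℝ) - 1)) *
      (if q = 0 then 0 else 1))
    (fun q => crude_e lam q * (2 / ((q : ℝ) - 1))) (S.image mm) hQ
    (by
      intro q k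
      by_cases hq : q = 0
      · simp [hq]
      · simp only [if_neg hq, mul_one]
        have h2 : (1 : ℝ) ≤ q := by exact_mod_cast Nat.one_le_iff_ne_zero.2 hq
        exact div_nonneg (crude_e_pos lam q).le
          (mul_nonneg (by positivity) (by linarith)))
    (by
      intro q hq K
      have hq0 : q ≠ 0 := (hQ q hq).ne_zero
      simp only [if_neg hq0, mul_one]
      exact crude_local lam (hQ q hq) K)
    hMQ
  have heul' : ∑ m ∈ S.image mm, ∏ q ∈ m.primeFactors,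
      crude_e lam q / ((q : ℝ) ^ (m.factorization q - 1) * ((q : ℝ) - 1)) ≤
      Real.exp (2 * C₁ + 6 + 2 * ((1 + C₂) * (2 / lam))) := by
    have h2 : ∑ m ∈ S.image mm, ∏ q ∈ m.primeFactors,
        crude_e lam q / ((q : ℝ) ^ (m.factorization q - 1) * ((q : ℝ) - 1)) =
        ∑ m ∈ S.image mm, ∏ q ∈ m.primeFactors,
          (crude_e lam q / ((q : ℝ) ^ (m.factorization q - 1) * ((q : ℝ) - 1)) *
            (if q = 0 then 0 else 1)) := by
      refine Finset.sum_congr rfl fun m _ => Finset.prod_congr rfl fun q hq => ?_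
      rw [if_neg (Nat.prime_of_mem_primeFactors hq).ne_zero, mul_one]
    rw [h2]
    refine heul.trans ?_
    have h3 : ∏ q ∈ Q, (1 + crude_e lam q * (2 / ((q : ℝ) - 1))) ≤
        Real.exp (∑ q ∈ Q, crude_e lam q * (2 / ((q : ℝ) - 1))) := by
      rw [Real.exp_sum]
      refine Finset.prod_le_prod ?_ ?_
      · intro q hq
        have h4 : (2 : ℝ) ≤ q := by exact_mod_cast (hQ q hq).two_le
        have h5 : 0 ≤ crude_e lam q * (2 / ((q : ℝ) - 1)) :=
          mul_nonneg (crude_e_pos lam q).le (div_nonneg (by norm_num) (by linarith))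
        linarith
      · intro q _
        have := Real.add_one_le_exp (crude_e lam q * (2 / ((q : ℝ) - 1)))
        linarith
    refine h3.trans (Real.exp_le_exp.2 ?_)
    exact crude_sum hC₂ hthin hmert h0 h1 Q hQ
  rw [hsum]
  calc ∑ m ∈ S.image mm, 1 / (Nat.totient m : ℝ)
      ≤ ∑ m ∈ S.image mm, Real.exp (40 * σ ^ 60) * ∏ q ∈ m.primeFactors,
        crude_e lam q / ((q : ℝ) ^ (m.factorization q - 1) * ((q : ℝ) - 1)) :=
        Finset.sum_le_sum hpt
    _ = Real.exp (40 * σ ^ 60) * ∑ m ∈ S.image mm, ∏ q ∈ m.primeFactors,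
        crude_e lam q / ((q : ℝ) ^ (m.factorization q - 1) * ((q : ℝ) - 1)) := by
        rw [Finset.mul_sum]
    _ ≤ Real.exp (40 * σ ^ 60) * Real.exp (2 * C₁ + 6 + 2 * ((1 + C₂) * (2 / lam))) :=
        mul_le_mul_of_nonneg_left heul' (Real.exp_pos _).le
    _ = Real.exp (40 * σ ^ 60 + (2 * C₁ + 6 + 2 * ((1 + C₂) * (2 / lam)))) :=
        (Real.exp_add _ _).symm
    _ ≤ Real.exp (σ ^ 61) := by
        apply Real.exp_le_exp.2
        have h2 : 2 / lam = 2 * σ ^ 60 := by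
          rw [hlam]
          field_simp
        rw [h2]
        have h3 : σ ^ 61 = σ * σ ^ 60 := by ring
        rw [h3]
        have h4 : (50 + 4 * C₂ + 2 * C₁) * σ ^ 60 ≤ σ * σ ^ 60 :=
          mul_le_mul_of_nonneg_right hσ (by positivity)
        have h5 : (2 * C₁ + 6) * 1 ≤ (2 * C₁ + 6) * σ ^ 60 :=
          mul_le_mul_of_nonneg_left hσ60 (by linarith)
        linarith

end P031
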