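import Vale.Agent.Lib.P031.PntD

/-! The prime number theorem and the prime number theorem for arithmetic progressions. -/

open Filter Topology Set Asymptotics

namespace Vale.Agent.Lib.P031.PNT

open ArithmeticFunction (vonMangoldt)
open ArithmeticFunction.vonMangoldt (residueClass)

/-- Partial sums of `Λ` over a residue class. -/
lemma sum_residueClass_le {q : ℕ} (a : ZMod q) (x : ℝ) (hx : 1 ≤ x) :
    ∑ k ∈ Finset.Icc 1 ⌊x⌋₊, residueClass a k ≤ (Real.log 4 + 4) * x := by
  refine le_trans ?_ (Chebyshev.psi_le_const_mul_self (by linarith))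
  unfold Chebyshev.psi
  have : Finset.Icc 1 ⌊x⌋₊ = Finset.Ioc 0 ⌊x⌋₊ := rfl
  rw [this]
  exact Finset.sum_le_sum fun n _ => ArithmeticFunction.vonMangoldt.residueClass_le a n

/-- **PNT in arithmetic progressions**, `ψ` version. -/
theorem psiAP_tendsto {q : ℕ} [NeZero q] {a : ZMod q} (ha : IsUnit a) :
    Tendsto (fun x : ℝ => (∑ k ∈ Finset.Icc 1 ⌊x⌋₊, residueClass a k) / x) atTop
      (𝓝 ((q.totient : ℝ)⁻¹)) := by
  refine wienerIkehara (residueClass a) (ArithmeticFunction.vonMangoldt.residueClass_nonneg a)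
    (M := Real.log 4 + 4) (fun x hx => sum_residueClass_le a x hx)
    (G := ArithmeticFunction.vonMangoldt.LFunctionResidueClassAux a)
    (ArithmeticFunction.vonMangoldt.continuousOn_LFunctionResidueClassAux a) ?_
  intro s hs
  rw [ArithmeticFunction.vonMangoldt.eqOn_LFunctionResidueClassAux ha hs]
  push_cast
  rfl

/-- **PNT**, `ψ` version. -/
theorem psi_tendsto : Tendsto (fun x : ℝ => Chebyshev.psi x / x) atTop (𝓝 1) := by
  have h := psiAP_tendsto (q := 1) (a := 1) isUnit_one
  simp only [Nat.totient_one, Nat.cast_one, inv_one] at h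
  refine h.congr fun x => ?_
  congr 1
  unfold Chebyshev.psi
  have : Finset.Icc 1 ⌊x⌋₊ = Finset.Ioc 0 ⌊x⌋₊ := rfl
  rw [this]
  refine Finset.sum_congr rfl fun n _ => ?_
  rw [residueClass, Set.indicator_of_mem]
  simp only [Set.mem_ofPred_eq]
  exact Subsingleton.elim _ _

lemma sqrt_div_tendsto_zero : Tendsto (fun x : ℝ => Real.sqrt x / x) atTop (𝓝 0) := by
  have h1 : Tendsto (fun x : ℝ => (Real.sqrt x)⁻¹) atTop (𝓝 0) :=
    tendsto_inv_atTop_zero.comp Real.tendsto_sqrt_atTop
  refine h1.congr' ?_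
  filter_upwards [eventually_gt_atTop (0:ℝ)] with x hx
  rw [Real.sqrt_div_self']
  simp

/-- **PNT**, `θ` version. -/
theorem theta_tendsto : Tendsto (fun x : ℝ => Chebyshev.theta x / x) atTop (𝓝 1) := by
  have h1 : Tendsto (fun x : ℝ => (Chebyshev.psi x - Chebyshev.theta x) / x) atTop (𝓝 0) := by
    obtain ⟨C, hC⟩ := Chebyshev.psi_sub_theta_le_mul_sqrt
    have h2 : Tendsto (fun x : ℝ => C * (Real.sqrt x / x)) atTop (𝓝 0) := by
      simpa using sqrt_div_tendsto_zero.const_mul C
    refine tendsto_of_tendsto_of_tendsto_of_le_of_le' tendsto_const_nhds h2 ?_ ?_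
    · filter_upwards [eventually_gt_atTop (0:ℝ)] with x hx
      exact div_nonneg (sub_nonneg.2 (Chebyshev.theta_le_psi x)) hx.le
    · filter_upwards [eventually_gt_atTop (0:ℝ)] with x hx
      rw [← mul_div_assoc]
      exact div_le_div_of_nonneg_right (hC x) hx.le
  have h3 := psi_tendsto.sub h1
  rw [sub_zero] at h3
  refine h3.congr fun x => ?_
  ring

/-- **PNT**, `θ` version along integers. -/
theorem theta_nat_tendsto : Tendsto (fun n : ℕ => Chebyshev.theta n / n) atTop (𝓝 1) :=
  theta_tendsto.comp tendsto_natCast_atTop_atTop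

/-- **PNT**, `ψ` version along integers. -/
theorem psi_nat_tendsto : Tendsto (fun n : ℕ => Chebyshev.psi n / n) atTop (𝓝 1) :=
  psi_tendsto.comp tendsto_natCast_atTop_atTop

/-- **PNT**: `π(x) log x / x → 1`. -/
theorem pi_tendsto :
    Tendsto (fun x : ℝ => (Nat.primeCounting ⌊x⌋₊ : ℝ) * Real.log x / x) atTop (𝓝 1) := by
  have h0 : (fun x : ℝ => x / Real.log x ^ 2) =o[atTop] fun x : ℝ => x / Real.log x := by
    refine (isLittleO_iff_tendsto' ?_).2 ?_
    · filter_upwards [eventually_gt_atTop (1:ℝ)] with x hx h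
      have h1 := Real.log_pos hx
      have : x / Real.log x ≠ 0 := by positivity
      exact absurd h this
    · refine Tendsto.congr' (f₁ := fun x => (Real.log x)⁻¹) ?_
        Real.tendsto_log_atTop.inv_tendsto_atTop
      filter_upwards [eventually_gt_atTop (1:ℝ)] with x hx
      have h1 := Real.log_pos hx
      field_simp
  have h1 := Chebyshev.primeCounting_sub_theta_div_log_isBigO.trans_isLittleO h0
  have h2 : Tendsto (fun x : ℝ => ((Nat.primeCounting ⌊x⌋₊ : ℝ) - Chebyshev.theta x / Real.log x)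
      / (x / Real.log x)) atTop (𝓝 0) := h1.tendsto_div_nhds_zero
  have h3 := h2.add theta_tendsto
  rw [zero_add] at h3
  refine h3.congr' ?_
  filter_upwards [eventually_gt_atTop (1:ℝ)] with x hx
  have h4 := Real.log_pos hx
  field_simp
  ring

/-- **PNT**: `π(n) log n / n → 1`. -/
theorem pi_nat_tendsto :
    Tendsto (fun n : ℕ => (Nat.primeCounting n : ℝ) * Real.log n / n) atTop (𝓝 1) := by
  have := pi_tendsto.comp tendsto_natCast_atTop_atTop
  refine this.congr fun n => ?_
  simp [Function.comp]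

/-- Differences: `(θ(bx) - θ(ax))/x → b - a`. -/
theorem theta_diff_tendsto {a b : ℝ} (ha : 0 ≤ a) (hb : 0 ≤ b) :
    Tendsto (fun x : ℝ => (Chebyshev.theta (b * x) - Chebyshev.theta (a * x)) / x) atTop
      (𝓝 (b - a)) := by
  have key : ∀ c : ℝ, 0 ≤ c →
      Tendsto (fun x : ℝ => Chebyshev.theta (c * x) / x) atTop (𝓝 c) := by
    intro c hc
    rcases hc.eq_or_lt with rfl | hc
    · simp [Chebyshev.theta_zero]
    · have h1 : Tendsto (fun x : ℝ => c * x) atTop atTop := tendsto_id.const_mul_atTop hc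
      have h2 := (theta_tendsto.comp h1).const_mul c
      rw [mul_one] at h2
      refine h2.congr' ?_
      filter_upwards [eventually_gt_atTop (0:ℝ)] with x hx
      simp only [Function.comp]
      field_simp
  refine ((key b hb).sub (key a ha)).congr fun x => ?_
  ring

end Vale.Agent.Lib.P031.PNT
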