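import Vale.Agent.Lib.P031.LL
import Vale.Agent.Lib.P031.PntE

/-!
# P031 PiB: the prime number theorem in the form used (numbers of primes `P0` with `(P0 - 1) d ≤ X`).
`exp exp s ≤ X ≤ exp exp (s + 1/2)`, `log d ≤ e^s/s`, so `log (X/d) = (1 + o(1)) log X`.
-/

namespace P031

open Finset Real

theorem PiB_card (n : ℕ) :
    Nat.primeCounting n = ((Finset.range (n + 1)).filter Nat.Prime).card := by
  unfold Nat.primeCounting Nat.primeCounting'
  exact Nat.count_eq_card_filter_range _ _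

theorem PiB_upper (S : Finset ℕ) (z : ℝ) (h : ∀ P ∈ S, P.Prime ∧ (P : ℝ) ≤ z) :
    (S.card : ℝ) ≤ (Nat.primeCounting ⌊z⌋₊ : ℝ) := by
  rw [PiB_card]
  have h1 : S ⊆ (Finset.range (⌊z⌋₊ + 1)).filter Nat.Prime := by
    intro P hP
    obtain ⟨h2, h3⟩ := h P hP
    rw [Finset.mem_filter, Finset.mem_range]
    exact ⟨Nat.lt_succ_of_le (Nat.le_floor h3), h2⟩
  exact_mod_cast Finset.card_le_card h1

theorem PiB_lower (S : Finset ℕ) (z w : ℝ) (hz : 0 ≤ z) (hw : 0 ≤ w)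
    (h : ∀ P : ℕ, P.Prime → w < P → (P : ℝ) ≤ z → P ∈ S) :
    (Nat.primeCounting ⌊z⌋₊ : ℝ) ≤ (S.card : ℝ) + w := by
  rw [PiB_card]
  have h1 : (Finset.range (⌊z⌋₊ + 1)).filter Nat.Prime ⊆ S ∪ Finset.Icc 1 ⌊w⌋₊ := by
    intro P hP
    rw [Finset.mem_filter, Finset.mem_range] at hP
    rw [Finset.mem_union, Finset.mem_Icc]
    by_cases hc : w < P
    · left
      exact h P hP.2 hc ((Nat.cast_le.mpr (Nat.lt_succ_iff.mp hP.1)).trans (Nat.floor_le hz))
    · right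
      exact ⟨hP.2.one_lt.le, Nat.le_floor (not_lt.mp hc)⟩
  have h2 := (Finset.card_le_card h1).trans (Finset.card_union_le _ _)
  rw [Nat.card_Icc, Nat.add_sub_cancel] at h2
  have h3 : (((Finset.range (⌊z⌋₊ + 1)).filter Nat.Prime).card : ℝ) ≤ (S.card : ℝ) + (⌊w⌋₊ : ℝ) := by
    exact_mod_cast h2
  linarith [Nat.floor_le hw]

theorem PiB_pnt (ε : ℝ) (hε : 0 < ε) : ∃ Z : ℝ, 2 ≤ Z ∧ ∀ z : ℝ, Z ≤ z →
    (1 - ε) * (z / Real.log z) ≤ (Nat.primeCounting ⌊z⌋₊ : ℝ) ∧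
    (Nat.primeCounting ⌊z⌋₊ : ℝ) ≤ (1 + ε) * (z / Real.log z) := by
  have h1 := (Metric.tendsto_atTop.mp Vale.Agent.Lib.P031.PNT.pi_tendsto) ε hε
  obtain ⟨Z, hZ⟩ := h1
  refine ⟨max 2 Z, le_max_left _ _, fun z hz => ?_⟩
  have hz2 : 2 ≤ z := (le_max_left _ _).trans hz
  have h2 := hZ z ((le_max_right _ _).trans hz)
  rw [Real.dist_eq, abs_lt] at h2
  have hl : 0 < Real.log z := Real.log_pos (by linarith)
  have hzl : 0 < z / Real.log z := by positivity
  have h3 : (Nat.primeCounting ⌊z⌋₊ : ℝ) * Real.log z / z * (z / Real.log z) =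
      (Nat.primeCounting ⌊z⌋₊ : ℝ) := by
    field_simp
  constructor
  · have h4 := mul_le_mul_of_nonneg_right (show 1 - ε ≤
      (Nat.primeCounting ⌊z⌋₊ : ℝ) * Real.log z / z from by linarith [h2.1]) hzl.le
    rw [h3] at h4
    exact h4
  · have h4 := mul_le_mul_of_nonneg_right (show
      (Nat.primeCounting ⌊z⌋₊ : ℝ) * Real.log z / z ≤ 1 + ε from by linarith [h2.2]) hzl.le
    rw [h3] at h4
    exact h4

theorem PiB_basic (σ X : ℝ) (d : ℕ) (hσ : 4 ≤ σ) (hX : Real.exp (Real.exp (σ ^ 120)) ≤ X)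
    (hd : 1 ≤ d) (hd2 : Real.log (d : ℝ) ≤ Real.exp (σ ^ 120) / σ ^ 120) :
    0 < X ∧ σ ≤ Real.log X ∧ (1 - 1 / σ) * Real.log X ≤ Real.log (X / d) ∧
      Real.log (X / d) ≤ Real.log X ∧ σ / 2 ≤ X / d ∧ 0 < X / d := by
  have hX0 : 0 < X := (Real.exp_pos _).trans_le hX
  have hd0 : (0:ℝ) < d := by exact_mod_cast hd
  have hd1 : (1:ℝ) ≤ d := by exact_mod_cast hd
  have hs : σ ≤ σ ^ 120 := le_self_pow₀ (by linarith) (by norm_num)
  have hs0 : 0 < σ ^ 120 := by linarith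
  have hL : Real.exp (σ ^ 120) ≤ Real.log X := (Real.le_log_iff_exp_le hX0).mpr hX
  have he : σ ^ 120 + 1 ≤ Real.exp (σ ^ 120) := Real.add_one_le_exp _
  have hL1 : σ ≤ Real.log X := by linarith
  have hlogd : 0 ≤ Real.log (d:ℝ) := Real.log_nonneg hd1
  have hy : Real.log (X / d) = Real.log X - Real.log d := Real.log_div hX0.ne' hd0.ne'
  have h1 : Real.log (d:ℝ) ≤ 1 / σ * Real.log X := by
    calc Real.log (d:ℝ) ≤ Real.exp (σ ^ 120) / σ ^ 120 := hd2
      _ ≤ Real.exp (σ ^ 120) / σ := div_le_div_of_nonneg_left (Real.exp_pos _).le (by linarith) hs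
      _ ≤ Real.log X / σ := div_le_div_of_nonneg_right hL (by linarith)
      _ = 1 / σ * Real.log X := by ring
  have h2 : (1 - 1 / σ) * Real.log X ≤ Real.log (X / d) := by
    rw [hy]
    linarith
  have h3 : 1 / σ ≤ 1 / 4 := one_div_le_one_div_of_le (by norm_num) hσ
  have hyp : 0 < X / d := div_pos hX0 hd0
  refine ⟨hX0, hL1, h2, by rw [hy]; linarith, ?_, hyp⟩
  have h4 : σ / 2 ≤ Real.log (X / d) := by nlinarith only [hs0, hL, he, hL1, h2, h3]
  have h5 := Real.log_le_sub_one_of_pos hyp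
  linarith

theorem PiB_cast {P d : ℕ} (hP : P.Prime) {X : ℝ} (hd : 1 ≤ d) :
    (((P - 1) * d : ℕ) : ℝ) ≤ X ↔ (P : ℝ) ≤ X / d + 1 := by
  have hd0 : (0:ℝ) < d := by exact_mod_cast hd
  rw [Nat.cast_mul, Nat.cast_sub hP.one_lt.le, Nat.cast_one, ← le_div_iff₀ hd0]
  constructor <;> intro h <;> linarith

theorem pi_ub : ∀ ε : ℝ, 0 < ε → ∀ᶠ σ : ℝ in Filter.atTop, ∀ (X : ℝ) (d : ℕ) (S : Finset ℕ),
    Real.exp (Real.exp (σ ^ 120)) ≤ X → X ≤ Real.exp (Real.exp (σ ^ 120 + 1 / 2)) → 1 ≤ d →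
    Real.log (d : ℝ) ≤ Real.exp (σ ^ 120) / σ ^ 120 →
    (∀ P ∈ S, P.Prime ∧ (((P - 1) * d : ℕ) : ℝ) ≤ X) →
    (S.card : ℝ) ≤ (1 + ε) * (X / d) / Real.log X := by
  intro ε hε
  obtain ⟨δ, hδ0, hδ1, hδ2⟩ : ∃ δ : ℝ, 0 < δ ∧ δ ≤ 1 / 8 ∧ 8 * δ ≤ ε := by
    refine ⟨min ε 1 / 8, by positivity, ?_, ?_⟩
    · have := min_le_right ε 1
      linarith
    · have := min_le_left ε 1
      linarith
  obtain ⟨Z, hZ2, hZ⟩ := PiB_pnt δ hδ0
  filter_upwards [Filter.eventually_ge_atTop (max 4 (max (2 * Z) (2 / δ)))] with σ hσ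
  intro X d S hX _ hd hd2 hS
  have hσ4 : 4 ≤ σ := (le_max_left _ _).trans hσ
  have hσZ : 2 * Z ≤ σ := ((le_max_left _ _).trans (le_max_right _ _)).trans hσ
  have hσδ : 2 / δ ≤ σ := ((le_max_right _ _).trans (le_max_right _ _)).trans hσ
  obtain ⟨hX0, hL, h1, h2, h3, h4⟩ := PiB_basic σ X d hσ4 hX hd hd2
  set y := X / d with hy
  have hL0 : 0 < Real.log X := by linarith
  have hinv : 1 / σ ≤ δ := by
    rw [div_le_iff₀ hδ0] at hσδ
    rw [div_le_iff₀ (by linarith)]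
    linarith only [hσδ]
  have hyδ : 1 ≤ δ * y := by
    rw [div_le_iff₀ hδ0] at hσδ
    nlinarith only [hσ4, hσδ, h3]
  have hlow : (1 - δ) * Real.log X ≤ Real.log y := by nlinarith only [h1, hL0, hinv]
  have hlz : Real.log y ≤ Real.log (y + 1) := Real.log_le_log h4 (by linarith)
  have hlz0 : 0 < (1 - δ) * Real.log X := by
    apply mul_pos _ hL0
    linarith
  have hc := (PiB_upper S (y + 1) fun P hP =>
    ⟨(hS P hP).1, (PiB_cast (hS P hP).1 hd).mp (hS P hP).2⟩).trans (hZ (y + 1) (by linarith)).2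
  refine hc.trans ?_
  have hz : (y + 1) / Real.log (y + 1) ≤ ((1 + δ) * y) / ((1 - δ) * Real.log X) := by
    apply div_le_div₀ (by positivity) (by linarith) hlz0 (by linarith)
  calc (1 + δ) * ((y + 1) / Real.log (y + 1))
      ≤ (1 + δ) * (((1 + δ) * y) / ((1 - δ) * Real.log X)) :=
        mul_le_mul_of_nonneg_left hz (by linarith)
    _ = ((1 + δ) * (1 + δ)) * y / ((1 - δ) * Real.log X) := by ring
    _ ≤ (1 + ε) * y / Real.log X := by
        rw [div_le_div_iff₀ hlz0 hL0]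
        have h5 : (1 + δ) * (1 + δ) ≤ (1 + ε) * (1 - δ) := by nlinarith only [hδ0, hδ1, hδ2]
        have h6 : 0 ≤ y * Real.log X := by positivity
        linarith only [mul_le_mul_of_nonneg_right h5 h6]

theorem pi_lb : ∀ ε : ℝ, 0 < ε → ∀ᶠ σ : ℝ in Filter.atTop, ∀ (X : ℝ) (d : ℕ) (S : Finset ℕ),
    Real.exp (Real.exp (σ ^ 120)) ≤ X → X ≤ Real.exp (Real.exp (σ ^ 120 + 1 / 2)) → 1 ≤ d →
    Real.log (d : ℝ) ≤ Real.exp (σ ^ 120) / σ ^ 120 →
    (∀ P : ℕ, P.Prime → Real.sqrt X < P → (((P - 1) * d : ℕ) : ℝ) ≤ X → P ∈ S) →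
    (1 - ε) * (X / d) / Real.log X ≤ (S.card : ℝ) := by
  intro ε hε
  obtain ⟨δ, hδ0, hδ1, hδ2⟩ : ∃ δ : ℝ, 0 < δ ∧ δ ≤ 1 / 8 ∧ 8 * δ ≤ ε := by
    refine ⟨min ε 1 / 8, by positivity, ?_, ?_⟩
    · have := min_le_right ε 1
      linarith
    · have := min_le_left ε 1
      linarith
  obtain ⟨Z, hZ2, hZ⟩ := PiB_pnt δ hδ0
  filter_upwards [Filter.eventually_ge_atTop (max 4 (max (2 * Z) (32 / δ)))] with σ hσ
  intro X d S hX _ hd hd2 hS
  have hσ4 : 4 ≤ σ := (le_max_left _ _).trans hσ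
  have hσZ : 2 * Z ≤ σ := ((le_max_left _ _).trans (le_max_right _ _)).trans hσ
  have hσδ : 32 / δ ≤ σ := ((le_max_right _ _).trans (le_max_right _ _)).trans hσ
  obtain ⟨hX0, hL, h1, h2, h3, h4⟩ := PiB_basic σ X d hσ4 hX hd hd2
  have hS' : ∀ P : ℕ, P.Prime → Real.sqrt X < P → (P : ℝ) ≤ X / d → P ∈ S := by
    intro P hP h5 h6
    exact hS P hP h5 ((PiB_cast hP hd).mpr (by linarith))
  set y := X / d with hy
  set L := Real.log X with hLdef
  have hL0 : 0 < L := by linarith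
  have hc := PiB_lower S y (Real.sqrt X) h4.le (Real.sqrt_nonneg X) hS'
  have hp := (hZ y (by linarith)).1
  have h34 : 3 / 4 * L ≤ Real.log y := by
    have h5 : 1 / σ ≤ 1 / 4 := one_div_le_one_div_of_le (by norm_num) hσ4
    nlinarith only [h1, hL0, h5]
  have hly : 0 < Real.log y := by linarith
  have hyL : y / L ≤ y / Real.log y := div_le_div_of_nonneg_left h4.le hly h2
  have hsq : Real.sqrt X = Real.exp (L / 2) := by
    rw [Real.exp_half, hLdef, Real.exp_log hX0]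
  have hye : Real.exp (3 / 4 * L) ≤ y := by
    rw [← Real.exp_log h4]
    exact Real.exp_le_exp.mpr h34
  have hquad : L ≤ δ * Real.exp (L / 4) := by
    have h6 := Real.quadratic_le_exp_of_nonneg (show 0 ≤ L / 4 by positivity)
    rw [div_le_iff₀ hδ0] at hσδ
    have h7 : 32 ≤ L * δ := by nlinarith only [hσ4, hσδ, hL]
    nlinarith only [hL0, h6, h7]
  have hsL : Real.sqrt X * L ≤ δ * y := by
    calc Real.sqrt X * L ≤ Real.exp (L / 2) * (δ * Real.exp (L / 4)) := by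
          rw [hsq]
          exact mul_le_mul_of_nonneg_left hquad (Real.exp_pos _).le
      _ = δ * Real.exp (3 / 4 * L) := by
          rw [show 3 / 4 * L = L / 2 + L / 4 by ring, Real.exp_add]
          ring
      _ ≤ δ * y := mul_le_mul_of_nonneg_left hye hδ0.le
  have hs2 : Real.sqrt X ≤ δ * (y / L) := by
    rw [← mul_div_assoc, le_div_iff₀ hL0]
    exact hsL
  have h8 : (1 - δ) * (y / L) ≤ (1 - δ) * (y / Real.log y) :=
    mul_le_mul_of_nonneg_left hyL (by linarith)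
  have h9 : 0 ≤ y / L := by positivity
  have h10 : (1 - ε) * y / L = (1 - ε) * (y / L) := by ring
  rw [h10]
  nlinarith only [hδ0, hδ2, hc, hp, hs2, h8, h9]

/-- Chebyshev type bound: if all `P ∈ S` satisfy `log P ≥ log X/K`, the count is `≤ C K X/(d log X)`.
(`#S ≤ π(X/d + 1)` and, if `S` is nonempty, `X/d + 1 ≥ P`, so `log(X/d + 1) ≥ log X/K`.) -/
theorem pi_cheb : ∃ C : ℝ, 1 ≤ C ∧ ∀ (X K : ℝ) (d : ℕ) (S : Finset ℕ), C ≤ X → 1 ≤ K → 1 ≤ d →
    (∀ P ∈ S, P.Prime ∧ (((P - 1) * d : ℕ) : ℝ) ≤ X ∧ Real.log X / K ≤ Real.log (P : ℝ)) →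
    (S.card : ℝ) ≤ C * K * X / (d * Real.log X) := by
  obtain ⟨Z, hZ2, hZ⟩ := PiB_pnt 1 one_pos
  have hlZ : 0 < Real.log Z := Real.log_pos (by linarith)
  set A : ℝ := 2 + Real.log Z with hA
  have hcheb : ∀ z : ℝ, 2 ≤ z → (Nat.primeCounting ⌊z⌋₊ : ℝ) ≤ A * (z / Real.log z) := by
    intro z hz
    have hlz : 0 < Real.log z := Real.log_pos (by linarith)
    have hq : 0 < z / Real.log z := by positivity
    rcases le_total Z z with h | h
    · have h1 := (hZ z h).2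
      nlinarith only [hlZ, h1]
    · have h1 : (Nat.primeCounting ⌊z⌋₊ : ℝ) ≤ z := by
        have h2 : Nat.primeCounting ⌊z⌋₊ ≤ ⌊z⌋₊ := by
          rw [PiB_card]
          have h3 : (Finset.range (⌊z⌋₊ + 1)).filter Nat.Prime ⊆ Finset.Icc 1 ⌊z⌋₊ := by
            intro P hP
            rw [Finset.mem_filter, Finset.mem_range] at hP
            rw [Finset.mem_Icc]
            exact ⟨hP.2.one_lt.le, Nat.lt_succ_iff.mp hP.1⟩
          have h4 := Finset.card_le_card h3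
          rwa [Nat.card_Icc, Nat.add_sub_cancel] at h4
        have h5 : (Nat.primeCounting ⌊z⌋₊ : ℝ) ≤ (⌊z⌋₊ : ℝ) := by exact_mod_cast h2
        exact h5.trans (Nat.floor_le (by linarith))
      have h6 : Real.log z ≤ Real.log Z := Real.log_le_log (by linarith) h
      have h7 : z = Real.log z * (z / Real.log z) := by field_simp
      calc (Nat.primeCounting ⌊z⌋₊ : ℝ) ≤ Real.log z * (z / Real.log z) := by rw [← h7]; exact h1
        _ ≤ A * (z / Real.log z) := mul_le_mul_of_nonneg_right (by linarith) hq.le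
  refine ⟨2 * A, by linarith, ?_⟩
  intro X K d S hX hK hd hS
  have hX2 : 1 < X := by linarith
  have hL : 0 < Real.log X := Real.log_pos hX2
  have hd0 : (0:ℝ) < d := by exact_mod_cast hd
  rcases S.eq_empty_or_nonempty with rfl | ⟨P, hP⟩
  · rw [Finset.card_empty, Nat.cast_zero]
    have : 0 < A := by linarith
    positivity
  · obtain ⟨hp1, hp2, hp3⟩ := hS P hP
    have hPy := (PiB_cast hp1 hd).mp hp2
    have hP2 : (2:ℝ) ≤ P := by exact_mod_cast hp1.two_le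
    set y := X / d with hy
    have hy1 : 1 ≤ y := by linarith
    have hz2 : 2 ≤ y + 1 := by linarith
    have hlz : Real.log X / K ≤ Real.log (y + 1) :=
      hp3.trans (Real.log_le_log (by linarith) hPy)
    have hLK : 0 < Real.log X / K := by positivity
    have hcard := (PiB_upper S (y + 1) fun P hP =>
      ⟨(hS P hP).1, (PiB_cast (hS P hP).1 hd).mp (hS P hP).2.1⟩).trans (hcheb (y + 1) hz2)
    refine hcard.trans ?_
    have h1 : (y + 1) / Real.log (y + 1) ≤ (2 * y) / (Real.log X / K) :=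
      div_le_div₀ (by linarith) (by linarith) hLK hlz
    calc A * ((y + 1) / Real.log (y + 1)) ≤ A * ((2 * y) / (Real.log X / K)) :=
          mul_le_mul_of_nonneg_left h1 (by linarith)
      _ = 2 * A * K * X / (d * Real.log X) := by
          rw [hy]
          field_simp

end P031
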