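import Vale.Agent.Lib.P031.BadSum
import Vale.Agent.Lib.P031.Crude
import Vale.Agent.Lib.P031.PiB

/-!
# P031 BadAB: counting the values with a bad preimage.

In both statements `w` is a totient value with `w ∣ v`, `w ≤ X ≤ EE σ`, `Om w ≤ 20 s`, so `∑ 1/w ≤ exp(σ^61)` (`crude`).
`bad_B`: for fixed `(w, n)` (both `≥ 1`) the number of `P0` is at most `C · 50 s · X/(w n log X)` (`pi_cheb` with `K = 50 s`,
`d = w n`); sum over `w` (`crude`) and `n` (`badN_sum`, `n ≤ X`).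
`bad_A`: for fixed `w` let `Z = X/w + 1`. If there is some `P0`, then `P0 ≤ Z`, so `log Z ≥ log X/(50 s)`, `Z ≥ exp exp(σ^110)`,
`Z ≤ exp exp (s + 1)` and `nonnormal_count` gives at most `Z/log Z exp(-2 σ^65) ≤ (2X/w)(50 s/log X) exp(-2 σ^65)`.
-/

namespace P031

open Finset Real

private theorem BadAB_pow {σ A : ℝ} (hσ : 3 ≤ σ) (hA : 2 * A ≤ σ) :
    A * σ ^ 120 ≤ Real.exp (σ ^ 62) := by
  have h1 : (1 : ℝ) ≤ σ := by linarith
  have h0 : 0 ≤ σ ^ 62 := by positivity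
  refine le_trans ?_ (Real.quadratic_le_exp_of_nonneg h0)
  have h2 : (σ ^ 62) ^ 2 = σ ^ 4 * σ ^ 120 := by ring
  have h3 : σ ≤ σ ^ 4 := by
    calc σ = σ ^ 1 := (pow_one σ).symm
      _ ≤ σ ^ 4 := pow_le_pow_right₀ h1 (by norm_num)
  have h4 : 0 < σ ^ 120 := by positivity
  have h5 : A * σ ^ 120 ≤ (σ ^ 4 / 2) * σ ^ 120 :=
    mul_le_mul_of_nonneg_right (by linarith) h4.le
  rw [h2]
  linarith

private theorem BadAB_le_EE {σ X : ℝ} {w : ℕ}
    (hX : X ≤ Real.exp (Real.exp (σ ^ 120 + 1 / 2))) (hw : (w : ℝ) ≤ X) : w ≤ EE σ := by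
  unfold EE
  apply Nat.le_floor
  refine hw.trans (hX.trans ?_)
  exact Real.exp_le_exp.mpr (Real.exp_le_exp.mpr (by linarith))

private theorem BadAB_X {σ X : ℝ} (hσ : 3 ≤ σ) (hX : Real.exp (Real.exp (σ ^ 120)) ≤ X) :
    σ ≤ X ∧ Real.exp (σ ^ 120) ≤ Real.log X := by
  have h1 : (1 : ℝ) ≤ σ := by linarith
  constructor
  · refine le_trans ?_ hX
    have h2 : σ ≤ σ ^ 120 := by
      calc σ = σ ^ 1 := (pow_one σ).symm
        _ ≤ σ ^ 120 := pow_le_pow_right₀ h1 (by norm_num)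
    have h3 := Real.add_one_le_exp (σ ^ 120)
    have h4 := Real.add_one_le_exp (Real.exp (σ ^ 120))
    linarith
  · rw [Real.le_log_iff_exp_le (lt_of_lt_of_le (Real.exp_pos _) hX)]
    exact hX

theorem bad_A : ∀ᶠ σ : ℝ in Filter.atTop, ∀ (X : ℝ) (S : Finset ℕ),
    Real.exp (Real.exp (σ ^ 120)) ≤ X → X ≤ Real.exp (Real.exp (σ ^ 120 + 1 / 2)) →
    (∀ v ∈ S, v ≠ 0 ∧ (v : ℝ) ≤ X ∧ (Om v : ℝ) ≤ 20 * σ ^ 120 ∧
      ∃ P0 w : ℕ, P0.Prime ∧ ¬ Normal σ P0 ∧ v = (P0 - 1) * w ∧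
      (∃ m : ℕ, Nat.totient m = w) ∧ Real.log X / (50 * σ ^ 120) ≤ Real.log (P0 : ℝ)) →
    (S.card : ℝ) ≤ X / Real.log X * Real.exp (-(σ ^ 64)) := by
  filter_upwards [nonnormal_count, crude, Filter.eventually_ge_atTop (1000 : ℝ)]
    with σ hcount hcrude hσ X S hX1 hX2 hS
  classical
  have h1 : (1 : ℝ) ≤ σ := by linarith
  obtain ⟨hσX, hlogX⟩ := BadAB_X (by linarith) hX1
  have hX0 : 0 < X := by linarith
  have hL0 : 0 < Real.log X := lt_of_lt_of_le (Real.exp_pos _) hlogX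
  have hs0 : 0 < σ ^ 120 := by positivity
  set M : ℕ := ⌊X⌋₊ with hM
  set W : Finset ℕ := (Finset.range (M + 1)).filter
    (fun w => w ≠ 0 ∧ (∃ m : ℕ, Nat.totient m = w) ∧ (Om w : ℝ) ≤ 20 * σ ^ 120) with hW
  set T : ℕ → Finset ℕ := fun w => (Finset.range (M + 2)).filter
    (fun P => P.Prime ∧ ¬ Normal σ P ∧ (((P - 1) * w : ℕ) : ℝ) ≤ X ∧
      Real.log X / (50 * σ ^ 120) ≤ Real.log (P : ℝ)) with hT
  have hcover : S ⊆ W.biUnion (fun w => (T w).image (fun P => (P - 1) * w)) := by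
    intro v hv
    obtain ⟨hv0, hvX, hvO, P0, w, hP, hnn, hvw, htot, hlog⟩ := hS v hv
    have hw0 : w ≠ 0 := by
      rintro rfl
      rw [mul_zero] at hvw
      exact hv0 hvw
    have hP1 : P0 - 1 ≠ 0 := by
      intro h
      rw [h, zero_mul] at hvw
      exact hv0 hvw
    have hvM : v ≤ M := Nat.le_floor hvX
    have hwM : w ≤ M := by
      refine le_trans ?_ hvM
      rw [hvw]
      exact Nat.le_mul_of_pos_left _ (Nat.pos_of_ne_zero hP1)
    have hPM : P0 - 1 ≤ M := by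
      refine le_trans ?_ hvM
      rw [hvw]
      exact Nat.le_mul_of_pos_right _ (Nat.pos_of_ne_zero hw0)
    rw [Finset.mem_biUnion]
    refine ⟨w, ?_, ?_⟩
    · rw [hW, Finset.mem_filter, Finset.mem_range]
      refine ⟨by omega, hw0, htot, ?_⟩
      have h2 : Om w ≤ Om v := Om_dvd (by rw [hvw]; exact Dvd.intro_left _ rfl) hv0
      have h3 : (Om w : ℝ) ≤ (Om v : ℝ) := by exact_mod_cast h2
      linarith
    · rw [Finset.mem_image]
      refine ⟨P0, ?_, hvw.symm⟩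
      rw [hT, Finset.mem_filter, Finset.mem_range]
      refine ⟨by omega, hP, hnn, ?_, hlog⟩
      rw [← hvw]
      exact hvX
  have hTc : ∀ w ∈ W, ((T w).card : ℝ) ≤
      (100 * σ ^ 120 * (X / Real.log X) * Real.exp (-(2 * σ ^ 65))) * (1 / (w : ℝ)) := by
    intro w hw
    rw [hW, Finset.mem_filter, Finset.mem_range] at hw
    obtain ⟨hwM, hw0, -, -⟩ := hw
    have hw1 : (1 : ℝ) ≤ (w : ℝ) := by exact_mod_cast Nat.pos_of_ne_zero hw0
    have hw00 : (0 : ℝ) < (w : ℝ) := by linarith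
    have hwX : (w : ℝ) ≤ X := by
      have h2 : (w : ℝ) ≤ (M : ℝ) := by exact_mod_cast (by omega : w ≤ M)
      exact h2.trans (Nat.floor_le hX0.le)
    rcases (T w).eq_empty_or_nonempty with h0 | ⟨P, hP⟩
    · rw [h0, Finset.card_empty, Nat.cast_zero]
      positivity
    obtain ⟨Z, hZ⟩ : ∃ Z : ℝ, Z = X / w + 1 := ⟨_, rfl⟩
    have hPZ : ∀ P ∈ T w, P.Prime ∧ (P : ℝ) ≤ Z ∧ ¬ Normal σ P := by
      intro P hP
      rw [hT, Finset.mem_filter] at hP
      obtain ⟨-, hPp, hPn, hPX, -⟩ := hP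
      refine ⟨hPp, ?_, hPn⟩
      rw [hZ]
      rw [Nat.cast_mul, Nat.cast_sub hPp.one_lt.le, Nat.cast_one, ← le_div_iff₀ hw00] at hPX
      linarith
    have hlogZ : Real.log X / (50 * σ ^ 120) ≤ Real.log Z := by
      have h2 := (hPZ P hP).2.1
      have h3 : (2 : ℝ) ≤ (P : ℝ) := by exact_mod_cast (hPZ P hP).1.two_le
      rw [hT, Finset.mem_filter] at hP
      exact hP.2.2.2.2.trans (Real.log_le_log (by linarith) h2)
    have hZ0 : 0 < Z := by
      rw [hZ]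
      positivity
    have hLK : 0 < Real.log X / (50 * σ ^ 120) := by positivity
    have hZ1 : Real.exp (Real.exp (σ ^ 110)) ≤ Z := by
      rw [← Real.le_log_iff_exp_le hZ0]
      refine le_trans ?_ hlogZ
      rw [le_div_iff₀ (by positivity)]
      refine le_trans ?_ hlogX
      have h2 := BadAB_pow (σ := σ) (A := 50) (by linarith) (by linarith)
      calc Real.exp (σ ^ 110) * (50 * σ ^ 120)
          ≤ Real.exp (σ ^ 110) * Real.exp (σ ^ 62) :=
            mul_le_mul_of_nonneg_left h2 (Real.exp_pos _).le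
        _ = Real.exp (σ ^ 110 + σ ^ 62) := by rw [Real.exp_add]
        _ ≤ Real.exp (σ ^ 120) := by
            apply Real.exp_le_exp.mpr
            have h3 : σ ^ 62 ≤ σ ^ 110 := pow_le_pow_right₀ h1 (by norm_num)
            have h4 : σ ^ 120 = σ ^ 110 * σ ^ 10 := by ring
            have h5 : σ ≤ σ ^ 10 := by
              calc σ = σ ^ 1 := (pow_one σ).symm
                _ ≤ σ ^ 10 := pow_le_pow_right₀ h1 (by norm_num)
            have h6 : 0 < σ ^ 110 := by positivity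
            rw [h4]
            nlinarith only [hσ, h3, h5, h6]
    have hZ2X : Z ≤ 2 * X / w := by
      rw [hZ]
      have h2 : 1 ≤ X / w := by rwa [one_le_div hw00]
      have h3 : 2 * X / w = X / w + X / w := by ring
      linarith
    have hZ2 : Z ≤ Real.exp (Real.exp (σ ^ 120 + 1)) := by
      have h2 : 2 * X / w ≤ 2 * X := div_le_self (by linarith) hw1
      refine hZ2X.trans (h2.trans ?_)
      have h3 : 2 * X ≤ Real.exp 1 * Real.exp (Real.exp (σ ^ 120 + 1 / 2)) := by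
        refine mul_le_mul ?_ hX2 hX0.le (Real.exp_pos _).le
        have := Real.add_one_le_exp (1 : ℝ)
        linarith
      refine h3.trans ?_
      rw [← Real.exp_add]
      apply Real.exp_le_exp.mpr
      have h4 : Real.exp (σ ^ 120 + 1) = Real.exp (1 / 2) * Real.exp (σ ^ 120 + 1 / 2) := by
        rw [← Real.exp_add]
        congr 1
        ring
      have h5 := Real.add_one_le_exp (1 / 2 : ℝ)
      have h6 := Real.add_one_le_exp (σ ^ 120 + 1 / 2)
      have h7 : (1 : ℝ) ≤ σ ^ 120 := one_le_pow₀ h1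
      rw [h4]
      nlinarith only [h5, h6, h7]
    have hc := hcount Z (T w) hZ1 hZ2 hPZ
    refine hc.trans ?_
    have h2 : Z / Real.log Z ≤ (2 * X / w) / (Real.log X / (50 * σ ^ 120)) :=
      div_le_div₀ (by positivity) hZ2X hLK hlogZ
    have h3 : (2 * X / w) / (Real.log X / (50 * σ ^ 120)) =
        100 * σ ^ 120 * (X / Real.log X) * (1 / (w : ℝ)) := by
      field_simp
      ring
    rw [h3] at h2
    have h4 := mul_le_mul_of_nonneg_right h2 (Real.exp_pos (-(2 * σ ^ 65))).le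
    refine h4.trans (le_of_eq ?_)
    ring
  have hsumW : ∑ w ∈ W, 1 / (w : ℝ) ≤ Real.exp (σ ^ 61) := by
    apply hcrude
    intro w hw
    rw [hW, Finset.mem_filter, Finset.mem_range] at hw
    refine ⟨hw.2.1, ?_, hw.2.2.1, hw.2.2.2⟩
    refine BadAB_le_EE hX2 ?_
    have h2 : (w : ℝ) ≤ (M : ℝ) := by exact_mod_cast (by omega : w ≤ M)
    exact h2.trans (Nat.floor_le hX0.le)
  have hcard : (S.card : ℝ) ≤ ∑ w ∈ W, ((T w).card : ℝ) := by
    have h2 : S.card ≤ ∑ w ∈ W, (T w).card := by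
      refine (Finset.card_le_card hcover).trans (Finset.card_biUnion_le.trans ?_)
      exact Finset.sum_le_sum fun w _ => Finset.card_image_le
    exact_mod_cast h2
  refine hcard.trans ((Finset.sum_le_sum hTc).trans ?_)
  rw [← Finset.mul_sum]
  have hXL : 0 < X / Real.log X := by positivity
  have h2 : (100 * σ ^ 120 * (X / Real.log X) * Real.exp (-(2 * σ ^ 65))) *
      ∑ w ∈ W, 1 / (w : ℝ) ≤
      (100 * σ ^ 120 * (X / Real.log X) * Real.exp (-(2 * σ ^ 65))) * Real.exp (σ ^ 61) :=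
    mul_le_mul_of_nonneg_left hsumW (by positivity)
  refine h2.trans ?_
  have h3 : (100 * σ ^ 120 * (X / Real.log X) * Real.exp (-(2 * σ ^ 65))) * Real.exp (σ ^ 61) =
      X / Real.log X * ((100 * σ ^ 120) * (Real.exp (-(2 * σ ^ 65)) * Real.exp (σ ^ 61))) := by
    ring
  rw [h3]
  refine mul_le_mul_of_nonneg_left ?_ hXL.le
  have h4 := BadAB_pow (σ := σ) (A := 100) (by linarith) (by linarith)
  rw [← Real.exp_add]
  refine (mul_le_mul_of_nonneg_right h4 (Real.exp_pos _).le).trans ?_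
  rw [← Real.exp_add]
  apply Real.exp_le_exp.mpr
  have h5 : σ ^ 62 ≤ σ ^ 64 := pow_le_pow_right₀ h1 (by norm_num)
  have h6 : σ ^ 61 ≤ σ ^ 64 := pow_le_pow_right₀ h1 (by norm_num)
  have h7 : σ ^ 65 = σ * σ ^ 64 := by ring
  have h8 : 0 < σ ^ 64 := by positivity
  rw [h7]
  nlinarith only [hσ, h6, h8]

theorem bad_B : ∀ᶠ σ : ℝ in Filter.atTop, ∀ (X : ℝ) (S : Finset ℕ),
    Real.exp (Real.exp (σ ^ 120)) ≤ X → X ≤ Real.exp (Real.exp (σ ^ 120 + 1 / 2)) →
    (∀ v ∈ S, v ≠ 0 ∧ (v : ℝ) ≤ X ∧ (Om v : ℝ) ≤ 20 * σ ^ 120 ∧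
      ∃ P0 w n : ℕ, P0.Prime ∧ v = (P0 - 1) * (w * n) ∧
      (∃ m : ℕ, Nat.totient m = w) ∧ Real.log X / (50 * σ ^ 120) ≤ Real.log (P0 : ℝ) ∧ BadN σ n) →
    (S.card : ℝ) ≤ X / Real.log X * Real.exp (-(σ ^ 63)) := by
  obtain ⟨C, hC, hcheb⟩ := pi_cheb
  filter_upwards [badN_sum, crude, Filter.eventually_ge_atTop (1000 : ℝ),
    Filter.eventually_ge_atTop (100 * C)] with σ hbad hcrude hσ hσC X S hX1 hX2 hS
  classical
  have h1 : (1 : ℝ) ≤ σ := by linarith
  obtain ⟨hσX, hlogX⟩ := BadAB_X (by linarith) hX1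
  have hX0 : 0 < X := by linarith
  have hL0 : 0 < Real.log X := lt_of_lt_of_le (Real.exp_pos _) hlogX
  have hs0 : 0 < σ ^ 120 := by positivity
  have hs1 : (1 : ℝ) ≤ σ ^ 120 := one_le_pow₀ h1
  set M : ℕ := ⌊X⌋₊ with hM
  set W : Finset ℕ := (Finset.range (M + 1)).filter
    (fun w => w ≠ 0 ∧ (∃ m : ℕ, Nat.totient m = w) ∧ (Om w : ℝ) ≤ 20 * σ ^ 120) with hW
  set B : Finset ℕ := (Finset.range (M + 1)).filter (fun n => BadN σ n) with hB
  set T : ℕ × ℕ → Finset ℕ := fun q => (Finset.range (M + 2)).filter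
    (fun P => P.Prime ∧ (((P - 1) * (q.1 * q.2) : ℕ) : ℝ) ≤ X ∧
      Real.log X / (50 * σ ^ 120) ≤ Real.log (P : ℝ)) with hT
  have hcover : S ⊆ (W ×ˢ B).biUnion (fun q => (T q).image (fun P => (P - 1) * (q.1 * q.2))) := by
    intro v hv
    obtain ⟨hv0, hvX, hvO, P0, w, n, hP, hvw, htot, hlog, hbn⟩ := hS v hv
    have hwn0 : w * n ≠ 0 := by
      intro h
      rw [h, mul_zero] at hvw
      exact hv0 hvw
    have hw0 : w ≠ 0 := fun h => hwn0 (by rw [h, zero_mul])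
    have hn0 : n ≠ 0 := fun h => hwn0 (by rw [h, mul_zero])
    have hP1 : P0 - 1 ≠ 0 := by
      intro h
      rw [h, zero_mul] at hvw
      exact hv0 hvw
    have hvM : v ≤ M := Nat.le_floor hvX
    have hwnM : w * n ≤ M := by
      refine le_trans ?_ hvM
      rw [hvw]
      exact Nat.le_mul_of_pos_left _ (Nat.pos_of_ne_zero hP1)
    have hwM : w ≤ M := (Nat.le_mul_of_pos_right _ (Nat.pos_of_ne_zero hn0)).trans hwnM
    have hnM : n ≤ M := (Nat.le_mul_of_pos_left _ (Nat.pos_of_ne_zero hw0)).trans hwnM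
    have hPM : P0 - 1 ≤ M := by
      refine le_trans ?_ hvM
      rw [hvw]
      exact Nat.le_mul_of_pos_right _ (Nat.pos_of_ne_zero hwn0)
    rw [Finset.mem_biUnion]
    refine ⟨(w, n), ?_, ?_⟩
    · rw [Finset.mem_product, hW, hB, Finset.mem_filter, Finset.mem_filter, Finset.mem_range,
        Finset.mem_range]
      refine ⟨⟨Nat.lt_succ_of_le hwM, hw0, htot, ?_⟩, Nat.lt_succ_of_le hnM, hbn⟩
      have h2 : Om w ≤ Om v := Om_dvd (by
        rw [hvw]
        exact (Dvd.intro _ rfl).trans (Dvd.intro_left _ rfl)) hv0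
      have h3 : (Om w : ℝ) ≤ (Om v : ℝ) := by exact_mod_cast h2
      simp only
      linarith
    · rw [Finset.mem_image]
      refine ⟨P0, ?_, hvw.symm⟩
      rw [hT, Finset.mem_filter, Finset.mem_range]
      refine ⟨by omega, hP, ?_, hlog⟩
      rw [← hvw]
      exact hvX
  have hTc : ∀ q ∈ W ×ˢ B, ((T q).card : ℝ) ≤
      (50 * C * σ ^ 120 * (X / Real.log X)) * ((1 / (q.1 : ℝ)) * (1 / (q.2 : ℝ))) := by
    intro q hq
    rw [Finset.mem_product, hW, hB, Finset.mem_filter, Finset.mem_filter] at hq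
    obtain ⟨⟨-, hw0, -⟩, -, hbn⟩ := hq
    have hn0 : q.2 ≠ 0 := hbn.1
    have hd : 1 ≤ q.1 * q.2 := Nat.one_le_iff_ne_zero.mpr (mul_ne_zero hw0 hn0)
    have hc := hcheb X (50 * σ ^ 120) (q.1 * q.2) (T q) (by linarith) (by linarith) hd (by
      intro P hP
      rw [hT, Finset.mem_filter] at hP
      exact hP.2)
    refine hc.trans (le_of_eq ?_)
    have hw1 : (q.1 : ℝ) ≠ 0 := by exact_mod_cast hw0
    have hn1 : (q.2 : ℝ) ≠ 0 := by exact_mod_cast hn0
    push_cast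
    field_simp
  have hsumW : ∑ w ∈ W, 1 / (w : ℝ) ≤ Real.exp (σ ^ 61) := by
    apply hcrude
    intro w hw
    rw [hW, Finset.mem_filter, Finset.mem_range] at hw
    refine ⟨hw.2.1, ?_, hw.2.2.1, hw.2.2.2⟩
    refine BadAB_le_EE hX2 ?_
    have h2 : (w : ℝ) ≤ (M : ℝ) := by exact_mod_cast (by omega : w ≤ M)
    exact h2.trans (Nat.floor_le hX0.le)
  have hsumB : ∑ n ∈ B, 1 / (n : ℝ) ≤ Real.exp (-(σ ^ 64)) := by
    apply hbad
    intro n hn
    exact (Finset.mem_filter.mp hn).2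
  have hcard : (S.card : ℝ) ≤ ∑ q ∈ W ×ˢ B, ((T q).card : ℝ) := by
    have h2 : S.card ≤ ∑ q ∈ W ×ˢ B, (T q).card := by
      refine (Finset.card_le_card hcover).trans (Finset.card_biUnion_le.trans ?_)
      exact Finset.sum_le_sum fun w _ => Finset.card_image_le
    exact_mod_cast h2
  refine hcard.trans ((Finset.sum_le_sum hTc).trans ?_)
  rw [← Finset.mul_sum, Finset.sum_product]
  have hprod : ∑ w ∈ W, ∑ n ∈ B, (1 / (w : ℝ)) * (1 / (n : ℝ)) =
      (∑ w ∈ W, 1 / (w : ℝ)) * ∑ n ∈ B, 1 / (n : ℝ) := by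
    rw [Finset.sum_mul_sum]
  simp only
  rw [hprod]
  have hXL : 0 < X / Real.log X := by positivity
  have hWB : (∑ w ∈ W, 1 / (w : ℝ)) * ∑ n ∈ B, 1 / (n : ℝ) ≤
      Real.exp (σ ^ 61) * Real.exp (-(σ ^ 64)) :=
    mul_le_mul hsumW hsumB (Finset.sum_nonneg fun n _ => by positivity) (Real.exp_pos _).le
  have hC0 : 0 < C := by linarith
  have h2 := mul_le_mul_of_nonneg_left hWB
    (show (0 : ℝ) ≤ 50 * C * σ ^ 120 * (X / Real.log X) by positivity)
  refine h2.trans ?_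
  have h3 : 50 * C * σ ^ 120 * (X / Real.log X) * (Real.exp (σ ^ 61) * Real.exp (-(σ ^ 64))) =
      X / Real.log X * (((50 * C) * σ ^ 120) * (Real.exp (σ ^ 61) * Real.exp (-(σ ^ 64)))) := by
    ring
  rw [h3]
  refine mul_le_mul_of_nonneg_left ?_ hXL.le
  have h4 := BadAB_pow (σ := σ) (A := 50 * C) (by linarith) (by linarith)
  rw [← Real.exp_add]
  refine (mul_le_mul_of_nonneg_right h4 (Real.exp_pos _).le).trans ?_
  rw [← Real.exp_add]
  apply Real.exp_le_exp.mpr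
  have h5 : σ ^ 62 ≤ σ ^ 63 := pow_le_pow_right₀ h1 (by norm_num)
  have h6 : σ ^ 61 ≤ σ ^ 63 := pow_le_pow_right₀ h1 (by norm_num)
  have h7 : σ ^ 64 = σ * σ ^ 63 := by ring
  have h8 : 0 < σ ^ 63 := by positivity
  rw [h7]
  nlinarith only [hσ, h5, h6, h8]

end P031
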