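import Vale.Agent.Lib.P031.BadDefs
import Vale.Agent.Lib.P031.WFacts

/-!
# P031 BadCases: shape of the totient values with a bad preimage.

Let `v = φ(N)`, `P0 = maxp N`. `Om N ≤ Om v + 1 ≤ 20 s + 1` (`Om_le_tot`), `√X < v ≤ N ≤ P0 ^ (Om N)` (`le_maxp_pow`), so
`log P0 ≥ log X/(2 (20 s + 1)) ≥ log X/(50 s)`; in particular `ll P0 ≥ s - log(50 s) > σ^119 + 1`, and `P0 - 1 ≤ v ≤ X` so
`P0 ≤ EE σ`. Primes `p ∣ N` with `ll p > σ^111` divide `N` exactly once (`not_sq_of_Rg`).
`¬ GoodPre σ N` means one of: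
(1) some `p ∣ N`, `ll p > σ^111`, is not normal. If `p = P0`: first alternative with `w = φ(N/P0)`. If `p ≠ P0`:
`N = P0 p N'`, coprime, `v = (P0-1) φ(N') (p-1)`, `n = p - 1`.
(2) `Om (φ(lowp (σ^111) N)) > σ^113`: `N = P0 · h · lowp (σ^111) N` pairwise coprime, `v = (P0-1) φ(h) n`,
`n = φ(lowp (σ^111) N)`; its prime factors are `≤ maxp (lowp …)` (`prime_dvd_tot_le`).
(3) `II σ (φ(lowp t N)) > (1 + 2/σ^4) t` for some real `t ≥ σ^119`. If `t ≥ ll P0` then `lowp t N = N` and
`II σ v > (1 + 2/σ^4)(s - log (50 s)) ≥ (1 + 1/σ^4) s`: third alternative. If `t < ll P0`: as in (2) with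
`n = φ(lowp t N)` and the integer `⌈t⌉₊`; `Om n ≤ Om v`.
-/

namespace P031

open Finset Real

private theorem badcases_log {σ : ℝ} (hσ : 1 ≤ σ) : Real.log (50 * σ ^ 120) ≤ 120 * σ := by
  have h0 : 0 < σ := by linarith
  rw [Real.log_mul (by norm_num) (by positivity), Real.log_pow]
  have h1 := Real.log_le_sub_one_of_pos (show (0 : ℝ) < 50 by norm_num)
  have h2 := Real.log_le_sub_one_of_pos h0
  push_cast
  linarith

/-- the part of `M` composed of primes above the bound -/
private theorem badcases_split (t : ℝ) {M : ℕ} (hM : M ≠ 0) :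
    ∃ h : ℕ, h ≠ 0 ∧ M = lowp t M * h ∧
      Nat.totient M = Nat.totient (lowp t M) * Nat.totient h := by
  classical
  set h := ∏ p ∈ M.primeFactors.filter (fun p => ¬ ll p ≤ t), p ^ M.factorization p with hh
  have hmul : M = lowp t M * h := by
    have h1 := Nat.prod_factorization_pow_eq_self hM
    rw [Finsupp.prod, Nat.support_factorization] at h1
    have h2 := Finset.prod_filter_mul_prod_filter_not M.primeFactors (fun p => ll p ≤ t)
      (fun p => p ^ M.factorization p)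
    rw [h1] at h2
    exact h2.symm
  have hh0 : h ≠ 0 := by
    intro h0
    rw [h0, mul_zero] at hmul
    exact hM hmul
  have hcop : Nat.Coprime (lowp t M) h := by
    unfold lowp
    rw [hh]
    refine Nat.Coprime.prod_left fun p hp => Nat.Coprime.prod_right fun q hq => ?_
    rw [Finset.mem_filter] at hp hq
    refine Nat.Coprime.pow _ _ ?_
    rw [Nat.coprime_primes (Nat.prime_of_mem_primeFactors hp.1)
      (Nat.prime_of_mem_primeFactors hq.1)]
    rintro rfl
    exact hq.2 hp.2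
  refine ⟨h, hh0, hmul, ?_⟩
  conv_lhs => rw [hmul]
  exact Nat.totient_mul hcop

/-- prime factors of the totient of a smooth part are small -/
private theorem badcases_smooth {t : ℝ} {M q : ℕ} (hM : M ≠ 0)
    (hq : q ∈ (Nat.totient (lowp t M)).primeFactors) :
    ∃ p ∈ M.primeFactors, ll p ≤ t ∧ ll q ≤ ll p := by
  have hq' := Nat.prime_of_mem_primeFactors hq
  have hqd := Nat.dvd_of_mem_primeFactors hq
  have hL0 := lowp_ne_zero t M
  have hle := prime_dvd_tot_le hL0 hq' hqd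
  have hL1 : 1 < lowp t M := by
    rcases Nat.lt_or_ge 1 (lowp t M) with h | h
    · exact h
    · exfalso
      have h1 : lowp t M = 1 := le_antisymm h (Nat.pos_of_ne_zero hL0)
      rw [h1, Nat.totient_one] at hqd
      exact hq'.one_lt.ne' (Nat.dvd_one.1 hqd)
  have hmem := tot_maxp_mem hL1
  rw [lowp_primeFactors t hM] at hmem
  exact ⟨maxp (lowp t M), hmem.1, hmem.2, ll_mono hq'.two_le hle⟩

theorem bad_cases : ∀ᶠ σ : ℝ in Filter.atTop, ∀ (X : ℝ) (N : ℕ),
    Real.exp (Real.exp (σ ^ 120)) ≤ X → X ≤ Real.exp (Real.exp (σ ^ 120 + 1 / 2)) →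
    Rg σ (Nat.totient N) → Real.sqrt X < (Nat.totient N : ℝ) → (Nat.totient N : ℝ) ≤ X →
    ¬ GoodPre σ N →
    (∃ P0 w : ℕ, P0.Prime ∧ ¬ Normal σ P0 ∧ Nat.totient N = (P0 - 1) * w ∧
      (∃ m : ℕ, Nat.totient m = w) ∧ Real.log X / (50 * σ ^ 120) ≤ Real.log (P0 : ℝ)) ∨
    (∃ P0 w n : ℕ, P0.Prime ∧ Nat.totient N = (P0 - 1) * (w * n) ∧
      (∃ m : ℕ, Nat.totient m = w) ∧ Real.log X / (50 * σ ^ 120) ≤ Real.log (P0 : ℝ) ∧ BadN σ n) ∨
    (1 + 1 / σ ^ 4) * σ ^ 120 ≤ II σ (Nat.totient N) := by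
  filter_upwards [Filter.eventually_ge_atTop (122 : ℝ)] with σ hσ X N hX1 hX2 hR hsq hvX hbad
  have hσ1 : (1 : ℝ) ≤ σ := by linarith
  have hσ0 : (0 : ℝ) < σ := by linarith
  have hs1 : (1 : ℝ) ≤ σ ^ 120 := one_le_pow₀ hσ1
  have hlog50 := badcases_log hσ1
  have hE2 : 120 * σ + 1 + σ ^ 119 ≤ σ ^ 120 := by
    have e1 : σ ^ 120 = σ * σ ^ 119 := by ring
    have e2 : σ ≤ σ ^ 119 := le_self_pow₀ hσ1 (by norm_num)
    have e3 : 122 * σ ^ 119 ≤ σ * σ ^ 119 := mul_le_mul_of_nonneg_right hσ (by positivity)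
    rw [e1]
    linarith
  have h119 : σ ^ 111 ≤ σ ^ 119 := pow_le_pow_right₀ hσ1 (by norm_num)
  have hE3 : (1 + 1 / σ ^ 4) * σ ^ 120 ≤ (1 + 2 / σ ^ 4) * (σ ^ 120 - 120 * σ) := by
    have e1 : (1 + 2 / σ ^ 4) * (σ ^ 120 - 120 * σ) - (1 + 1 / σ ^ 4) * σ ^ 120 =
        (σ ^ 120 - 240 * σ) / σ ^ 4 - 120 * σ := by
      field_simp
      ring
    have e2 : 120 * σ ≤ (σ ^ 120 - 240 * σ) / σ ^ 4 := by
      rw [le_div_iff₀ (by positivity)]
      have e3 : σ ^ 120 = σ ^ 115 * σ ^ 5 := by ring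
      have e4 : (360 : ℝ) ≤ σ ^ 115 := by
        have : σ ^ 2 ≤ σ ^ 115 := pow_le_pow_right₀ hσ1 (by norm_num)
        nlinarith only [hσ, this]
      have e5 : 120 * σ * σ ^ 4 = 120 * σ ^ 5 := by ring
      have e6 : 360 * σ ^ 5 ≤ σ ^ 115 * σ ^ 5 := mul_le_mul_of_nonneg_right e4 (by positivity)
      have e7 : σ ≤ σ ^ 5 := le_self_pow₀ hσ1 (by norm_num)
      rw [e5, e3]
      linarith
    linarith
  -- the value
  have hX0 : 0 < X := lt_of_lt_of_le (Real.exp_pos _) hX1
  have hlogX1 : Real.exp (σ ^ 120) ≤ Real.log X := by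
    rw [Real.le_log_iff_exp_le hX0]
    exact hX1
  have hlogX0 : 0 < Real.log X := lt_of_lt_of_le (Real.exp_pos _) hlogX1
  have hllX : σ ^ 120 ≤ Real.log (Real.log X) := by
    rw [Real.le_log_iff_exp_le hlogX0]
    exact hlogX1
  have hN0 : N ≠ 0 := by
    rintro rfl
    exact absurd hR.1 (by simp)
  have hsqX : 1 ≤ Real.sqrt X := by
    rw [Real.one_le_sqrt]
    have e1 := Real.add_one_le_exp (Real.exp (σ ^ 120))
    have e2 := Real.exp_pos (σ ^ 120)
    linarith
  have hv1 : 1 < Nat.totient N := by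
    have : (1 : ℝ) < (Nat.totient N : ℝ) := lt_of_le_of_lt hsqX hsq
    exact_mod_cast this
  have hN1 : 1 < N := lt_of_lt_of_le hv1 (Nat.totient_le N)
  have hP := maxp_prime hN1
  have hPN := maxp_dvd hN1
  obtain ⟨P, hPdef⟩ : ∃ P, P = maxp N := ⟨_, rfl⟩
  rw [← hPdef] at hP hPN
  have hP2 : (2 : ℝ) ≤ P := by exact_mod_cast hP.two_le
  have hlogP : 0 < Real.log (P : ℝ) := Real.log_pos (by linarith)
  -- size of the largest prime
  have hsize : Real.log X / (50 * σ ^ 120) ≤ Real.log (P : ℝ) := by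
    have e1 : (Nat.totient N : ℝ) ≤ (P : ℝ) ^ (Om N) := by
      have : Nat.totient N ≤ P ^ (Om N) := by
        rw [hPdef]
        exact (Nat.totient_le N).trans (le_maxp_pow hN0)
      exact_mod_cast this
    have e2 : Real.log (Real.sqrt X) ≤ Om N * Real.log (P : ℝ) := by
      rw [← Real.log_pow]
      exact Real.log_le_log (by linarith) (hsq.le.trans e1)
    rw [Real.log_sqrt hX0.le] at e2
    have e3 : (Om N : ℝ) ≤ 20 * σ ^ 120 + 1 := by
      have e4 : (Om N : ℝ) ≤ (Om (Nat.totient N) : ℝ) + 1 := by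
        exact_mod_cast Om_le_tot hN0
      linarith [hR.2.1]
    have e4 : (Om N : ℝ) * Real.log (P : ℝ) ≤ (25 * σ ^ 120) * Real.log (P : ℝ) :=
      mul_le_mul_of_nonneg_right (by linarith) hlogP.le
    rw [div_le_iff₀ (by positivity)]
    linarith
  have hllP : σ ^ 120 - 120 * σ ≤ ll P := by
    have e1 : Real.log (Real.log X / (50 * σ ^ 120)) ≤ ll P := by
      unfold ll
      exact Real.log_le_log (by positivity) hsize
    rw [Real.log_div hlogX0.ne' (by positivity)] at e1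
    linarith
  have hllP' : σ ^ 119 + 1 ≤ ll P := by linarith
  have hPlow : σ ^ 111 < ll P := by linarith
  -- prime factors of `N` are bounded
  have hEE : ∀ p ∈ N.primeFactors, p ≤ EE σ := by
    intro p hp
    have hpp := Nat.prime_of_mem_primeFactors hp
    have e1 : (p - 1) ∣ Nat.totient N := by
      rw [← Nat.totient_prime hpp]
      exact Nat.totient_dvd_of_dvd (Nat.dvd_of_mem_primeFactors hp)
    have e2 := Nat.le_of_dvd (by omega) e1
    have e3 : p ≤ Nat.totient N + 1 := by omega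
    have e4 : (p : ℝ) ≤ X + 1 := by
      have : (p : ℝ) ≤ (Nat.totient N : ℝ) + 1 := by exact_mod_cast e3
      linarith
    unfold EE
    apply Nat.le_floor
    refine e4.trans ?_
    have e5 : Real.exp (σ ^ 120 + 1 / 2) + 1 ≤ Real.exp (σ ^ 120 + 1) := by
      have f1 : σ ^ 120 + 1 = (σ ^ 120 + 1 / 2) + 1 / 2 := by ring
      rw [f1, Real.exp_add (σ ^ 120 + 1 / 2)]
      have f2 : (3 / 2 : ℝ) ≤ Real.exp (1 / 2) := by
        have := Real.add_one_le_exp (1 / 2 : ℝ)
        linarith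
      have f3 : (2 : ℝ) ≤ Real.exp (σ ^ 120 + 1 / 2) := by
        have := Real.add_one_le_exp (σ ^ 120 + 1 / 2)
        linarith
      nlinarith only [f2, f3]
    have e6 : Real.exp (Real.exp (σ ^ 120 + 1 / 2)) + 1 ≤
        Real.exp (Real.exp (σ ^ 120 + 1)) := by
      have f1 : Real.exp (Real.exp (σ ^ 120 + 1 / 2) + 1) ≤ Real.exp (Real.exp (σ ^ 120 + 1)) :=
        Real.exp_le_exp.2 e5
      rw [Real.exp_add] at f1
      have f2 : (2 : ℝ) ≤ Real.exp 1 := by
        have := Real.add_one_le_exp (1 : ℝ)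
        linarith
      have f3 : (1 : ℝ) ≤ Real.exp (Real.exp (σ ^ 120 + 1 / 2)) :=
        Real.one_le_exp (Real.exp_pos _).le
      nlinarith only [f1, f2, f3]
    linarith
  have hPmem : P ∈ N.primeFactors := Nat.mem_primeFactors.2 ⟨hP, hPN, hN0⟩
  have hllPle : ll P ≤ σ ^ 120 + 1 := (le_EE_iff hP.two_le).1 (hEE P hPmem)
  -- splitting off the largest prime
  obtain ⟨M, hNM⟩ := hPN
  have hM0 : M ≠ 0 := by
    rintro rfl
    rw [mul_zero] at hNM
    exact hN0 hNM
  have hPM : ¬ P ∣ M := by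
    intro hd
    refine not_sq_of_Rg hR hP hPlow ?_
    rw [hNM, pow_two]
    exact mul_dvd_mul_left _ hd
  have htot : Nat.totient N = (P - 1) * Nat.totient M := by
    rw [hNM]
    exact tot_mul_prime hP hPM
  have hv0 : Nat.totient N ≠ 0 := by omega
  -- the middle case
  have hmiddle : ∀ (t : ℝ), t < ll P → ∀ L, L = lowp t N → BadN σ (Nat.totient L) →
      ∃ P0 w n : ℕ, P0.Prime ∧ Nat.totient N = (P0 - 1) * (w * n) ∧
      (∃ m : ℕ, Nat.totient m = w) ∧ Real.log X / (50 * σ ^ 120) ≤ Real.log (P0 : ℝ) ∧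
        BadN σ n := by
    intro t ht L hL hB
    have e1 : lowp t N = lowp t M := by
      rw [hNM]
      exact lowp_mul_prime_of_lt hP hPM hM0 ht
    obtain ⟨h, -, -, hh3⟩ := badcases_split t hM0
    refine ⟨P, Nat.totient h, Nat.totient L, hP, ?_, ⟨h, rfl⟩, hsize, hB⟩
    rw [htot, hh3, hL, e1, mul_comm (Nat.totient h)]
  -- the three cases
  unfold GoodPre at hbad
  by_cases hA : ∀ p ∈ N.primeFactors, σ ^ 111 < ll p → Normal σ p
  · by_cases hB : (Om (Nat.totient (lowp (σ ^ 111) N)) : ℝ) ≤ σ ^ 113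
    · -- the third case
      have hC : ∃ t : ℝ, σ ^ 119 ≤ t ∧ (1 + 2 / σ ^ 4) * t < II σ (Nat.totient (lowp t N)) := by
        by_contra hcon
        push Not at hcon
        exact hbad ⟨hA, hB, hcon⟩
      obtain ⟨t, ht1, ht2⟩ := hC
      rcases le_or_gt (ll P) t with h | h
      · right
        right
        have e1 : lowp t N = N := by
          apply lowp_eq_self hN0
          intro q hq
          refine (ll_mono (Nat.prime_of_mem_primeFactors hq).two_le ?_).trans h
          rw [hPdef]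
          exact le_maxp hq
        rw [e1] at ht2
        refine hE3.trans (le_trans ?_ ht2.le)
        apply mul_le_mul_of_nonneg_left (by linarith) (by positivity)
      · right
        left
        refine hmiddle t h _ rfl ?_
        have ht0 : 0 ≤ t := le_trans (by positivity) ht1
        have hL0 := lowp_ne_zero t N
        refine ⟨(Nat.totient_pos.2 (Nat.pos_of_ne_zero hL0)).ne', Or.inr (Or.inr ?_)⟩
        have hceil : (⌈t⌉₊ : ℝ) < t + 1 := Nat.ceil_lt_add_one ht0
        refine ⟨⌈t⌉₊, ht1.trans (Nat.le_ceil t), by linarith, ?_, ?_, ?_⟩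
        · intro q hq
          obtain ⟨p, hp, hpt, hqp⟩ := badcases_smooth hN0 hq
          exact ⟨(hqp.trans hpt).trans (Nat.le_ceil t), by linarith⟩
        · refine le_trans ?_ hR.2.1
          exact_mod_cast Om_dvd (Nat.totient_dvd_of_dvd (lowp_dvd t hN0)) hv0
        · refine le_trans ?_ ht2.le
          apply mul_le_mul_of_nonneg_left (by linarith) (by positivity)
    · -- the second case
      push Not at hB
      right
      left
      refine hmiddle (σ ^ 111) hPlow _ rfl ?_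
      have hL0 := lowp_ne_zero (σ ^ 111) N
      refine ⟨(Nat.totient_pos.2 (Nat.pos_of_ne_zero hL0)).ne', Or.inr (Or.inl ⟨?_, hB⟩)⟩
      intro q hq
      obtain ⟨p, hp, hpt, hqp⟩ := badcases_smooth hN0 hq
      exact hqp.trans hpt
  · -- the first case
    push Not at hA
    obtain ⟨p, hp, hpl, hpn⟩ := hA
    have hpp := Nat.prime_of_mem_primeFactors hp
    by_cases hpP : p = P
    · left
      refine ⟨P, Nat.totient M, hP, ?_, htot, ⟨M, rfl⟩, hsize⟩
      rw [← hpP]
      exact hpn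
    · right
      left
      have hpM : p ∣ M := by
        have e1 := Nat.dvd_of_mem_primeFactors hp
        rw [hNM] at e1
        rcases (Nat.Prime.dvd_mul hpp).1 e1 with e2 | e2
        · exact absurd ((Nat.prime_dvd_prime_iff_eq hpp hP).1 e2) hpP
        · exact e2
      obtain ⟨K, hMK⟩ := hpM
      have hpK : ¬ p ∣ K := by
        intro hd
        refine not_sq_of_Rg hR hpp hpl ?_
        rw [hNM, hMK, pow_two]
        exact (mul_dvd_mul_left _ hd).mul_left _
      refine ⟨P, Nat.totient K, p - 1, hP, ?_, ⟨K, rfl⟩, hsize, ?_⟩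
      · rw [htot, hMK, tot_mul_prime hpp hpK, mul_comm (p - 1)]
      · refine ⟨?_, Or.inl ⟨p, hpp, hEE p hp, hpl, hpn, rfl⟩⟩
        have := hpp.two_le
        omega

end P031
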