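import Vale.Agent.Lib.P031.Defs
import Vale.Agent.Lib.P031.MertBase

/-!
# P031 Mert: the second theorem of Mertens on the log log scale, with weights `1/(p-1)`.
Input: `mertens_second_nat'` of `P031/MertBase.lean` (error `20`), and
`∑ (1/(p-1) - 1/p) ≤ 1`.
-/

namespace P031

open Finset Real

/-- primes with `α ≤ ll p < β` -/
noncomputable def PI (α β : ℝ) : Finset ℕ :=
  (Finset.range (⌊Real.exp (Real.exp β)⌋₊ + 1)).filter
    (fun p => p.Prime ∧ α ≤ ll p ∧ ll p < β)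

theorem mert_ll_le {p : ℕ} (hp : p.Prime) (α : ℝ) :
    α ≤ ll p ↔ Real.exp (Real.exp α) ≤ p := by
  have hp2 : (2 : ℝ) ≤ p := by exact_mod_cast hp.two_le
  have hl : 0 < Real.log p := Real.log_pos (by linarith)
  unfold ll
  rw [Real.le_log_iff_exp_le hl, Real.le_log_iff_exp_le (by linarith)]

theorem mert_ll_lt {p : ℕ} (hp : p.Prime) (β : ℝ) :
    ll p < β ↔ (p : ℝ) < Real.exp (Real.exp β) := by
  rw [← not_le, mert_ll_le hp, not_le]

theorem mert_le_ll {p : ℕ} (hp : p.Prime) (β : ℝ) :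
    ll p ≤ β ↔ (p : ℝ) ≤ Real.exp (Real.exp β) := by
  have hp2 : (2 : ℝ) ≤ p := by exact_mod_cast hp.two_le
  have hl : 0 < Real.log p := Real.log_pos (by linarith)
  unfold ll
  rw [Real.log_le_iff_le_exp hl, Real.log_le_iff_le_exp (by linarith)]

theorem mert_two_le {α : ℝ} (hα : 0 ≤ α) : 2 ≤ Real.exp (Real.exp α) := by
  have h1 : 1 ≤ Real.exp α := Real.one_le_exp hα
  have h2 := Real.add_one_le_exp (Real.exp α)
  linarith

theorem mert_mem_prIoc {y z : ℝ} (_hy : 0 ≤ y) {q : ℕ} :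
    q ∈ Vale.Agent.Lib.P031.Mertens.prIoc y z ↔ q.Prime ∧ y < q ∧ (q : ℝ) ≤ z := by
  unfold Vale.Agent.Lib.P031.Mertens.prIoc
  rw [Finset.mem_filter, Finset.mem_range]
  constructor
  · rintro ⟨_, h⟩
    exact h
  · rintro ⟨h1, h2, h3⟩
    refine ⟨?_, h1, h2, h3⟩
    have : q ≤ ⌊z⌋₊ := Nat.le_floor h3
    omega

theorem mert_loglog (α β : ℝ) :
    Real.log (Real.log (Real.exp (Real.exp β)) / Real.log (Real.exp (Real.exp α))) = β - α := by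
  rw [Real.log_exp, Real.log_exp, ← Real.exp_sub, Real.log_exp]

/-- the common upper bound -/
theorem mert_up {α β : ℝ} (hα : 0 ≤ α) (hαβ : α ≤ β) (S : Finset ℕ)
    (hS : ∀ p ∈ S, p.Prime ∧ α ≤ ll p ∧ ll p ≤ β) :
    ∑ p ∈ S, 1 / ((p : ℝ) - 1) ≤ (β - α) + 24 := by
  obtain ⟨y, hy⟩ : ∃ y : ℝ, y = Real.exp (Real.exp α) := ⟨_, rfl⟩
  obtain ⟨z, hz⟩ : ∃ z : ℝ, z = Real.exp (Real.exp β) := ⟨_, rfl⟩
  have hy2 : 2 ≤ y := by rw [hy]; exact mert_two_le hα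
  have hyz : y ≤ z := by
    rw [hy, hz]
    exact Real.exp_le_exp.mpr (Real.exp_le_exp.mpr hαβ)
  have h1 := Vale.Agent.Lib.P031.Mertens.mertens_sum_explicit hy2 hyz
  have h2 := Vale.Agent.Lib.P031.Mertens.mertens_aux2' hy2 hyz
  have h3 : ∑ q ∈ Vale.Agent.Lib.P031.Mertens.prIoc y z, 1 / ((q : ℝ) - 1) ≤ (β - α) + 23 := by
    have h4 : ∑ q ∈ Vale.Agent.Lib.P031.Mertens.prIoc y z, 1 / ((q : ℝ) - 1) =
        ∑ q ∈ Vale.Agent.Lib.P031.Mertens.prIoc y z, 1 / (q : ℝ) +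
        ∑ q ∈ Vale.Agent.Lib.P031.Mertens.prIoc y z, 1 / ((q : ℝ) * (q - 1)) := by
      rw [← Finset.sum_add_distrib]
      apply Finset.sum_congr rfl
      intro q hq
      have h5 := ((mert_mem_prIoc (by linarith)).mp hq).1.two_le
      have h6 : (2 : ℝ) ≤ q := by exact_mod_cast h5
      have h7 : (q : ℝ) ≠ 0 := by linarith
      have h8 : (q : ℝ) - 1 ≠ 0 := by linarith
      field_simp
      ring
    rw [h4]
    have h5 := (abs_le.mp h1).2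
    rw [hy, hz] at h5
    rw [mert_loglog, ← hy, ← hz] at h5
    linarith
  have h4 : S ⊆ insert ⌊y⌋₊ (Vale.Agent.Lib.P031.Mertens.prIoc y z) := by
    intro p hp
    obtain ⟨h5, h6, h7⟩ := hS p hp
    rw [mert_ll_le h5, ← hy] at h6
    rw [mert_le_ll h5, ← hz] at h7
    rw [Finset.mem_insert, mert_mem_prIoc (by linarith)]
    rcases h6.lt_or_eq with h8 | h8
    · right
      exact ⟨h5, h8, h7⟩
    · left
      rw [h8, Nat.floor_natCast]
  have hfl : (2 : ℝ) ≤ ⌊y⌋₊ := by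
    have : 2 ≤ ⌊y⌋₊ := Nat.le_floor (by exact_mod_cast hy2)
    exact_mod_cast this
  have hnn : ∀ p ∈ insert ⌊y⌋₊ (Vale.Agent.Lib.P031.Mertens.prIoc y z), 0 ≤ 1 / ((p : ℝ) - 1) := by
    intro p hp
    rw [Finset.mem_insert, mert_mem_prIoc (by linarith)] at hp
    have h5 : (2 : ℝ) ≤ p := by
      rcases hp with h | h
      · rw [h]
        exact hfl
      · exact_mod_cast h.1.two_le
    apply div_nonneg zero_le_one
    linarith
  refine (Finset.sum_le_sum_of_subset_of_nonneg h4 (fun p hp _ => hnn p hp)).trans ?_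
  have h5 : ∑ p ∈ insert ⌊y⌋₊ (Vale.Agent.Lib.P031.Mertens.prIoc y z), 1 / ((p : ℝ) - 1) ≤
      1 / ((⌊y⌋₊ : ℝ) - 1) + ∑ q ∈ Vale.Agent.Lib.P031.Mertens.prIoc y z, 1 / ((q : ℝ) - 1) := by
    by_cases h6 : ⌊y⌋₊ ∈ Vale.Agent.Lib.P031.Mertens.prIoc y z
    · rw [Finset.insert_eq_of_mem h6]
      have := hnn ⌊y⌋₊ (Finset.mem_insert_self _ _)
      linarith
    · rw [Finset.sum_insert h6]
  have h6 : 1 / ((⌊y⌋₊ : ℝ) - 1) ≤ 1 := by
    rw [div_le_one (by linarith)]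
    linarith
  linarith

/-- the common lower bound -/
theorem mert_low {α β : ℝ} (hα : 0 ≤ α) (hαβ : α ≤ β) :
    (β - α) - 24 ≤ ∑ p ∈ PI α β, 1 / (p : ℝ) := by
  obtain ⟨y, hy⟩ : ∃ y : ℝ, y = Real.exp (Real.exp α) := ⟨_, rfl⟩
  obtain ⟨z, hz⟩ : ∃ z : ℝ, z = Real.exp (Real.exp β) := ⟨_, rfl⟩
  have hy2 : 2 ≤ y := by rw [hy]; exact mert_two_le hα
  have hyz : y ≤ z := by
    rw [hy, hz]
    exact Real.exp_le_exp.mpr (Real.exp_le_exp.mpr hαβ)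
  have h1 := Vale.Agent.Lib.P031.Mertens.mertens_sum_explicit hy2 hyz
  have h5 := (abs_le.mp h1).1
  rw [hy, hz] at h5
  rw [mert_loglog, ← hy, ← hz] at h5
  have h4 : Vale.Agent.Lib.P031.Mertens.prIoc y z ⊆ insert ⌊z⌋₊ (PI α β) := by
    intro p hp
    obtain ⟨h5, h6, h7⟩ := (mert_mem_prIoc (by linarith)).mp hp
    rw [Finset.mem_insert]
    rcases h7.lt_or_eq with h8 | h8
    · right
      unfold PI
      rw [Finset.mem_filter, Finset.mem_range, mert_ll_le h5, mert_ll_lt h5, ← hy, ← hz]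
      refine ⟨?_, h5, h6.le, h8⟩
      have : p ≤ ⌊z⌋₊ := Nat.le_floor h7
      omega
    · left
      rw [← h8, Nat.floor_natCast]
  have h6 := Finset.sum_le_sum_of_subset_of_nonneg (f := fun p : ℕ => 1 / (p : ℝ)) h4
    (fun p _ _ => by positivity)
  have h7 : ∑ p ∈ insert ⌊z⌋₊ (PI α β), 1 / (p : ℝ) ≤
      1 / (⌊z⌋₊ : ℝ) + ∑ p ∈ PI α β, 1 / (p : ℝ) := by
    by_cases h6 : ⌊z⌋₊ ∈ PI α β
    · rw [Finset.insert_eq_of_mem h6]
      have : (0 : ℝ) ≤ 1 / (⌊z⌋₊ : ℝ) := by positivity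
      linarith
    · rw [Finset.sum_insert h6]
  have hfl : (2 : ℝ) ≤ ⌊z⌋₊ := by
    have : 2 ≤ ⌊z⌋₊ := Nat.le_floor (by push_cast; linarith)
    exact_mod_cast this
  have h8 : 1 / (⌊z⌋₊ : ℝ) ≤ 1 := by
    rw [div_le_one (by linarith)]
    linarith
  linarith

theorem mert_PI_mem {α β : ℝ} {p : ℕ} (hp : p ∈ PI α β) : p.Prime ∧ α ≤ ll p ∧ ll p < β := by
  unfold PI at hp
  exact (Finset.mem_filter.mp hp).2

theorem mert : ∃ C : ℝ, 1 ≤ C ∧ ∀ α β : ℝ, 0 ≤ α → α ≤ β →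
    (β - α) - C ≤ ∑ p ∈ PI α β, 1 / ((p : ℝ) - 1) ∧
    ∑ p ∈ PI α β, 1 / ((p : ℝ) - 1) ≤ (β - α) + C := by
  refine ⟨24, by norm_num, ?_⟩
  intro α β hα hαβ
  constructor
  · refine (mert_low hα hαβ).trans ?_
    apply Finset.sum_le_sum
    intro p hp
    have h2 : (2 : ℝ) ≤ p := by exact_mod_cast (mert_PI_mem hp).1.two_le
    apply one_div_le_one_div_of_le <;> linarith
  · apply mert_up hα hαβ
    intro p hp
    obtain ⟨h1, h2, h3⟩ := mert_PI_mem hp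
    exact ⟨h1, h2, h3.le⟩

/-- lower bound with the weights `1/p` -/
theorem mert_lo : ∃ C : ℝ, 1 ≤ C ∧ ∀ α β : ℝ, 0 ≤ α → α ≤ β →
    (β - α) - C ≤ ∑ p ∈ PI α β, 1 / (p : ℝ) :=
  ⟨24, by norm_num, fun _ _ hα hαβ => mert_low hα hαβ⟩

theorem mert_int : ∃ C : ℝ, 1 ≤ C ∧ ∀ α β : ℝ, 0 ≤ α → α ≤ β → ∀ S : Finset ℕ,
    (∀ p ∈ S, p.Prime ∧ α ≤ ll p ∧ ll p ≤ β) →
    ∑ p ∈ S, 1 / ((p : ℝ) - 1) ≤ (β - α) + C :=
  ⟨24, by norm_num, fun _ _ hα hαβ S hS => mert_up hα hαβ S hS⟩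

theorem mert_ll_nonneg {p : ℕ} (hp : 3 ≤ p) : 0 ≤ ll p := by
  unfold ll
  apply Real.log_nonneg
  have h3 : (3 : ℝ) ≤ p := by exact_mod_cast hp
  rw [Real.le_log_iff_exp_le (by linarith)]
  have := Real.exp_one_lt_d9
  linarith

theorem mert_all : ∃ C : ℝ, 1 ≤ C ∧ ∀ β : ℝ, 0 ≤ β → ∀ S : Finset ℕ,
    (∀ p ∈ S, p.Prime ∧ ll p ≤ β) →
    ∑ p ∈ S, 1 / ((p : ℝ) - 1) ≤ β + C := by
  refine ⟨25, by norm_num, ?_⟩
  intro β hβ S hS
  have h1 := mert_up le_rfl hβ (S.filter fun p => 3 ≤ p) (by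
    intro p hp
    rw [Finset.mem_filter] at hp
    exact ⟨(hS p hp.1).1, mert_ll_nonneg hp.2, (hS p hp.1).2⟩)
  have h2 : S ⊆ insert 2 (S.filter fun p => 3 ≤ p) := by
    intro p hp
    rw [Finset.mem_insert, Finset.mem_filter]
    have := (hS p hp).1.two_le
    by_cases h3 : 3 ≤ p
    · right
      exact ⟨hp, h3⟩
    · left
      omega
  have h3 : (2 : ℕ) ∉ S.filter fun p => 3 ≤ p := by
    intro h
    rw [Finset.mem_filter] at h
    omega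
  have h4 : ∑ p ∈ S, 1 / ((p : ℝ) - 1) ≤
      ∑ p ∈ insert 2 (S.filter fun p => 3 ≤ p), 1 / ((p : ℝ) - 1) := by
    apply Finset.sum_le_sum_of_subset_of_nonneg h2
    intro p hp _
    have h5 : (2 : ℝ) ≤ p := by
      rw [Finset.mem_insert, Finset.mem_filter] at hp
      rcases hp with h | h
      · rw [h]
        norm_num
      · exact_mod_cast (by omega : 2 ≤ p)
    apply div_nonneg zero_le_one
    linarith
  rw [Finset.sum_insert h3] at h4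
  have h5 : 1 / (((2 : ℕ) : ℝ) - 1) = 1 := by norm_num
  rw [h5] at h4
  linarith

end P031
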