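import Vale.Agent.Lib.P031.Euler

/-!
# P031 RankinX: completely multiplicative weights, counting version.
-/

namespace P031

open Finset Real

/-- the local weights -/
noncomputable def rankinX_h (g : ℕ → ℝ) (q k : ℕ) : ℝ :=
  if q.Prime ∧ 1 ≤ k then (g q ^ k - g q ^ (k - 1)) else 0

theorem rankinX_h_nonneg (g : ℕ → ℝ) (hg : ∀ q : ℕ, q.Prime → 1 ≤ g q ∧ g q < q) (q k : ℕ) :
    0 ≤ rankinX_h g q k := by
  unfold rankinX_h
  split_ifs with h
  · have h1 := (hg q h.1).1
    have h2 : g q ^ (k - 1) ≤ g q ^ k := pow_le_pow_right₀ h1 (Nat.sub_le k 1)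
    linarith
  · exact le_refl _

/-- multiplicative arithmetic function with given values at the prime powers -/
noncomputable def rankinX_F (f : ℕ → ℕ → ℝ) : ArithmeticFunction ℝ :=
  ⟨fun n => if n = 0 then 0 else n.factorization.prod f, by simp⟩

theorem rankinX_F_apply (f : ℕ → ℕ → ℝ) {n : ℕ} (hn : n ≠ 0) :
    rankinX_F f n = n.factorization.prod f := by
  change (if n = 0 then 0 else n.factorization.prod f) = _
  rw [if_neg hn]

theorem rankinX_F_mul (f : ℕ → ℕ → ℝ) : (rankinX_F f).IsMultiplicative := by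
  rw [ArithmeticFunction.IsMultiplicative.iff_ne_zero]
  refine ⟨?_, ?_⟩
  · rw [rankinX_F_apply f one_ne_zero, Nat.factorization_one, Finsupp.prod_zero_index]
  · intro m n hm hn hmn
    rw [rankinX_F_apply f (Nat.mul_ne_zero hm hn), rankinX_F_apply f hm, rankinX_F_apply f hn,
      Nat.factorization_mul hm hn]
    refine Finsupp.prod_add_index_of_disjoint ?_ _
    rw [Nat.support_factorization, Nat.support_factorization]
    exact hmn.disjoint_primeFactors

theorem rankinX_F_prime_pow (f : ℕ → ℕ → ℝ) {q k : ℕ} (hq : q.Prime) (hk : k ≠ 0) :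
    rankinX_F f (q ^ k) = f q k := by
  rw [rankinX_F_apply f (pow_ne_zero k hq.ne_zero), hq.factorization_pow]
  have hs : (Finsupp.single q k).support = {q} := Finsupp.support_single q hk
  rw [Finsupp.prod, hs, Finset.prod_singleton, Finsupp.single_eq_same]

theorem rankinX_G {n : ℕ} (g : ℕ → ℝ) (hn : n ≠ 0) :
    (n.primeFactorsList.map g).prod = rankinX_F (fun q k => g q ^ k) n := by
  rw [rankinX_F_apply _ hn, Finset.prod_list_map_count, Finsupp.prod, Nat.support_factorization]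
  refine Finset.prod_congr rfl fun q _ => ?_
  rw [Nat.primeFactorsList_count_eq]

theorem rankinX_conv (g : ℕ → ℝ) :
    (ArithmeticFunction.zeta : ArithmeticFunction ℝ) * rankinX_F (rankinX_h g) =
      rankinX_F (fun q k => g q ^ k) := by
  have hz : (ArithmeticFunction.zeta : ArithmeticFunction ℝ).IsMultiplicative :=
    ArithmeticFunction.isMultiplicative_zeta.natCast
  rw [ArithmeticFunction.IsMultiplicative.eq_iff_eq_on_prime_powers _
    (hz.mul (rankinX_F_mul _)) _ (rankinX_F_mul _)]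
  intro q k hq
  rw [ArithmeticFunction.coe_zeta_mul_apply, Nat.divisors_prime_pow hq, Finset.sum_map]
  simp only [Function.Embedding.coeFn_mk]
  induction k with
  | zero =>
    rw [zero_add, Finset.sum_range_one, pow_zero, (rankinX_F_mul _).1, (rankinX_F_mul _).1]
  | succ k ih =>
    rw [Finset.sum_range_succ, ih, rankinX_F_prime_pow _ hq (Nat.succ_ne_zero k),
      rankinX_F_prime_pow _ hq (Nat.succ_ne_zero k)]
    unfold rankinX_h
    rw [if_pos ⟨hq, Nat.succ_le_succ (Nat.zero_le k)⟩]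
    rcases Nat.eq_zero_or_pos k with rfl | hk
    · rw [pow_zero, (rankinX_F_mul _).1]
      simp
    · rw [rankinX_F_prime_pow _ hq (Nat.pos_iff_ne_zero.mp hk)]
      simp

theorem rankinX_dvd_count (N d : ℕ) :
    (((Finset.Icc 1 N).filter (fun n => d ∣ n)).card : ℝ) ≤ N / d := by
  have h1 : ((Finset.Icc 1 N).filter (fun n => d ∣ n)).card = N / d := by
    have h2 : Finset.Icc 1 N = Finset.Ioc 0 N := by
      ext n
      rw [Finset.mem_Icc, Finset.mem_Ioc]
      omega
    rw [h2]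
    exact Nat.Ioc_filter_dvd_card_eq_div N d
  rw [h1]
  exact Nat.cast_div_le

theorem rankinX_geom (a : ℝ) (q : ℝ) (hq : 0 < q) (h2 : a < q) (K : ℕ) :
    ∑ k ∈ Finset.Icc 1 K, (a ^ k - a ^ (k - 1)) / q ^ k = (a - 1) / (q - a) * (1 - (a / q) ^ K) := by
  induction K with
  | zero => simp
  | succ K ih =>
    rw [Finset.sum_Icc_succ_top (Nat.succ_le_succ (Nat.zero_le K)), ih, Nat.add_sub_cancel]
    have h3 : q - a ≠ 0 := by linarith
    rw [div_pow, div_pow]
    field_simp
    ring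

/-- Proof. Let `G n = (n.primeFactorsList.map g).prod` (completely multiplicative), `G = ∑_{d ∣ n} h d` with
`h ≥ 0` multiplicative, `h (q^k) = g^k - g^(k-1)`. Then `∑_{n ≤ N} G n = ∑_d h d ⌊N/d⌋ ≤ N ∑_{d ≤ N} h d/d` and `euler_le`
with `h q k/q^k`, `H q = ∑_k g^(k-1) (g-1)/q^k = (g-1)/(q-g)`. -/
theorem rankin_x (N : ℕ) (g : ℕ → ℝ) (hg : ∀ q : ℕ, q.Prime → 1 ≤ g q ∧ g q < q) :
    ∑ n ∈ Finset.Icc 1 N, (n.primeFactorsList.map g).prod ≤
      N * ∏ q ∈ (Finset.range (N + 1)).filter Nat.Prime, (1 + (g q - 1) / ((q : ℝ) - g q)) := by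
  have e1 : ∑ n ∈ Finset.Icc 1 N, (n.primeFactorsList.map g).prod =
      ∑ n ∈ Finset.Icc 1 N, ∑ d ∈ Finset.Icc 1 N,
        if d ∣ n then rankinX_F (rankinX_h g) d else 0 := by
    refine Finset.sum_congr rfl fun n hn => ?_
    obtain ⟨hn1, hn2⟩ := Finset.mem_Icc.mp hn
    have hn0 : n ≠ 0 := by omega
    rw [rankinX_G g hn0, ← rankinX_conv g, ArithmeticFunction.coe_zeta_mul_apply,
      ← Finset.sum_filter]
    refine Finset.sum_congr ?_ fun _ _ => rfl
    ext d
    rw [Nat.mem_divisors, Finset.mem_filter, Finset.mem_Icc]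
    constructor
    · rintro ⟨h1, h2⟩
      exact ⟨⟨Nat.pos_of_dvd_of_pos h1 (Nat.pos_of_ne_zero h2),
        (Nat.le_of_dvd (Nat.pos_of_ne_zero h2) h1).trans hn2⟩, h1⟩
    · rintro ⟨-, h1⟩
      exact ⟨h1, hn0⟩
  have e2 : ∀ d ∈ Finset.Icc 1 N, ∑ n ∈ Finset.Icc 1 N,
      (if d ∣ n then rankinX_F (rankinX_h g) d else 0) ≤
      N * ∏ q ∈ d.primeFactors, (rankinX_h g q (d.factorization q) /
        (q:ℝ) ^ (d.factorization q)) := by
    intro d hd
    obtain ⟨hd1, hd2⟩ := Finset.mem_Icc.mp hd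
    have hd0 : d ≠ 0 := by omega
    have hF : rankinX_F (rankinX_h g) d =
        ∏ q ∈ d.primeFactors, rankinX_h g q (d.factorization q) := by
      rw [rankinX_F_apply _ hd0, Finsupp.prod, Nat.support_factorization]
    have hF0 : 0 ≤ rankinX_F (rankinX_h g) d := by
      rw [hF]
      exact Finset.prod_nonneg fun q _ => rankinX_h_nonneg g hg _ _
    have hdp : (d : ℝ) = ∏ q ∈ d.primeFactors, (q : ℝ) ^ (d.factorization q) := by
      have h1 := Nat.prod_factorization_pow_eq_self hd0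
      have h2 : ((d.factorization.prod (fun q k => q ^ k) : ℕ) : ℝ) = (d : ℝ) := by rw [h1]
      rw [← h2, Finsupp.prod, Nat.support_factorization]
      push_cast
      rfl
    rw [← Finset.sum_filter, Finset.sum_const, nsmul_eq_mul, Finset.prod_div_distrib, ← hdp, ← hF]
    have h3 := rankinX_dvd_count N d
    calc (((Finset.Icc 1 N).filter (fun n => d ∣ n)).card : ℝ) * rankinX_F (rankinX_h g) d
        ≤ (N / d : ℝ) * rankinX_F (rankinX_h g) d := mul_le_mul_of_nonneg_right h3 hF0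
      _ = N * (rankinX_F (rankinX_h g) d / d) := by ring
  rw [e1, Finset.sum_comm]
  refine (Finset.sum_le_sum e2).trans ?_
  rw [← Finset.mul_sum]
  refine mul_le_mul_of_nonneg_left ?_ (Nat.cast_nonneg N)
  refine euler_le ((Finset.range (N + 1)).filter Nat.Prime)
    (fun q k => rankinX_h g q k / (q:ℝ) ^ k) (fun q => (g q - 1) / ((q : ℝ) - g q))
    (Finset.Icc 1 N) ?_ ?_ ?_ ?_
  · intro q hq
    exact (Finset.mem_filter.mp hq).2
  · intro q k
    exact div_nonneg (rankinX_h_nonneg g hg q k) (by positivity)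
  · intro q hq K
    have hp := (Finset.mem_filter.mp hq).2
    obtain ⟨h1, h2⟩ := hg q hp
    have hq0 : (0:ℝ) < q := by exact_mod_cast hp.pos
    have h3 : ∑ k ∈ Finset.Icc 1 K, rankinX_h g q k / (q:ℝ) ^ k =
        ∑ k ∈ Finset.Icc 1 K, (g q ^ k - g q ^ (k - 1)) / (q:ℝ) ^ k := by
      refine Finset.sum_congr rfl fun k hk => ?_
      unfold rankinX_h
      rw [if_pos ⟨hp, (Finset.mem_Icc.mp hk).1⟩]
    change ∑ k ∈ Finset.Icc 1 K, rankinX_h g q k / (q:ℝ) ^ k ≤ (g q - 1) / ((q : ℝ) - g q)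
    rw [h3, rankinX_geom (g q) q hq0 h2 K]
    have h4 : 0 ≤ (g q - 1) / ((q : ℝ) - g q) := div_nonneg (by linarith) (by linarith)
    have h5 : 0 ≤ (g q / (q:ℝ)) ^ K := by positivity
    nlinarith
  · intro n hn
    obtain ⟨h1, h2⟩ := Finset.mem_Icc.mp hn
    refine ⟨by omega, fun q hq => ?_⟩
    rw [Finset.mem_filter, Finset.mem_range]
    have h3 := Nat.le_of_mem_primeFactors hq
    exact ⟨by omega, Nat.prime_of_mem_primeFactors hq⟩

end P031
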