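import Vale.Agent.Lib.P031.Euler

/-!
# P031 RankinW: completely multiplicative weights, sums of `1/n`.
-/

namespace P031

open Finset Real

private theorem rankinW_geom {x : ℝ} (h0 : 0 ≤ x) (h1 : x < 1) (K : ℕ) :
    ∑ k ∈ Finset.Icc 1 K, x ^ k ≤ x / (1 - x) := by
  have h2 : 0 < 1 - x := by linarith
  rw [le_div_iff₀ h2]
  have h3 : (∑ k ∈ Finset.Icc 1 K, x ^ k) * (1 - x) = x - x ^ (K + 1) := by
    induction K with
    | zero => simp
    | succ K ih =>
      rw [Finset.sum_Icc_succ_top (by omega), add_mul, ih]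
      ring
  rw [h3]
  have h4 : 0 ≤ x ^ (K + 1) := pow_nonneg h0 _
  linarith

private theorem rankinW_term (g : ℕ → ℝ) {n : ℕ} (hn : n ≠ 0)
    (hg : ∀ q ∈ n.primeFactors, 0 ≤ g q) :
    (n.primeFactorsList.map g).prod / (n : ℝ) =
      ∏ q ∈ n.primeFactors, |g q / q| ^ (n.factorization q) := by
  have h1 : (n.primeFactorsList.map g).prod = ∏ q ∈ n.primeFactors, g q ^ n.factorization q := by
    rw [Finset.prod_list_map_count]
    apply Finset.prod_congr rfl
    intro q _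
    rw [Nat.primeFactorsList_count_eq]
  have h2 : (n : ℝ) = ∏ q ∈ n.primeFactors, (q : ℝ) ^ n.factorization q := by
    have h3 := Nat.prod_factorization_pow_eq_self hn
    rw [Finsupp.prod, Nat.support_factorization] at h3
    have h4 := congrArg (fun t : ℕ => (t : ℝ)) h3
    simp only [Nat.cast_prod, Nat.cast_pow] at h4
    exact h4.symm
  rw [h1]
  conv_lhs => rw [h2]
  rw [← Finset.prod_div_distrib]
  apply Finset.prod_congr rfl
  intro q hq
  rw [abs_of_nonneg (div_nonneg (hg q hq) (Nat.cast_nonneg q)), div_pow]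

/-- `euler_le` with `h q k = (g q / q)^k`, `H q = (g q/q)/(1 - g q/q)`. -/
theorem rankin_w (Q : Finset ℕ) (g : ℕ → ℝ) (S : Finset ℕ)
    (hQ : ∀ q ∈ Q, q.Prime ∧ 0 ≤ g q ∧ g q < q)
    (hS : ∀ n ∈ S, n ≠ 0 ∧ ∀ q ∈ n.primeFactors, q ∈ Q) :
    ∑ n ∈ S, (n.primeFactorsList.map g).prod / (n : ℝ) ≤ ∏ q ∈ Q, (1 - g q / q)⁻¹ := by
  have hx : ∀ q ∈ Q, 0 ≤ g q / q ∧ g q / q < 1 := by
    intro q hq
    obtain ⟨h1, h2, h3⟩ := hQ q hq
    have h4 : (0 : ℝ) < q := by exact_mod_cast h1.pos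
    exact ⟨div_nonneg h2 h4.le, (div_lt_one h4).2 h3⟩
  have key := euler_le Q (fun q k => |g q / q| ^ k) (fun q => (g q / q) / (1 - g q / q)) S
    (fun q hq => (hQ q hq).1) (fun q k => pow_nonneg (abs_nonneg _) k)
    (fun q hq K => by
      obtain ⟨h1, h2⟩ := hx q hq
      simp only [abs_of_nonneg h1]
      exact rankinW_geom h1 h2 K) hS
  have h1 : ∑ n ∈ S, (n.primeFactorsList.map g).prod / (n : ℝ) =
      ∑ n ∈ S, ∏ q ∈ n.primeFactors, |g q / q| ^ (n.factorization q) :=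
    Finset.sum_congr rfl fun n hn =>
      rankinW_term g (hS n hn).1 fun q hq => (hQ q ((hS n hn).2 q hq)).2.1
  have h2 : ∏ q ∈ Q, (1 + (g q / q) / (1 - g q / q)) = ∏ q ∈ Q, (1 - g q / q)⁻¹ :=
    Finset.prod_congr rfl fun q hq => by
      obtain ⟨h3, h4⟩ := hx q hq
      have h5 : 1 - g q / q ≠ 0 := by linarith
      apply eq_inv_of_mul_eq_one_left
      rw [add_mul, div_mul_cancel₀ _ h5]
      ring
  rw [h1, ← h2]
  exact key

end P031
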