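import Vale.Agent.Lib.P031.Basic
import Vale.Agent.Lib.P031.Mert
import Vale.Agent.Lib.P031.RankinW

/-!
# P031 RareW: integers with a large rarity functional `II` are rare (Rankin with a union over patterns).

Put `b = σ^102`, `s = σ^120`. For a pattern `k : {1..Tm} → ℕ`, `k_t ≤ 20 s`, let `z_t = max 1 (k_t/b) ≤ 20 σ^18` and
`g q = z_t` if `blk σ q = t ∈ [1, Tm]`, `g q = 1` otherwise. For `n` with `cnt σ t n = k_t` (`1 ≤ t ≤ Tm`) one has
`(n.primeFactorsList.map g).prod = ∏_t z_t^(k_t)`. Since `k_t log z_t - (z_t - 1) b = b Qp (k_t/b)`,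
Rankin gives for the sum over the `n` with this pattern
`∑ 1/n ≤ ∏ z_t^(-k_t) ∏_q (1 - g q/q)⁻¹ ≤ exp (∑_t (-k_t log z_t + (z_t - 1)(b + C)) + u + C)
 ≤ exp(u - ∑_t b Qp(k_t/b) + C ∑ (z_t - 1) + C)`, and `∑_t b Qp (k_t/b) = II σ n ≥ ξ`, `∑ (z_t - 1) ≤ ∑ k_t/b ≤ 20 σ^18 · …`
(`∑ k_t ≤ Om n ≤ 20 s`). (For `q` in a block `≥ 1`, `q ≥ exp exp b` is huge compared to `g q`; use
`(1 - x)⁻¹ ≤ exp(x + 2x^2)` for `0 ≤ x ≤ 1/2` and `mert_int`, `mert_all`; note `q/(q-1)`-type factors converge.)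
The number of patterns is at most `(20 s + 1)^Tm ≤ exp(σ^19)`.
`rare_x` is the same with `rankin_x`: `∏_{q ≤ N} (1 + (g q - 1)/(q - g q)) ≤ exp(∑_t (z_t - 1)(b + C) + 1)`. -/

namespace P031

open Finset Real

/-- the weight of a prime attached to a family of block weights -/
noncomputable def RareW_g (σ : ℝ) (T : Finset ℕ) (z : ℕ → ℝ) (q : ℕ) : ℝ :=
  if blk σ q ∈ T then z (blk σ q) else 1

theorem RareW_list (σ : ℝ) (T : Finset ℕ) (z : ℕ → ℝ) (l : List ℕ) :
    (l.map (RareW_g σ T z)).prod = ∏ t ∈ T, z t ^ (l.filter (fun q => blk σ q = t)).length := by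
  induction l with
  | nil => simp
  | cons a l ih =>
    rw [List.map_cons, List.prod_cons, ih]
    by_cases ha : blk σ a ∈ T
    · have h1 : RareW_g σ T z a = z (blk σ a) := by
        unfold RareW_g
        rw [if_pos ha]
      rw [h1, ← Finset.mul_prod_erase T _ ha, ← Finset.mul_prod_erase T _ ha]
      have h2 : ∏ t ∈ T.erase (blk σ a), z t ^ (l.filter (fun q => blk σ q = t)).length =
          ∏ t ∈ T.erase (blk σ a), z t ^ ((a :: l).filter (fun q => blk σ q = t)).length := by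
        apply Finset.prod_congr rfl
        intro t ht
        have hne : blk σ a ≠ t := fun h => (Finset.mem_erase.1 ht).1 h.symm
        rw [List.filter_cons_of_neg (by simpa using hne)]
      rw [← h2, List.filter_cons_of_pos (by simp), List.length_cons, pow_succ]
      ring
    · have h1 : RareW_g σ T z a = 1 := by
        unfold RareW_g
        rw [if_neg ha]
      rw [h1, one_mul]
      apply Finset.prod_congr rfl
      intro t ht
      have hne : blk σ a ≠ t := fun h => ha (h ▸ ht)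
      rw [List.filter_cons_of_neg (by simpa using hne)]

theorem RareW_prod (σ : ℝ) (T : Finset ℕ) (z : ℕ → ℝ) (n : ℕ) :
    (n.primeFactorsList.map (RareW_g σ T z)).prod = ∏ t ∈ T, z t ^ cnt σ t n :=
  RareW_list σ T z n.primeFactorsList

/-- block weight of a pattern -/
noncomputable def RareW_z (σ : ℝ) (k : ℕ → ℕ) (t : ℕ) : ℝ := max 1 ((k t : ℝ) / σ ^ 102)

theorem RareW_z_one (σ : ℝ) (k : ℕ → ℕ) (t : ℕ) : 1 ≤ RareW_z σ k t := le_max_left _ _

theorem RareW_Qp {σ : ℝ} (hσ : 1 ≤ σ) (k : ℕ → ℕ) (t : ℕ) :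
    σ ^ 102 * Qp ((k t : ℝ) / σ ^ 102) =
      (k t : ℝ) * Real.log (RareW_z σ k t) - (RareW_z σ k t - 1) * σ ^ 102 := by
  have hb : (0 : ℝ) < σ ^ 102 := by positivity
  unfold Qp RareW_z
  split_ifs with h
  · rw [max_eq_left h]
    simp
  · rw [not_le] at h
    rw [max_eq_right h.le]
    unfold QQ
    field_simp
    ring

/-- the product of the block weights -/
theorem RareW_exp {σ : ℝ} (hσ : 1 ≤ σ) (k : ℕ → ℕ) (T : Finset ℕ) :
    (∏ t ∈ T, RareW_z σ k t ^ k t) = Real.exp (∑ t ∈ T, σ ^ 102 * Qp ((k t : ℝ) / σ ^ 102) +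
      ∑ t ∈ T, (RareW_z σ k t - 1) * σ ^ 102) := by
  rw [← Finset.sum_add_distrib, Real.exp_sum]
  apply Finset.prod_congr rfl
  intro t _
  rw [RareW_Qp hσ, sub_add_cancel, Real.exp_nat_mul, Real.exp_log]
  exact lt_of_lt_of_le one_pos (RareW_z_one σ k t)

/-- primes in the blocks `≥ 1` are huge -/
theorem RareW_big {σ : ℝ} (hσ : 100 ≤ σ) {q : ℕ} (hq : q.Prime) (hb : 1 ≤ blk σ q) {z : ℝ}
    (hz1 : 1 ≤ z) (hz : z ≤ 21 * σ ^ 18) : z * (σ ^ 102 + 1) ≤ (q : ℝ) - z ∧ z < q := by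
  have hσ1 : 1 ≤ σ := by linarith
  have hbpos : (0 : ℝ) < σ ^ 102 := by positivity
  have h1 : σ ^ 102 ≤ ll q := by
    unfold blk at hb
    have h2 : (1 : ℝ) ≤ ll q / σ ^ 102 := by
      have := (Nat.le_floor_iff' one_ne_zero).1 hb
      simpa using this
    rwa [le_div_iff₀ hbpos, one_mul] at h2
  have hq2 : (2 : ℝ) ≤ q := by exact_mod_cast hq.two_le
  have hlq : 0 < Real.log (q : ℝ) := Real.log_pos (by linarith)
  have h2 : Real.exp (σ ^ 102) ≤ Real.log q := by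
    rw [← Real.le_log_iff_exp_le hlq]
    exact h1
  have h3 : Real.log (q : ℝ) ≤ q := by
    have := Real.log_le_sub_one_of_pos (show (0 : ℝ) < q by linarith)
    linarith
  have h4 : 1 + σ ^ 102 + (σ ^ 102) ^ 2 / 2 ≤ Real.exp (σ ^ 102) :=
    Real.quadratic_le_exp_of_nonneg hbpos.le
  have h5 : 100 * σ ^ 18 ≤ σ ^ 102 := by
    have h6 : σ ^ 102 = σ ^ 18 * (σ * σ ^ 83) := by ring
    have h7 : (1 : ℝ) ≤ σ ^ 83 := one_le_pow₀ hσ1
    rw [h6]
    have h8 : (100 : ℝ) ≤ σ * σ ^ 83 := by nlinarith only [hσ, h7]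
    have h9 : (0 : ℝ) ≤ σ ^ 18 := by positivity
    nlinarith only [h8, h9]
  have hx1 : (1 : ℝ) ≤ σ ^ 102 := one_le_pow₀ hσ1
  have h10 : z * (σ ^ 102 + 2) ≤ q := by
    set x := σ ^ 102 with hx
    have h11 : z ≤ 21 / 100 * x := by linarith
    have h12 : z * (x + 2) ≤ 21 / 100 * x * (x + 2) :=
      mul_le_mul_of_nonneg_right h11 (by linarith)
    linarith only [h3, h2, h4, h12]
  constructor
  · linarith [h10]
  · nlinarith only [h2, h3, h4, hx1, h10]

/-- sums over blocks -/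
theorem RareW_blocks {σ C : ℝ} (hσ : 1 ≤ σ)
    (hC : ∀ α β : ℝ, 0 ≤ α → α ≤ β → ∀ S : Finset ℕ,
      (∀ p ∈ S, p.Prime ∧ α ≤ ll p ∧ ll p ≤ β) → ∑ p ∈ S, 1 / ((p : ℝ) - 1) ≤ (β - α) + C)
    (T : Finset ℕ) (hT : ∀ t ∈ T, 1 ≤ t) (z : ℕ → ℝ) (hz : ∀ t, 1 ≤ z t)
    (Q : Finset ℕ) (hQ : ∀ q ∈ Q, q.Prime) :
    ∑ q ∈ Q, (RareW_g σ T z q - 1) / ((q : ℝ) - 1) ≤ ∑ t ∈ T, (z t - 1) * (σ ^ 102 + C) := by
  have hb : (0 : ℝ) < σ ^ 102 := by positivity
  have h1 : ∑ q ∈ Q, (RareW_g σ T z q - 1) / ((q : ℝ) - 1) =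
      ∑ q ∈ Q.filter (fun q => blk σ q ∈ T), (z (blk σ q) - 1) / ((q : ℝ) - 1) := by
    rw [Finset.sum_filter]
    apply Finset.sum_congr rfl
    intro q _
    unfold RareW_g
    split_ifs <;> simp
  rw [h1, ← Finset.sum_fiberwise_of_maps_to (t := T) (g := fun q => blk σ q)
    (fun q hq => (Finset.mem_filter.1 hq).2)]
  apply Finset.sum_le_sum
  intro t ht
  have h2 : ∑ q ∈ (Q.filter (fun q => blk σ q ∈ T)).filter (fun q => blk σ q = t),
      (z (blk σ q) - 1) / ((q : ℝ) - 1) =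
      (z t - 1) * ∑ q ∈ (Q.filter (fun q => blk σ q ∈ T)).filter (fun q => blk σ q = t),
        1 / ((q : ℝ) - 1) := by
    rw [Finset.mul_sum]
    apply Finset.sum_congr rfl
    intro q hq
    rw [(Finset.mem_filter.1 hq).2]
    ring
  rw [h2]
  apply mul_le_mul_of_nonneg_left _ (by linarith [hz t])
  have h3 := hC ((t : ℝ) * σ ^ 102) (((t : ℝ) + 1) * σ ^ 102) (by positivity) (by linarith only [hb])
    ((Q.filter (fun q => blk σ q ∈ T)).filter (fun q => blk σ q = t)) ?_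
  · have h4 : ((t : ℝ) + 1) * σ ^ 102 - (t : ℝ) * σ ^ 102 = σ ^ 102 := by ring
    rw [h4] at h3
    exact h3
  · intro q hq
    have hq1 := Finset.mem_filter.1 hq
    have hq2 := (Finset.mem_filter.1 hq1.1)
    refine ⟨hQ q hq2.1, ?_⟩
    have hbt : ⌊ll q / σ ^ 102⌋₊ = t := hq1.2
    have ht1 : 1 ≤ t := hT t ht
    constructor
    · have h5 : (t : ℝ) ≤ ll q / σ ^ 102 :=
        (Nat.le_floor_iff' (by omega)).1 (by rw [hbt])
      rwa [le_div_iff₀ hb] at h5
    · have h5 : ll q / σ ^ 102 < (t : ℝ) + 1 := by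
        have := Nat.lt_floor_add_one (ll q / σ ^ 102)
        rwa [hbt] at this
      rw [div_lt_iff₀ hb] at h5
      exact h5.le

/-- numerical bound for the number of patterns -/
theorem RareW_num {σ C : ℝ} (hC : 1 ≤ C) (hσ : 1000 * C ≤ σ) :
    ((⌊20 * σ ^ 120⌋₊ + 1 : ℕ) : ℝ) ^ (Tm σ) * Real.exp (C + (2 * C + 1) * (20 * σ ^ 18)) ≤
      Real.exp (σ ^ 20) := by
  have hσ1 : 1000 ≤ σ := by linarith
  have hs0 : 0 < σ := by linarith
  have h1 : ((⌊20 * σ ^ 120⌋₊ + 1 : ℕ) : ℝ) ≤ Real.exp (124 * σ) := by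
    have h2 : ((⌊20 * σ ^ 120⌋₊ + 1 : ℕ) : ℝ) ≤ 20 * σ ^ 120 + 1 := by
      push_cast
      have := Nat.floor_le (show 0 ≤ 20 * σ ^ 120 by positivity)
      linarith
    have h3 : σ ≤ Real.exp σ := by
      have := Real.add_one_le_exp σ
      linarith
    have h4 : σ ^ 120 ≤ Real.exp (120 * σ) := by
      have h41 : Real.exp (120 * σ) = Real.exp σ ^ 120 := by
        rw [← Real.exp_nat_mul]
        norm_num
      rw [h41]
      exact pow_le_pow_left₀ hs0.le h3 120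
    have h5 : (21 : ℝ) ≤ Real.exp (4 * σ) := by
      have := Real.add_one_le_exp (4 * σ)
      linarith
    have h6 : (1 : ℝ) ≤ σ ^ 120 := one_le_pow₀ (by linarith)
    calc ((⌊20 * σ ^ 120⌋₊ + 1 : ℕ) : ℝ) ≤ 20 * σ ^ 120 + 1 := h2
      _ ≤ 21 * σ ^ 120 := by linarith
      _ ≤ Real.exp (4 * σ) * Real.exp (120 * σ) := by
          apply mul_le_mul h5 h4 (by positivity) (Real.exp_pos _).le
      _ = Real.exp (124 * σ) := by
          rw [← Real.exp_add]
          congr 1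
          ring
  have h7 : (Tm σ : ℝ) ≤ σ ^ 18 + 4 := by
    unfold Tm
    push_cast
    have := Nat.ceil_lt_add_one (show 0 ≤ σ ^ 18 by positivity)
    linarith
  have h8 : ((⌊20 * σ ^ 120⌋₊ + 1 : ℕ) : ℝ) ^ (Tm σ) ≤ Real.exp ((Tm σ : ℝ) * (124 * σ)) := by
    rw [Real.exp_nat_mul]
    exact pow_le_pow_left₀ (by positivity) h1 _
  calc _ ≤ Real.exp ((Tm σ : ℝ) * (124 * σ)) * Real.exp (C + (2 * C + 1) * (20 * σ ^ 18)) :=
        mul_le_mul_of_nonneg_right h8 (Real.exp_pos _).le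
    _ = Real.exp ((Tm σ : ℝ) * (124 * σ) + (C + (2 * C + 1) * (20 * σ ^ 18))) := by
        rw [← Real.exp_add]
    _ ≤ Real.exp (σ ^ 20) := by
        apply Real.exp_le_exp.2
        have h9 : (1 : ℝ) ≤ σ ^ 18 := one_le_pow₀ (by linarith)
        have h10 : (Tm σ : ℝ) * (124 * σ) ≤ (5 * σ ^ 18) * (124 * σ) :=
          mul_le_mul_of_nonneg_right (by linarith) (by positivity)
        have h11 : (C + (2 * C + 1) * (20 * σ ^ 18)) ≤ 61 * C * σ ^ 18 := by nlinarith only [hC, h9]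
        have h12 : 61 * C * σ ^ 18 ≤ σ * σ ^ 18 :=
          mul_le_mul_of_nonneg_right (by linarith) (by positivity)
        have h13 : σ ^ 20 = σ * (σ * σ ^ 18) := by ring
        have h14 : 1000 * (σ * σ ^ 18) ≤ σ * (σ * σ ^ 18) :=
          mul_le_mul_of_nonneg_right hσ1 (by positivity)
        have h15 : (5 * σ ^ 18) * (124 * σ) = 620 * (σ * σ ^ 18) := by ring
        have h16 : 0 ≤ σ * σ ^ 18 := by positivity
        linarith

/-- pattern of an integer, as a function on all naturals -/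
noncomputable def RareW_ext (T : Finset ℕ) (k : T → ℕ) (t : ℕ) : ℕ := if h : t ∈ T then k ⟨t, h⟩ else 0

/-- general union bound over the patterns -/
theorem RareW_union {σ : ℝ} (f : ℕ → ℝ) (S : Finset ℕ) (M : ℝ)
    (hf : ∀ n ∈ S, (Om n : ℝ) ≤ 20 * σ ^ 120)
    (hM : ∀ (k : ℕ → ℕ) (S' : Finset ℕ), S' ⊆ S →
      (∀ n ∈ S', ∀ t ∈ Finset.Icc 1 (Tm σ), cnt σ t n = k t) → ∑ n ∈ S', f n ≤ M) :
    ∑ n ∈ S, f n ≤ ((⌊20 * σ ^ 120⌋₊ + 1 : ℕ) : ℝ) ^ (Tm σ) * M := by
  classical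
  set T := Finset.Icc 1 (Tm σ) with hT
  set P : Finset (T → ℕ) := Fintype.piFinset (fun _ => range (⌊20 * σ ^ 120⌋₊ + 1)) with hP
  have hmaps : ∀ n ∈ S, (fun t : T => cnt σ t n) ∈ P := by
    intro n hn
    rw [hP, Fintype.mem_piFinset]
    intro t
    rw [Finset.mem_range, Nat.lt_succ_iff]
    apply Nat.le_floor
    have h1 : (cnt σ t n : ℝ) ≤ Om n := by exact_mod_cast cnt_le_Om σ t n
    exact h1.trans (hf n hn)
  rw [← Finset.sum_fiberwise_of_maps_to hmaps]
  have hPcard : (P.card : ℝ) = ((⌊20 * σ ^ 120⌋₊ + 1 : ℕ) : ℝ) ^ (Tm σ) := by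
    rw [hP, Fintype.card_piFinset]
    simp [hT]
  calc _ ≤ ∑ k ∈ P, M := by
        apply Finset.sum_le_sum
        intro k _
        apply hM (RareW_ext T k) _ (Finset.filter_subset _ _)
        intro n hn t ht
        have h1 := (Finset.mem_filter.1 hn).2
        unfold RareW_ext
        rw [dif_pos ht, ← h1]
    _ = _ := by
        rw [Finset.sum_const, nsmul_eq_mul, hPcard]

theorem RareW_zsum {σ : ℝ} (hσ : 1 ≤ σ) (k : ℕ → ℕ) (T : Finset ℕ)
    (hk : ((∑ t ∈ T, k t : ℕ) : ℝ) ≤ 20 * σ ^ 120) :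
    ∑ t ∈ T, (RareW_z σ k t - 1) ≤ 20 * σ ^ 18 := by
  have hb : (0 : ℝ) < σ ^ 102 := by positivity
  have h1 : ∑ t ∈ T, (RareW_z σ k t - 1) ≤ ∑ t ∈ T, (k t : ℝ) / σ ^ 102 := by
    apply Finset.sum_le_sum
    intro t _
    unfold RareW_z
    have h2 : 0 ≤ (k t : ℝ) / σ ^ 102 := by positivity
    have h3 : max 1 ((k t : ℝ) / σ ^ 102) ≤ 1 + (k t : ℝ) / σ ^ 102 :=
      max_le (by linarith) (by linarith)
    linarith
  refine h1.trans ?_
  rw [← Finset.sum_div, div_le_iff₀ hb]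
  push_cast at hk
  calc _ ≤ 20 * σ ^ 120 := hk
    _ = 20 * σ ^ 18 * σ ^ 102 := by ring

theorem rare_w : ∀ᶠ σ : ℝ in Filter.atTop, ∀ (u ξ : ℝ) (S : Finset ℕ), 0 ≤ u → u ≤ σ ^ 120 + 1 →
    (∀ n ∈ S, n ≠ 0 ∧ (∀ q ∈ n.primeFactors, ll q ≤ u) ∧ (Om n : ℝ) ≤ 20 * σ ^ 120 ∧ ξ ≤ II σ n) →
    ∑ n ∈ S, 1 / (n : ℝ) ≤ Real.exp (u - ξ + σ ^ 20) := by
  obtain ⟨C1, hC1, hmi⟩ := mert_int
  obtain ⟨C2, hC2, hma⟩ := mert_all
  set C := C1 + C2 with hC
  have hC1' : 1 ≤ C := by linarith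
  filter_upwards [Filter.eventually_ge_atTop (1000 * C)] with σ hσ
  intro u ξ S hu0 hu hS
  have hσ100 : 100 ≤ σ := by linarith
  have hσ1 : 1 ≤ σ := by linarith
  have hb : (0 : ℝ) < σ ^ 102 := by positivity
  have hb1 : (1 : ℝ) ≤ σ ^ 102 := one_le_pow₀ hσ1
  refine (RareW_union (σ := σ) (fun n => 1 / (n : ℝ)) S
    (Real.exp (u - ξ) * Real.exp (C + (2 * C + 1) * (20 * σ ^ 18)))
    (fun n hn => (hS n hn).2.2.1) ?_).trans ?_
  · intro k S' hS' hk
    rcases S'.eq_empty_or_nonempty with hemp | ⟨n0, hn0⟩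
    · rw [hemp, Finset.sum_empty]
      positivity
    set T := Finset.Icc 1 (Tm σ) with hT
    have hT1 : ∀ t ∈ T, 1 ≤ t := fun t ht => (Finset.mem_Icc.1 ht).1
    set z := RareW_z σ k with hz
    have hz1 : ∀ t, 1 ≤ z t := fun t => RareW_z_one σ k t
    have hksum : ((∑ t ∈ T, k t : ℕ) : ℝ) ≤ 20 * σ ^ 120 := by
      have h1 : ∑ t ∈ T, k t ≤ Om n0 := by
        have h2 : ∑ t ∈ T, k t = ∑ t ∈ T, cnt σ t n0 :=
          Finset.sum_congr rfl (fun t ht => (hk n0 hn0 t ht).symm)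
        rw [h2]
        exact sum_cnt_le σ T n0
      have h3 : ((∑ t ∈ T, k t : ℕ) : ℝ) ≤ Om n0 := by exact_mod_cast h1
      exact h3.trans (hS n0 (hS' hn0)).2.2.1
    have hzsum := RareW_zsum hσ1 k T hksum
    have hzle : ∀ t ∈ T, z t ≤ 21 * σ ^ 18 := by
      intro t ht
      have h1 : z t - 1 ≤ ∑ t ∈ T, (z t - 1) :=
        Finset.single_le_sum (f := fun t => z t - 1) (fun i _ => by linarith [hz1 i]) ht
      have h2 : (1 : ℝ) ≤ σ ^ 18 := one_le_pow₀ hσ1
      linarith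
    -- the weights
    set Q := S'.biUnion Nat.primeFactors with hQ
    have hQp : ∀ q ∈ Q, q.Prime := by
      intro q hq
      obtain ⟨n, _, hqn⟩ := Finset.mem_biUnion.1 hq
      exact Nat.prime_of_mem_primeFactors hqn
    have hQu : ∀ q ∈ Q, ll q ≤ u := by
      intro q hq
      obtain ⟨n, hn, hqn⟩ := Finset.mem_biUnion.1 hq
      exact (hS n (hS' hn)).2.1 q hqn
    have hg1 : ∀ q, 1 ≤ RareW_g σ T z q := by
      intro q
      unfold RareW_g
      split_ifs
      · exact hz1 _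
      · exact le_rfl
    have hgbig : ∀ q, q.Prime → RareW_g σ T z q * (σ ^ 102 + 1) ≤ q - RareW_g σ T z q ∧
        RareW_g σ T z q < q ∨ RareW_g σ T z q = 1 := by
      intro q hq
      by_cases h : blk σ q ∈ T
      · left
        have h1 : RareW_g σ T z q = z (blk σ q) := by
          unfold RareW_g
          rw [if_pos h]
        rw [h1]
        exact RareW_big hσ100 hq (hT1 _ h) (hz1 _) (hzle _ h)
      · right
        unfold RareW_g
        rw [if_neg h]
    have hglt : ∀ q, q.Prime → RareW_g σ T z q < q := by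
      intro q hq
      rcases hgbig q hq with h | h
      · exact h.2
      · rw [h]
        exact_mod_cast hq.one_lt
    have hrank := rankin_w Q (RareW_g σ T z) S'
      (fun q hq => ⟨hQp q hq, by linarith [hg1 q], hglt q (hQp q hq)⟩)
      (fun n hn => ⟨(hS n (hS' hn)).1, fun q hq => Finset.mem_biUnion.2 ⟨n, hn, hq⟩⟩)
    -- value of the product for the pattern
    set W := Real.exp (∑ t ∈ T, σ ^ 102 * Qp ((k t : ℝ) / σ ^ 102) +
      ∑ t ∈ T, (z t - 1) * σ ^ 102) with hW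
    have hWn : ∀ n ∈ S', (n.primeFactorsList.map (RareW_g σ T z)).prod = W := by
      intro n hn
      rw [RareW_prod, hW, ← RareW_exp hσ1]
      apply Finset.prod_congr rfl
      intro t ht
      rw [hk n hn t ht]
    have hWpos : 0 < W := Real.exp_pos _
    have hsum : ∑ n ∈ S', (n.primeFactorsList.map (RareW_g σ T z)).prod / (n : ℝ) =
        W * ∑ n ∈ S', 1 / (n : ℝ) := by
      rw [Finset.mul_sum]
      apply Finset.sum_congr rfl
      intro n hn
      rw [hWn n hn]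
      ring
    rw [hsum] at hrank
    -- Euler product
    have hEuler : ∏ q ∈ Q, (1 - RareW_g σ T z q / q)⁻¹ ≤
        Real.exp ((u + C2) + (1 + 1 / σ ^ 102) * ∑ t ∈ T, (z t - 1) * (σ ^ 102 + C1)) := by
      have h1 : ∀ q ∈ Q, (1 - RareW_g σ T z q / q)⁻¹ ≤
          Real.exp (1 / ((q : ℝ) - 1) +
            (1 + 1 / σ ^ 102) * ((RareW_g σ T z q - 1) / ((q : ℝ) - 1))) := by
        intro q hq
        have hqp := hQp q hq
        have hq2 : (2 : ℝ) ≤ q := by exact_mod_cast hqp.two_le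
        have hlt := hglt q hqp
        have hge := hg1 q
        set y := RareW_g σ T z q with hy
        have hd : 0 < (q : ℝ) - y := by linarith
        have h2 : (1 - y / q)⁻¹ = y / (q - y) + 1 := by
          have hq0 : (q : ℝ) ≠ 0 := by linarith
          field_simp
          ring
        rw [h2]
        refine (Real.add_one_le_exp _).trans ?_
        apply Real.exp_le_exp.2
        have h3 : y / (q - y) = 1 / ((q : ℝ) - 1) +
            (1 + y / (q - y)) * ((y - 1) / ((q : ℝ) - 1)) := by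
          have hq1 : (q : ℝ) - 1 ≠ 0 := by linarith
          field_simp
          ring
        have h4 : (1 + y / (q - y)) * ((y - 1) / ((q : ℝ) - 1)) ≤
            (1 + 1 / σ ^ 102) * ((y - 1) / ((q : ℝ) - 1)) := by
          rcases hgbig q hqp with h | h
          · apply mul_le_mul_of_nonneg_right _ (div_nonneg (by linarith) (by linarith))
            have h5 : y / (q - y) ≤ 1 / σ ^ 102 := by
              rw [div_le_div_iff₀ hd hb]
              have := h.1
              linarith only [hge, this]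
            linarith
          · rw [← hy] at h
            rw [h]
            simp
        linarith
      calc ∏ q ∈ Q, (1 - RareW_g σ T z q / q)⁻¹ ≤ ∏ q ∈ Q, Real.exp (1 / ((q : ℝ) - 1) +
            (1 + 1 / σ ^ 102) * ((RareW_g σ T z q - 1) / ((q : ℝ) - 1))) := by
            apply Finset.prod_le_prod
            · intro q hq
              have hq2 : (0 : ℝ) < q := by exact_mod_cast (hQp q hq).pos
              have := hglt q (hQp q hq)
              apply inv_nonneg.2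
              rw [sub_nonneg, div_le_one hq2]
              exact this.le
            · exact h1
        _ = Real.exp (∑ q ∈ Q, 1 / ((q : ℝ) - 1) +
            (1 + 1 / σ ^ 102) * ∑ q ∈ Q, (RareW_g σ T z q - 1) / ((q : ℝ) - 1)) := by
            rw [← Real.exp_sum, Finset.sum_add_distrib, Finset.mul_sum]
        _ ≤ _ := by
            apply Real.exp_le_exp.2
            apply add_le_add
            · exact hma u hu0 Q (fun q hq => ⟨hQp q hq, hQu q hq⟩)
            · apply mul_le_mul_of_nonneg_left _ (by positivity)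
              exact RareW_blocks hσ1 hmi T hT1 z hz1 Q hQp
    have hII : ξ ≤ ∑ t ∈ T, σ ^ 102 * Qp ((k t : ℝ) / σ ^ 102) := by
      have h1 := (hS n0 (hS' hn0)).2.2.2
      have h2 : II σ n0 = ∑ t ∈ T, σ ^ 102 * Qp ((k t : ℝ) / σ ^ 102) := by
        unfold II
        apply Finset.sum_congr rfl
        intro t ht
        rw [hk n0 hn0 t ht]
      rwa [h2] at h1
    have hfin : W * ∑ n ∈ S', 1 / (n : ℝ) ≤
        W * (Real.exp (u - ξ) * Real.exp (C + (2 * C + 1) * (20 * σ ^ 18))) := by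
      refine (hrank.trans hEuler).trans ?_
      rw [hW, ← Real.exp_add, ← Real.exp_add]
      apply Real.exp_le_exp.2
      have h1 : (1 + 1 / σ ^ 102) * ∑ t ∈ T, (z t - 1) * (σ ^ 102 + C1) =
          ∑ t ∈ T, (z t - 1) * σ ^ 102 +
            ((1 + 1 / σ ^ 102) * C1 + 1) * ∑ t ∈ T, (z t - 1) := by
        rw [← Finset.sum_mul, ← Finset.sum_mul]
        field_simp
        ring
      have h2 : (1 + 1 / σ ^ 102) * C1 + 1 ≤ 2 * C + 1 := by
        have : 1 / σ ^ 102 ≤ 1 := by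
          rw [div_le_one hb]
          exact hb1
        nlinarith only [hC1, hC2, this]
      have h3 : 0 ≤ ∑ t ∈ T, (z t - 1) := Finset.sum_nonneg (fun t _ => by linarith [hz1 t])
      have h4 : ((1 + 1 / σ ^ 102) * C1 + 1) * ∑ t ∈ T, (z t - 1) ≤
          (2 * C + 1) * (20 * σ ^ 18) := by
        apply mul_le_mul h2 hzsum h3 (by linarith)
      rw [h1]
      linarith
    exact le_of_mul_le_mul_left hfin hWpos
  · have hnum := RareW_num hC1' hσ
    calc _ = Real.exp (u - ξ) * (((⌊20 * σ ^ 120⌋₊ + 1 : ℕ) : ℝ) ^ (Tm σ) *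
          Real.exp (C + (2 * C + 1) * (20 * σ ^ 18))) := by ring
      _ ≤ Real.exp (u - ξ) * Real.exp (σ ^ 20) :=
          mul_le_mul_of_nonneg_left hnum (Real.exp_pos _).le
      _ = _ := by rw [← Real.exp_add]

end P031
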