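import Vale.Agent.Lib.P031.Basic
import Vale.Agent.Lib.P031.Mert
import Vale.Agent.Lib.P031.RankinX
import Vale.Agent.Lib.P031.RareW

/-!
# P031 RareX: integers with a large rarity functional `II` are rare (Rankin with a union over patterns).

Put `b = σ^102`, `s = σ^120`. For a pattern `k : {1..Tm} → ℕ`, `k_t ≤ 20 s`, let `z_t = max 1 (k_t/b) ≤ 20 σ^18` and
`g q = z_t` if `blk σ q = t ∈ [1, Tm]`, `g q = 1` otherwise. For `n` with `cnt σ t n = k_t` (`1 ≤ t ≤ Tm`) one has
`(n.primeFactorsList.map g).prod = ∏_t z_t^(k_t)`. Since `k_t log z_t - (z_t - 1) b = b Qp (k_t/b)`,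
Rankin gives for the sum over the `n` with this pattern
`∑ 1/n ≤ ∏ z_t^(-k_t) ∏_q (1 - g q/q)⁻¹ ≤ exp (∑_t (-k_t log z_t + (z_t - 1)(b + C)) + u + C)
 ≤ exp(u - ∑_t b Qp(k_t/b) + C ∑ (z_t - 1) + C)`, and `∑_t b Qp (k_t/b) = II σ n ≥ ξ`, `∑ (z_t - 1) ≤ ∑ k_t/b ≤ 20 σ^18 · …`
(`∑ k_t ≤ Om n ≤ 20 s`). (For `q` in a block `≥ 1`, `q ≥ exp exp b` is huge compared to `g q`; use
`(1 - x)⁻¹ ≤ exp(x + 2x^2)` for `0 ≤ x ≤ 1/2` and `mert_int`, `mert_all`; note `q/(q-1)`-type factors converge.)
The number of patterns is at most `(20 s + 1)^Tm ≤ exp(σ^19)`.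
`rare_x` is the same with `rankin_x`: `∏_{q ≤ N} (1 + (g q - 1)/(q - g q)) ≤ exp(∑_t (z_t - 1)(b + C) + 1)`. -/

namespace P031

open Finset Real

theorem rare_x : ∀ᶠ σ : ℝ in Filter.atTop, ∀ (N : ℕ) (ξ : ℝ) (S : Finset ℕ),
    (N : ℝ) ≤ Real.exp (Real.exp (σ ^ 120 + 1)) →
    (∀ n ∈ S, n ∈ Finset.Icc 1 N ∧ (Om n : ℝ) ≤ 20 * σ ^ 120 ∧ ξ ≤ II σ n) →
    (S.card : ℝ) ≤ N * Real.exp (-ξ + σ ^ 20) := by
  obtain ⟨C, hC1', hmi⟩ := mert_int
  filter_upwards [Filter.eventually_ge_atTop (1000 * C)] with σ hσ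
  intro N ξ S _ hS
  have hσ100 : 100 ≤ σ := by linarith
  have hσ1 : 1 ≤ σ := by linarith
  have hb : (0 : ℝ) < σ ^ 102 := by positivity
  have hb1 : (1 : ℝ) ≤ σ ^ 102 := one_le_pow₀ hσ1
  have hcard : (S.card : ℝ) = ∑ n ∈ S, (fun _ : ℕ => (1 : ℝ)) n := by simp
  rw [hcard]
  refine (RareW_union (σ := σ) (fun _ => (1 : ℝ)) S
    ((N : ℝ) * Real.exp (-ξ) * Real.exp (C + (2 * C + 1) * (20 * σ ^ 18)))
    (fun n hn => (hS n hn).2.1) ?_).trans ?_
  · intro k S' hS' hk
    rcases S'.eq_empty_or_nonempty with hemp | ⟨n0, hn0⟩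
    · rw [hemp, Finset.sum_empty]
      positivity
    set T := Finset.Icc 1 (Tm σ) with hT
    have hT1 : ∀ t ∈ T, 1 ≤ t := fun t ht => (Finset.mem_Icc.1 ht).1
    set z := RareW_z σ k with hz
    have hz1 : ∀ t, 1 ≤ z t := fun t => RareW_z_one σ k t
    have hksum : ((∑ t ∈ T, k t : ℕ) : ℝ) ≤ 20 * σ ^ 120 := by
      have h1 : ∑ t ∈ T, k t ≤ Om n0 := by
        have h2 : ∑ t ∈ T, k t = ∑ t ∈ T, cnt σ t n0 :=
          Finset.sum_congr rfl (fun t ht => (hk n0 hn0 t ht).symm)
        rw [h2]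
        exact sum_cnt_le σ T n0
      have h3 : ((∑ t ∈ T, k t : ℕ) : ℝ) ≤ Om n0 := by exact_mod_cast h1
      exact h3.trans (hS n0 (hS' hn0)).2.1
    have hzsum := RareW_zsum hσ1 k T hksum
    have hzle : ∀ t ∈ T, z t ≤ 21 * σ ^ 18 := by
      intro t ht
      have h1 : z t - 1 ≤ ∑ t ∈ T, (z t - 1) :=
        Finset.single_le_sum (f := fun t => z t - 1) (fun i _ => by linarith [hz1 i]) ht
      have h2 : (1 : ℝ) ≤ σ ^ 18 := one_le_pow₀ hσ1
      linarith
    have hg1 : ∀ q, 1 ≤ RareW_g σ T z q := by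
      intro q
      unfold RareW_g
      split_ifs
      · exact hz1 _
      · exact le_rfl
    have hgbig : ∀ q, q.Prime → RareW_g σ T z q * (σ ^ 102 + 1) ≤ q - RareW_g σ T z q ∧
        RareW_g σ T z q < q ∨ RareW_g σ T z q = 1 := by
      intro q hq
      by_cases h : blk σ q ∈ T
      · left
        have h1 : RareW_g σ T z q = z (blk σ q) := by
          unfold RareW_g
          rw [if_pos h]
        rw [h1]
        exact RareW_big hσ100 hq (hT1 _ h) (hz1 _) (hzle _ h)
      · right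
        unfold RareW_g
        rw [if_neg h]
    have hglt : ∀ q, q.Prime → RareW_g σ T z q < q := by
      intro q hq
      rcases hgbig q hq with h | h
      · exact h.2
      · rw [h]
        exact_mod_cast hq.one_lt
    have hrank := rankin_x N (RareW_g σ T z) (fun q hq => ⟨hg1 q, hglt q hq⟩)
    set W := Real.exp (∑ t ∈ T, σ ^ 102 * Qp ((k t : ℝ) / σ ^ 102) +
      ∑ t ∈ T, (z t - 1) * σ ^ 102) with hW
    have hWn : ∀ n ∈ S', (n.primeFactorsList.map (RareW_g σ T z)).prod = W := by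
      intro n hn
      rw [RareW_prod, hW, ← RareW_exp hσ1]
      apply Finset.prod_congr rfl
      intro t ht
      rw [hk n hn t ht]
    have hWpos : 0 < W := Real.exp_pos _
    have hsum : W * ∑ n ∈ S', (1 : ℝ) ≤
        ∑ n ∈ Finset.Icc 1 N, (n.primeFactorsList.map (RareW_g σ T z)).prod := by
      rw [Finset.mul_sum]
      calc ∑ n ∈ S', W * 1 = ∑ n ∈ S', (n.primeFactorsList.map (RareW_g σ T z)).prod := by
            apply Finset.sum_congr rfl
            intro n hn
            rw [hWn n hn, mul_one]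
        _ ≤ _ := by
            apply Finset.sum_le_sum_of_subset_of_nonneg
            · intro n hn
              exact (hS n (hS' hn)).1
            · intro n _ _
              apply List.prod_nonneg
              intro y hy
              obtain ⟨q, _, rfl⟩ := List.mem_map.1 hy
              linarith [hg1 q]
    -- Euler product
    have hEuler : ∏ q ∈ (Finset.range (N + 1)).filter Nat.Prime,
        (1 + (RareW_g σ T z q - 1) / ((q : ℝ) - RareW_g σ T z q)) ≤
        Real.exp ((1 + 1 / σ ^ 102) * ∑ t ∈ T, (z t - 1) * (σ ^ 102 + C)) := by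
      have hQp : ∀ q ∈ (Finset.range (N + 1)).filter Nat.Prime, q.Prime :=
        fun q hq => (Finset.mem_filter.1 hq).2
      have h1 : ∀ q ∈ (Finset.range (N + 1)).filter Nat.Prime,
          1 + (RareW_g σ T z q - 1) / ((q : ℝ) - RareW_g σ T z q) ≤
          Real.exp ((1 + 1 / σ ^ 102) * ((RareW_g σ T z q - 1) / ((q : ℝ) - 1))) := by
        intro q hq
        have hqp := hQp q hq
        have hq2 : (2 : ℝ) ≤ q := by exact_mod_cast hqp.two_le
        have hlt := hglt q hqp
        have hge := hg1 q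
        set y := RareW_g σ T z q with hy
        have hd : 0 < (q : ℝ) - y := by linarith
        rw [add_comm]
        refine (Real.add_one_le_exp _).trans ?_
        apply Real.exp_le_exp.2
        have h3 : (y - 1) / ((q : ℝ) - y) =
            (1 + (y - 1) / (q - y)) * ((y - 1) / ((q : ℝ) - 1)) := by
          have hq1 : (q : ℝ) - 1 ≠ 0 := by linarith
          field_simp
          ring
        rw [h3]
        rcases hgbig q hqp with h | h
        · apply mul_le_mul_of_nonneg_right _ (div_nonneg (by linarith) (by linarith))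
          have h5 : (y - 1) / (q - y) ≤ 1 / σ ^ 102 := by
            rw [div_le_div_iff₀ hd hb]
            have := h.1
            nlinarith only [hge, hd, this]
          linarith
        · rw [← hy] at h
          rw [h]
          simp
      calc _ ≤ ∏ q ∈ (Finset.range (N + 1)).filter Nat.Prime,
            Real.exp ((1 + 1 / σ ^ 102) * ((RareW_g σ T z q - 1) / ((q : ℝ) - 1))) := by
            apply Finset.prod_le_prod
            · intro q hq
              have hq2 : (0 : ℝ) < q := by exact_mod_cast (hQp q hq).pos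
              have h2 := hglt q (hQp q hq)
              have h3 := hg1 q
              have : 0 ≤ (RareW_g σ T z q - 1) / ((q : ℝ) - RareW_g σ T z q) :=
                div_nonneg (by linarith) (by linarith)
              linarith
            · exact h1
        _ = Real.exp ((1 + 1 / σ ^ 102) * ∑ q ∈ (Finset.range (N + 1)).filter Nat.Prime,
              (RareW_g σ T z q - 1) / ((q : ℝ) - 1)) := by
            rw [← Real.exp_sum, Finset.mul_sum]
        _ ≤ _ := by
            apply Real.exp_le_exp.2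
            apply mul_le_mul_of_nonneg_left _ (by positivity)
            exact RareW_blocks hσ1 hmi T hT1 z hz1 _ hQp
    have hII : ξ ≤ ∑ t ∈ T, σ ^ 102 * Qp ((k t : ℝ) / σ ^ 102) := by
      have h1 := (hS n0 (hS' hn0)).2.2
      have h2 : II σ n0 = ∑ t ∈ T, σ ^ 102 * Qp ((k t : ℝ) / σ ^ 102) := by
        unfold II
        apply Finset.sum_congr rfl
        intro t ht
        rw [hk n0 hn0 t ht]
      rwa [h2] at h1
    have hfin : W * ∑ n ∈ S', (1 : ℝ) ≤
        W * ((N : ℝ) * Real.exp (-ξ) * Real.exp (C + (2 * C + 1) * (20 * σ ^ 18))) := by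
      refine ((hsum.trans hrank).trans
        (mul_le_mul_of_nonneg_left hEuler (Nat.cast_nonneg N))).trans ?_
      have hre : W * ((N : ℝ) * Real.exp (-ξ) * Real.exp (C + (2 * C + 1) * (20 * σ ^ 18))) =
          N * (W * (Real.exp (-ξ) * Real.exp (C + (2 * C + 1) * (20 * σ ^ 18)))) := by ring
      rw [hre]
      apply mul_le_mul_of_nonneg_left _ (Nat.cast_nonneg N)
      rw [hW, ← Real.exp_add, ← Real.exp_add]
      apply Real.exp_le_exp.2
      have h1 : (1 + 1 / σ ^ 102) * ∑ t ∈ T, (z t - 1) * (σ ^ 102 + C) =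
          ∑ t ∈ T, (z t - 1) * σ ^ 102 +
            ((1 + 1 / σ ^ 102) * C + 1) * ∑ t ∈ T, (z t - 1) := by
        rw [← Finset.sum_mul, ← Finset.sum_mul]
        field_simp
        ring
      have h2 : (1 + 1 / σ ^ 102) * C + 1 ≤ 2 * C + 1 := by
        have : 1 / σ ^ 102 ≤ 1 := by
          rw [div_le_one hb]
          exact hb1
        nlinarith only [hC1', this]
      have h3 : 0 ≤ ∑ t ∈ T, (z t - 1) := Finset.sum_nonneg (fun t _ => by linarith [hz1 t])
      have h4 : ((1 + 1 / σ ^ 102) * C + 1) * ∑ t ∈ T, (z t - 1) ≤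
          (2 * C + 1) * (20 * σ ^ 18) := by
        apply mul_le_mul h2 hzsum h3 (by linarith)
      rw [h1]
      linarith
    exact le_of_mul_le_mul_left hfin hWpos
  · have hnum := RareW_num hC1' hσ
    calc _ = (N : ℝ) * Real.exp (-ξ) * (((⌊20 * σ ^ 120⌋₊ + 1 : ℕ) : ℝ) ^ (Tm σ) *
          Real.exp (C + (2 * C + 1) * (20 * σ ^ 18))) := by ring
      _ ≤ (N : ℝ) * Real.exp (-ξ) * Real.exp (σ ^ 20) :=
          mul_le_mul_of_nonneg_left hnum (by positivity)
      _ = _ := by rw [mul_assoc, ← Real.exp_add]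

end P031
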