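import Vale.Agent.Lib.P031.BadIrr
import Vale.Agent.Lib.P031.BadCases
import Vale.Agent.Lib.P031.BadAB
import Vale.Agent.Lib.P031.RareX

/-!
# P031 Bad: almost all totient values are in `WW`.

A value `v ∈ Vset X` not in `WW` or `≤ √X` is: not `Rg` or `≤ √X` (`bad_irr`), or `Rg`, `> √X`, with a preimage `N` which
is not good (`bad_cases`, then `bad_A`, `bad_B`, or `rare_x` with `ξ = (1 + 1/σ^4) σ^120`:
`X exp(-ξ + σ^20) ≤ (X/log X) exp(1/2 - σ^116 + σ^20)`).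
-/

namespace P031

open Finset Real

private lemma Bad_four {a b c d e : ℝ} (ha : a ≤ e - 2) (hb : b ≤ e - 2) (hc : c ≤ e - 2)
    (hd : d ≤ e - 2) :
    Real.exp a + Real.exp b + Real.exp c + Real.exp d ≤ Real.exp e := by
  have h2 : (4 : ℝ) ≤ Real.exp 2 := by
    have h3 : (2 : ℝ) ≤ Real.exp 1 := by
      have := Real.add_one_le_exp (1 : ℝ)
      linarith
    have h4 : Real.exp 2 = Real.exp 1 * Real.exp 1 := by
      rw [← Real.exp_add]
      norm_num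
    rw [h4]
    nlinarith only [h3]
  have h5 : ∀ x : ℝ, x ≤ e - 2 → Real.exp x ≤ Real.exp e / 4 := by
    intro x hx
    have h6 : Real.exp x ≤ Real.exp (e - 2) := Real.exp_le_exp.2 hx
    have h7 : Real.exp (e - 2) * Real.exp 2 = Real.exp e := by
      rw [← Real.exp_add]
      ring_nf
    have h8 := Real.exp_pos (e - 2)
    nlinarith only [h2, h6, h7, h8]
  linarith [h5 a ha, h5 b hb, h5 c hc, h5 d hd]

open Classical in
theorem bad_count : ∀ᶠ σ : ℝ in Filter.atTop, ∀ X : ℝ, Real.exp (Real.exp (σ ^ 120)) ≤ X →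
    X ≤ Real.exp (Real.exp (σ ^ 120 + 1 / 2)) →
    (((Vset X).filter (fun v => ¬ (WW σ v ∧ Real.sqrt X < v))).card : ℝ) ≤
      X / Real.log X * Real.exp (-(σ ^ 60)) := by
  filter_upwards [bad_irr, bad_cases, bad_A, bad_B, rare_x, Filter.eventually_ge_atTop 10] with
    σ hirr hcases hA hB hrare hσ
  intro X hX1 hX2
  have hσ1 : 1 ≤ σ := by linarith
  set B := (Vset X).filter (fun v => ¬ (WW σ v ∧ Real.sqrt X < v)) with hBdef
  have hX1' : 1 < X := lt_of_lt_of_le (Real.one_lt_exp_iff.2 (Real.exp_pos _)) hX1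
  have hlog : 0 < Real.log X := Real.log_pos hX1'
  have hlog2 : Real.log X ≤ Real.exp (σ ^ 120 + 1 / 2) := by
    rw [Real.log_le_iff_le_exp (by linarith)]
    exact hX2
  have hmemB : ∀ v ∈ B, v ≠ 0 ∧ (v : ℝ) ≤ X ∧ v ∈ Finset.Icc 1 ⌊X⌋₊ ∧
      ¬ (WW σ v ∧ Real.sqrt X < v) ∧ ∃ m : ℕ, Nat.totient m = v := by
    intro v hv
    rw [hBdef, Finset.mem_filter] at hv
    have h1 := hv.1
    unfold Vset at h1
    rw [Finset.mem_filter] at h1
    have h2 := Finset.mem_Icc.1 h1.1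
    refine ⟨by omega, ?_, h1.1, hv.2, h1.2⟩
    exact (Nat.le_floor_iff (by linarith)).1 h2.2
  set S1 := B.filter (fun v => ¬ Rg σ v ∨ (v : ℝ) ≤ Real.sqrt X) with hS1
  set SA := B.filter (fun v => (Om v : ℝ) ≤ 20 * σ ^ 120 ∧
      ∃ P0 w : ℕ, P0.Prime ∧ ¬ Normal σ P0 ∧ v = (P0 - 1) * w ∧
      (∃ m : ℕ, Nat.totient m = w) ∧ Real.log X / (50 * σ ^ 120) ≤ Real.log (P0 : ℝ)) with hSA
  set SB := B.filter (fun v => (Om v : ℝ) ≤ 20 * σ ^ 120 ∧
      ∃ P0 w n : ℕ, P0.Prime ∧ v = (P0 - 1) * (w * n) ∧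
      (∃ m : ℕ, Nat.totient m = w) ∧ Real.log X / (50 * σ ^ 120) ≤ Real.log (P0 : ℝ) ∧
      BadN σ n) with hSB
  set SC := B.filter (fun v => (Om v : ℝ) ≤ 20 * σ ^ 120 ∧
      (1 + 1 / σ ^ 4) * σ ^ 120 ≤ II σ v) with hSC
  have hcover : B ⊆ S1 ∪ SA ∪ SB ∪ SC := by
    intro v hv
    obtain ⟨hv0, hvX, -, hvW, hvm⟩ := hmemB v hv
    by_cases h1 : ¬ Rg σ v ∨ (v : ℝ) ≤ Real.sqrt X
    · have : v ∈ S1 := Finset.mem_filter.2 ⟨hv, h1⟩
      simp only [Finset.mem_union]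
      tauto
    · push Not at h1
      obtain ⟨h2, h3⟩ := h1
      have h4 : ¬ WW σ v := fun h => hvW ⟨h, h3⟩
      unfold WW at h4
      push Not at h4
      obtain ⟨N, hN, hNg⟩ := h4 h2 hvm
      have hOm : (Om v : ℝ) ≤ 20 * σ ^ 120 := h2.2.1
      subst hN
      rcases hcases X N hX1 hX2 h2 h3 hvX hNg with h5 | h5 | h5
      · have : Nat.totient N ∈ SA := Finset.mem_filter.2 ⟨hv, hOm, h5⟩
        simp only [Finset.mem_union]
        tauto
      · have : Nat.totient N ∈ SB := Finset.mem_filter.2 ⟨hv, hOm, h5⟩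
        simp only [Finset.mem_union]
        tauto
      · have : Nat.totient N ∈ SC := Finset.mem_filter.2 ⟨hv, hOm, h5⟩
        simp only [Finset.mem_union]
        tauto
  have c1 : (S1.card : ℝ) ≤ X / Real.log X * Real.exp (-(σ ^ 61)) := by
    refine hirr X S1 hX1 hX2 fun v hv => ?_
    obtain ⟨hv1, hv2⟩ := Finset.mem_filter.1 hv
    obtain ⟨hv0, hvX, -, -, -⟩ := hmemB v hv1
    exact ⟨hv0, hvX, hv2⟩
  have c2 : (SA.card : ℝ) ≤ X / Real.log X * Real.exp (-(σ ^ 64)) := by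
    refine hA X SA hX1 hX2 fun v hv => ?_
    obtain ⟨hv1, hv2⟩ := Finset.mem_filter.1 hv
    obtain ⟨hv0, hvX, -, -, -⟩ := hmemB v hv1
    exact ⟨hv0, hvX, hv2.1, hv2.2⟩
  have c3 : (SB.card : ℝ) ≤ X / Real.log X * Real.exp (-(σ ^ 63)) := by
    refine hB X SB hX1 hX2 fun v hv => ?_
    obtain ⟨hv1, hv2⟩ := Finset.mem_filter.1 hv
    obtain ⟨hv0, hvX, -, -, -⟩ := hmemB v hv1
    exact ⟨hv0, hvX, hv2.1, hv2.2⟩
  have hfl : ((⌊X⌋₊ : ℕ) : ℝ) ≤ X := Nat.floor_le (by linarith)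
  have c4 : (SC.card : ℝ) ≤ (⌊X⌋₊ : ℕ) * Real.exp (-((1 + 1 / σ ^ 4) * σ ^ 120) + σ ^ 20) := by
    refine hrare ⌊X⌋₊ ((1 + 1 / σ ^ 4) * σ ^ 120) SC ?_ fun v hv => ?_
    · refine hfl.trans (hX2.trans ?_)
      apply Real.exp_le_exp.2
      apply Real.exp_le_exp.2
      linarith
    · obtain ⟨hv1, hv2⟩ := Finset.mem_filter.1 hv
      obtain ⟨hv0, hvX, hvI, -, -⟩ := hmemB v hv1
      exact ⟨hvI, hv2.1, hv2.2⟩
  have c4' : (SC.card : ℝ) ≤ X / Real.log X * Real.exp (1 / 2 - σ ^ 116 + σ ^ 20) := by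
    have e1 : (1 + 1 / σ ^ 4) * σ ^ 120 = σ ^ 120 + σ ^ 116 := by
      have : σ ≠ 0 := by linarith
      field_simp
    rw [e1] at c4
    refine c4.trans ?_
    have h5 : ((⌊X⌋₊ : ℕ) : ℝ) * Real.exp (-(σ ^ 120 + σ ^ 116) + σ ^ 20) ≤
        X * Real.exp (-(σ ^ 120 + σ ^ 116) + σ ^ 20) :=
      mul_le_mul_of_nonneg_right hfl (Real.exp_pos _).le
    refine h5.trans ?_
    rw [div_mul_eq_mul_div, le_div_iff₀ hlog]
    have h6 : Real.exp (-(σ ^ 120 + σ ^ 116) + σ ^ 20) * Real.log X ≤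
        Real.exp (1 / 2 - σ ^ 116 + σ ^ 20) := by
      calc Real.exp (-(σ ^ 120 + σ ^ 116) + σ ^ 20) * Real.log X
          ≤ Real.exp (-(σ ^ 120 + σ ^ 116) + σ ^ 20) * Real.exp (σ ^ 120 + 1 / 2) :=
            mul_le_mul_of_nonneg_left hlog2 (Real.exp_pos _).le
        _ = Real.exp (1 / 2 - σ ^ 116 + σ ^ 20) := by
            rw [← Real.exp_add]
            ring_nf
    calc X * Real.exp (-(σ ^ 120 + σ ^ 116) + σ ^ 20) * Real.log X
        = X * (Real.exp (-(σ ^ 120 + σ ^ 116) + σ ^ 20) * Real.log X) := by ring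
      _ ≤ X * Real.exp (1 / 2 - σ ^ 116 + σ ^ 20) :=
        mul_le_mul_of_nonneg_left h6 (by linarith)
  have hcard : (B.card : ℝ) ≤ S1.card + SA.card + SB.card + SC.card := by
    have h1 := Finset.card_le_card hcover
    have h2 := Finset.card_union_le (S1 ∪ SA ∪ SB) SC
    have h3 := Finset.card_union_le (S1 ∪ SA) SB
    have h4 := Finset.card_union_le S1 SA
    exact_mod_cast (by omega : B.card ≤ S1.card + SA.card + SB.card + SC.card)
  have hpow : ∀ k : ℕ, (1 : ℝ) ≤ σ ^ k := fun k => one_le_pow₀ hσ1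
  have q61 : σ ^ 61 = σ * σ ^ 60 := by ring
  have p61 : 10 * σ ^ 60 ≤ σ ^ 61 := by
    rw [q61]
    exact mul_le_mul_of_nonneg_right hσ (by positivity)
  have p63 : σ ^ 61 ≤ σ ^ 63 := pow_le_pow_right₀ hσ1 (by norm_num)
  have p64 : σ ^ 61 ≤ σ ^ 64 := pow_le_pow_right₀ hσ1 (by norm_num)
  have p116 : σ ^ 61 ≤ σ ^ 116 := pow_le_pow_right₀ hσ1 (by norm_num)
  have p20 : σ ^ 20 ≤ σ ^ 60 := pow_le_pow_right₀ hσ1 (by norm_num)
  have p60 := hpow 60
  have hsum := Bad_four (a := -(σ ^ 61)) (b := -(σ ^ 64)) (c := -(σ ^ 63))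
    (d := 1 / 2 - σ ^ 116 + σ ^ 20) (e := -(σ ^ 60)) (by linarith) (by linarith) (by linarith)
    (by linarith)
  have hXL : 0 ≤ X / Real.log X := div_nonneg (by linarith) hlog.le
  calc (B.card : ℝ) ≤ S1.card + SA.card + SB.card + SC.card := hcard
    _ ≤ X / Real.log X * Real.exp (-(σ ^ 61)) + X / Real.log X * Real.exp (-(σ ^ 64)) +
        X / Real.log X * Real.exp (-(σ ^ 63)) +
        X / Real.log X * Real.exp (1 / 2 - σ ^ 116 + σ ^ 20) := by linarith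
    _ = X / Real.log X * (Real.exp (-(σ ^ 61)) + Real.exp (-(σ ^ 64)) + Real.exp (-(σ ^ 63)) +
        Real.exp (1 / 2 - σ ^ 116 + σ ^ 20)) := by ring
    _ ≤ X / Real.log X * Real.exp (-(σ ^ 60)) := mul_le_mul_of_nonneg_left hsum hXL

end P031
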