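import Vale.Agent.Lib.P031.Defs

/-!
# P031 BadDefs: the rare cofactors.
-/

namespace P031

/-- rare cofactors -/
def BadN (σ : ℝ) (n : ℕ) : Prop :=
  n ≠ 0 ∧
  ((∃ p : ℕ, p.Prime ∧ p ≤ EE σ ∧ σ ^ 111 < ll p ∧ ¬ Normal σ p ∧ n = p - 1) ∨
   ((∀ q ∈ n.primeFactors, ll q ≤ σ ^ 111) ∧ σ ^ 113 < (Om n : ℝ)) ∨
   (∃ t : ℕ, σ ^ 119 ≤ (t : ℝ) ∧ (t : ℝ) ≤ σ ^ 120 + 2 ∧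
     (∀ q ∈ n.primeFactors, ll q ≤ t ∧ ll q ≤ σ ^ 120 + 1) ∧ (Om n : ℝ) ≤ 20 * σ ^ 120 ∧
     (1 + 2 / σ ^ 4) * ((t : ℝ) - 1) ≤ II σ n))

end P031
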