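import Vale.Agent.Lib.P031.Defs

/-!
# P031 LL: elementary facts on `ll`, `blk`, `EE`, `Tm`.
`ll n = log (log n)`; for `n ≥ 2`, `log n > 0` and everything is monotone.
-/

namespace P031

open Finset Real

private lemma LL_log_pos {n : ℕ} (hn : 2 ≤ n) : 0 < Real.log (n : ℝ) :=
  Real.log_pos (by exact_mod_cast (by omega : 1 < n))

private lemma LL_cast_pos {n : ℕ} (hn : 2 ≤ n) : (0 : ℝ) < (n : ℝ) := by
  exact_mod_cast (by omega : 0 < n)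

theorem ll_mono {m n : ℕ} (hm : 2 ≤ m) (h : m ≤ n) : ll m ≤ ll n := by
  unfold ll
  exact Real.log_le_log (LL_log_pos hm)
    (Real.log_le_log (LL_cast_pos hm) (by exact_mod_cast h))

theorem ll_strict {m n : ℕ} (hm : 2 ≤ m) (h : m < n) : ll m < ll n := by
  unfold ll
  exact Real.log_lt_log (LL_log_pos hm)
    (Real.log_lt_log (LL_cast_pos hm) (by exact_mod_cast h))

theorem lt_of_ll_lt {m n : ℕ} (hn : 2 ≤ n) (h : ll m < ll n) : m < n := by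
  by_contra hle
  push Not at hle
  exact absurd h (not_lt.2 (ll_mono hn hle))

theorem ll_le_iff {n : ℕ} (hn : 2 ≤ n) {u : ℝ} : ll n ≤ u ↔ (n : ℝ) ≤ Real.exp (Real.exp u) := by
  unfold ll
  rw [Real.log_le_iff_le_exp (LL_log_pos hn), Real.log_le_iff_le_exp (LL_cast_pos hn)]

theorem le_ll_iff {n : ℕ} (hn : 2 ≤ n) {u : ℝ} : u ≤ ll n ↔ Real.exp (Real.exp u) ≤ (n : ℝ) := by
  unfold ll
  rw [Real.le_log_iff_exp_le (LL_log_pos hn), Real.le_log_iff_exp_le (LL_cast_pos hn)]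

theorem lt_ll_iff {n : ℕ} (hn : 2 ≤ n) {u : ℝ} : u < ll n ↔ Real.exp (Real.exp u) < (n : ℝ) := by
  unfold ll
  rw [Real.lt_log_iff_exp_lt (LL_log_pos hn), Real.lt_log_iff_exp_lt (LL_cast_pos hn)]

private lemma LL_pow_pos {σ : ℝ} (hσ : 1 ≤ σ) (k : ℕ) : 0 < σ ^ k :=
  pow_pos (by linarith) k

theorem blk_mono {σ : ℝ} (hσ : 1 ≤ σ) {m n : ℕ} (hm : 2 ≤ m) (h : m ≤ n) :
    blk σ m ≤ blk σ n := by
  unfold blk
  exact Nat.floor_le_floor (div_le_div_of_nonneg_right (ll_mono hm h) (LL_pow_pos hσ 102).le)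

theorem blk_mul_le {σ : ℝ} (hσ : 1 ≤ σ) {q : ℕ} (h : 0 ≤ ll q) :
    (blk σ q : ℝ) * σ ^ 102 ≤ ll q := by
  have hp := LL_pow_pos hσ 102
  have h1 : (blk σ q : ℝ) ≤ ll q / σ ^ 102 := Nat.floor_le (div_nonneg h hp.le)
  rwa [le_div_iff₀ hp] at h1

theorem lt_blk_succ {σ : ℝ} (hσ : 1 ≤ σ) (q : ℕ) : ll q < ((blk σ q : ℝ) + 1) * σ ^ 102 := by
  have hp := LL_pow_pos hσ 102
  have h1 : ll q / σ ^ 102 < (blk σ q : ℝ) + 1 := Nat.lt_floor_add_one _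
  rwa [div_lt_iff₀ hp] at h1

theorem one_le_blk_iff {σ : ℝ} (hσ : 1 ≤ σ) (q : ℕ) : 1 ≤ blk σ q ↔ σ ^ 102 ≤ ll q := by
  have hp := LL_pow_pos hσ 102
  unfold blk
  rw [Nat.le_floor_iff' one_ne_zero, le_div_iff₀ hp, Nat.cast_one, one_mul]

theorem blk_lt_Tm {σ : ℝ} (hσ : 1 ≤ σ) {q : ℕ} (h : ll q ≤ σ ^ 120 + 1) :
    blk σ q + 2 ≤ Tm σ := by
  have hp := LL_pow_pos hσ 102
  have h1 : ll q / σ ^ 102 ≤ σ ^ 18 + 1 := by
    rw [div_le_iff₀ hp]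
    have e : (σ ^ 18 + 1) * σ ^ 102 = σ ^ 120 + σ ^ 102 := by ring
    have h2 : (1 : ℝ) ≤ σ ^ 102 := one_le_pow₀ hσ
    rw [e]
    linarith
  have h3 : blk σ q ≤ ⌊σ ^ 18 + 1⌋₊ := Nat.floor_le_floor h1
  have h4 : ⌊σ ^ 18 + 1⌋₊ = ⌊σ ^ 18⌋₊ + 1 := Nat.floor_add_one (LL_pow_pos hσ 18).le
  have h5 : ⌊σ ^ 18⌋₊ ≤ ⌈σ ^ 18⌉₊ := Nat.floor_le_ceil _
  unfold Tm
  omega

theorem Tm_le {σ : ℝ} (hσ : 1 ≤ σ) : (Tm σ : ℝ) ≤ 5 * σ ^ 18 := by
  have h1 : (⌈σ ^ 18⌉₊ : ℝ) < σ ^ 18 + 1 := Nat.ceil_lt_add_one (LL_pow_pos hσ 18).le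
  have h2 : (1 : ℝ) ≤ σ ^ 18 := one_le_pow₀ hσ
  unfold Tm
  push_cast
  linarith

theorem le_EE_iff {σ : ℝ} {n : ℕ} (hn : 2 ≤ n) : n ≤ EE σ ↔ ll n ≤ σ ^ 120 + 1 := by
  unfold EE
  rw [ll_le_iff hn, Nat.le_floor_iff (Real.exp_pos _).le]

theorem cnt_eq_zero {σ : ℝ} {t n : ℕ} (h : ∀ q ∈ n.primeFactors, blk σ q ≠ t) :
    cnt σ t n = 0 := by
  unfold cnt
  rw [List.length_eq_zero_iff, List.filter_eq_nil_iff]
  intro q hq
  have h1 : q ∈ n.primeFactors := List.mem_toFinset.2 hq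
  simpa using h q h1

theorem exists_of_cnt_pos {σ : ℝ} {t n : ℕ} (h : 0 < cnt σ t n) :
    ∃ q : ℕ, q.Prime ∧ q ∣ n ∧ blk σ q = t := by
  by_contra hcon
  push Not at hcon
  have h0 : cnt σ t n = 0 := cnt_eq_zero fun q hq =>
    hcon q (Nat.prime_of_mem_primeFactors hq) (Nat.dvd_of_mem_primeFactors hq)
  omega

/-- a prime factor `r` of `n`, the largest one, satisfies `n ≤ r ^ (Om n)`, so
`ll n ≤ ll r + log (Om n)` -/
theorem ll_le_maxp {n : ℕ} (hn : 2 ≤ n) : ll n ≤ ll (maxp n) + Real.log (Om n) := by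
  have hne : n ≠ 0 := by omega
  have h1 : ∀ q ∈ n.primeFactorsList, q ≤ maxp n := by
    intro q hq
    exact Finset.le_sup (f := id) (List.mem_toFinset.2 hq : q ∈ n.primeFactors)
  have h2 : n ≤ maxp n ^ Om n := by
    have h3 := List.prod_le_pow_card n.primeFactorsList (maxp n) h1
    rw [Nat.prod_primeFactorsList hne] at h3
    exact h3
  have h4 : n.primeFactors.Nonempty := Nat.nonempty_primeFactors.2 (by omega)
  obtain ⟨q, hq⟩ := h4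
  have h5 : 2 ≤ maxp n :=
    (Nat.prime_of_mem_primeFactors hq).two_le.trans (Finset.le_sup (f := id) hq)
  have h6 : 0 < Om n := by
    have : q ∈ n.primeFactorsList := List.mem_toFinset.1 hq
    exact List.length_pos_of_mem this
  have h7 : Real.log (n : ℝ) ≤ (Om n : ℝ) * Real.log (maxp n : ℝ) := by
    rw [← Real.log_pow]
    exact Real.log_le_log (LL_cast_pos hn) (by exact_mod_cast h2)
  have h8 : (Om n : ℝ) ≠ 0 := by
    exact_mod_cast h6.ne'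
  have h9 : Real.log (maxp n : ℝ) ≠ 0 := (LL_log_pos h5).ne'
  unfold ll
  rw [add_comm, ← Real.log_mul h8 h9]
  exact Real.log_le_log (LL_log_pos hn) h7

end P031
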