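import Vale.Agent.Lib.P031.OmTail
import Vale.Agent.Lib.P031.LL

/-!
# P031 BadIrr: irregular integers are rare.

`S` is covered by: `v ≤ √X` (at most `√X`); `Om v > 20 s` (`om_tail_x`: `≤ X exp(-5 s)`, and
`log X ≤ exp(s + 1/2)`); `q^2 ∣ v` with `ll q ≥ σ^102` (`one_le_blk_iff`), at most
`∑_{q ≥ exp exp σ^102} X/q^2 ≤ 2 X exp(-exp σ^102)`; `p (p-1) ∣ v` with `ll p > σ^111`, at most
`∑_{p > exp exp σ^111} X/(p (p-1)) ≤ 2 X exp(-exp σ^111)`. All are at most `(X/log X) exp(-σ^61)/4`.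
-/

namespace P031

open Finset Real

private theorem badIrr_tele (M K : ℕ) (hM : 2 ≤ M) (hK : M ≤ K) :
    ∑ n ∈ Finset.Ico M K, 1 / ((n : ℝ) * ((n : ℝ) - 1)) ≤ 1 / ((M : ℝ) - 1) - 1 / ((K : ℝ) - 1) := by
  induction K, hK using Nat.le_induction with
  | base => simp
  | succ K hK ih =>
    rw [Finset.sum_Ico_succ_top hK]
    have h1 : (2 : ℝ) ≤ K := by exact_mod_cast hM.trans hK
    have h2 : (K : ℝ) - 1 ≠ 0 := by linarith
    have h3 : (K : ℝ) ≠ 0 := by linarith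
    have h4 : 1 / ((K : ℝ) * ((K : ℝ) - 1)) = 1 / ((K : ℝ) - 1) - 1 / K := by
      field_simp
      ring
    rw [h4]
    push_cast
    have h5 : (K : ℝ) + 1 - 1 = K := by ring
    rw [h5]
    linarith

/-- the number of multiples -/
private theorem badIrr_mult {X : ℝ} (hX : 0 ≤ X) (d : ℕ) :
    (((Finset.Ioc 0 ⌊X⌋₊).filter (fun v => d ∣ v)).card : ℝ) ≤ X / d := by
  rw [Nat.Ioc_filter_dvd_card_eq_div]
  refine Nat.cast_div_le.trans ?_
  exact div_le_div_of_nonneg_right (Nat.floor_le hX) (Nat.cast_nonneg d)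

/-- integers with a large square-like divisor -/
private theorem badIrr_count {X Q : ℝ} (hX : 0 ≤ X) (hQ : 2 ≤ Q) (S : Finset ℕ)
    (h : ∀ v ∈ S, v ≠ 0 ∧ (v : ℝ) ≤ X ∧ ∃ q : ℕ, Q ≤ q ∧ ∃ d : ℕ, q * (q - 1) ≤ d ∧ d ∣ v ∧
      (d = q ^ 2 ∨ d = q * (q - 1))) :
    (S.card : ℝ) ≤ 2 * (X / (Q - 1)) := by
  classical
  obtain ⟨N, hN⟩ : ∃ N, N = ⌊X⌋₊ := ⟨_, rfl⟩
  obtain ⟨M, hM⟩ : ∃ M, M = ⌈Q⌉₊ := ⟨_, rfl⟩
  have hQM : Q ≤ M := by rw [hM]; exact Nat.le_ceil Q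
  have hM2 : 2 ≤ M := by
    have : (2 : ℝ) ≤ M := hQ.trans hQM
    exact_mod_cast this
  have hsub : S ⊆ (Finset.Ico M (N + 1)).biUnion (fun q =>
      ((Finset.Ioc 0 N).filter (fun v => q ^ 2 ∣ v)) ∪
      ((Finset.Ioc 0 N).filter (fun v => (q * (q - 1)) ∣ v))) := by
    intro v hv
    obtain ⟨hv0, hvX, q, hq, d, hd1, hd2, hd3⟩ := h v hv
    have hMq : M ≤ q := by
      rw [hM]
      exact Nat.ceil_le.mpr hq
    have hvN : v ≤ N := by
      rw [hN]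
      exact Nat.le_floor hvX
    have hqd : q ≤ q * (q - 1) := Nat.le_mul_of_pos_right q (by omega)
    have hdv : d ≤ v := Nat.le_of_dvd (Nat.pos_of_ne_zero hv0) hd2
    rw [Finset.mem_biUnion]
    refine ⟨q, Finset.mem_Ico.mpr ⟨hMq, by omega⟩, ?_⟩
    rw [Finset.mem_union]
    rcases hd3 with rfl | rfl
    · left
      exact Finset.mem_filter.mpr ⟨Finset.mem_Ioc.mpr ⟨Nat.pos_of_ne_zero hv0, hvN⟩, hd2⟩
    · right
      exact Finset.mem_filter.mpr ⟨Finset.mem_Ioc.mpr ⟨Nat.pos_of_ne_zero hv0, hvN⟩, hd2⟩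
  have h1 : (S.card : ℝ) ≤ ∑ q ∈ Finset.Ico M (N + 1),
      2 * X * (1 / ((q : ℝ) * ((q : ℝ) - 1))) := by
    have h2 : S.card ≤ ∑ q ∈ Finset.Ico M (N + 1),
      (((Finset.Ioc 0 N).filter (fun v => q ^ 2 ∣ v)) ∪
      ((Finset.Ioc 0 N).filter (fun v => (q * (q - 1)) ∣ v))).card :=
      (Finset.card_le_card hsub).trans Finset.card_biUnion_le
    have h3 : (S.card : ℝ) ≤ ∑ q ∈ Finset.Ico M (N + 1),
      ((((Finset.Ioc 0 N).filter (fun v => q ^ 2 ∣ v)) ∪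
      ((Finset.Ioc 0 N).filter (fun v => (q * (q - 1)) ∣ v))).card : ℝ) := by
      exact_mod_cast h2
    refine h3.trans (Finset.sum_le_sum fun q hq => ?_)
    have hq1 : M ≤ q := (Finset.mem_Ico.mp hq).1
    have hq2 : (2 : ℝ) ≤ q := by exact_mod_cast hM2.trans hq1
    have hqc : (((q - 1 : ℕ)) : ℝ) = (q : ℝ) - 1 := by
      rw [Nat.cast_sub (by omega)]
      simp
    have h4 := badIrr_mult hX (q ^ 2)
    have h5 := badIrr_mult hX (q * (q - 1))
    rw [← hN] at h4 h5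
    have h6 : ((((Finset.Ioc 0 N).filter (fun v => q ^ 2 ∣ v)) ∪
      ((Finset.Ioc 0 N).filter (fun v => (q * (q - 1)) ∣ v))).card : ℝ) ≤
      (((Finset.Ioc 0 N).filter (fun v => q ^ 2 ∣ v)).card : ℝ) +
      (((Finset.Ioc 0 N).filter (fun v => (q * (q - 1)) ∣ v)).card : ℝ) := by
      exact_mod_cast Finset.card_union_le _ _
    have h7 : X / ((q ^ 2 : ℕ) : ℝ) ≤ X * (1 / ((q : ℝ) * ((q : ℝ) - 1))) := by
      rw [mul_one_div]
      apply div_le_div_of_nonneg_left hX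
      · apply mul_pos <;> linarith
      · push_cast
        linarith only []
    have h8 : X / ((q * (q - 1) : ℕ) : ℝ) = X * (1 / ((q : ℝ) * ((q : ℝ) - 1))) := by
      rw [mul_one_div, Nat.cast_mul, hqc]
    linarith
  refine h1.trans ?_
  rw [← Finset.mul_sum]
  rcases le_or_gt M (N + 1) with hle | hlt
  · have h9 := badIrr_tele M (N + 1) hM2 hle
    have h10 : (0 : ℝ) ≤ 1 / (((N + 1 : ℕ) : ℝ) - 1) := by
      push_cast
      rw [add_sub_cancel_right]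
      positivity
    have h11 : 1 / ((M : ℝ) - 1) ≤ 1 / (Q - 1) :=
      one_div_le_one_div_of_le (by linarith) (by linarith)
    have h12 : ∑ n ∈ Finset.Ico M (N + 1), 1 / ((n : ℝ) * ((n : ℝ) - 1)) ≤ 1 / (Q - 1) := by
      linarith
    calc 2 * X * ∑ n ∈ Finset.Ico M (N + 1), 1 / ((n : ℝ) * ((n : ℝ) - 1))
        ≤ 2 * X * (1 / (Q - 1)) := mul_le_mul_of_nonneg_left h12 (by linarith)
      _ = 2 * (X / (Q - 1)) := by ring
  · rw [Finset.Ico_eq_empty (by omega)]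
    have : 0 ≤ X / (Q - 1) := div_nonneg hX (by linarith)
    simp only [Finset.sum_empty, mul_zero]
    linarith

/-- the numerical inequalities -/
private theorem badIrr_num {σ X : ℝ} (hσ : 10 ≤ σ) (hX1 : Real.exp (Real.exp (σ ^ 120)) ≤ X)
    (hX2 : X ≤ Real.exp (Real.exp (σ ^ 120 + 1 / 2))) :
    Real.sqrt X + X * Real.exp (-(5 * σ ^ 120)) +
      2 * (X / (Real.exp (Real.exp (σ ^ 102)) - 1)) ≤
      X / Real.log X * Real.exp (-(σ ^ 61)) := by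
  have hX0 : 0 < X := lt_of_lt_of_le (Real.exp_pos _) hX1
  have hσ1 : 1 ≤ σ := by linarith
  have h102 : 10 ≤ σ ^ 102 := by
    calc (10 : ℝ) ≤ σ := hσ
      _ = σ ^ 1 := (pow_one σ).symm
      _ ≤ σ ^ 102 := pow_le_pow_right₀ hσ1 (by norm_num)
  have h120 : 10 * σ ^ 102 ≤ σ ^ 120 := by
    have h1 : (10 : ℝ) ≤ σ ^ 18 := by
      calc (10 : ℝ) ≤ σ := hσ
        _ = σ ^ 1 := (pow_one σ).symm
        _ ≤ σ ^ 18 := pow_le_pow_right₀ hσ1 (by norm_num)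
    calc 10 * σ ^ 102 ≤ σ ^ 18 * σ ^ 102 := by gcongr
      _ = σ ^ 120 := by ring
  have h61 : σ ^ 61 ≤ σ ^ 120 := pow_le_pow_right₀ hσ1 (by norm_num)
  have h204 : 10 * σ ^ 120 ≤ (σ ^ 102) ^ 2 := by
    have h1 : (10 : ℝ) ≤ σ ^ 84 := by
      calc (10 : ℝ) ≤ σ := hσ
        _ = σ ^ 1 := (pow_one σ).symm
        _ ≤ σ ^ 84 := pow_le_pow_right₀ hσ1 (by norm_num)
    calc 10 * σ ^ 120 ≤ σ ^ 84 * σ ^ 120 := by gcongr
      _ = (σ ^ 102) ^ 2 := by ring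
  generalize σ ^ 61 = a at *
  generalize σ ^ 102 = y at *
  generalize σ ^ 120 = s at *
  have hs0 : 0 ≤ s := by linarith
  have hlogX : Real.log X ≤ Real.exp (s + 1 / 2) := by
    rw [Real.log_le_iff_le_exp hX0]
    exact hX2
  have hlogX0 : Real.exp s ≤ Real.log X := by
    rw [Real.le_log_iff_exp_le hX0]
    exact hX1
  have hlogpos : 0 < Real.log X := lt_of_lt_of_le (Real.exp_pos _) hlogX0
  obtain ⟨τ, hτ⟩ : ∃ τ, τ = Real.exp (-(2 * s + 1 / 2)) := ⟨_, rfl⟩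
  have hτ0 : 0 < τ := by rw [hτ]; exact Real.exp_pos _
  have htar : X * τ ≤ X / Real.log X * Real.exp (-a) := by
    have h1 : Real.exp (-(s + 1 / 2)) ≤ (Real.log X)⁻¹ := by
      rw [Real.exp_neg]
      exact inv_anti₀ hlogpos hlogX
    have h2 : τ ≤ Real.exp (-(s + 1 / 2)) * Real.exp (-a) := by
      rw [hτ, ← Real.exp_add]
      exact Real.exp_le_exp.mpr (by linarith)
    have h3 : τ ≤ (Real.log X)⁻¹ * Real.exp (-a) :=
      h2.trans (mul_le_mul_of_nonneg_right h1 (Real.exp_pos _).le)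
    calc X * τ ≤ X * ((Real.log X)⁻¹ * Real.exp (-a)) := mul_le_mul_of_nonneg_left h3 hX0.le
      _ = X / Real.log X * Real.exp (-a) := by ring
  have he2 : 4 ≤ Real.exp 2 := by
    have h1 : Real.exp 2 = Real.exp 1 * Real.exp 1 := by
      rw [← Real.exp_add]
      norm_num
    have h2 := Real.add_one_le_exp (1 : ℝ)
    nlinarith only [h1, h2]
  have hτ4 : Real.exp (-(2 * s + 5 / 2)) ≤ τ / 4 := by
    have h1 : Real.exp (-(2 * s + 5 / 2)) = τ / Real.exp 2 := by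
      rw [hτ, ← Real.exp_sub]
      congr 1
      ring
    rw [h1]
    exact div_le_div_of_nonneg_left hτ0.le (by norm_num) he2
  -- first term
  have t1 : Real.sqrt X ≤ X * (τ / 4) := by
    have h1 : X = Real.sqrt X * Real.sqrt X := (Real.mul_self_sqrt hX0.le).symm
    have hsq0 : 0 < Real.sqrt X := Real.sqrt_pos.mpr hX0
    have h2 : Real.exp (2 * s + 5 / 2) ≤ Real.sqrt X := by
      rw [← Real.log_le_log_iff (Real.exp_pos _) hsq0, Real.log_exp, Real.log_sqrt hX0.le]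
      have h3 : 1 + s + s ^ 2 / 2 ≤ Real.exp s := Real.quadratic_le_exp_of_nonneg hs0
      nlinarith only [h102, h120, hlogX0, h3]
    have h4 : 1 ≤ Real.sqrt X * (τ / 4) := by
      calc (1 : ℝ) = Real.exp (2 * s + 5 / 2) * Real.exp (-(2 * s + 5 / 2)) := by
            rw [← Real.exp_add]
            simp
        _ ≤ Real.sqrt X * (τ / 4) :=
          mul_le_mul h2 hτ4 (Real.exp_pos _).le hsq0.le
    calc Real.sqrt X = Real.sqrt X * 1 := (mul_one _).symm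
      _ ≤ Real.sqrt X * (Real.sqrt X * (τ / 4)) := mul_le_mul_of_nonneg_left h4 hsq0.le
      _ = X * (τ / 4) := by
        rw [← mul_assoc, ← h1]
  have t2 : X * Real.exp (-(5 * s)) ≤ X * (τ / 4) := by
    apply mul_le_mul_of_nonneg_left _ hX0.le
    refine le_trans (Real.exp_le_exp.mpr ?_) hτ4
    linarith
  have t3 : 2 * (X / (Real.exp (Real.exp y) - 1)) ≤ X * (τ / 2) := by
    have h1 : 2 * s + 10 ≤ Real.exp y := by
      have h3 : 1 + y + y ^ 2 / 2 ≤ Real.exp y := Real.quadratic_le_exp_of_nonneg (by linarith)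
      nlinarith only [h102, h204, h3]
    have h2 : Real.exp (2 * s + 5 / 2) + 1 ≤ Real.exp (Real.exp y) := by
      have h4 : Real.exp (2 * s + 5 / 2) * 2 ≤ Real.exp (Real.exp y) := by
        calc Real.exp (2 * s + 5 / 2) * 2 ≤ Real.exp (2 * s + 5 / 2) * Real.exp 2 := by
              gcongr
              linarith
          _ = Real.exp (2 * s + 5 / 2 + 2) := by rw [← Real.exp_add]
          _ ≤ Real.exp (Real.exp y) := Real.exp_le_exp.mpr (by linarith)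
      have h5 : 1 ≤ Real.exp (2 * s + 5 / 2) := Real.one_le_exp (by linarith)
      linarith
    have h6 : 0 < Real.exp (2 * s + 5 / 2) := Real.exp_pos _
    have h7 : X / (Real.exp (Real.exp y) - 1) ≤ X / Real.exp (2 * s + 5 / 2) :=
      div_le_div_of_nonneg_left hX0.le h6 (by linarith)
    have h8 : X / Real.exp (2 * s + 5 / 2) = X * Real.exp (-(2 * s + 5 / 2)) := by
      rw [Real.exp_neg, div_eq_mul_inv]
    rw [h8] at h7
    have h9 : X * Real.exp (-(2 * s + 5 / 2)) ≤ X * (τ / 4) :=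
      mul_le_mul_of_nonneg_left hτ4 hX0.le
    linarith
  linarith

theorem bad_irr : ∀ᶠ σ : ℝ in Filter.atTop, ∀ (X : ℝ) (S : Finset ℕ),
    Real.exp (Real.exp (σ ^ 120)) ≤ X → X ≤ Real.exp (Real.exp (σ ^ 120 + 1 / 2)) →
    (∀ v ∈ S, v ≠ 0 ∧ (v : ℝ) ≤ X ∧ (¬ Rg σ v ∨ (v : ℝ) ≤ Real.sqrt X)) →
    (S.card : ℝ) ≤ X / Real.log X * Real.exp (-(σ ^ 61)) := by
  classical
  filter_upwards [om_tail_x, Filter.eventually_ge_atTop (10 : ℝ)] with σ hom hσ X S hX1 hX2 hS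
  have hX0 : 0 < X := lt_of_lt_of_le (Real.exp_pos _) hX1
  have hσ1 : 1 ≤ σ := by linarith
  have hQ : 2 ≤ Real.exp (Real.exp (σ ^ 102)) := by
    have h1 : 1 ≤ Real.exp (σ ^ 102) := Real.one_le_exp (by positivity)
    have h2 := Real.add_one_le_exp (Real.exp (σ ^ 102))
    linarith
  refine le_trans ?_ (badIrr_num hσ hX1 hX2)
  have hsub : S ⊆ (S.filter fun v : ℕ => (v : ℝ) ≤ Real.sqrt X) ∪
      (S.filter fun v => 20 * σ ^ 120 < (Om v : ℝ)) ∪
      (S.filter fun v => (∃ q : ℕ, q.Prime ∧ 1 ≤ blk σ q ∧ q ^ 2 ∣ v) ∨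
        (∃ p : ℕ, p.Prime ∧ σ ^ 111 < ll p ∧ (p * (p - 1)) ∣ v)) := by
    intro v hv
    simp only [Finset.mem_union, Finset.mem_filter]
    obtain ⟨h1, h2, h3⟩ := hS v hv
    by_contra hc
    push Not at hc
    obtain ⟨⟨hc1, hc2⟩, hc3⟩ := hc
    have hc1' := hc1 hv
    have hc2' := hc2 hv
    have hc3' := hc3 hv
    rcases h3 with h3 | h3
    · apply h3
      refine ⟨Nat.pos_of_ne_zero h1, hc2', ?_, ?_⟩
      · intro q hq hb hd
        exact hc3'.1 q hq hb hd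
      · intro p hp hl hd
        exact hc3'.2 p hp hl hd
    · linarith
  have hcard : (S.card : ℝ) ≤ ((S.filter fun v : ℕ => (v : ℝ) ≤ Real.sqrt X).card : ℝ) +
      ((S.filter fun v => 20 * σ ^ 120 < (Om v : ℝ)).card : ℝ) +
      ((S.filter fun v => (∃ q : ℕ, q.Prime ∧ 1 ≤ blk σ q ∧ q ^ 2 ∣ v) ∨
        (∃ p : ℕ, p.Prime ∧ σ ^ 111 < ll p ∧ (p * (p - 1)) ∣ v)).card : ℝ) := by
    have h1 := Finset.card_le_card hsub
    have h2 := h1.trans (Finset.card_union_le _ _)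
    have h3 := h2.trans (Nat.add_le_add_right (Finset.card_union_le _ _) _)
    exact_mod_cast h3
  have b1 : ((S.filter fun v : ℕ => (v : ℝ) ≤ Real.sqrt X).card : ℝ) ≤ Real.sqrt X := by
    have h1 : (S.filter fun v : ℕ => (v : ℝ) ≤ Real.sqrt X) ⊆ Finset.Ioc 0 ⌊Real.sqrt X⌋₊ := by
      intro v hv
      rw [Finset.mem_filter] at hv
      rw [Finset.mem_Ioc]
      exact ⟨Nat.pos_of_ne_zero (hS v hv.1).1, Nat.le_floor hv.2⟩
    have h2 := Finset.card_le_card h1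
    rw [Nat.card_Ioc, Nat.sub_zero] at h2
    have h3 : ((S.filter fun v : ℕ => (v : ℝ) ≤ Real.sqrt X).card : ℝ) ≤ ⌊Real.sqrt X⌋₊ := by
      exact_mod_cast h2
    exact h3.trans (Nat.floor_le (Real.sqrt_nonneg X))
  have b2 : ((S.filter fun v => 20 * σ ^ 120 < (Om v : ℝ)).card : ℝ) ≤
      X * Real.exp (-(5 * σ ^ 120)) := by
    have hfl : ((⌊X⌋₊ : ℕ) : ℝ) ≤ X := Nat.floor_le hX0.le
    have h1 := hom ⌊X⌋₊ (S.filter fun v => 20 * σ ^ 120 < (Om v : ℝ)) (by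
      refine hfl.trans (hX2.trans ?_)
      exact Real.exp_le_exp.mpr (Real.exp_le_exp.mpr (by linarith))) (by
      intro n hn
      rw [Finset.mem_filter] at hn
      refine ⟨Finset.mem_Icc.mpr ⟨Nat.pos_of_ne_zero (hS n hn.1).1,
        Nat.le_floor (hS n hn.1).2.1⟩, hn.2⟩)
    refine h1.trans ?_
    exact mul_le_mul_of_nonneg_right hfl (Real.exp_pos _).le
  have b3 := badIrr_count hX0.le hQ (S.filter fun v =>
      (∃ q : ℕ, q.Prime ∧ 1 ≤ blk σ q ∧ q ^ 2 ∣ v) ∨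
        (∃ p : ℕ, p.Prime ∧ σ ^ 111 < ll p ∧ (p * (p - 1)) ∣ v)) (by
    intro v hv
    rw [Finset.mem_filter] at hv
    refine ⟨(hS v hv.1).1, (hS v hv.1).2.1, ?_⟩
    rcases hv.2 with ⟨q, hq, hb, hd⟩ | ⟨p, hp, hl, hd⟩
    · refine ⟨q, ?_, q ^ 2, ?_, hd, Or.inl rfl⟩
      · rw [one_le_blk_iff hσ1] at hb
        exact (le_ll_iff hq.two_le).mp hb
      · rw [pow_two]
        exact Nat.mul_le_mul_left q (Nat.sub_le q 1)
    · refine ⟨p, ?_, p * (p - 1), le_rfl, hd, Or.inr rfl⟩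
      have h1 : σ ^ 102 ≤ ll p := by
        have : σ ^ 102 ≤ σ ^ 111 := pow_le_pow_right₀ hσ1 (by norm_num)
        linarith
      exact (le_ll_iff hp.two_le).mp h1)
  linarith

end P031
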