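import Vale.Agent.Lib.P031.Mert

/-!
# P031 InvDvd: the sum of the reciprocals of the prime factors of an integer.
-/

namespace P031

open Finset Real

private theorem InvDvd_two_pow (a : ℕ) (ha : 1 ≤ a) : 2 ^ a.primeFactors.card ≤ a := by
  have h1 : ∏ q ∈ a.primeFactors, 2 ≤ ∏ q ∈ a.primeFactors, q :=
    Finset.prod_le_prod' (fun q hq => (Nat.prime_of_mem_primeFactors hq).two_le)
  rw [Finset.prod_const] at h1
  exact h1.trans (Nat.le_of_dvd ha (Nat.prod_primeFactors_dvd a))

/-- `∑_{q ∣ a} 1/q ≤ log U + C` for `a ≤ exp exp U`: the primes `q ≤ exp U` contribute at most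
`log U + C` (Mertens), the other ones at most `ω(a)/exp U ≤ (log a/log 2)/exp U ≤ 1/log 2`. -/
theorem sum_inv_dvd : ∃ C : ℝ, 1 ≤ C ∧ ∀ (a : ℕ) (U : ℝ), 1 ≤ U → 1 ≤ a →
    (a : ℝ) ≤ Real.exp (Real.exp U) →
    Real.exp (∑ q ∈ a.primeFactors, 1 / (q : ℝ)) ≤ C * U := by
  obtain ⟨C, hC1, hC⟩ := mert_all
  refine ⟨Real.exp (C + 1 / Real.log 2), ?_, ?_⟩
  · have h2 : (0:ℝ) < Real.log 2 := Real.log_pos (by norm_num)
    have h3 : (0:ℝ) ≤ C + 1 / Real.log 2 := by positivity
    exact Real.one_le_exp h3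
  intro a U hU ha haU
  have hlog2 : (0:ℝ) < Real.log 2 := Real.log_pos (by norm_num)
  have hU0 : (0:ℝ) < U := by linarith
  have hlogU : 0 ≤ Real.log U := Real.log_nonneg hU
  have hsplit := Finset.sum_filter_add_sum_filter_not a.primeFactors
    (fun q => ll q ≤ Real.log U) (fun q : ℕ => 1 / (q : ℝ))
  have hA : ∑ q ∈ a.primeFactors.filter (fun q => ll q ≤ Real.log U), 1 / (q : ℝ) ≤
      Real.log U + C := by
    refine le_trans ?_ (hC (Real.log U) hlogU
      (a.primeFactors.filter (fun q => ll q ≤ Real.log U)) ?_)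
    · refine Finset.sum_le_sum (fun q hq => ?_)
      have hqp : q.Prime := Nat.prime_of_mem_primeFactors (Finset.mem_filter.mp hq).1
      have h2 : (2:ℝ) ≤ (q:ℝ) := by exact_mod_cast hqp.two_le
      exact one_div_le_one_div_of_le (by linarith) (by linarith)
    · intro q hq
      exact ⟨Nat.prime_of_mem_primeFactors (Finset.mem_filter.mp hq).1,
        (Finset.mem_filter.mp hq).2⟩
  have hB : ∑ q ∈ a.primeFactors.filter (fun q => ¬ ll q ≤ Real.log U), 1 / (q : ℝ) ≤
      1 / Real.log 2 := by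
    have h1 : ∑ q ∈ a.primeFactors.filter (fun q => ¬ ll q ≤ Real.log U), 1 / (q : ℝ) ≤
        ∑ _q ∈ a.primeFactors.filter (fun q => ¬ ll q ≤ Real.log U), Real.exp (-U) := by
      refine Finset.sum_le_sum (fun q hq => ?_)
      have hqp : q.Prime := Nat.prime_of_mem_primeFactors (Finset.mem_filter.mp hq).1
      have h2 : (2:ℝ) ≤ (q:ℝ) := by exact_mod_cast hqp.two_le
      have h3 : Real.log U < ll q := not_le.mp (Finset.mem_filter.mp hq).2
      have h4 : 0 < Real.log (q:ℝ) := Real.log_pos (by linarith)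
      have h5 : U < Real.log (q:ℝ) := by
        unfold ll at h3
        exact (Real.log_lt_log_iff hU0 h4).mp h3
      have h6 : Real.exp U < (q:ℝ) := by
        have := Real.exp_lt_exp.mpr h5
        rwa [Real.exp_log (by linarith)] at this
      rw [Real.exp_neg, ← one_div]
      exact one_div_le_one_div_of_le (Real.exp_pos U) h6.le
    rw [Finset.sum_const, nsmul_eq_mul] at h1
    have h2 : ((a.primeFactors.filter (fun q => ¬ ll q ≤ Real.log U)).card : ℝ) ≤
        a.primeFactors.card := by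
      exact_mod_cast Finset.card_filter_le _ _
    have h3 : (a.primeFactors.card : ℝ) * Real.log 2 ≤ Real.exp U := by
      have h4 : ((2:ℝ)) ^ a.primeFactors.card ≤ Real.exp (Real.exp U) := by
        refine le_trans ?_ haU
        exact_mod_cast InvDvd_two_pow a ha
      have h5 := Real.log_le_log (by positivity) h4
      rwa [Real.log_pow, Real.log_exp] at h5
    have h4 : (a.primeFactors.card : ℝ) ≤ Real.exp U / Real.log 2 := by
      rw [le_div_iff₀ hlog2]
      exact h3
    refine le_trans h1 ?_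
    have h5 : ((a.primeFactors.filter (fun q => ¬ ll q ≤ Real.log U)).card : ℝ) *
        Real.exp (-U) ≤ (Real.exp U / Real.log 2) * Real.exp (-U) :=
      mul_le_mul_of_nonneg_right (h2.trans h4) (Real.exp_pos _).le
    refine le_trans h5 (le_of_eq ?_)
    have h6 : Real.exp U * Real.exp (-U) = 1 := by
      rw [← Real.exp_add, add_neg_cancel, Real.exp_zero]
    rw [div_mul_eq_mul_div, h6]
  have hsum : ∑ q ∈ a.primeFactors, 1 / (q : ℝ) ≤ Real.log U + (C + 1 / Real.log 2) := by
    rw [← hsplit]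
    linarith
  refine le_trans (Real.exp_le_exp.mpr hsum) ?_
  rw [Real.exp_add, Real.exp_log hU0, mul_comm]

end P031
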