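import Vale.Agent.Lib.P031.Brun
import Vale.Agent.Lib.P031.InvDvd

/-!
# P031 SieveP: primes `p ≤ τ` with `a ∣ p - 1` and `(p-1)/a` free of primes of `Q`.
-/

namespace P031

open Finset Real

private theorem SieveP_res (q a : ℕ) (hq : q.Prime) (ha : ¬ q ∣ a) :
    ∃ r, r < q ∧ r ≠ 0 ∧ q ∣ a * r + 1 := by
  have : Fact q.Prime := ⟨hq⟩
  have ha0 : (a : ZMod q) ≠ 0 := fun h => ha ((ZMod.natCast_eq_zero_iff a q).1 h)
  have hdiv : q ∣ a * (-(a : ZMod q)⁻¹).val + 1 := by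
    rw [← ZMod.natCast_eq_zero_iff]
    push_cast
    rw [ZMod.natCast_zmod_val]
    field_simp
    ring
  refine ⟨(-(a : ZMod q)⁻¹).val, ZMod.val_lt _, ?_, hdiv⟩
  intro h0
  rw [h0, mul_zero, zero_add] at hdiv
  exact hq.one_lt.ne' (Nat.dvd_one.1 hdiv)

private theorem SieveP_R (a : ℕ) (Q : Finset ℕ) (q : ℕ) (hq : q.Prime) :
    ∃ S : Finset ℕ, S ⊆ range q ∧ S.card ≤ 3 ∧
      ((if q ∣ a then 0 else 1) + (if q ∈ Q then 1 else 0) ≤ S.card) ∧
      (∀ n : ℕ, n % q ∈ S → q ∣ a * n + 1 ∨ (q ∈ Q ∧ q ∣ n)) := by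
  by_cases ha : q ∣ a
  · by_cases hqQ : q ∈ Q
    · refine ⟨{0}, ?_, by simp, by simp [ha, hqQ], ?_⟩
      · intro x hx
        rw [Finset.mem_singleton] at hx
        subst hx
        exact Finset.mem_range.2 hq.pos
      · intro n hn
        rw [Finset.mem_singleton] at hn
        exact Or.inr ⟨hqQ, Nat.dvd_of_mod_eq_zero hn⟩
    · exact ⟨∅, by simp, by simp, by simp [ha, hqQ], by simp⟩
  · obtain ⟨r, hr, hr0, hrd⟩ := SieveP_res q a hq ha
    have key : ∀ n : ℕ, n % q = r → q ∣ a * n + 1 := by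
      intro n hn
      have h1 : a * n + 1 ≡ a * r + 1 [MOD q] := by
        apply Nat.ModEq.add_right
        apply Nat.ModEq.mul_left
        rw [← hn]
        exact (Nat.mod_modEq n q).symm
      exact (Nat.modEq_zero_iff_dvd.1 (h1.trans (Nat.modEq_zero_iff_dvd.2 hrd)))
    by_cases hqQ : q ∈ Q
    · refine ⟨{0, r}, ?_, ?_, ?_, ?_⟩
      · intro x hx
        rw [Finset.mem_insert, Finset.mem_singleton] at hx
        rcases hx with rfl | rfl
        · exact Finset.mem_range.2 hq.pos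
        · exact Finset.mem_range.2 hr
      · rw [Finset.card_pair (Ne.symm hr0)]
        norm_num
      · rw [Finset.card_pair (Ne.symm hr0)]
        simp [ha, hqQ]
      · intro n hn
        rw [Finset.mem_insert, Finset.mem_singleton] at hn
        rcases hn with hn | hn
        · exact Or.inr ⟨hqQ, Nat.dvd_of_mod_eq_zero hn⟩
        · exact Or.inl (key n hn)
    · refine ⟨{r}, ?_, by simp, by simp [ha, hqQ], ?_⟩
      · intro x hx
        rw [Finset.mem_singleton] at hx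
        subst hx
        exact Finset.mem_range.2 hr
      · intro n hn
        rw [Finset.mem_singleton] at hn
        exact Or.inl (key n hn)

private theorem SieveP_count (τ z : ℝ) (a : ℕ) (ha : 1 ≤ a) (Q P : Finset ℕ) (R : ℕ → Finset ℕ)
    (hτ : 0 ≤ τ) (hz : 0 ≤ z)
    (hP : ∀ q ∈ P, q.Prime ∧ (q : ℝ) ≤ z)
    (hR : ∀ q ∈ P, ∀ n : ℕ, n % q ∈ R q → q ∣ a * n + 1 ∨ (q ∈ Q ∧ q ∣ n)) :
    (((Finset.range (⌊τ⌋₊ + 1)).filter
      (fun p => p.Prime ∧ a ∣ p - 1 ∧ ∀ q ∈ Q, ¬ q ∣ (p - 1) / a)).card : ℝ) ≤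
    z + (((Finset.range (⌊τ / a⌋₊ + 1)).filter (fun n => ∀ q ∈ P, n % q ∉ R q)).card : ℝ) := by
  set A := (Finset.range (⌊τ⌋₊ + 1)).filter
      (fun p => p.Prime ∧ a ∣ p - 1 ∧ ∀ q ∈ Q, ¬ q ∣ (p - 1) / a) with hA
  have haR : (0 : ℝ) < a := by exact_mod_cast ha
  have h1 : ((A.filter (fun p : ℕ => (p : ℝ) ≤ z)).card : ℝ) ≤ z := by
    have hsub : A.filter (fun p : ℕ => (p : ℝ) ≤ z) ⊆ Finset.Icc 1 ⌊z⌋₊ := by
      intro p hp
      rw [Finset.mem_filter, hA, Finset.mem_filter] at hp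
      rw [Finset.mem_Icc]
      exact ⟨hp.1.2.1.one_lt.le, Nat.le_floor hp.2⟩
    have h2 := Finset.card_le_card hsub
    rw [Nat.card_Icc] at h2
    have h3 : ((A.filter (fun p : ℕ => (p : ℝ) ≤ z)).card : ℝ) ≤ (⌊z⌋₊ : ℝ) := by
      have h4 : (A.filter (fun p : ℕ => (p : ℝ) ≤ z)).card ≤ ⌊z⌋₊ := by omega
      exact_mod_cast h4
    exact h3.trans (Nat.floor_le hz)
  have h2 : (A.filter (fun p : ℕ => ¬ (p : ℝ) ≤ z)).card ≤
      ((Finset.range (⌊τ / a⌋₊ + 1)).filter (fun n => ∀ q ∈ P, n % q ∉ R q)).card := by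
    apply Finset.card_le_card_of_injOn (fun p => (p - 1) / a)
    · intro p hp
      rw [Finset.mem_coe, Finset.mem_filter, hA, Finset.mem_filter, Finset.mem_range] at hp
      obtain ⟨⟨hpτ, hpp, ⟨n, hn⟩, hpQ⟩, hpz⟩ := hp
      have hnn : (p - 1) / a = n := by
        rw [hn, Nat.mul_div_cancel_left _ ha]
      have hp1 : p = a * n + 1 := by
        have := hpp.one_lt
        omega
      rw [Finset.mem_coe, Finset.mem_filter, Finset.mem_range]
      simp only [hnn]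
      constructor
      · apply Nat.lt_succ_of_le
        apply Nat.le_floor
        rw [le_div_iff₀ haR]
        have h5 : (p : ℝ) ≤ τ := by
          have : p ≤ ⌊τ⌋₊ := by omega
          exact (Nat.le_floor_iff hτ).1 this
        have h6 : (p : ℝ) = a * n + 1 := by exact_mod_cast hp1
        linarith
      · intro q hq hmem
        rcases hR q hq n hmem with h | ⟨h, h'⟩
        · rw [← hp1] at h
          have h7 : q = p := (Nat.prime_dvd_prime_iff_eq (hP q hq).1 hpp).1 h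
          exact hpz (h7 ▸ (hP q hq).2)
        · apply hpQ q h
          rw [hnn]
          exact h'
    · intro p hp p' hp' heq
      rw [Finset.mem_coe, Finset.mem_filter, hA, Finset.mem_filter, Finset.mem_range] at hp hp'
      obtain ⟨⟨_, hpp, hd, _⟩, _⟩ := hp
      obtain ⟨⟨_, hpp', hd', _⟩, _⟩ := hp'
      have h5 : p - 1 = p' - 1 := by
        have h6 := Nat.div_mul_cancel hd
        have h7 := Nat.div_mul_cancel hd'
        simp only at heq
        rw [← h6, ← h7, heq]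
      have := hpp.one_lt
      have := hpp'.one_lt
      omega
  have h3 : A.card = (A.filter (fun p : ℕ => (p : ℝ) ≤ z)).card +
      (A.filter (fun p : ℕ => ¬ (p : ℝ) ≤ z)).card :=
    (Finset.card_filter_add_card_filter_not (fun p : ℕ => ((p : ℝ) ≤ z))).symm
  have h4 : ((A.filter (fun p : ℕ => ¬ (p : ℝ) ≤ z)).card : ℝ) ≤
      (((Finset.range (⌊τ / a⌋₊ + 1)).filter (fun n => ∀ q ∈ P, n % q ∉ R q)).card : ℝ) := by
    exact_mod_cast h2
  rw [h3]
  push_cast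
  linarith

/-- the sum of the densities of the classes removed -/
private theorem SieveP_sum (a : ℕ) (ha : 1 ≤ a) (Q P : Finset ℕ) (R : ℕ → Finset ℕ)
    (hP : ∀ q ∈ P, q.Prime) (hQ : Q ⊆ P)
    (hR : ∀ q ∈ P, ((if q ∣ a then 0 else 1) + (if q ∈ Q then 1 else 0) ≤ (R q).card)) :
    ∑ q ∈ P, 1 / (q : ℝ) - ∑ q ∈ a.primeFactors, 1 / (q : ℝ) + ∑ q ∈ Q, 1 / (q : ℝ) ≤
      ∑ q ∈ P, ((R q).card : ℝ) / (q : ℝ) := by
  have h1 : ∑ q ∈ P, ((if q ∣ a then (0 : ℝ) else 1) / (q : ℝ)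
      + (if q ∈ Q then (1 : ℝ) else 0) / (q : ℝ)) ≤
      ∑ q ∈ P, ((R q).card : ℝ) / (q : ℝ) := by
    apply Finset.sum_le_sum
    intro q hq
    rw [← add_div]
    apply div_le_div_of_nonneg_right _ (Nat.cast_nonneg q)
    have := hR q hq
    have h2 : (((if q ∣ a then 0 else 1) + (if q ∈ Q then 1 else 0) : ℕ) : ℝ) ≤
        ((R q).card : ℝ) := by exact_mod_cast this
    push_cast at h2
    exact h2
  rw [Finset.sum_add_distrib] at h1
  have h2 : ∑ q ∈ P, (if q ∈ Q then (1 : ℝ) else 0) / (q : ℝ) = ∑ q ∈ Q, 1 / (q : ℝ) := by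
    rw [← Finset.sum_subset hQ]
    · apply Finset.sum_congr rfl
      intro q hq
      rw [if_pos hq]
    · intro q _ hq
      rw [if_neg hq, zero_div]
  have h3 : ∑ q ∈ P, 1 / (q : ℝ) - ∑ q ∈ a.primeFactors, 1 / (q : ℝ) ≤
      ∑ q ∈ P, (if q ∣ a then (0 : ℝ) else 1) / (q : ℝ) := by
    have h4 : ∑ q ∈ P, 1 / (q : ℝ) - ∑ q ∈ P, (if q ∣ a then (0 : ℝ) else 1) / (q : ℝ) =
        ∑ q ∈ P.filter (fun q => q ∣ a), 1 / (q : ℝ) := by
      rw [← Finset.sum_sub_distrib, Finset.sum_filter]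
      apply Finset.sum_congr rfl
      intro q _
      split_ifs <;> simp
    have h5 : ∑ q ∈ P.filter (fun q => q ∣ a), 1 / (q : ℝ) ≤
        ∑ q ∈ a.primeFactors, 1 / (q : ℝ) := by
      apply Finset.sum_le_sum_of_subset_of_nonneg
      · intro q hq
        rw [Finset.mem_filter] at hq
        exact Nat.mem_primeFactors.2 ⟨hP q hq.1, hq.2, by omega⟩
      · intro q _ _
        positivity
    linarith
  linarith

private theorem SieveP_T (K T : ℝ) (hK : 10 ≤ K) (hT : Real.exp 1 + 4 * K ^ 2 + 400 ≤ T) :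
    1 ≤ Real.log T ∧ Real.log T ≤ T / 10 ∧ K * Real.log T ≤ T := by
  have he := Real.exp_pos 1
  have hT0 : 0 < T := by nlinarith only [hT, he]
  have h1 : 1 ≤ Real.log T := (Real.le_log_iff_exp_le hT0).2 (by nlinarith only [hT])
  have hs : Real.log T ≤ 2 * Real.sqrt T := by
    have h2 : Real.log T = 2 * Real.log (Real.sqrt T) := by
      rw [Real.log_sqrt hT0.le]
      ring
    have h3 := Real.log_le_sub_one_of_pos (Real.sqrt_pos.2 hT0)
    linarith
  have hsq : Real.sqrt T * Real.sqrt T = T := Real.mul_self_sqrt hT0.le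
  have h20 : 20 ≤ Real.sqrt T := by
    apply Real.le_sqrt_of_sq_le
    nlinarith only [hT, he]
  have hK2 : 2 * K ≤ Real.sqrt T := by
    apply Real.le_sqrt_of_sq_le
    linarith only [hT, he]
  refine ⟨h1, ?_, ?_⟩
  · nlinarith only [hs, hsq, h20]
  · nlinarith only [h1, hs, hsq, hK2]

private theorem SieveP_main {C₁ N y κ U T S X B : ℝ} (hC₁ : 0 ≤ C₁) (hy : 0 ≤ y) (hκ : 0 ≤ κ)
    (hU : 1 ≤ U) (hT : 0 < T) (hS : 0 ≤ S) (hX : 0 ≤ X) (hN : N ≤ 2 * y)
    (hexp : X ≤ κ * (U ^ 2 / T) * S) (hB : B = C₁ * 2 * κ) :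
    C₁ * N * X ≤ B * y * U ^ 3 / T * S := by
  have h0 : C₁ * N ≤ C₁ * (2 * y) := mul_le_mul_of_nonneg_left hN hC₁
  have h1 : C₁ * N * X ≤ C₁ * (2 * y) * (κ * (U ^ 2 / T) * S) :=
    mul_le_mul h0 hexp hX (by positivity)
  refine h1.trans ?_
  have h2 : C₁ * (2 * y) * (κ * (U ^ 2 / T) * S) = B * y * U ^ 2 / T * S := by
    rw [hB]
    ring
  rw [h2]
  have hB0 : 0 ≤ B := by
    rw [hB]
    positivity
  apply mul_le_mul_of_nonneg_right _ hS
  apply div_le_div_of_nonneg_right _ hT.le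
  apply mul_le_mul_of_nonneg_left _ (by positivity)
  exact pow_le_pow_right₀ hU (by norm_num)

private theorem SieveP_small {z y U T S c r : ℝ} (hU : 1 ≤ U) (hT : 0 < T)
    (hry : r ≤ y) (hr : r = Real.exp (T / 2)) (hz : z ≤ Real.exp (T / 10))
    (hUT : T ≤ Real.exp (T / 10))
    (hS : 1 / (T * c) ≤ S) (hc : 0 < c) :
    z ≤ c * y * U ^ 3 / T * S := by
  have hr0 : 0 < r := by
    rw [hr]
    exact Real.exp_pos _
  have hy0 : 0 < y := by linarith
  have h4 : c * r * 1 / T * (1 / (T * c)) ≤ c * y * U ^ 3 / T * S := by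
    apply mul_le_mul _ hS (by positivity) (by positivity)
    apply div_le_div_of_nonneg_right _ hT.le
    apply mul_le_mul _ _ (by norm_num) (by positivity)
    · exact mul_le_mul_of_nonneg_left hry hc.le
    · exact one_le_pow₀ hU
  refine le_trans ?_ h4
  have h5 : c * r * 1 / T * (1 / (T * c)) = r / (T * T) := by
    field_simp
  rw [h5, le_div_iff₀ (by positivity), hr]
  have h8 : z * (T * T) ≤ Real.exp (T / 10) * (Real.exp (T / 10) * Real.exp (T / 10)) := by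
    apply mul_le_mul hz _ (by positivity) (Real.exp_pos _).le
    apply mul_le_mul hUT hUT hT.le (Real.exp_pos _).le
  refine h8.trans ?_
  rw [← Real.exp_add, ← Real.exp_add]
  apply Real.exp_le_exp.2
  linarith

private theorem SieveP_fin {A B c D y U T S : ℝ} (hD : B + c ≤ D) (hy : 0 ≤ y) (hU : 1 ≤ U)
    (hT : 0 < T) (hS : 0 ≤ S)
    (h : A ≤ B * y * U ^ 3 / T * S + c * y * U ^ 3 / T * S) : A ≤ D * y * U ^ 3 / T * S := by
  have h1 : B * y * U ^ 3 / T * S + c * y * U ^ 3 / T * S = (B + c) * y * U ^ 3 / T * S := by ring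
  rw [h1] at h
  refine h.trans ?_
  apply mul_le_mul_of_nonneg_right _ hS
  apply div_le_div_of_nonneg_right _ hT.le
  apply mul_le_mul_of_nonneg_right _ (by positivity)
  exact mul_le_mul_of_nonneg_right hD hy

private theorem SieveP_qlog {l K D U T : ℝ} (hl : 0 ≤ l) (hKD : K ≤ D) (hK : 0 < K) (hU : 0 < U)
    (h : D * l * U ≤ T) : l ≤ T / (K * U) := by
  rw [le_div_iff₀ (mul_pos hK hU)]
  have h1 : K * (l * U) ≤ D * (l * U) := mul_le_mul_of_nonneg_right hKD (by positivity)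
  linarith

/-- parameters -/
private theorem SieveP_par {τ T U K C₁ : ℝ} {a N : ℕ} (ha : 1 ≤ a)
    (haτ : (a : ℝ) ≤ Real.sqrt τ) (hT : T = Real.log τ) (hU : U = Real.log T)
    (hτ0 : 0 < τ) (hT400 : 400 ≤ T) (hU1 : 1 ≤ U) (hC₁ : 1 ≤ C₁) (hK : K = 6 * C₁ + 10)
    (hN : N = ⌊τ / a⌋₊ + 1) :
    Real.sqrt τ = Real.exp (T / 2) ∧ Real.sqrt τ ≤ τ / a ∧ (N : ℝ) ≤ 2 * (τ / a) ∧ 3 ≤ N ∧
    C₁ * (T / (K * U)) * (1 + Real.log (Real.log (N : ℝ))) ≤ Real.log (N : ℝ) := by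
  have hT0 : 0 < T := by linarith
  have hU0 : 0 < U := by linarith
  have hK0 : 0 < K := by linarith
  have hexpT : Real.exp T = τ := by rw [hT, Real.exp_log hτ0]
  have hsqrt : Real.sqrt τ = Real.exp (T / 2) := by
    rw [Real.exp_half, hexpT]
  have haR : (1 : ℝ) ≤ a := by exact_mod_cast ha
  have haR0 : (0 : ℝ) < a := by linarith
  have hs0 : 0 < Real.sqrt τ := Real.sqrt_pos.2 hτ0
  have hτa : Real.sqrt τ ≤ τ / a := by
    rw [le_div_iff₀ haR0]
    have h1 := Real.mul_self_sqrt hτ0.le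
    have h2 : Real.sqrt τ * a ≤ Real.sqrt τ * Real.sqrt τ :=
      mul_le_mul_of_nonneg_left haτ hs0.le
    linarith
  have hτa0 : 0 < τ / a := by positivity
  have hNlo : τ / a ≤ (N : ℝ) := by
    rw [hN]
    push_cast
    exact (Nat.lt_floor_add_one _).le
  have hs3 : 3 ≤ Real.sqrt τ := by
    rw [hsqrt]
    have h1 := Real.add_one_le_exp (T / 2)
    linarith
  have hNhi : (N : ℝ) ≤ 2 * (τ / a) := by
    rw [hN]
    push_cast
    have h1 := Nat.floor_le hτa0.le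
    linarith
  have hN3 : 3 ≤ N := by
    have h1 : (3 : ℝ) ≤ (N : ℝ) := by linarith
    exact_mod_cast h1
  have hNpos : (0 : ℝ) < N := by linarith
  have hlogN : T / 2 ≤ Real.log (N : ℝ) := by
    have h1 : Real.exp (T / 2) ≤ (N : ℝ) := by
      rw [← hsqrt]
      linarith
    exact (Real.le_log_iff_exp_le hNpos).2 h1
  have hlogN2 : Real.log (N : ℝ) ≤ 2 * T := by
    rw [Real.log_le_iff_le_exp hNpos]
    have h1 : (N : ℝ) ≤ 2 * τ := by
      have h2 : τ / a ≤ τ := div_le_self hτ0.le haR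
      linarith
    have h3 : (2 : ℝ) ≤ Real.exp T := by
      have := Real.add_one_le_exp T
      linarith
    have h4 : Real.exp (2 * T) = Real.exp T * Real.exp T := by
      rw [← Real.exp_add]
      ring_nf
    rw [h4, hexpT]
    rw [hexpT] at h3
    have h5 : 2 * τ ≤ τ * τ := mul_le_mul_of_nonneg_right h3 hτ0.le
    linarith
  have hllN : Real.log (Real.log (N : ℝ)) ≤ 1 + U := by
    have h1 : Real.log (Real.log (N : ℝ)) ≤ Real.log (2 * T) :=
      Real.log_le_log (by linarith) hlogN2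
    rw [Real.log_mul (by norm_num) hT0.ne', ← hU] at h1
    have h2 := Real.log_two_lt_d9
    linarith
  refine ⟨hsqrt, hτa, hNhi, hN3, ?_⟩
  have h1 : 1 + Real.log (Real.log (N : ℝ)) ≤ 3 * U := by linarith
  have h2 : 0 ≤ C₁ * (T / (K * U)) := by positivity
  have h3 : C₁ * (T / (K * U)) * (1 + Real.log (Real.log (N : ℝ))) ≤
      C₁ * (T / (K * U)) * (3 * U) := mul_le_mul_of_nonneg_left h1 h2
  have h4 : C₁ * (T / (K * U)) * (3 * U) = 3 * C₁ * T / K := by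
    field_simp
  have h5 : 3 * C₁ * T / K ≤ T / 2 := by
    rw [div_le_div_iff₀ hK0 (by norm_num), hK]
    have h6 : 0 ≤ C₁ * T := by positivity
    linarith
  linarith

/-- Proof. Let `z = exp(log τ/(C' log log τ))`, `N = ⌊τ/a⌋ + 1`. For the primes `p > z` counted, `n = (p-1)/a < N`
avoids modulo every prime `q ≤ z`, `q ∤ a` the class of `-1/a` (since `p = a n + 1` is a prime `> z ≥ q`),
and modulo every `q ∈ Q` the class `0` (these are `≤ z` by hypothesis); for `q ∤ a` the two classes are different.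
`brun` gives at most `C N exp(-∑_{q ≤ z, q ∤ a} 1/q - ∑_{q ∈ Q} 1/q)`;
`∑_{q ≤ z} 1/q ≥ log log z - C` and `sum_inv_dvd` with `U = log log τ` gives the factor
`C (log log τ)^2/log τ`. The primes `p ≤ z` are at most `z ≤ τ^(1/10)`, which is at most
`(τ/a)/(log τ)^3 ≤ C (τ/a)/(log τ) exp(-∑_{q∈Q} 1/q)` as `a ≤ √τ`. -/
theorem sieve_primes : ∃ C : ℝ, 1 ≤ C ∧ ∀ (τ : ℝ) (a : ℕ) (Q : Finset ℕ), C ≤ τ → 1 ≤ a →
    (a : ℝ) ≤ Real.sqrt τ →
    (∀ q ∈ Q, q.Prime ∧ C * Real.log (q : ℝ) * Real.log (Real.log τ) ≤ Real.log τ) →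
    (((Finset.range (⌊τ⌋₊ + 1)).filter
      (fun p => p.Prime ∧ a ∣ p - 1 ∧ ∀ q ∈ Q, ¬ q ∣ (p - 1) / a)).card : ℝ) ≤
      C * (τ / a) * (Real.log (Real.log τ)) ^ 3 / Real.log τ *
        Real.exp (- ∑ q ∈ Q, 1 / (q : ℝ)) := by
  obtain ⟨C₁, hC₁, hb⟩ := brun
  obtain ⟨C₂, hC₂, hd⟩ := sum_inv_dvd
  obtain ⟨C₃, hC₃, hm⟩ := mert_lo
  obtain ⟨C₄, hC₄, hm4⟩ := mert_all
  obtain ⟨K, hK⟩ : ∃ K : ℝ, K = 6 * C₁ + 10 := ⟨_, rfl⟩
  have hK10 : 10 ≤ K := by linarith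
  have hK0 : 0 < K := by linarith
  obtain ⟨B₁, hB₁⟩ : ∃ B₁ : ℝ, B₁ = C₁ * 2 * (K * Real.exp C₃ * C₂) := ⟨_, rfl⟩
  obtain ⟨E, hE⟩ : ∃ E : ℝ, E = Real.exp 1 + 4 * K ^ 2 + 400 := ⟨_, rfl⟩
  have hB₁0 : 0 ≤ B₁ := by
    rw [hB₁]
    positivity
  have hE4 := Real.exp_pos C₄
  have hEE := Real.exp_pos E
  obtain ⟨D, hD⟩ : ∃ D : ℝ, D = Real.exp E + K + (B₁ + Real.exp C₄) := ⟨_, rfl⟩
  have hKD : K ≤ D := by linarith
  have hBD : B₁ + Real.exp C₄ ≤ D := by linarith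
  have hED : Real.exp E ≤ D := by linarith
  refine ⟨D, by linarith, ?_⟩
  clear hD
  intro τ a Q hτ ha haτ hQ
  have hτE : Real.exp E ≤ τ := by linarith
  have hτ0 : 0 < τ := by linarith
  obtain ⟨T, hT⟩ : ∃ T : ℝ, T = Real.log τ := ⟨_, rfl⟩
  have hTE : E ≤ T := by
    rw [hT]
    exact (Real.le_log_iff_exp_le hτ0).2 hτE
  rw [← hT] at hQ ⊢
  rw [hE] at hTE
  obtain ⟨hU1, hU10, hKU⟩ := SieveP_T K T hK10 hTE
  obtain ⟨U, hU⟩ : ∃ U : ℝ, U = Real.log T := ⟨_, rfl⟩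
  rw [← hU] at hQ hU1 hU10 hKU ⊢
  have hT400 : 400 ≤ T := by
    have h1 := Real.exp_pos 1
    have h2 := sq_nonneg K
    linarith
  have hT0 : 0 < T := by linarith
  have hU0 : 0 < U := by linarith
  have hexpT : Real.exp T = τ := by rw [hT, Real.exp_log hτ0]
  have hexpU : Real.exp U = T := by rw [hU, Real.exp_log hT0]
  have hKU0 : 0 < K * U := by positivity
  -- the level
  obtain ⟨z, hz⟩ : ∃ z : ℝ, z = Real.exp (T / (K * U)) := ⟨_, rfl⟩
  have hlogz : Real.log z = T / (K * U) := by rw [hz, Real.log_exp]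
  have hTKU1 : 1 ≤ T / (K * U) := by rwa [one_le_div hKU0]
  have hz2 : 2 ≤ z := by
    rw [hz]
    have h1 : Real.exp 1 ≤ Real.exp (T / (K * U)) := Real.exp_le_exp.2 hTKU1
    have h2 := Real.add_one_le_exp (1 : ℝ)
    linarith
  have hTKU10 : T / (K * U) ≤ T / 10 := by
    apply div_le_div_of_nonneg_left hT0.le (by norm_num)
    nlinarith only [hK10, hU1]
  obtain ⟨N, hN⟩ : ∃ N : ℕ, N = ⌊τ / a⌋₊ + 1 := ⟨_, rfl⟩
  obtain ⟨hsqrt, hτa, hNhi, hN3, hbr⟩ :=
    SieveP_par ha haτ hT hU hτ0 hT400 hU1 hC₁ hK hN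
  rw [← hlogz] at hbr
  have haR0 : (0 : ℝ) < a := by exact_mod_cast ha
  have hτa0 : 0 < τ / a := by positivity
  -- the primes up to `z` and the classes
  obtain ⟨P, hPdef⟩ : ∃ P : Finset ℕ, P = (Finset.range (⌊z⌋₊ + 1)).filter (fun q => q.Prime) :=
    ⟨_, rfl⟩
  have hz0 : 0 ≤ z := by linarith
  have hP : ∀ q ∈ P, q.Prime ∧ (q : ℝ) ≤ z := by
    intro q hq
    rw [hPdef, Finset.mem_filter, Finset.mem_range] at hq
    exact ⟨hq.2, (Nat.le_floor_iff hz0).1 (by omega)⟩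
  have hPmem : ∀ q : ℕ, q.Prime → (q : ℝ) ≤ z → q ∈ P := by
    intro q hq hqz
    rw [hPdef, Finset.mem_filter, Finset.mem_range]
    exact ⟨Nat.lt_succ_of_le (Nat.le_floor hqz), hq⟩
  have hQlog : ∀ q ∈ Q, Real.log (q : ℝ) ≤ T / (K * U) := by
    intro q hq
    obtain ⟨hqp, hql⟩ := hQ q hq
    have hl0 : 0 ≤ Real.log (q : ℝ) := Real.log_nonneg (by exact_mod_cast hqp.one_lt.le)
    exact SieveP_qlog hl0 hKD hK0 hU0 hql
  have hQP : Q ⊆ P := by
    intro q hq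
    have hqp := (hQ q hq).1
    apply hPmem q hqp
    have hq0 : (0 : ℝ) < q := by exact_mod_cast hqp.pos
    have h1 := (Real.log_le_iff_le_exp hq0).1 (hQlog q hq)
    rw [hz]
    exact h1
  have hex : ∀ q : ℕ, ∃ S : Finset ℕ, q ∈ P → (S ⊆ range q ∧ S.card ≤ 3 ∧
      ((if q ∣ a then 0 else 1) + (if q ∈ Q then 1 else 0) ≤ S.card) ∧
      (∀ n : ℕ, n % q ∈ S → q ∣ a * n + 1 ∨ (q ∈ Q ∧ q ∣ n))) := by
    intro q
    by_cases hq : q ∈ P
    · obtain ⟨S, hS⟩ := SieveP_R a Q q (hP q hq).1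
      exact ⟨S, fun _ => hS⟩
    · exact ⟨∅, fun h => absurd h hq⟩
  choose R hR using hex
  have hcount := SieveP_count τ z a ha Q P R hτ0.le hz0 hP (fun q hq => (hR q hq).2.2.2)
  rw [← hN] at hcount
  have hbrun := hb N z P R hN3 hz2 hP (fun q hq => ⟨(hR q hq).1, (hR q hq).2.1⟩) hbr
  have hsum := SieveP_sum a ha Q P R (fun q hq => (hP q hq).1) hQP (fun q hq => (hR q hq).2.2.1)
  -- Mertens
  have hβ : 0 ≤ Real.log (T / (K * U)) := Real.log_nonneg hTKU1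
  have hmer : Real.log (T / (K * U)) - C₃ ≤ ∑ q ∈ P, 1 / (q : ℝ) := by
    have h1 := hm 0 (Real.log (T / (K * U))) le_rfl hβ
    have h2 : PI 0 (Real.log (T / (K * U))) ⊆ P := by
      intro q hq
      rw [PI, Finset.mem_filter, Finset.mem_range, Real.exp_log (by linarith), ← hz] at hq
      exact hPmem q hq.2.1 ((Nat.le_floor_iff hz0).1 (by omega))
    have h3 : ∑ q ∈ PI 0 (Real.log (T / (K * U))), 1 / (q : ℝ) ≤ ∑ q ∈ P, 1 / (q : ℝ) := by
      apply Finset.sum_le_sum_of_subset_of_nonneg h2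
      intro q _ _
      positivity
    linarith
  have hinv := hd a U hU1 ha (by
    rw [hexpU, hexpT]
    refine haτ.trans ?_
    have h1 := Real.mul_self_sqrt hτ0.le
    nlinarith only [hK10, hKD, hτ, h1])
  -- main term
  have hexp : Real.exp (-∑ q ∈ P, ((R q).card : ℝ) / (q : ℝ)) ≤
      (K * Real.exp C₃ * C₂) * (U ^ 2 / T) * Real.exp (- ∑ q ∈ Q, 1 / (q : ℝ)) := by
    have h1 : -∑ q ∈ P, ((R q).card : ℝ) / (q : ℝ) ≤
        (-Real.log (T / (K * U)) + C₃) + ∑ q ∈ a.primeFactors, 1 / (q : ℝ) +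
        (- ∑ q ∈ Q, 1 / (q : ℝ)) := by linarith
    refine (Real.exp_le_exp.2 h1).trans ?_
    rw [Real.exp_add, Real.exp_add, Real.exp_add, Real.exp_neg (Real.log (T / (K * U))),
      Real.exp_log (by linarith)]
    apply mul_le_mul_of_nonneg_right _ (Real.exp_pos _).le
    have h2 : (T / (K * U))⁻¹ * Real.exp C₃ *
        Real.exp (∑ q ∈ a.primeFactors, 1 / (q : ℝ)) ≤
        (T / (K * U))⁻¹ * Real.exp C₃ * (C₂ * U) := by
      apply mul_le_mul_of_nonneg_left hinv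
      positivity
    refine h2.trans (le_of_eq ?_)
    field_simp
  have hS0 : 0 ≤ Real.exp (- ∑ q ∈ Q, 1 / (q : ℝ)) := (Real.exp_pos _).le
  have hmain := hbrun.trans (SieveP_main (by linarith : (0 : ℝ) ≤ C₁) hτa0.le
    (by positivity) hU1 hT0 hS0 (Real.exp_pos _).le hNhi hexp hB₁)
  -- small primes
  have hsum1 : ∑ q ∈ Q, 1 / (q : ℝ) ≤ U + C₄ := by
    have h2 := hm4 U hU0.le Q (by
      intro q hq
      refine ⟨(hQ q hq).1, ?_⟩
      have hqp := (hQ q hq).1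
      have h3 : 0 < Real.log (q : ℝ) := Real.log_pos (by exact_mod_cast hqp.one_lt)
      have h4 : Real.log (q : ℝ) ≤ T := (hQlog q hq).trans (by linarith)
      rw [ll, hU]
      exact Real.log_le_log h3 h4)
    refine le_trans ?_ h2
    apply Finset.sum_le_sum
    intro q hq
    have hqp := (hQ q hq).1
    have h3 : (2 : ℝ) ≤ q := by exact_mod_cast hqp.two_le
    apply one_div_le_one_div_of_le <;> linarith
  have hS1 : 1 / (T * Real.exp C₄) ≤ Real.exp (- ∑ q ∈ Q, 1 / (q : ℝ)) := by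
    have h2 : Real.exp (-U - C₄) ≤ Real.exp (- ∑ q ∈ Q, 1 / (q : ℝ)) := by
      apply Real.exp_le_exp.2
      linarith
    have h3 : Real.exp (-U - C₄) = 1 / (T * Real.exp C₄) := by
      rw [Real.exp_sub, Real.exp_neg, hexpU]
      field_simp
    rw [← h3]
    exact h2
  have hT10 : T ≤ Real.exp (T / 10) := by
    rw [← Real.log_le_iff_le_exp hT0, ← hU]
    exact hU10
  have hz10 : z ≤ Real.exp (T / 10) := by
    rw [hz]
    exact Real.exp_le_exp.2 hTKU10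
  have hsmall := SieveP_small hU1 hT0 hτa hsqrt hz10 hT10 hS1 hE4
  exact SieveP_fin hBD hτa0.le hU1 hT0 hS0 (by linarith)

end P031
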