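import Vale.Agent.Lib.P031.Basic
import Vale.Agent.Lib.P031.SieveP
import Vale.Agent.Lib.P031.RankinW

/-!
# P031 NNDev: primes which are not normal are rare.
`b = σ^102`, `D = σ^84`, `s = σ^120`.
-/

namespace P031

open Finset Real

/-- the block `t` part of `n` -/
private noncomputable def nndev_a (σ : ℝ) (t n : ℕ) : ℕ :=
  (n.primeFactorsList.filter (fun q => blk σ q = t)).prod

private theorem nndev_perm (σ : ℝ) (t n : ℕ) :
    (nndev_a σ t n).primeFactorsList.Perm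
      (n.primeFactorsList.filter (fun q => blk σ q = t)) :=
  (Nat.primeFactorsList_unique rfl
    (fun _ hp => Nat.prime_of_mem_primeFactorsList (List.mem_of_mem_filter hp))).symm

private theorem nndev_a_ne_zero (σ : ℝ) (t n : ℕ) : nndev_a σ t n ≠ 0 := by
  intro h
  have h0 := List.prod_eq_zero_iff.mp h
  exact Nat.not_prime_zero (Nat.prime_of_mem_primeFactorsList (List.mem_of_mem_filter h0))

private theorem nndev_a_dvd (σ : ℝ) (t : ℕ) {n : ℕ} (hn : n ≠ 0) : nndev_a σ t n ∣ n := by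
  have h := (List.filter_sublist (p := fun q => decide (blk σ q = t))
    (l := n.primeFactorsList)).prod_dvd_prod
  rwa [Nat.prod_primeFactorsList hn] at h

private theorem nndev_Om (σ : ℝ) (t n : ℕ) : Om (nndev_a σ t n) = cnt σ t n :=
  (nndev_perm σ t n).length_eq

private theorem nndev_mem {σ : ℝ} {t n q : ℕ} (hq : q ∈ (nndev_a σ t n).primeFactors) :
    q.Prime ∧ blk σ q = t := by
  refine ⟨Nat.prime_of_mem_primeFactors hq, ?_⟩
  have h1 : q ∈ (nndev_a σ t n).primeFactorsList := by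
    rwa [← Nat.mem_primeFactors_iff_mem_primeFactorsList]
  have h2 := (nndev_perm σ t n).subset h1
  simpa using (List.mem_filter.mp h2).2

private theorem nndev_cop {σ : ℝ} {t n q : ℕ} (hn : n ≠ 0) (hq : q.Prime) (hb : blk σ q = t) :
    ¬ q ∣ n / nndev_a σ t n := by
  intro hdvd
  have hperm := List.filter_append_perm (fun q => decide (blk σ q = t)) n.primeFactorsList
  have hprod := hperm.prod_eq
  rw [List.prod_append, Nat.prod_primeFactorsList hn] at hprod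
  have ha : 0 < nndev_a σ t n := Nat.pos_of_ne_zero (nndev_a_ne_zero σ t n)
  have hdiv : n / nndev_a σ t n =
      (n.primeFactorsList.filter (fun q => !decide (blk σ q = t))).prod := by
    apply Nat.div_eq_of_eq_mul_right ha
    exact hprod.symm
  rw [hdiv] at hdvd
  obtain ⟨x, hx, hqx⟩ := (Prime.dvd_prod_iff hq.prime).mp hdvd
  have hx' := List.mem_filter.mp hx
  have hxp := Nat.prime_of_mem_primeFactorsList hx'.1
  have hqx' : q = x := (Nat.prime_dvd_prime_iff_eq hq hxp).mp hqx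
  subst hqx'
  simp [hb] at hx'

private theorem nndev_list_prod {M : ℝ} (hM : 1 ≤ M) (l : List ℕ) (hl : ∀ q ∈ l, (q : ℝ) ≤ M) :
    (l.prod : ℝ) ≤ M ^ l.length := by
  induction l with
  | nil => simp
  | cons q l ih =>
    have h1 : (q : ℝ) ≤ M := hl q (by simp)
    have h2 := ih (fun q' hq' => hl q' (by simp [hq']))
    rw [List.prod_cons, List.length_cons, pow_succ, Nat.cast_mul, mul_comm (M ^ l.length) M]
    exact mul_le_mul h1 h2 (by positivity) (by linarith)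

/-- `log log` bounds -/
private theorem nndev_le_of_ll {q : ℕ} (hq : 2 ≤ q) {β : ℝ} (h : ll q ≤ β) :
    (q : ℝ) ≤ Real.exp (Real.exp β) := by
  have hq2 : (2 : ℝ) ≤ q := by exact_mod_cast hq
  have hlog : 0 < Real.log (q : ℝ) := Real.log_pos (by linarith)
  have h1 : Real.log (q : ℝ) ≤ Real.exp β := (Real.log_le_iff_le_exp hlog).mp h
  exact (Real.log_le_iff_le_exp (by linarith)).mp h1

private theorem nndev_ge_of_ll {q : ℕ} (hq : 2 ≤ q) {α : ℝ} (h : α ≤ ll q) :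
    Real.exp (Real.exp α) ≤ (q : ℝ) := by
  have hq2 : (2 : ℝ) ≤ q := by exact_mod_cast hq
  have hlog : 0 < Real.log (q : ℝ) := Real.log_pos (by linarith)
  have h1 : Real.exp α ≤ Real.log (q : ℝ) := (Real.le_log_iff_exp_le hlog).mp h
  exact (Real.le_log_iff_exp_le (by linarith)).mp h1

private theorem nndev_log_le {q : ℕ} (hq : 2 ≤ q) {β : ℝ} (h : ll q ≤ β) :
    Real.log (q : ℝ) ≤ Real.exp β := by
  have hq2 : (2 : ℝ) ≤ q := by exact_mod_cast hq
  have hlog : 0 < Real.log (q : ℝ) := Real.log_pos (by linarith)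
  exact (Real.log_le_iff_le_exp hlog).mp h

private theorem nndev_mem_PI {σ : ℝ} (hσ : 0 < σ) {t q : ℕ} (ht : 1 ≤ t) (hq : q.Prime) :
    q ∈ PI (t * σ ^ 102) (((t : ℝ) + 1) * σ ^ 102) ↔ blk σ q = t := by
  have hb : 0 < σ ^ 102 := by positivity
  unfold blk
  rw [Nat.floor_eq_iff' (by omega : t ≠ 0), le_div_iff₀ hb, div_lt_iff₀ hb]
  unfold PI
  rw [Finset.mem_filter, Finset.mem_range]
  constructor
  · rintro ⟨-, -, h1, h2⟩
    exact ⟨h1, h2⟩
  · rintro ⟨h1, h2⟩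
    refine ⟨?_, hq, h1, h2⟩
    exact Nat.lt_succ_of_le (Nat.le_floor (nndev_le_of_ll hq.two_le h2.le))

/-- lower bounds for `QQ` near `1` -/
private theorem nndev_QQ_add {δ : ℝ} (h0 : 0 ≤ δ) (h1 : δ ≤ 1) : δ ^ 2 / 3 ≤ QQ (1 + δ) := by
  have hlog := Real.le_log_one_add_of_nonneg h0
  have h2 : (1 + δ) * (2 * δ / (δ + 2)) ≤ (1 + δ) * Real.log (1 + δ) :=
    mul_le_mul_of_nonneg_left hlog (by linarith)
  have h3 : (1 + δ) * (2 * δ / (δ + 2)) - δ = δ ^ 2 / (δ + 2) := by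
    field_simp
    ring
  have h4 : δ ^ 2 / 3 ≤ δ ^ 2 / (δ + 2) := by
    apply div_le_div_of_nonneg_left (by positivity) (by linarith) (by linarith)
  unfold QQ
  linarith

private theorem nndev_QQ_sub {δ : ℝ} (h0 : 0 ≤ δ) (h1 : δ < 1) : δ ^ 2 / 3 ≤ QQ (1 - δ) := by
  have hpos : 0 < 1 - δ := by linarith
  set t := -Real.log (1 - δ) with ht
  have ht0 : 0 ≤ t := by
    have := Real.log_nonpos hpos.le (by linarith : 1 - δ ≤ 1)
    linarith
  have h2 : t ≤ Real.sinh t := Real.self_le_sinh_iff.mpr ht0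
  rw [Real.sinh_eq] at h2
  have e1 : Real.exp (-t) = 1 - δ := by
    rw [ht, neg_neg, Real.exp_log hpos]
  have e2 : Real.exp t * (1 - δ) = 1 := by
    rw [← e1, ← Real.exp_add]
    simp
  rw [e1] at h2
  have h3 : (1 - δ) * t ≤ (1 - δ) * ((Real.exp t - (1 - δ)) / 2) :=
    mul_le_mul_of_nonneg_left h2 hpos.le
  have h4 : (1 - δ) * ((Real.exp t - (1 - δ)) / 2) = (1 - (1 - δ) ^ 2) / 2 := by
    have : (1 - δ) * ((Real.exp t - (1 - δ)) / 2) = (Real.exp t * (1 - δ) - (1 - δ) ^ 2) / 2 := by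
      ring
    rw [this, e2]
  have h5 : (1 - δ) * Real.log (1 - δ) = -((1 - δ) * t) := by
    rw [ht]
    ring
  unfold QQ
  rw [h5]
  nlinarith only [e2, h3]

/-- Rankin's bound with the constant weight `z` -/
private theorem nndev_rankin {b C z : ℝ} (hb : 1 ≤ b) (hC : 0 ≤ C) (hz0 : 0 ≤ z) (hz2 : z ≤ 2)
    (Q A : Finset ℕ) (hQ : ∀ q ∈ Q, q.Prime ∧ b + 2 ≤ (q : ℝ))
    (hsum : ∑ q ∈ Q, 1 / ((q : ℝ) - 1) ≤ b + C)
    (hA : ∀ a ∈ A, a ≠ 0 ∧ (∀ q ∈ a.primeFactors, q ∈ Q)) :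
    ∑ a ∈ A, z ^ (Om a) / (a : ℝ) ≤ Real.exp (z * b + (4 * C + 2)) := by
  have h1 := rankin_w Q (fun _ => z) A (fun q hq => ⟨(hQ q hq).1, hz0, by
    have := (hQ q hq).2
    linarith⟩) hA
  have h2 : ∀ a ∈ A, z ^ (Om a) / (a : ℝ) =
      (a.primeFactorsList.map (fun _ => z)).prod / (a : ℝ) := by
    intro a _
    rw [List.map_const', List.prod_replicate]
    rfl
  rw [Finset.sum_congr rfl h2]
  refine h1.trans ?_
  have h3 : ∏ q ∈ Q, (1 - z / (q : ℝ))⁻¹ ≤
      ∏ q ∈ Q, Real.exp (z * (1 + 1 / b) * (1 / ((q : ℝ) - 1))) := by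
    apply Finset.prod_le_prod
    · intro q hq
      have hq2 := (hQ q hq).2
      have : z / (q : ℝ) ≤ 1 := by
        rw [div_le_one (by linarith)]
        linarith
      exact inv_nonneg.mpr (by linarith)
    · intro q hq
      have hq2 := (hQ q hq).2
      have hqz : 0 < (q : ℝ) - z := by linarith
      have hq1 : 0 < (q : ℝ) - 1 := by linarith
      have hq0 : 0 < (q : ℝ) := by linarith
      have e1 : (1 - z / (q : ℝ))⁻¹ = z / ((q : ℝ) - z) + 1 := by
        have : 1 - z / (q : ℝ) = ((q : ℝ) - z) / q := by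
          field_simp
        rw [this, inv_div]
        field_simp
        ring
      rw [e1]
      refine (Real.add_one_le_exp _).trans (Real.exp_le_exp.mpr ?_)
      rw [mul_one_div, div_le_div_iff₀ hqz hq1]
      have h5 : ((q : ℝ) - 1) ≤ (1 + 1 / b) * ((q : ℝ) - z) := by
        have h6 : 1 ≤ 1 / b * ((q : ℝ) - z) := by
          rw [one_div, inv_mul_eq_div, one_le_div (by linarith)]
          linarith
        linarith only [hz2, h6]
      calc z * ((q : ℝ) - 1) ≤ z * ((1 + 1 / b) * ((q : ℝ) - z)) :=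
            mul_le_mul_of_nonneg_left h5 hz0
        _ = z * (1 + 1 / b) * ((q : ℝ) - z) := by ring
  refine h3.trans ?_
  rw [← Real.exp_sum, ← Finset.mul_sum]
  apply Real.exp_le_exp.mpr
  have hb0 : 0 < b := by linarith
  have hinv : 1 / b ≤ 1 := by
    rw [div_le_one hb0]
    exact hb
  have hinv0 : 0 < 1 / b := by positivity
  have h7 : z * (1 + 1 / b) * ∑ q ∈ Q, 1 / ((q : ℝ) - 1) ≤ z * (1 + 1 / b) * (b + C) :=
    mul_le_mul_of_nonneg_left hsum (by positivity)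
  have h8 : z * (1 + 1 / b) * (b + C) = z * b + z * C + z + z * C * (1 / b) := by
    field_simp
    ring
  have h9 : z * C ≤ 2 * C := mul_le_mul_of_nonneg_right hz2 hC
  have h10 : z * C * (1 / b) ≤ 2 * C * 1 :=
    mul_le_mul h9 hinv hinv0.le (by positivity)
  linarith

/-- sums of `1/a` over the `a` for which `z ^ Om a ≥ exp (b z log z)` -/
private theorem nndev_sum_inv {b C z : ℝ} (hb : 1 ≤ b) (hC : 0 ≤ C) (hz0 : 0 < z) (hz2 : z ≤ 2)
    (Q A : Finset ℕ) (hQ : ∀ q ∈ Q, q.Prime ∧ b + 2 ≤ (q : ℝ))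
    (hsum : ∑ q ∈ Q, 1 / ((q : ℝ) - 1) ≤ b + C)
    (hA : ∀ a ∈ A, a ≠ 0 ∧ (∀ q ∈ a.primeFactors, q ∈ Q))
    (hA2 : ∀ a ∈ A, b * (z * Real.log z) ≤ (Om a : ℝ) * Real.log z) :
    ∑ a ∈ A, 1 / (a : ℝ) ≤ Real.exp (b - b * QQ z + (4 * C + 2)) := by
  have h1 := nndev_rankin hb hC hz0.le hz2 Q A hQ hsum hA
  have h2 : ∑ a ∈ A, Real.exp (b * (z * Real.log z)) * (1 / (a : ℝ)) ≤
      ∑ a ∈ A, z ^ (Om a) / (a : ℝ) := by
    apply Finset.sum_le_sum
    intro a ha
    have h3 : z ^ (Om a) = Real.exp ((Om a : ℝ) * Real.log z) := by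
      rw [mul_comm, Real.exp_mul, Real.exp_log hz0, Real.rpow_natCast]
    rw [h3, mul_one_div]
    apply div_le_div_of_nonneg_right _ (by positivity)
    exact Real.exp_le_exp.mpr (hA2 a ha)
  rw [← Finset.mul_sum] at h2
  have h4 : ∑ a ∈ A, 1 / (a : ℝ) ≤
      Real.exp (z * b + (4 * C + 2)) / Real.exp (b * (z * Real.log z)) := by
    rw [le_div_iff₀ (Real.exp_pos _)]
    calc (∑ a ∈ A, 1 / (a : ℝ)) * Real.exp (b * (z * Real.log z))
        = Real.exp (b * (z * Real.log z)) * ∑ a ∈ A, 1 / (a : ℝ) := by ring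
      _ ≤ _ := h2.trans h1
  refine h4.trans (le_of_eq ?_)
  rw [← Real.exp_sub]
  congr 1
  unfold QQ
  ring

/-- the numerical conditions on `σ` -/
private theorem nndev_ev (K : ℝ) : ∀ᶠ σ : ℝ in Filter.atTop,
    K * (σ ^ 120 + 1) ^ 3 ≤ Real.exp (σ ^ 66 / 12) := by
  have h1 := Real.tendsto_pow_mul_exp_neg_atTop_nhds_zero 6
  have h2 : Filter.Tendsto (fun σ : ℝ => σ ^ 66 / 12) Filter.atTop Filter.atTop :=
    (Filter.tendsto_pow_atTop (by norm_num)).atTop_div_const (by norm_num)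
  have h3 := h1.comp h2
  set c : ℝ := 1 / ((|K| + 1) * (8 * 12 ^ 6)) with hc
  have hc0 : 0 < c := by positivity
  have h4 := h3.eventually (gt_mem_nhds hc0)
  filter_upwards [h4, Filter.eventually_ge_atTop (1 : ℝ)] with σ hσ1 hσ2
  simp only [Function.comp_apply] at hσ1
  set x := σ ^ 66 / 12 with hx
  have hx0 : 0 < x := by positivity
  have h5 : x ^ 6 < c * Real.exp x := by
    have h6 := mul_lt_mul_of_pos_right hσ1 (Real.exp_pos x)
    rw [mul_assoc, ← Real.exp_add] at h6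
    simpa using h6
  have h7 : (σ ^ 120 + 1) ^ 3 ≤ 8 * 12 ^ 6 * x ^ 6 := by
    have h8 : σ ^ 120 + 1 ≤ 2 * σ ^ 120 := by
      have : (1 : ℝ) ≤ σ ^ 120 := one_le_pow₀ hσ2
      linarith
    have h9 : (σ ^ 120 + 1) ^ 3 ≤ (2 * σ ^ 120) ^ 3 := by gcongr
    have h10 : (2 * σ ^ 120) ^ 3 = 8 * σ ^ 360 := by ring
    have h11 : 8 * 12 ^ 6 * x ^ 6 = 8 * σ ^ 396 := by
      rw [hx]
      ring
    have h12 : σ ^ 360 ≤ σ ^ 396 := pow_le_pow_right₀ hσ2 (by norm_num)
    rw [h11]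
    linarith
  have h13 : K * (σ ^ 120 + 1) ^ 3 ≤ (|K| + 1) * (8 * 12 ^ 6 * x ^ 6) := by
    have hK : K ≤ |K| + 1 := by
      have := le_abs_self K
      linarith
    exact mul_le_mul hK h7 (by positivity) (by positivity)
  have h14 : (|K| + 1) * (8 * 12 ^ 6 * x ^ 6) ≤
      (|K| + 1) * (8 * 12 ^ 6) * (c * Real.exp x) := by
    rw [mul_assoc (|K| + 1)]
    have : 0 < |K| + 1 := by positivity
    gcongr
  have h15 : (|K| + 1) * (8 * 12 ^ 6) * (c * Real.exp x) = Real.exp x := by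
    have : (|K| + 1) ≠ 0 := by positivity
    rw [hc]
    field_simp
  linarith

private theorem nndev_exp_ge {x K : ℝ} (hx : 2 * K ≤ x) (hx0 : 0 ≤ x) : K * x ≤ Real.exp x := by
  have h := Real.quadratic_le_exp_of_nonneg hx0
  nlinarith only [hx, hx0, h]

/-- Two-sided deviation in one block `t ≥ 1` with `(t + 2) b ≤ ll Z` (automatic here if `S` is nonempty).
Write `p - 1 = a m` with `a` the block-`t` part (product of the prime factors in block `t`), `Om a ≤ 30 b`, so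
`a ≤ exp(30 b exp((t+1) b)) ≤ √Z`, and `m` has no prime factor in block `t`. `sieve_primes` with `Q` = the primes of
block `t` gives at most `∑_a C (Z/a)(s+1)^3/log Z · exp(-b + C)` (`mert_lo`), and with `z = 1 ± D/b`, `rankin_w`:
`∑_{a : Om a ≥ b + D} 1/a ≤ z^(-(b+D)) exp(z (b + C) + C)`, `∑_{a : Om a ≤ b - D} 1/a ≤ z^(-(b-D)) exp(z (b+C) + C)`.
Total exponent `≤ -D^2/(3b) + C log σ`, `D^2/b = σ^66`. -/
theorem nn_dev : ∀ᶠ σ : ℝ in Filter.atTop, ∀ (Z : ℝ) (t : ℕ) (S : Finset ℕ), 1 ≤ t →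
    Real.exp (Real.exp (σ ^ 110)) ≤ Z → Z ≤ Real.exp (Real.exp (σ ^ 120 + 1)) →
    (∀ p ∈ S, p.Prime ∧ (p : ℝ) ≤ Z ∧ ((t : ℝ) + 2) * σ ^ 102 ≤ ll p ∧
      (cnt σ t (p - 1) : ℝ) ≤ 30 * σ ^ 102 ∧ σ ^ 84 < |(cnt σ t (p - 1) : ℝ) - σ ^ 102|) →
    (S.card : ℝ) ≤ Z / Real.log Z * Real.exp (-(σ ^ 66 / 4)) := by
  obtain ⟨C0, hC0, hs⟩ := sieve_primes
  obtain ⟨C1, hC1, hm⟩ := mert
  obtain ⟨C2, hC2, hml⟩ := mert_lo
  set K : ℝ := 2 * C0 * Real.exp ((4 * C1 + 2) + C2) with hK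
  filter_upwards [nndev_ev K, Filter.eventually_ge_atTop (4 * C0 + 200)] with σ h5 hσ
  intro Z t S ht hZ1 hZ2 hS
  have hσ200 : 200 ≤ σ := by linarith
  have hσ1 : 1 ≤ σ := by linarith
  have hσ0 : 0 < σ := by linarith
  have hZpos : 0 < Z := (Real.exp_pos _).trans_le hZ1
  have hlogZ : Real.exp (σ ^ 110) ≤ Real.log Z := (Real.le_log_iff_exp_le hZpos).mpr hZ1
  have hlogZpos : 0 < Real.log Z := (Real.exp_pos _).trans_le hlogZ
  set b : ℝ := σ ^ 102 with hb
  have hbσ : σ ≤ b := le_self_pow₀ hσ1 (by norm_num)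
  have hb200 : 200 ≤ b := hσ200.trans hbσ
  have hb0 : 0 < b := by linarith
  rcases S.eq_empty_or_nonempty with rfl | ⟨p0, hp0⟩
  · simp only [Finset.card_empty, Nat.cast_zero]
    positivity
  set U : ℝ := Real.log (Real.log Z) with hU
  have hexpU : Real.exp U = Real.log Z := Real.exp_log hlogZpos
  have hUle : U ≤ σ ^ 120 + 1 := by
    have h1 : Real.log Z ≤ Real.exp (σ ^ 120 + 1) := (Real.log_le_iff_le_exp hZpos).mpr hZ2
    exact (Real.log_le_iff_le_exp hlogZpos).mpr h1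
  have hUge : ((t : ℝ) + 2) * b ≤ U := by
    obtain ⟨hp, hpZ, hpt, -, -⟩ := hS p0 hp0
    have h1 := nndev_ge_of_ll hp.two_le hpt
    have h2 : Real.exp (Real.exp (((t : ℝ) + 2) * b)) ≤ Z := h1.trans hpZ
    have h3 : Real.exp (((t : ℝ) + 2) * b) ≤ Real.log Z := (Real.le_log_iff_exp_le hZpos).mpr h2
    exact (Real.le_log_iff_exp_le hlogZpos).mpr h3
  have htR : (1 : ℝ) ≤ t := by exact_mod_cast ht
  have hU0 : 0 < U := lt_of_lt_of_le (by positivity) hUge
  set Q : Finset ℕ := PI (t * b) (((t : ℝ) + 1) * b) with hQdef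
  have hQmem : ∀ q : ℕ, q.Prime → (q ∈ Q ↔ blk σ q = t) := fun q hq =>
    nndev_mem_PI hσ0 ht hq
  have hQprop : ∀ q ∈ Q, q.Prime ∧ (t : ℝ) * b ≤ ll q ∧ ll q < ((t : ℝ) + 1) * b := by
    intro q hq
    rw [hQdef, PI, Finset.mem_filter] at hq
    exact hq.2
  have hQbig : ∀ q ∈ Q, q.Prime ∧ b + 2 ≤ (q : ℝ) := by
    intro q hq
    obtain ⟨hqp, hq1, -⟩ := hQprop q hq
    refine ⟨hqp, ?_⟩
    have h1 := nndev_ge_of_ll hqp.two_le hq1
    have h2 : b ≤ (t : ℝ) * b := by nlinarith only [hb0, htR]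
    have h3 := Real.add_one_le_exp ((t : ℝ) * b)
    have h4 := Real.add_one_le_exp (Real.exp ((t : ℝ) * b))
    linarith
  have hsum : ∑ q ∈ Q, 1 / ((q : ℝ) - 1) ≤ b + C1 := by
    have h1 := (hm (t * b) (((t : ℝ) + 1) * b) (by positivity) (by linarith only [hb0])).2
    have h2 : ((t : ℝ) + 1) * b - t * b = b := by ring
    rw [h2] at h1
    exact h1
  have hsumlo : b - C2 ≤ ∑ q ∈ Q, 1 / (q : ℝ) := by
    have h1 := hml (t * b) (((t : ℝ) + 1) * b) (by positivity) (by linarith only [hb0])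
    have h2 : ((t : ℝ) + 1) * b - t * b = b := by ring
    rw [h2] at h1
    exact h1
  -- the block parts
  set A : Finset ℕ := S.image (fun p => nndev_a σ t (p - 1)) with hA
  have hprop : ∀ p ∈ S, p - 1 ≠ 0 := by
    intro p hp
    have := (hS p hp).1.two_le
    omega
  have hexpb : 60 * b ≤ Real.exp b := nndev_exp_ge (by linarith) hb0.le
  have haZ : ∀ a ∈ A, (a : ℝ) ≤ Real.sqrt Z := by
    intro a ha
    obtain ⟨p, hp, rfl⟩ := Finset.mem_image.mp ha
    have hcnt := (hS p hp).2.2.2.1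
    set M : ℝ := Real.exp (Real.exp (((t : ℝ) + 1) * b)) with hM
    have hM1 : 1 ≤ M := by
      rw [hM]
      exact Real.one_le_exp (Real.exp_pos _).le
    have h1 := nndev_list_prod hM1 ((p - 1).primeFactorsList.filter (fun q => blk σ q = t)) (by
      intro q hq
      have hq' := List.mem_filter.mp hq
      have hqp := Nat.prime_of_mem_primeFactorsList hq'.1
      have hqb : blk σ q = t := by simpa using hq'.2
      exact nndev_le_of_ll hqp.two_le (hQprop q ((hQmem q hqp).mpr hqb)).2.2.le)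
    have h2 : (nndev_a σ t (p - 1) : ℝ) ≤ M ^ (cnt σ t (p - 1)) := h1
    have h3 : M ^ (cnt σ t (p - 1)) =
        Real.exp ((cnt σ t (p - 1) : ℝ) * Real.exp (((t : ℝ) + 1) * b)) := by
      rw [hM, ← Real.exp_nat_mul]
    have h4 : (cnt σ t (p - 1) : ℝ) * Real.exp (((t : ℝ) + 1) * b) ≤
        30 * b * Real.exp (((t : ℝ) + 1) * b) :=
      mul_le_mul_of_nonneg_right hcnt (Real.exp_pos _).le
    apply Real.le_sqrt_of_sq_le
    have h5 : (nndev_a σ t (p - 1) : ℝ) ^ 2 ≤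
        Real.exp (30 * b * Real.exp (((t : ℝ) + 1) * b)) ^ 2 := by
      apply pow_le_pow_left₀ (by positivity)
      refine h2.trans ?_
      rw [h3]
      exact Real.exp_le_exp.mpr h4
    refine h5.trans ?_
    rw [← Real.exp_nat_mul]
    have h6 : ((2 : ℕ) : ℝ) * (30 * b * Real.exp (((t : ℝ) + 1) * b)) ≤ Real.log Z := by
      calc ((2 : ℕ) : ℝ) * (30 * b * Real.exp (((t : ℝ) + 1) * b))
          = (60 * b) * Real.exp (((t : ℝ) + 1) * b) := by push_cast; ring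
        _ ≤ Real.exp b * Real.exp (((t : ℝ) + 1) * b) :=
            mul_le_mul_of_nonneg_right hexpb (Real.exp_pos _).le
        _ = Real.exp (((t : ℝ) + 2) * b) := by
            rw [← Real.exp_add]
            congr 1
            ring
        _ ≤ Real.exp U := Real.exp_le_exp.mpr hUge
        _ = Real.log Z := hexpU
    exact (Real.le_log_iff_exp_le hZpos).mp h6
  have hCZ : C0 ≤ Z := by
    have h1 : σ ≤ σ ^ 110 := le_self_pow₀ hσ1 (by norm_num)
    have h2 := Real.add_one_le_exp (σ ^ 110)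
    have h3 := Real.add_one_le_exp (Real.exp (σ ^ 110))
    linarith
  have hQs : ∀ q ∈ Q, q.Prime ∧ C0 * Real.log (q : ℝ) * Real.log (Real.log Z) ≤ Real.log Z := by
    intro q hq
    obtain ⟨hqp, -, hq2⟩ := hQprop q hq
    refine ⟨hqp, ?_⟩
    have h1 : Real.log (q : ℝ) ≤ Real.exp (((t : ℝ) + 1) * b) := nndev_log_le hqp.two_le hq2.le
    have h2 : C0 * U ≤ Real.exp b := by
      have h3 : C0 * U ≤ C0 * (2 * σ ^ 120) := by
        have h31 : (1 : ℝ) ≤ σ ^ 120 := one_le_pow₀ hσ1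
        exact mul_le_mul_of_nonneg_left (by linarith) (by linarith)
      have h4 : (2 * C0 * σ ^ 18) * b ≤ Real.exp b := by
        apply nndev_exp_ge _ hb0.le
        have h41 : σ ^ 102 = σ ^ 84 * σ ^ 18 := by ring
        have h42 : σ ≤ σ ^ 84 := le_self_pow₀ hσ1 (by norm_num)
        rw [hb, h41]
        have h43 : 0 < σ ^ 18 := by positivity
        have h44 : 4 * C0 ≤ σ ^ 84 := by linarith
        calc 2 * (2 * C0 * σ ^ 18) = 4 * C0 * σ ^ 18 := by ring
          _ ≤ σ ^ 84 * σ ^ 18 := mul_le_mul_of_nonneg_right h44 h43.le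
      have h5' : C0 * (2 * σ ^ 120) = (2 * C0 * σ ^ 18) * b := by
        rw [hb]
        ring
      linarith
    have hlq : 0 ≤ Real.log (q : ℝ) := Real.log_natCast_nonneg q
    calc C0 * Real.log (q : ℝ) * U = (C0 * U) * Real.log (q : ℝ) := by ring
      _ ≤ Real.exp b * Real.exp (((t : ℝ) + 1) * b) :=
          mul_le_mul h2 h1 hlq (Real.exp_pos _).le
      _ = Real.exp (((t : ℝ) + 2) * b) := by
          rw [← Real.exp_add]
          congr 1
          ring
      _ ≤ Real.exp U := Real.exp_le_exp.mpr hUge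
      _ = Real.log Z := hexpU
  -- the covering
  have hcov : S ⊆ A.biUnion (fun a => (Finset.range (⌊Z⌋₊ + 1)).filter
      (fun p => p.Prime ∧ a ∣ p - 1 ∧ ∀ q ∈ Q, ¬ q ∣ (p - 1) / a)) := by
    intro p hp
    rw [Finset.mem_biUnion]
    refine ⟨nndev_a σ t (p - 1), Finset.mem_image_of_mem _ hp, ?_⟩
    rw [Finset.mem_filter, Finset.mem_range]
    refine ⟨Nat.lt_succ_of_le (Nat.le_floor (hS p hp).2.1), (hS p hp).1,
      nndev_a_dvd σ t (hprop p hp), ?_⟩
    intro q hq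
    exact nndev_cop (hprop p hp) (hQprop q hq).1 ((hQmem q (hQprop q hq).1).mp hq)
  have hcard : (S.card : ℝ) ≤ ∑ a ∈ A, (((Finset.range (⌊Z⌋₊ + 1)).filter
      (fun p => p.Prime ∧ a ∣ p - 1 ∧ ∀ q ∈ Q, ¬ q ∣ (p - 1) / a)).card : ℝ) := by
    have h1 := (Finset.card_le_card hcov).trans Finset.card_biUnion_le
    exact_mod_cast h1
  have hApos : ∀ a ∈ A, a ≠ 0 := by
    intro a ha
    obtain ⟨p, -, rfl⟩ := Finset.mem_image.mp ha
    exact nndev_a_ne_zero σ t (p - 1)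
  have hApf : ∀ a ∈ A, a ≠ 0 ∧ (∀ q ∈ a.primeFactors, q ∈ Q) := by
    intro a ha
    refine ⟨hApos a ha, ?_⟩
    obtain ⟨p, -, rfl⟩ := Finset.mem_image.mp ha
    intro q hq
    have h1 := nndev_mem hq
    exact (hQmem q h1.1).mpr h1.2
  have hexpQ : Real.exp (- ∑ q ∈ Q, 1 / (q : ℝ)) ≤ Real.exp (-b + C2) :=
    Real.exp_le_exp.mpr (by linarith)
  have hbound : (S.card : ℝ) ≤
      (C0 * Z * U ^ 3 / Real.log Z * Real.exp (-b + C2)) * ∑ a ∈ A, 1 / (a : ℝ) := by
    refine hcard.trans ?_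
    rw [Finset.mul_sum]
    apply Finset.sum_le_sum
    intro a ha
    have ha1 : 1 ≤ a := Nat.one_le_iff_ne_zero.mpr (hApos a ha)
    have h1 := hs Z a Q hCZ ha1 (haZ a ha) hQs
    refine h1.trans ?_
    have ha0 : (0 : ℝ) < a := by exact_mod_cast ha1
    calc C0 * (Z / a) * U ^ 3 / Real.log Z * Real.exp (- ∑ q ∈ Q, 1 / (q : ℝ))
        ≤ C0 * (Z / a) * U ^ 3 / Real.log Z * Real.exp (-b + C2) :=
          mul_le_mul_of_nonneg_left hexpQ (by positivity)
      _ = (C0 * Z * U ^ 3 / Real.log Z * Real.exp (-b + C2)) * (1 / a) := by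
          ring
  -- the two parts of A
  set D : ℝ := σ ^ 84 with hD
  set δ : ℝ := D / b with hδ
  have hD0 : 0 < D := by positivity
  have hδ0 : 0 < δ := by positivity
  have hbδ : b * δ = D := by
    rw [hδ]
    field_simp
  have hbδ2 : b * δ ^ 2 = σ ^ 66 := by
    have h1 : b * δ ^ 2 = D ^ 2 / b := by
      rw [hδ]
      field_simp
    rw [h1, hD, hb]
    rw [div_eq_iff (by positivity)]
    ring
  have hδ1 : δ < 1 := by
    rw [hδ, div_lt_one hb0, hD, hb]
    exact pow_lt_pow_right₀ (by linarith) (by norm_num)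
  have hAdev : ∀ a ∈ A, D < |(Om a : ℝ) - b| := by
    intro a ha
    obtain ⟨p, hp, rfl⟩ := Finset.mem_image.mp ha
    rw [nndev_Om]
    exact (hS p hp).2.2.2.2
  have hplus : ∑ a ∈ A.filter (fun a => b ≤ (Om a : ℝ)), 1 / (a : ℝ) ≤
      Real.exp (b - b * QQ (1 + δ) + (4 * C1 + 2)) := by
    refine nndev_sum_inv (by linarith) (by linarith) (by linarith) (by linarith) Q _ hQbig hsum
      (fun a ha => hApf a (Finset.mem_filter.mp ha).1) ?_
    intro a ha
    obtain ⟨ha1, ha2⟩ := Finset.mem_filter.mp ha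
    have h1 := hAdev a ha1
    rw [abs_of_nonneg (by linarith)] at h1
    have h2 : b * (1 + δ) ≤ (Om a : ℝ) := by
      have : b * (1 + δ) = b + D := by rw [mul_add, hbδ, mul_one]
      linarith
    have h3 : 0 ≤ Real.log (1 + δ) := Real.log_nonneg (by linarith)
    calc b * ((1 + δ) * Real.log (1 + δ)) = (b * (1 + δ)) * Real.log (1 + δ) := by ring
      _ ≤ _ := mul_le_mul_of_nonneg_right h2 h3
  have hminus : ∑ a ∈ A.filter (fun a => ¬ b ≤ (Om a : ℝ)), 1 / (a : ℝ) ≤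
      Real.exp (b - b * QQ (1 - δ) + (4 * C1 + 2)) := by
    refine nndev_sum_inv (by linarith) (by linarith) (by linarith) (by linarith) Q _ hQbig hsum
      (fun a ha => hApf a (Finset.mem_filter.mp ha).1) ?_
    intro a ha
    obtain ⟨ha1, ha2⟩ := Finset.mem_filter.mp ha
    push Not at ha2
    have h1 := hAdev a ha1
    rw [abs_of_neg (by linarith)] at h1
    have h2 : (Om a : ℝ) ≤ b * (1 - δ) := by
      have : b * (1 - δ) = b - D := by rw [mul_sub, hbδ, mul_one]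
      linarith
    have h3 : Real.log (1 - δ) ≤ 0 := Real.log_nonpos (by linarith) (by linarith)
    calc b * ((1 - δ) * Real.log (1 - δ)) = (b * (1 - δ)) * Real.log (1 - δ) := by ring
      _ ≤ _ := mul_le_mul_of_nonpos_right h2 h3
  have hq1 := nndev_QQ_add hδ0.le hδ1.le
  have hq2 := nndev_QQ_sub hδ0.le hδ1
  have hE1 : b - b * QQ (1 + δ) + (4 * C1 + 2) ≤ b - σ ^ 66 / 3 + (4 * C1 + 2) := by
    have := mul_le_mul_of_nonneg_left hq1 hb0.le
    have h2 : b * (δ ^ 2 / 3) = σ ^ 66 / 3 := by rw [← hbδ2]; ring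
    linarith
  have hE2 : b - b * QQ (1 - δ) + (4 * C1 + 2) ≤ b - σ ^ 66 / 3 + (4 * C1 + 2) := by
    have := mul_le_mul_of_nonneg_left hq2 hb0.le
    have h2 : b * (δ ^ 2 / 3) = σ ^ 66 / 3 := by rw [← hbδ2]; ring
    linarith
  have hsumA : ∑ a ∈ A, 1 / (a : ℝ) ≤ 2 * Real.exp (b - σ ^ 66 / 3 + (4 * C1 + 2)) := by
    rw [← Finset.sum_filter_add_sum_filter_not A (fun a => b ≤ (Om a : ℝ))]
    have h1 := hplus.trans (Real.exp_le_exp.mpr hE1)
    have h2 := hminus.trans (Real.exp_le_exp.mpr hE2)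
    linarith
  -- conclusion
  have hU3 : U ^ 3 ≤ (σ ^ 120 + 1) ^ 3 := pow_le_pow_left₀ hU0.le hUle 3
  have hexp1 : Real.exp (-b + C2) * (2 * Real.exp (b - σ ^ 66 / 3 + (4 * C1 + 2))) =
      2 * Real.exp ((4 * C1 + 2) + C2) * Real.exp (-(σ ^ 66 / 3)) := by
    rw [mul_left_comm, ← Real.exp_add, mul_assoc, ← Real.exp_add]
    congr 2
    ring
  have hexp2 : Real.exp (σ ^ 66 / 12) * Real.exp (-(σ ^ 66 / 3)) =
      Real.exp (-(σ ^ 66 / 4)) := by
    rw [← Real.exp_add]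
    congr 1
    ring
  calc (S.card : ℝ) ≤
      (C0 * Z * U ^ 3 / Real.log Z * Real.exp (-b + C2)) * ∑ a ∈ A, 1 / (a : ℝ) := hbound
    _ ≤ (C0 * Z * U ^ 3 / Real.log Z * Real.exp (-b + C2)) *
        (2 * Real.exp (b - σ ^ 66 / 3 + (4 * C1 + 2))) :=
        mul_le_mul_of_nonneg_left hsumA (by positivity)
    _ = (Z / Real.log Z) * U ^ 3 * (C0 *
        (Real.exp (-b + C2) * (2 * Real.exp (b - σ ^ 66 / 3 + (4 * C1 + 2))))) := by ring
    _ = (Z / Real.log Z) * (K * U ^ 3) * Real.exp (-(σ ^ 66 / 3)) := by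
        rw [hexp1, hK]
        ring
    _ ≤ (Z / Real.log Z) * Real.exp (σ ^ 66 / 12) * Real.exp (-(σ ^ 66 / 3)) := by
        have hK0 : 0 ≤ K := by
          rw [hK]
          positivity
        have h6 : K * U ^ 3 ≤ Real.exp (σ ^ 66 / 12) :=
          (mul_le_mul_of_nonneg_left hU3 hK0).trans h5
        gcongr
    _ = Z / Real.log Z * Real.exp (-(σ ^ 66 / 4)) := by
        rw [mul_assoc, hexp2]

end P031
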