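import Vale.Agent.Lib.P031.NNBig
import Vale.Agent.Lib.P031.NNDev

/-!
# P031 NonNormal: primes which are not normal are rare.
-/

namespace P031

open Finset Real

private theorem NonNormal_ll_le {q : ℕ} {E : ℝ} (hq : 2 ≤ q) (h : (q : ℝ) ≤ Real.exp (Real.exp E)) :
    ll q ≤ E := by
  have h2 : (2 : ℝ) ≤ (q : ℝ) := by exact_mod_cast hq
  have h0 : (0 : ℝ) < (q : ℝ) := by linarith
  have h1 : Real.log (q : ℝ) ≤ Real.exp E := (Real.log_le_iff_le_exp h0).mpr h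
  have h3 : 0 < Real.log (q : ℝ) := Real.log_pos (by linarith)
  exact (Real.log_le_iff_le_exp h3).mpr h1

private theorem NonNormal_numA {σ : ℝ} (hσ : 100 ≤ σ) :
    ((Tm σ : ℝ) + 1) * (Real.exp (-(3 * σ ^ 102)) + Real.exp (-(σ ^ 66 / 4))) ≤
      Real.exp (-(2 * σ ^ 65)) := by
  have h0 : (0 : ℝ) ≤ σ := by linarith
  have h1 : (1 : ℝ) ≤ σ := by linarith
  have hT : (Tm σ : ℝ) ≤ σ ^ 18 + 4 := by
    unfold Tm
    push_cast
    have := Nat.ceil_lt_add_one (show (0 : ℝ) ≤ σ ^ 18 by positivity)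
    linarith
  have hp18 : (1 : ℝ) ≤ σ ^ 18 := one_le_pow₀ h1
  have h66 : σ ^ 66 ≤ σ ^ 102 := pow_le_pow_right₀ h1 (by norm_num)
  have h66' : 0 ≤ σ ^ 66 := by positivity
  have e1 : Real.exp (-(3 * σ ^ 102)) ≤ Real.exp (-(σ ^ 66 / 4)) :=
    Real.exp_le_exp.mpr (by linarith)
  have h65 : σ ^ 66 = σ ^ 65 * σ := by ring
  have h19 : σ ^ 19 ≤ σ ^ 65 := pow_le_pow_right₀ h1 (by norm_num)
  have h19' : σ ^ 19 = σ ^ 18 * σ := by ring
  have h65' : 0 ≤ σ ^ 65 := by positivity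
  have e2 : 2 * (σ ^ 18 + 5) ≤ Real.exp (σ ^ 66 / 4 - 2 * σ ^ 65) := by
    refine le_trans ?_ (Real.add_one_le_exp _)
    nlinarith only [hσ, hp18, h19, h65']
  have e3 : Real.exp (-(2 * σ ^ 65)) = Real.exp (σ ^ 66 / 4 - 2 * σ ^ 65) *
      Real.exp (-(σ ^ 66 / 4)) := by
    rw [← Real.exp_add]; congr 1; ring
  rw [e3]
  have e4 : 0 ≤ Real.exp (-(σ ^ 66 / 4)) := (Real.exp_pos _).le
  calc ((Tm σ : ℝ) + 1) * (Real.exp (-(3 * σ ^ 102)) + Real.exp (-(σ ^ 66 / 4)))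
      ≤ (σ ^ 18 + 5) * (2 * Real.exp (-(σ ^ 66 / 4))) :=
        mul_le_mul (by linarith) (by linarith) (by positivity) (by positivity)
    _ = 2 * (σ ^ 18 + 5) * Real.exp (-(σ ^ 66 / 4)) := by ring
    _ ≤ _ := mul_le_mul_of_nonneg_right e2 e4

private theorem NonNormal_numB {σ : ℝ} (hσ : 100 ≤ σ) :
    8 * (σ ^ 120 + 3) * Real.exp (-(2 * σ ^ 65)) ≤ Real.exp (-(σ ^ 65)) := by
  have h1 : (1 : ℝ) ≤ σ := by linarith
  have h65' : 0 ≤ σ ^ 65 := by positivity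
  have e3 : Real.exp (-(σ ^ 65)) = Real.exp (σ ^ 65) * Real.exp (-(2 * σ ^ 65)) := by
    rw [← Real.exp_add]; congr 1; ring
  rw [e3]
  refine mul_le_mul_of_nonneg_right ?_ (Real.exp_pos _).le
  refine le_trans ?_ (Real.quadratic_le_exp_of_nonneg h65')
  have h130 : (σ ^ 65) ^ 2 = σ ^ 120 * σ ^ 10 := by ring
  have h120 : (1 : ℝ) ≤ σ ^ 120 := one_le_pow₀ h1
  have h10 : (100 : ℝ) ^ 10 ≤ σ ^ 10 := pow_le_pow_left₀ (by norm_num) hσ 10
  have h10' : (100 : ℝ) ≤ σ ^ 10 := le_trans (by norm_num) h10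
  rw [h130]
  nlinarith

/-- union of `nn_big` and `nn_dev` over `t ≤ Tm σ` (a prime factor of `p - 1 ≤ exp exp (s+1)` is in a block `≤ Tm σ`) -/
theorem nonnormal_count : ∀ᶠ σ : ℝ in Filter.atTop, ∀ (Z : ℝ) (S : Finset ℕ),
    Real.exp (Real.exp (σ ^ 110)) ≤ Z → Z ≤ Real.exp (Real.exp (σ ^ 120 + 1)) →
    (∀ p ∈ S, p.Prime ∧ (p : ℝ) ≤ Z ∧ ¬ Normal σ p) →
    (S.card : ℝ) ≤ Z / Real.log Z * Real.exp (-(2 * σ ^ 65)) := by
  filter_upwards [nn_big, nn_dev, Filter.eventually_ge_atTop (100 : ℝ)] with σ hbig hdev hσ Z S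
    hZ1 hZ2 hS
  classical
  have h1 : (1 : ℝ) ≤ σ := by linarith
  have h102 : (1 : ℝ) ≤ σ ^ 102 := one_le_pow₀ h1
  have hTm : σ ^ 18 + 3 ≤ (Tm σ : ℝ) := by
    unfold Tm
    push_cast
    have := Nat.le_ceil (σ ^ 18)
    linarith
  have hs : σ ^ 120 + 1 ≤ (σ ^ 18 + 1) * σ ^ 102 := by
    have : σ ^ 120 = σ ^ 18 * σ ^ 102 := by ring
    rw [this]
    linarith
  set A : ℕ → Finset ℕ := fun t => S.filter (fun p => 30 * σ ^ 102 < (cnt σ t (p - 1) : ℝ)) with hA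
  set D : ℕ → Finset ℕ := fun t => S.filter (fun p => 1 ≤ t ∧ ((t : ℝ) + 2) * σ ^ 102 ≤ ll p ∧
      (cnt σ t (p - 1) : ℝ) ≤ 30 * σ ^ 102 ∧ σ ^ 84 < |(cnt σ t (p - 1) : ℝ) - σ ^ 102|) with hD
  have hcover : S ⊆ (Finset.range (Tm σ + 1)).biUnion (fun t => A t ∪ D t) := by
    intro p hp
    obtain ⟨hpp, hpZ, hpn⟩ := hS p hp
    rw [Finset.mem_biUnion]
    by_cases hb : ∃ t, 30 * σ ^ 102 < (cnt σ t (p - 1) : ℝ)
    · obtain ⟨t, ht⟩ := hb
      refine ⟨t, ?_, Finset.mem_union_left _ (Finset.mem_filter.mpr ⟨hp, ht⟩)⟩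
      rw [Finset.mem_range]
      rcases Nat.eq_zero_or_pos t with h0 | h0
      · omega
      have hpos : 0 < cnt σ t (p - 1) := by
        have : (0 : ℝ) < (cnt σ t (p - 1) : ℝ) := lt_trans (by positivity) ht
        exact_mod_cast this
      unfold cnt at hpos
      obtain ⟨q, hq⟩ := List.exists_mem_of_length_pos hpos
      rw [List.mem_filter] at hq
      obtain ⟨hq1, hq2⟩ := hq
      have hqt : blk σ q = t := by simpa using hq2
      have hqp := Nat.prime_of_mem_primeFactorsList hq1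
      have hp1 : p - 1 ≠ 0 := by have := hpp.two_le; omega
      have hqle : q ≤ p - 1 := Nat.le_of_mem_primeFactorsList hq1
      have hqr : (q : ℝ) ≤ Real.exp (Real.exp (σ ^ 120 + 1)) := by
        have : (q : ℝ) ≤ (p : ℝ) := by exact_mod_cast (by omega : q ≤ p)
        linarith
      have hll := NonNormal_ll_le hqp.two_le hqr
      unfold blk at hqt
      have h5 := ((Nat.floor_eq_iff' (by omega : t ≠ 0)).mp hqt).1
      rw [le_div_iff₀ (by positivity)] at h5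
      have h6 : (t : ℝ) * σ ^ 102 ≤ (σ ^ 18 + 1) * σ ^ 102 := by linarith
      have h7 : (t : ℝ) ≤ σ ^ 18 + 1 := le_of_mul_le_mul_right h6 (by positivity)
      have h8 : (t : ℝ) < (Tm σ : ℝ) + 1 := by linarith
      exact_mod_cast h8
    · push Not at hb
      have hex : ∃ t : ℕ, 1 ≤ t ∧ ((t : ℝ) + 2) * σ ^ 102 ≤ ll p ∧
          σ ^ 84 < |(cnt σ t (p - 1) : ℝ) - σ ^ 102| := by
        by_contra hcon
        push Not at hcon
        exact hpn ⟨hcon, hb⟩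
      obtain ⟨t, ht1, ht2, ht3⟩ := hex
      refine ⟨t, ?_, Finset.mem_union_right _ (Finset.mem_filter.mpr ⟨hp, ht1, ht2, hb t, ht3⟩)⟩
      have hll := NonNormal_ll_le hpp.two_le (hpZ.trans hZ2)
      have h6 : ((t : ℝ) + 2) * σ ^ 102 ≤ (σ ^ 18 + 1) * σ ^ 102 := by linarith
      have h7 : (t : ℝ) + 2 ≤ σ ^ 18 + 1 := le_of_mul_le_mul_right h6 (by positivity)
      have h8 : (t : ℝ) < (Tm σ : ℝ) + 1 := by linarith
      rw [Finset.mem_range]
      exact_mod_cast h8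
  have hlogZ : 0 < Real.log Z := by
    refine Real.log_pos (lt_of_lt_of_le ?_ hZ1)
    rw [Real.one_lt_exp_iff]
    exact Real.exp_pos _
  have hZ0 : 0 < Z := lt_of_lt_of_le (Real.exp_pos _) hZ1
  have hZL : 0 ≤ Z / Real.log Z := by positivity
  have hAc : ∀ t, ((A t).card : ℝ) ≤ Z / Real.log Z * Real.exp (-(3 * σ ^ 102)) := by
    intro t
    refine hbig Z t (A t) hZ1 hZ2 (fun p hp => ?_)
    rw [hA, Finset.mem_filter] at hp
    exact ⟨(hS p hp.1).1, (hS p hp.1).2.1, hp.2⟩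
  have hDc : ∀ t, ((D t).card : ℝ) ≤ Z / Real.log Z * Real.exp (-(σ ^ 66 / 4)) := by
    intro t
    rcases Nat.eq_zero_or_pos t with h0 | h0
    · have : D t = ∅ := by
        rw [hD]
        refine Finset.filter_eq_empty_iff.mpr (fun p _ hcon => ?_)
        omega
      rw [this, Finset.card_empty, Nat.cast_zero]
      positivity
    · refine hdev Z t (D t) h0 hZ1 hZ2 (fun p hp => ?_)
      rw [hD, Finset.mem_filter] at hp
      exact ⟨(hS p hp.1).1, (hS p hp.1).2.1, hp.2.2⟩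
  have hcard : (S.card : ℝ) ≤ ∑ t ∈ Finset.range (Tm σ + 1),
      (Z / Real.log Z * Real.exp (-(3 * σ ^ 102)) + Z / Real.log Z * Real.exp (-(σ ^ 66 / 4))) := by
    have h2 : S.card ≤ ∑ t ∈ Finset.range (Tm σ + 1), (A t ∪ D t).card :=
      (Finset.card_le_card hcover).trans Finset.card_biUnion_le
    have h3 : (S.card : ℝ) ≤ ∑ t ∈ Finset.range (Tm σ + 1), ((A t ∪ D t).card : ℝ) := by
      exact_mod_cast h2
    refine h3.trans (Finset.sum_le_sum fun t _ => ?_)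
    have h4 : ((A t ∪ D t).card : ℝ) ≤ ((A t).card : ℝ) + ((D t).card : ℝ) := by
      exact_mod_cast Finset.card_union_le _ _
    linarith [hAc t, hDc t]
  refine hcard.trans ?_
  rw [Finset.sum_const, Finset.card_range, nsmul_eq_mul]
  push_cast
  have h9 := mul_le_mul_of_nonneg_left (NonNormal_numA hσ) hZL
  refine le_trans (le_of_eq ?_) h9
  ring

/-- dyadic decomposition of `nonnormal_count`: `∑_j 2/(j log 2) exp(-2 σ^65)` over `j ≤ 2 exp(s+1)`. -/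
theorem nonnormal_sum : ∀ᶠ σ : ℝ in Filter.atTop, ∀ (S : Finset ℕ),
    (∀ p ∈ S, p.Prime ∧ p ≤ EE σ ∧ σ ^ 111 < ll p ∧ ¬ Normal σ p) →
    ∑ p ∈ S, 1 / ((p : ℝ) - 1) ≤ Real.exp (-(σ ^ 65)) := by
  filter_upwards [nonnormal_count, Filter.eventually_ge_atTop (100 : ℝ)] with σ hcount hσ S hS
  classical
  have h1 : (1 : ℝ) ≤ σ := by linarith
  set E' : ℝ := Real.exp (Real.exp (σ ^ 120 + 1)) with hE'
  have hE0 : 0 < E' := Real.exp_pos _
  have hpE : ∀ p ∈ S, (p : ℝ) ≤ E' := by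
    intro p hp
    have h2 : (p : ℝ) ≤ (EE σ : ℝ) := by exact_mod_cast (hS p hp).2.1
    exact h2.trans (Nat.floor_le hE0.le)
  set K : ℕ := Nat.log 2 (EE σ) with hK
  -- dyadic classes
  have hmaps : ∀ p ∈ S, Nat.log 2 p ∈ Finset.Icc 1 K := by
    intro p hp
    rw [Finset.mem_Icc]
    refine ⟨?_, Nat.log_mono_right (hS p hp).2.1⟩
    exact Nat.log_pos (by norm_num) (hS p hp).1.two_le
  rw [← Finset.sum_fiberwise_of_maps_to hmaps]
  have hclass : ∀ k ∈ Finset.Icc 1 K, ∑ p ∈ S with Nat.log 2 p = k, 1 / ((p : ℝ) - 1) ≤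
      8 * (1 / (k : ℝ)) * Real.exp (-(2 * σ ^ 65)) := by
    intro k hk
    rw [Finset.mem_Icc] at hk
    set Sk := S.filter (fun p => Nat.log 2 p = k) with hSk
    rcases Sk.eq_empty_or_nonempty with h0 | ⟨p0, hp0⟩
    · rw [h0, Finset.sum_empty]
      positivity
    have hk0 : (0 : ℝ) < (k : ℝ) := by exact_mod_cast hk.1
    set Z : ℝ := min ((2 : ℝ) ^ (k + 1)) E' with hZ
    have hlow : ∀ p ∈ Sk, (2 : ℝ) ^ k ≤ (p : ℝ) := by
      intro p hp
      rw [hSk, Finset.mem_filter] at hp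
      have h2 : 2 ^ Nat.log 2 p ≤ p := Nat.pow_log_le_self 2 (hS p hp.1).1.ne_zero
      rw [hp.2] at h2
      exact_mod_cast h2
    have hhigh : ∀ p ∈ Sk, (p : ℝ) ≤ Z := by
      intro p hp
      rw [hSk, Finset.mem_filter] at hp
      refine le_min ?_ (hpE p hp.1)
      have h2 : p < 2 ^ (Nat.log 2 p + 1) := Nat.lt_pow_succ_log_self (by norm_num) p
      rw [hp.2] at h2
      exact_mod_cast h2.le
    have hp0S := (Finset.mem_filter.mp hp0).1
    have hZlow : (2 : ℝ) ^ k ≤ Z := (hlow p0 hp0).trans (hhigh p0 hp0)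
    have hZ1 : Real.exp (Real.exp (σ ^ 110)) ≤ Z := by
      refine le_trans ?_ (hhigh p0 hp0)
      have h2 : (2 : ℝ) ≤ (p0 : ℝ) := by exact_mod_cast (hS p0 hp0S).1.two_le
      have h3 : 0 < Real.log (p0 : ℝ) := Real.log_pos (by linarith)
      have h4 : σ ^ 111 < Real.log (Real.log (p0 : ℝ)) := (hS p0 hp0S).2.2.1
      have h5 : σ ^ 110 ≤ σ ^ 111 := pow_le_pow_right₀ h1 (by norm_num)
      rw [← Real.le_log_iff_exp_le (by linarith), ← Real.le_log_iff_exp_le h3]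
      linarith
    have hcard := hcount Z Sk hZ1 (min_le_right _ _) (fun p hp =>
      ⟨(hS p (Finset.mem_filter.mp hp).1).1, hhigh p hp,
        (hS p (Finset.mem_filter.mp hp).1).2.2.2⟩)
    have hlog2 : (1 : ℝ) / 2 < Real.log 2 := by
      have := Real.log_two_gt_d9
      linarith
    have hlogZ : (k : ℝ) * (1 / 2) ≤ Real.log Z := by
      have h2 : Real.log ((2 : ℝ) ^ k) ≤ Real.log Z := Real.log_le_log (by positivity) hZlow
      rw [Real.log_pow] at h2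
      nlinarith only [hlog2, h2]
    have hexp := (Real.exp_pos (-(2 * σ ^ 65))).le
    have hZle : Z / Real.log Z ≤ (2 : ℝ) ^ (k + 1) / ((k : ℝ) * (1 / 2)) :=
      div_le_div₀ (by positivity) (min_le_left _ _) (by positivity) hlogZ
    have hterm : ∀ p ∈ Sk, 1 / ((p : ℝ) - 1) ≤ 2 / (2 : ℝ) ^ k := by
      intro p hp
      have h2 : (2 : ℝ) ≤ (p : ℝ) := by
        exact_mod_cast (hS p (Finset.mem_filter.mp hp).1).1.two_le
      have h3 := hlow p hp
      have h4 : (0 : ℝ) < (2 : ℝ) ^ k := by positivity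
      rw [div_le_div_iff₀ (by linarith) h4]
      linarith
    calc ∑ p ∈ Sk, 1 / ((p : ℝ) - 1) ≤ ∑ p ∈ Sk, 2 / (2 : ℝ) ^ k := Finset.sum_le_sum hterm
      _ = (Sk.card : ℝ) * (2 / (2 : ℝ) ^ k) := by rw [Finset.sum_const, nsmul_eq_mul]
      _ ≤ ((2 : ℝ) ^ (k + 1) / ((k : ℝ) * (1 / 2)) * Real.exp (-(2 * σ ^ 65))) *
            (2 / (2 : ℝ) ^ k) :=
          mul_le_mul_of_nonneg_right (hcard.trans (mul_le_mul_of_nonneg_right hZle hexp))
            (by positivity)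
      _ = 8 * (1 / (k : ℝ)) * Real.exp (-(2 * σ ^ 65)) := by
          rw [pow_succ]
          field_simp
          ring
  refine (Finset.sum_le_sum hclass).trans ?_
  have hH : ∑ k ∈ Finset.Icc 1 K, 8 * (1 / (k : ℝ)) * Real.exp (-(2 * σ ^ 65)) =
      8 * ((harmonic K : ℚ) : ℝ) * Real.exp (-(2 * σ ^ 65)) := by
    rw [harmonic_eq_sum_Icc, ← Finset.sum_mul, ← Finset.mul_sum]
    push_cast
    simp [one_div]
  rw [hH]
  have hlogK : ((harmonic K : ℚ) : ℝ) ≤ σ ^ 120 + 3 := by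
    refine (harmonic_le_one_add_log K).trans ?_
    rcases Nat.eq_zero_or_pos K with h0 | h0
    · rw [h0]
      simp only [Nat.cast_zero, Real.log_zero]
      have : (0 : ℝ) ≤ σ ^ 120 := by positivity
      linarith
    have hK0 : (0 : ℝ) < (K : ℝ) := by exact_mod_cast h0
    have hEE : EE σ ≠ 0 := by
      intro h
      rw [hK, h] at h0
      simp at h0
    have h2 : (2 : ℝ) ^ K ≤ E' := by
      have h3 : 2 ^ K ≤ EE σ := Nat.pow_log_le_self 2 hEE
      have h4 : ((2 : ℝ) ^ K) ≤ (EE σ : ℝ) := by exact_mod_cast h3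
      exact h4.trans (Nat.floor_le hE0.le)
    have h5 : Real.log ((2 : ℝ) ^ K) ≤ Real.log E' := Real.log_le_log (by positivity) h2
    rw [Real.log_pow, hE', Real.log_exp] at h5
    have hlog2 : (1 : ℝ) / 2 < Real.log 2 := by
      have := Real.log_two_gt_d9
      linarith
    have h6 : (K : ℝ) ≤ 2 * Real.exp (σ ^ 120 + 1) := by nlinarith only [h5, hlog2]
    have h7 : (K : ℝ) ≤ Real.exp (σ ^ 120 + 2) := by
      refine h6.trans ?_
      have h8 : Real.exp (σ ^ 120 + 2) = Real.exp 1 * Real.exp (σ ^ 120 + 1) := by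
        rw [← Real.exp_add]; congr 1; ring
      rw [h8]
      refine mul_le_mul_of_nonneg_right ?_ (Real.exp_pos _).le
      have := Real.exp_one_gt_d9
      linarith
    have h9 : Real.log (K : ℝ) ≤ σ ^ 120 + 2 := (Real.log_le_iff_le_exp hK0).mpr h7
    linarith
  have hexp := (Real.exp_pos (-(2 * σ ^ 65))).le
  calc 8 * ((harmonic K : ℚ) : ℝ) * Real.exp (-(2 * σ ^ 65))
      ≤ 8 * (σ ^ 120 + 3) * Real.exp (-(2 * σ ^ 65)) :=
        mul_le_mul_of_nonneg_right (by linarith) hexp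
    _ ≤ _ := NonNormal_numB hσ

end P031
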