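import Vale.Agent.Lib.P031.Basic
import Vale.Agent.Lib.P031.Mert
import Vale.Agent.Lib.P031.RankinW
import Vale.Agent.Lib.P031.RankinX

/-!
# P031 OmTail: Rankin with `z = 3/2`.
-/

namespace P031

open Finset Real

private theorem omTail_prod (n : ℕ) : (n.primeFactorsList.map (fun _ => (3 / 2 : ℝ))).prod =
    (3 / 2 : ℝ) ^ (Om n) := by
  unfold Om
  simp

private theorem omTail_log : (1 : ℝ) / 3 ≤ Real.log (3 / 2) := by
  have := Real.one_sub_inv_le_log_of_pos (show (0 : ℝ) < 3 / 2 by norm_num)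
  norm_num at this ⊢
  exact this

/-- `(3/2)^k ≥ exp (x/3)` if `k ≥ x`. -/
private theorem omTail_pow {x : ℝ} {k : ℕ} (h : x < (k : ℝ)) :
    Real.exp (x / 3) ≤ (3 / 2 : ℝ) ^ k := by
  have h1 : (3 / 2 : ℝ) ^ k = Real.exp (k * Real.log (3 / 2)) := by
    rw [Real.exp_nat_mul, Real.exp_log (by norm_num)]
  rw [h1]
  apply Real.exp_le_exp.2
  have h2 := omTail_log
  have h3 : (0 : ℝ) ≤ k := Nat.cast_nonneg k
  nlinarith

private theorem omTail_ll {p N : ℕ} (hp : p.Prime) (hpN : p ≤ N) {β : ℝ}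
    (hN : (N : ℝ) ≤ Real.exp (Real.exp β)) : ll p ≤ β := by
  unfold ll
  have h1 : (1 : ℝ) < p := by exact_mod_cast hp.one_lt
  have h2 : 0 < Real.log p := Real.log_pos h1
  have h3 : (p : ℝ) ≤ Real.exp (Real.exp β) := le_trans (by exact_mod_cast hpN) hN
  have h4 : Real.log p ≤ Real.exp β := by
    rw [Real.log_le_iff_le_exp (by linarith)]
    exact h3
  rw [Real.log_le_iff_le_exp h2]
  exact h4

/-- `∑_{n ≤ N} (3/2)^(Om n) ≤ N ∏_{q ≤ N} (1 + (1/2)/(q - 3/2)) ≤ N exp((s + 1)/2 + C)` and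
`(3/2)^(-20 s) ≤ exp(-8 s)`. -/
theorem om_tail_x : ∀ᶠ σ : ℝ in Filter.atTop, ∀ (N : ℕ) (S : Finset ℕ),
    (N : ℝ) ≤ Real.exp (Real.exp (σ ^ 120 + 1)) →
    (∀ n ∈ S, n ∈ Finset.Icc 1 N ∧ 20 * σ ^ 120 < (Om n : ℝ)) →
    (S.card : ℝ) ≤ N * Real.exp (-(5 * σ ^ 120)) := by
  obtain ⟨C, hC, hm⟩ := mert_all
  filter_upwards [Filter.eventually_ge_atTop (3 * (C + 1))] with σ hσ
  intro N S hN hS
  have hσ1 : 1 ≤ σ := by linarith
  set s : ℝ := σ ^ 120 with hs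
  have hs1 : 3 * (C + 1) ≤ s := by
    have : σ ≤ s := by
      calc σ = σ ^ 1 := (pow_one σ).symm
        _ ≤ σ ^ 120 := pow_le_pow_right₀ hσ1 (by norm_num)
    linarith
  have h1 := rankin_x N (fun _ => 3 / 2) (fun q hq => by
    have : (2 : ℝ) ≤ q := by exact_mod_cast hq.two_le
    constructor
    · norm_num
    · linarith)
  simp only [omTail_prod] at h1
  have h2 : (S.card : ℝ) * Real.exp (20 * s / 3) ≤ ∑ n ∈ Finset.Icc 1 N, (3 / 2 : ℝ) ^ (Om n) := by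
    calc (S.card : ℝ) * Real.exp (20 * s / 3) = ∑ n ∈ S, Real.exp (20 * s / 3) := by
          rw [Finset.sum_const, nsmul_eq_mul]
      _ ≤ ∑ n ∈ S, (3 / 2 : ℝ) ^ (Om n) := Finset.sum_le_sum fun n hn => omTail_pow (hS n hn).2
      _ ≤ ∑ n ∈ Finset.Icc 1 N, (3 / 2 : ℝ) ^ (Om n) := by
          apply Finset.sum_le_sum_of_subset_of_nonneg
          · intro n hn
            exact (hS n hn).1
          · intro n _ _
            positivity
  have h3 : ∏ q ∈ (Finset.range (N + 1)).filter Nat.Prime,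
      (1 + ((3 / 2 : ℝ) - 1) / ((q : ℝ) - 3 / 2)) ≤ Real.exp (s + 1 + C) := by
    have h4 : ∀ q ∈ (Finset.range (N + 1)).filter Nat.Prime,
        1 + ((3 / 2 : ℝ) - 1) / ((q : ℝ) - 3 / 2) ≤ Real.exp (1 / ((q : ℝ) - 1)) := by
      intro q hq
      have hq2 : (2 : ℝ) ≤ q := by exact_mod_cast (Finset.mem_filter.1 hq).2.two_le
      have h5 : ((3 / 2 : ℝ) - 1) / ((q : ℝ) - 3 / 2) ≤ 1 / ((q : ℝ) - 1) := by
        rw [div_le_div_iff₀ (by linarith) (by linarith)]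
        linarith
      have h6 := Real.add_one_le_exp (1 / ((q : ℝ) - 1))
      linarith
    refine (Finset.prod_le_prod (fun q hq => ?_) h4).trans ?_
    · have hq2 : (2 : ℝ) ≤ q := by exact_mod_cast (Finset.mem_filter.1 hq).2.two_le
      have : 0 ≤ ((3 / 2 : ℝ) - 1) / ((q : ℝ) - 3 / 2) :=
        div_nonneg (by norm_num) (by linarith)
      linarith
    · rw [← Real.exp_sum]
      apply Real.exp_le_exp.2
      apply hm (s + 1) (by linarith)
      intro p hp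
      rw [Finset.mem_filter, Finset.mem_range] at hp
      exact ⟨hp.2, omTail_ll hp.2 (by omega) hN⟩
  have h4 : (S.card : ℝ) * Real.exp (20 * s / 3) ≤ N * Real.exp (s + 1 + C) :=
    h2.trans (h1.trans (mul_le_mul_of_nonneg_left h3 (Nat.cast_nonneg N)))
  have h5 : (S.card : ℝ) = (S.card : ℝ) * Real.exp (20 * s / 3) * Real.exp (-(20 * s / 3)) := by
    rw [mul_assoc, ← Real.exp_add]
    simp
  rw [h5]
  calc (S.card : ℝ) * Real.exp (20 * s / 3) * Real.exp (-(20 * s / 3))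
      ≤ (N * Real.exp (s + 1 + C)) * Real.exp (-(20 * s / 3)) := by
        exact mul_le_mul_of_nonneg_right h4 (Real.exp_pos _).le
    _ = N * Real.exp ((s + 1 + C) + -(20 * s / 3)) := by
        rw [mul_assoc, ← Real.exp_add]
    _ ≤ N * Real.exp (-(5 * s)) := by
        apply mul_le_mul_of_nonneg_left _ (Nat.cast_nonneg N)
        apply Real.exp_le_exp.2
        linarith

/-- `∑ (3/2)^(Om n)/n ≤ ∏ (1 - 3/(2q))⁻¹ ≤ exp(2 σ^111 + C)` and `(3/2)^(-σ^113) ≤ exp(-σ^113/3)`. -/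
theorem om_tail_w : ∀ᶠ σ : ℝ in Filter.atTop, ∀ (S : Finset ℕ),
    (∀ n ∈ S, n ≠ 0 ∧ (∀ q ∈ n.primeFactors, ll q ≤ σ ^ 111) ∧ σ ^ 113 < (Om n : ℝ)) →
    ∑ n ∈ S, 1 / (n : ℝ) ≤ Real.exp (-(σ ^ 112)) := by
  obtain ⟨C, hC, hm⟩ := mert_all
  filter_upwards [Filter.eventually_ge_atTop (9 * (C + 1))] with σ hσ
  intro S hS
  have hσ1 : 1 ≤ σ := by linarith
  set Q : Finset ℕ := S.biUnion Nat.primeFactors with hQ
  have hQp : ∀ q ∈ Q, q.Prime ∧ ll q ≤ σ ^ 111 := by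
    intro q hq
    rw [hQ, Finset.mem_biUnion] at hq
    obtain ⟨n, hn, hqn⟩ := hq
    exact ⟨Nat.prime_of_mem_primeFactors hqn, (hS n hn).2.1 q hqn⟩
  have h1 := rankin_w Q (fun _ => 3 / 2) S (fun q hq => by
    have : (2 : ℝ) ≤ q := by exact_mod_cast (hQp q hq).1.two_le
    refine ⟨(hQp q hq).1, by norm_num, by linarith⟩) (fun n hn => by
    refine ⟨(hS n hn).1, fun q hq => ?_⟩
    rw [hQ, Finset.mem_biUnion]
    exact ⟨n, hn, hq⟩)
  simp only [omTail_prod] at h1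
  have h2 : Real.exp (σ ^ 113 / 3) * ∑ n ∈ S, 1 / (n : ℝ) ≤
      ∑ n ∈ S, (3 / 2 : ℝ) ^ (Om n) / (n : ℝ) := by
    rw [Finset.mul_sum]
    apply Finset.sum_le_sum
    intro n hn
    rw [mul_one_div]
    exact div_le_div_of_nonneg_right (omTail_pow (hS n hn).2.2) (Nat.cast_nonneg n)
  have h3 : ∏ q ∈ Q, (1 - (3 / 2 : ℝ) / (q : ℝ))⁻¹ ≤ Real.exp (3 * (σ ^ 111 + C)) := by
    have h4 : ∀ q ∈ Q, (1 - (3 / 2 : ℝ) / (q : ℝ))⁻¹ ≤ Real.exp (3 * (1 / ((q : ℝ) - 1))) := by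
      intro q hq
      have hq2 : (2 : ℝ) ≤ q := by exact_mod_cast (hQp q hq).1.two_le
      have h5 : (1 - (3 / 2 : ℝ) / (q : ℝ))⁻¹ = 1 + (3 / 2) / ((q : ℝ) - 3 / 2) := by
        have h6 : (q : ℝ) ≠ 0 := by linarith
        have h7 : (q : ℝ) - 3 / 2 ≠ 0 := by linarith
        have h8 : 1 - (3 / 2 : ℝ) / (q : ℝ) = ((q : ℝ) - 3 / 2) / q := by
          field_simp
        rw [h8, inv_div, div_eq_iff h7, add_mul, div_mul_cancel₀ _ h7]
        ring
      have h6 : (3 / 2) / ((q : ℝ) - 3 / 2) ≤ 3 * (1 / ((q : ℝ) - 1)) := by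
        rw [mul_one_div, div_le_div_iff₀ (by linarith) (by linarith)]
        linarith
      have h7 := Real.add_one_le_exp (3 * (1 / ((q : ℝ) - 1)))
      rw [h5]
      linarith
    refine (Finset.prod_le_prod (fun q hq => ?_) h4).trans ?_
    · have hq2 : (2 : ℝ) ≤ q := by exact_mod_cast (hQp q hq).1.two_le
      apply inv_nonneg.2
      have : (3 / 2 : ℝ) / (q : ℝ) ≤ 1 := by
        rw [div_le_one (by linarith)]
        linarith
      linarith
    · rw [← Real.exp_sum, ← Finset.mul_sum]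
      apply Real.exp_le_exp.2
      have h5 := hm (σ ^ 111) (by positivity) Q hQp
      linarith
  have h4 : Real.exp (σ ^ 113 / 3) * ∑ n ∈ S, 1 / (n : ℝ) ≤ Real.exp (3 * (σ ^ 111 + C)) :=
    h2.trans (h1.trans h3)
  have h5 : ∑ n ∈ S, 1 / (n : ℝ) =
      Real.exp (-(σ ^ 113 / 3)) * (Real.exp (σ ^ 113 / 3) * ∑ n ∈ S, 1 / (n : ℝ)) := by
    rw [← mul_assoc, ← Real.exp_add]
    simp
  rw [h5]
  calc Real.exp (-(σ ^ 113 / 3)) * (Real.exp (σ ^ 113 / 3) * ∑ n ∈ S, 1 / (n : ℝ))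
      ≤ Real.exp (-(σ ^ 113 / 3)) * Real.exp (3 * (σ ^ 111 + C)) := by
        exact mul_le_mul_of_nonneg_left h4 (Real.exp_pos _).le
    _ = Real.exp (-(σ ^ 113 / 3) + 3 * (σ ^ 111 + C)) := by rw [← Real.exp_add]
    _ ≤ Real.exp (-(σ ^ 112)) := by
        apply Real.exp_le_exp.2
        have h6 : (1 : ℝ) ≤ σ ^ 111 := one_le_pow₀ hσ1
        have h7 : σ ^ 112 = σ ^ 111 * σ := by ring
        have h8 : σ ^ 113 = σ ^ 111 * σ * σ := by ring
        rw [h7, h8]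
        have h9 : 9 * (C + 1) * (σ ^ 111) ≤ σ ^ 111 * σ := by nlinarith only [hσ, h6]
        have h10 : 9 * (C + 1) * (σ ^ 111 * σ) ≤ σ ^ 111 * σ * σ := by nlinarith only [hσ1, h9]
        have h11 : 18 * σ ^ 111 ≤ σ ^ 111 * σ := by nlinarith only [hC, hσ, h6]
        have h12 : C * 1 ≤ C * (σ ^ 111 * σ) := by
          apply mul_le_mul_of_nonneg_left _ (by linarith)
          linarith
        linarith
end P031
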