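import Vale.Agent.Lib.P031.BadDefs
import Vale.Agent.Lib.P031.NonNormal
import Vale.Agent.Lib.P031.OmTail
import Vale.Agent.Lib.P031.RareW

/-!
# P031 BadSum: the rare cofactors have a small sum of reciprocals.

Three types: `nonnormal_sum` (`exp(-σ^65)`); `om_tail_w` (`exp(-σ^112)`); for each integer `t ∈ [σ^119, σ^120 + 2]`
`rare_w` with `u = min t (σ^120 + 1)`, `ξ = (1 + 2/σ^4)(t - 1)`: `exp(u - ξ + σ^20) ≤ exp(2 + σ^20 - σ^115)`; there are at most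
`σ^120 + 3` values of `t`.
-/

namespace P031

open Finset Real

private theorem BadSum_small {x y : ℝ} (h : y + 2 ≤ x) :
    Real.exp (-x) ≤ Real.exp (-y) / 3 := by
  have h1 : (3 : ℝ) ≤ Real.exp 2 := by
    have := Real.add_one_le_exp (2 : ℝ)
    linarith
  have h2 : Real.exp (-x) * Real.exp 2 ≤ Real.exp (-y) := by
    rw [← Real.exp_add]
    exact Real.exp_le_exp.mpr (by linarith)
  have h3 : Real.exp (-x) * 3 ≤ Real.exp (-x) * Real.exp 2 :=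
    mul_le_mul_of_nonneg_left h1 (Real.exp_pos _).le
  linarith

private theorem BadSum_union {f : ℕ → ℝ} (A B : Finset ℕ) (hf : ∀ n, 0 ≤ f n) :
    ∑ n ∈ A ∪ B, f n ≤ ∑ n ∈ A, f n + ∑ n ∈ B, f n := by
  rw [← Finset.sum_union_inter]
  have : 0 ≤ ∑ n ∈ A ∩ B, f n := Finset.sum_nonneg fun n _ => hf n
  linarith

private theorem BadSum_biUnion {f : ℕ → ℝ} (R : Finset ℕ) (T : ℕ → Finset ℕ) (hf : ∀ n, 0 ≤ f n) :
    ∑ n ∈ R.biUnion T, f n ≤ ∑ t ∈ R, ∑ n ∈ T t, f n := by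
  classical
  induction R using Finset.induction_on with
  | empty => simp
  | insert a R ha ih =>
    rw [Finset.biUnion_insert, Finset.sum_insert ha]
    exact (BadSum_union _ _ hf).trans (by linarith)

private theorem BadSum_num {σ : ℝ} (hσ : 10 ≤ σ) :
    σ ^ 64 + 2 ≤ σ ^ 65 ∧ σ ^ 64 + 2 ≤ σ ^ 112 ∧
    (σ ^ 120 + 3) * Real.exp (3 + σ ^ 20 - 2 * σ ^ 115) ≤ Real.exp (-(σ ^ 64)) / 3 := by
  have h0 : (0 : ℝ) < σ := by linarith
  have h1 : (1 : ℝ) ≤ σ := by linarith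
  have h64 : (1 : ℝ) ≤ σ ^ 64 := one_le_pow₀ h1
  have h65 : σ ^ 64 + 2 ≤ σ ^ 65 := by
    have : σ ^ 65 = σ * σ ^ 64 := by ring
    rw [this]
    nlinarith
  refine ⟨h65, h65.trans (pow_le_pow_right₀ h1 (by norm_num)), ?_⟩
  have h120 : (1 : ℝ) ≤ σ ^ 120 := one_le_pow₀ h1
  -- the exponent
  have h5 : σ ^ 64 + σ ^ 114 + (3 + σ ^ 20) ≤ 2 * σ ^ 115 := by
    have e1 : σ ^ 115 = σ * σ ^ 114 := by ring
    have e2 : σ ^ 64 ≤ σ ^ 114 := pow_le_pow_right₀ h1 (by norm_num)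
    have e3 : σ ^ 20 ≤ σ ^ 114 := pow_le_pow_right₀ h1 (by norm_num)
    have e4 : (1 : ℝ) ≤ σ ^ 114 := one_le_pow₀ h1
    rw [e1]
    nlinarith only [hσ, e2, e3, e4]
  have h6 : Real.exp (3 + σ ^ 20 - 2 * σ ^ 115) ≤ Real.exp (-(σ ^ 64)) * Real.exp (-(σ ^ 114)) := by
    rw [← Real.exp_add]
    exact Real.exp_le_exp.mpr (by linarith)
  have h7 : 3 * (σ ^ 120 + 3) ≤ Real.exp (σ ^ 114) := by
    have e1 := Real.quadratic_le_exp_of_nonneg (show 0 ≤ σ ^ 114 by positivity)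
    have e2 : (σ ^ 114) ^ 2 = σ ^ 108 * σ ^ 120 := by ring
    have e3 : (100 : ℝ) ≤ σ ^ 108 := by
      calc (100 : ℝ) ≤ 10 ^ 108 := by norm_num
        _ ≤ σ ^ 108 := pow_le_pow_left₀ (by norm_num) hσ 108
    have e4 : 0 ≤ σ ^ 114 := by positivity
    rw [e2] at e1
    nlinarith only [h120, e1, e3, e4]
  have h8 : (σ ^ 120 + 3) * Real.exp (-(σ ^ 114)) ≤ 1 / 3 := by
    rw [Real.exp_neg, ← div_eq_mul_inv, div_le_iff₀ (Real.exp_pos _)]
    linarith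
  calc (σ ^ 120 + 3) * Real.exp (3 + σ ^ 20 - 2 * σ ^ 115)
      ≤ (σ ^ 120 + 3) * (Real.exp (-(σ ^ 64)) * Real.exp (-(σ ^ 114))) :=
        mul_le_mul_of_nonneg_left h6 (by linarith)
    _ = Real.exp (-(σ ^ 64)) * ((σ ^ 120 + 3) * Real.exp (-(σ ^ 114))) := by ring
    _ ≤ Real.exp (-(σ ^ 64)) * (1 / 3) := mul_le_mul_of_nonneg_left h8 (Real.exp_pos _).le
    _ = Real.exp (-(σ ^ 64)) / 3 := by ring

theorem badN_sum : ∀ᶠ σ : ℝ in Filter.atTop, ∀ S : Finset ℕ, (∀ n ∈ S, BadN σ n) →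
    ∑ n ∈ S, 1 / (n : ℝ) ≤ Real.exp (-(σ ^ 64)) := by
  filter_upwards [nonnormal_sum, om_tail_w, rare_w, Filter.eventually_ge_atTop (10 : ℝ)] with
    σ hnn hom hrare hσ S hS
  classical
  have h0 : (0 : ℝ) < σ := by linarith
  have h1 : (1 : ℝ) ≤ σ := by linarith
  obtain ⟨n65, n112, nt⟩ := BadSum_num hσ
  set S1 := S.filter (fun n => ∃ p : ℕ, p.Prime ∧ p ≤ EE σ ∧ σ ^ 111 < ll p ∧ ¬ Normal σ p ∧
    n = p - 1) with hS1
  set S2 := S.filter (fun n => (∀ q ∈ n.primeFactors, ll q ≤ σ ^ 111) ∧ σ ^ 113 < (Om n : ℝ))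
    with hS2
  set Q : ℕ → ℕ → Prop := fun t n => σ ^ 119 ≤ (t : ℝ) ∧ (t : ℝ) ≤ σ ^ 120 + 2 ∧
     (∀ q ∈ n.primeFactors, ll q ≤ t ∧ ll q ≤ σ ^ 120 + 1) ∧ (Om n : ℝ) ≤ 20 * σ ^ 120 ∧
     (1 + 2 / σ ^ 4) * ((t : ℝ) - 1) ≤ II σ n with hQ
  set R : Finset ℕ := (Finset.range (⌊σ ^ 120 + 2⌋₊ + 1)) with hR
  have hnonneg : ∀ n : ℕ, (0 : ℝ) ≤ 1 / (n : ℝ) := fun n => by positivity
  have hsub : S ⊆ (S1 ∪ S2) ∪ R.biUnion (fun t => S.filter (Q t)) := by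
    intro n hn
    obtain ⟨hn0, hb | hb | hb⟩ := hS n hn
    · refine Finset.mem_union_left _ (Finset.mem_union_left _ ?_)
      rw [hS1, Finset.mem_filter]
      exact ⟨hn, hb⟩
    · refine Finset.mem_union_left _ (Finset.mem_union_right _ ?_)
      rw [hS2, Finset.mem_filter]
      exact ⟨hn, hb⟩
    · refine Finset.mem_union_right _ ?_
      obtain ⟨t, ht⟩ := hb
      rw [Finset.mem_biUnion]
      refine ⟨t, ?_, Finset.mem_filter.mpr ⟨hn, ht⟩⟩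
      rw [hR, Finset.mem_range]
      exact Nat.lt_succ_of_le (Nat.le_floor ht.2.1)
  have hle : ∑ n ∈ S, 1 / (n : ℝ) ≤ (∑ n ∈ S1, 1 / (n : ℝ) + ∑ n ∈ S2, 1 / (n : ℝ)) +
      ∑ t ∈ R, ∑ n ∈ S.filter (Q t), 1 / (n : ℝ) := by
    calc ∑ n ∈ S, 1 / (n : ℝ)
        ≤ ∑ n ∈ (S1 ∪ S2) ∪ R.biUnion (fun t => S.filter (Q t)), 1 / (n : ℝ) :=
          Finset.sum_le_sum_of_subset_of_nonneg hsub fun n _ _ => hnonneg n
      _ ≤ ∑ n ∈ S1 ∪ S2, 1 / (n : ℝ) + ∑ n ∈ R.biUnion (fun t => S.filter (Q t)), 1 / (n : ℝ) :=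
          BadSum_union _ _ hnonneg
      _ ≤ _ := add_le_add (BadSum_union _ _ hnonneg) (BadSum_biUnion _ _ hnonneg)
  have b1 : ∑ n ∈ S1, 1 / (n : ℝ) ≤ Real.exp (-(σ ^ 65)) := by
    have h2 := hnn (S1.image (fun n => n + 1)) (by
      intro p hp
      rw [Finset.mem_image] at hp
      obtain ⟨n, hn, rfl⟩ := hp
      rw [hS1, Finset.mem_filter] at hn
      obtain ⟨p, hp1, hp2, hp3, hp4, hp5⟩ := hn.2
      have hp6 := hp1.one_lt
      have hp7 : n + 1 = p := by omega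
      rw [hp7]
      exact ⟨hp1, hp2, hp3, hp4⟩)
    rw [Finset.sum_image (fun a _ b _ h => Nat.succ_injective h)] at h2
    refine le_trans (le_of_eq (Finset.sum_congr rfl fun n _ => ?_)) h2
    push_cast
    rw [add_sub_cancel_right]
  have b2 : ∑ n ∈ S2, 1 / (n : ℝ) ≤ Real.exp (-(σ ^ 112)) := by
    refine hom S2 fun n hn => ?_
    rw [hS2, Finset.mem_filter] at hn
    exact ⟨(hS n hn.1).1, hn.2⟩
  have b3 : ∀ t ∈ R, ∑ n ∈ S.filter (Q t), 1 / (n : ℝ) ≤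
      Real.exp (3 + σ ^ 20 - 2 * σ ^ 115) := by
    intro t _
    by_cases ht : σ ^ 119 ≤ (t : ℝ)
    · have h2 := hrare (min (t : ℝ) (σ ^ 120 + 1)) ((1 + 2 / σ ^ 4) * ((t : ℝ) - 1))
        (S.filter (Q t)) (le_min (Nat.cast_nonneg t) (by positivity)) (min_le_right _ _) (by
          intro n hn
          rw [Finset.mem_filter] at hn
          obtain ⟨hnS, -, -, hq, hO, hI⟩ := hn
          exact ⟨(hS n hnS).1, fun q hq' => le_min (hq q hq').1 (hq q hq').2, hO, hI⟩)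
      refine h2.trans (Real.exp_le_exp.mpr ?_)
      have h3 : min (t : ℝ) (σ ^ 120 + 1) ≤ t := min_le_left _ _
      have h4 : 2 / σ ^ 4 * σ ^ 119 = 2 * σ ^ 115 := by
        field_simp
      have h5 : 2 / σ ^ 4 * σ ^ 119 ≤ 2 / σ ^ 4 * t :=
        mul_le_mul_of_nonneg_left ht (by positivity)
      have h6 : 2 / σ ^ 4 ≤ 2 := by
        rw [div_le_iff₀ (by positivity)]
        have : (1 : ℝ) ≤ σ ^ 4 := one_le_pow₀ h1
        linarith
      have h7 : (1 + 2 / σ ^ 4) * ((t : ℝ) - 1) = t + 2 / σ ^ 4 * t - 1 - 2 / σ ^ 4 := by ring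
      rw [h7]
      linarith
    · have h2 : S.filter (Q t) = ∅ := by
        refine Finset.filter_eq_empty_iff.mpr fun n _ hq => ht hq.1
      rw [h2, Finset.sum_empty]
      exact (Real.exp_pos _).le
  have b4 : ∑ t ∈ R, ∑ n ∈ S.filter (Q t), 1 / (n : ℝ) ≤
      (σ ^ 120 + 3) * Real.exp (3 + σ ^ 20 - 2 * σ ^ 115) := by
    refine (Finset.sum_le_sum b3).trans ?_
    rw [Finset.sum_const, nsmul_eq_mul, hR, Finset.card_range]
    refine mul_le_mul_of_nonneg_right ?_ (Real.exp_pos _).le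
    push_cast
    have := Nat.floor_le (show 0 ≤ σ ^ 120 + 2 by positivity)
    linarith
  have c1 := BadSum_small n65
  have c2 := BadSum_small n112
  linarith

end P031
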