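import Vale.Agent.Lib.P031.Defs

/-!
# P031 BasicQ: elementary facts on `QQ`, `Qp`, `aa`.
Real analysis: `QQ x = x log x - x + 1` is convex on `[0, ∞)` with derivative `log x`,
`QQ 1 = 0`, so it is monotone on `[1, ∞)`.
-/

namespace P031

open Finset Real

theorem aa_eq (k : ℕ) : QQ ((k : ℝ) + 1) - QQ (k : ℝ) = aa k := by
  unfold QQ aa
  ring

/-- difference of values is at least `log x` times the difference (convexity) -/
theorem QQ_tangent {x y : ℝ} (hx : 0 < x) (hy : 0 ≤ y) :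
    QQ y ≥ QQ x + Real.log x * (y - x) := by
  have key : y - x ≤ y * (Real.log y - Real.log x) := by
    rcases hy.eq_or_lt with h | h
    · rw [← h]
      linarith
    · have h1 := Real.log_le_sub_one_of_pos (div_pos hx h)
      rw [Real.log_div hx.ne' h.ne'] at h1
      have h2 : 1 - x / y ≤ Real.log y - Real.log x := by linarith
      have h3 := mul_le_mul_of_nonneg_left h2 h.le
      have h4 : y * (1 - x / y) = y - x := by field_simp
      linarith
  unfold QQ
  nlinarith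

private theorem basicQ_one : QQ 1 = 0 := by
  unfold QQ
  simp

theorem QQ_nonneg {x : ℝ} (hx : 0 ≤ x) : 0 ≤ QQ x := by
  have h := QQ_tangent (x := 1) one_pos hx
  rw [basicQ_one, Real.log_one] at h
  linarith

theorem QQ_mono {x y : ℝ} (hx : 1 ≤ x) (hxy : x ≤ y) : QQ x ≤ QQ y := by
  have h := QQ_tangent (x := x) (y := y) (by linarith) (by linarith)
  have h1 : 0 ≤ Real.log x * (y - x) := mul_nonneg (Real.log_nonneg hx) (by linarith)
  linarith

private theorem basicQ_incr {x y d : ℝ} (hx : 0 ≤ x) (hd : 0 < d) (hxy : x + d ≤ y) :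
    QQ (x + d) - QQ x ≤ QQ (y + d) - QQ y := by
  have h1 := QQ_tangent (x := x + d) (y := x) (by linarith) hx
  have h2 := QQ_tangent (x := y) (y := y + d) (by linarith) (by linarith)
  have h3 : Real.log (x + d) ≤ Real.log y := Real.log_le_log (by linarith) hxy
  nlinarith only [hd, h1, h2, h3]

/-- increments of the convex function `QQ` increase -/
theorem QQ_incr {x y d : ℝ} (hx : 0 ≤ x) (hxy : x ≤ y) (hd : 0 ≤ d) :
    QQ (x + d) - QQ x ≤ QQ (y + d) - QQ y := by
  rcases hd.eq_or_lt with h | h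
  · rw [← h]
    simp
  · rcases hxy.eq_or_lt with h' | h'
    · rw [h']
    · rcases le_or_gt (x + d) y with h'' | h''
      · exact basicQ_incr hx h h''
      · have h1 := basicQ_incr (x := x) (y := x + d) (d := y - x) hx (by linarith) (by linarith)
        have h2 : x + (y - x) = y := by ring
        have h3 : x + d + (y - x) = y + d := by ring
        rw [h2, h3] at h1
        linarith

theorem aa_mono {j k : ℕ} (hjk : j ≤ k) : aa j ≤ aa k := by
  rw [← aa_eq, ← aa_eq]
  exact QQ_incr (Nat.cast_nonneg j) (by exact_mod_cast hjk) zero_le_one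

theorem aa_one_lo : (0.386 : ℝ) ≤ aa 1 := by
  have h := Real.log_two_gt_d9
  unfold aa
  norm_num
  linarith

theorem aa_one_hi : aa 1 ≤ (0.3863 : ℝ) := by
  have h := Real.log_two_lt_d9
  unfold aa
  norm_num
  linarith

theorem aa_two_lo : (0.909 : ℝ) ≤ aa 2 := by
  have h := Real.log_two_gt_d9
  have h' := Real.log_two_lt_d9
  have h3 : 84 * Real.log 2 ≤ 53 * Real.log 3 := by
    have h4 : Real.log ((2 : ℝ) ^ 84) ≤ Real.log ((3 : ℝ) ^ 53) :=
      Real.log_le_log (by positivity) (by norm_num)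
    rw [Real.log_pow, Real.log_pow] at h4
    exact_mod_cast h4
  unfold aa
  norm_num
  linarith

theorem aa_pos {k : ℕ} (hk : 1 ≤ k) : 0 < aa k := by
  have h1 := aa_mono hk
  have h2 := aa_one_lo
  linarith

theorem aa_le {k : ℕ} (hk : 1 ≤ k) : aa k ≤ Real.log ((k : ℝ) + 1) := by
  have h0 : (0 : ℝ) ≤ k := Nat.cast_nonneg k
  have h := QQ_tangent (x := (k : ℝ) + 1) (y := (k : ℝ)) (by linarith) h0
  rw [← aa_eq]
  have h1 : (k : ℝ) - ((k : ℝ) + 1) = -1 := by ring
  rw [h1] at h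
  linarith

theorem Qp_nonneg (x : ℝ) : 0 ≤ Qp x := by
  unfold Qp
  split_ifs with h
  · exact le_refl _
  · exact QQ_nonneg (by linarith)

theorem Qp_eq {x : ℝ} (hx : 1 ≤ x) : Qp x = QQ x := by
  unfold Qp
  split_ifs with h
  · have : x = 1 := le_antisymm h hx
    rw [this, basicQ_one]
  · rfl

theorem Qp_mono {x y : ℝ} (hxy : x ≤ y) : Qp x ≤ Qp y := by
  rcases le_or_gt x 1 with h | h
  · have h1 : Qp x = 0 := by
      unfold Qp
      rw [if_pos h]
    rw [h1]
    exact Qp_nonneg y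
  · rw [Qp_eq h.le, Qp_eq (h.le.trans hxy)]
    exact QQ_mono h.le hxy

theorem Qp_le {x y : ℝ} (hx : x ≤ y) (hy : 1 ≤ y) : Qp x ≤ y * Real.log y := by
  have h1 := Qp_mono hx
  rw [Qp_eq hy] at h1
  unfold QQ at h1
  linarith

/-- mean value: `QQ (x - e) ≥ QQ x - e log x` -/
theorem QQ_sub {x e : ℝ} (he : 0 ≤ e) (hx : 1 ≤ x - e) : QQ x - e * Real.log x ≤ QQ (x - e) := by
  have h := QQ_tangent (x := x) (y := x - e) (by linarith) (by linarith)
  have h1 : x - e - x = -e := by ring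
  rw [h1] at h
  linarith

/-- For `0 ≤ e ≤ 1`, `0 ≤ w`: `QQ (1 + w) - e log (1 + w) ≤ Qp (1 - e + w)`.
If `w ≥ e` this is `QQ_sub`; if `w < e` then the left side is at most
`(1 + w) log (1 + w) - w - w log (1 + w) = log (1 + w) - w ≤ 0`. -/
theorem Qp_sub {w e : ℝ} (hw : 0 ≤ w) (he : 0 ≤ e) (he1 : e ≤ 1) :
    QQ (1 + w) - e * Real.log (1 + w) ≤ Qp (1 - e + w) := by
  rcases le_or_gt e w with h | h
  · rw [Qp_eq (by linarith)]
    have h1 := QQ_sub (x := 1 + w) he (by linarith)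
    have h2 : 1 + w - e = 1 - e + w := by ring
    rw [h2] at h1
    exact h1
  · refine le_trans ?_ (Qp_nonneg _)
    have h1 : 0 ≤ Real.log (1 + w) := Real.log_nonneg (by linarith)
    have h2 : Real.log (1 + w) ≤ w := by
      have := Real.log_le_sub_one_of_pos (show (0 : ℝ) < 1 + w by linarith)
      linarith
    have h3 : w * Real.log (1 + w) ≤ e * Real.log (1 + w) :=
      mul_le_mul_of_nonneg_right h.le h1
    unfold QQ
    linarith

/-- comparison used for small `w`: for each `K` there is `C` with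
`QQ (k + w) - QQ k ≤ C (1 + Qp w)` for all `w ≥ 0`, `1 ≤ k ≤ K`.
(For `w ≤ 8`: bounded. For `w > 8`: `Qp w = QQ w ≥ w (log w - 1) ≥ (w log w) / 3`, and
`QQ (k + w) - QQ k ≤ (k + w) log (k + w) + 1 ≤ C w log w`.) -/
theorem QQ_growth (K : ℕ) : ∃ C : ℝ, 1 ≤ C ∧ ∀ k : ℕ, 1 ≤ k → k ≤ K → ∀ w : ℝ, 0 ≤ w →
    QQ ((k : ℝ) + w) - QQ (k : ℝ) ≤ C * (1 + Qp w) := by
  have hK0 : (0 : ℝ) ≤ K := Nat.cast_nonneg K
  have hlK : 0 ≤ Real.log ((K : ℝ) + 1) := Real.log_nonneg (by linarith)
  set C1 : ℝ := ((K : ℝ) + 1) * (Real.log ((K : ℝ) + 1) + 1) with hC1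
  have hC1' : 0 ≤ C1 := by positivity
  have hQ8 : 0 ≤ QQ ((K : ℝ) + 8) := QQ_nonneg (by linarith)
  refine ⟨1 + QQ ((K : ℝ) + 8) + 3 * C1, by linarith, ?_⟩
  intro k hk hkK w hw
  have hk1 : (1 : ℝ) ≤ k := by exact_mod_cast hk
  have hkK' : (k : ℝ) ≤ K := by exact_mod_cast hkK
  have h1 := QQ_incr (x := (k : ℝ)) (y := (K : ℝ)) (d := w) (by linarith) hkK' hw
  have h2 : 0 ≤ QQ (K : ℝ) := QQ_nonneg hK0
  have h3 : QQ ((k : ℝ) + w) - QQ (k : ℝ) ≤ QQ ((K : ℝ) + w) := by linarith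
  refine h3.trans ?_
  have hQp := Qp_nonneg w
  rcases le_or_gt w 8 with h | h
  · have h4 : QQ ((K : ℝ) + w) ≤ QQ ((K : ℝ) + 8) := QQ_mono (by linarith) (by linarith)
    linarith only [mul_nonneg hQ8 hQp, mul_nonneg hC1' hQp, hC1', hQp, h4]
  · have hl8 : (2 : ℝ) ≤ Real.log w := by
      have h5 : Real.log ((2 : ℝ) ^ 3) ≤ Real.log w := Real.log_le_log (by norm_num) (by
        norm_num
        exact h.le)
      rw [Real.log_pow] at h5
      have h6 := Real.log_two_gt_d9
      push_cast at h5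
      linarith
    have hw1 : 1 ≤ w := by linarith
    rw [Qp_eq hw1]
    have hQw : w * Real.log w / 3 ≤ QQ w := by
      unfold QQ
      nlinarith only [h, hl8]
    have hKw : (K : ℝ) + w ≤ ((K : ℝ) + 1) * w := by nlinarith only [hw1]
    have h7 : QQ ((K : ℝ) + w) ≤ C1 * (w * Real.log w) := by
      have h8 : QQ ((K : ℝ) + w) ≤ ((K : ℝ) + w) * Real.log ((K : ℝ) + w) := by
        unfold QQ
        linarith
      have h9 : Real.log ((K : ℝ) + w) ≤ Real.log ((K : ℝ) + 1) + Real.log w := by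
        rw [← Real.log_mul (by positivity) (by positivity)]
        exact Real.log_le_log (by positivity) hKw
      have h10 : Real.log ((K : ℝ) + 1) + Real.log w ≤
          (Real.log ((K : ℝ) + 1) + 1) * Real.log w := by nlinarith only [hlK, hl8]
      have h11 : 0 ≤ Real.log ((K : ℝ) + w) := Real.log_nonneg (by linarith)
      calc QQ ((K : ℝ) + w) ≤ ((K : ℝ) + w) * Real.log ((K : ℝ) + w) := h8
        _ ≤ (((K : ℝ) + 1) * w) * Real.log ((K : ℝ) + w) :=
            mul_le_mul_of_nonneg_right hKw h11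
        _ ≤ (((K : ℝ) + 1) * w) * ((Real.log ((K : ℝ) + 1) + 1) * Real.log w) := by
            apply mul_le_mul_of_nonneg_left (h9.trans h10)
            positivity
        _ = C1 * (w * Real.log w) := by rw [hC1]; ring
    have hQw0 : 0 ≤ QQ w := QQ_nonneg hw
    have h12 : C1 * (w * Real.log w) ≤ C1 * (3 * QQ w) :=
      mul_le_mul_of_nonneg_left (by linarith) hC1'
    nlinarith only [mul_nonneg hQ8 hQw0, mul_nonneg hC1' hQw0, hl8, hw1, hQw, h7, hQw0]

end P031
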