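import Vale.Agent.Lib.P031.Mert

/-!
# P031 Brun: the pure sieve of Brun with at most three residue classes per prime.

Proof. Let `S(n) = {q ∈ Q : n % q ∈ R q}`, `ν(q) = (R q).card ≤ 3`, `X = ∑_{q ∈ Q} ν(q)/q`.
For every `r`, `1_{S(n) = ∅} ≤ ∑_{D ⊆ S(n), |D| ≤ 2r} (-1)^|D|` (Bonferroni; for `m = |S(n)| ≥ 1`
the right side is `C(m-1, 2r) ≥ 0`). Summing over `n < N` and using the Chinese remainder theorem
(`#{n < N : D ⊆ S(n)} = N ∏_{q∈D} ν(q)/q + O(∏_{q ∈ D} ν(q))`, error at most `∏ ν(q)` in absolute value)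
`count ≤ N ∑_{|D| ≤ 2r} (-1)^|D| ∏ ν(q)/q + ∑_{|D| ≤ 2r} 3^|D|`.
The main sum is at most `∏ (1 - ν(q)/q) + ∑_{|D| = 2r+1} ∏ ν(q)/q ≤ exp(-X) + X^(2r+1)/(2r+1)!`
(the full alternating sum is `∏ (1 - ν(q)/q)`, where `∏(1-ν/q) ≤ exp(-X)` as `0 ≤ ν/q ≤ 1`; the
truncation error: apply Bonferroni pointwise to the product measure, or `|tail| ≤ ∑_{|D| ≥ 2r+1}`
and `∑_{j ≥ 2r+1} X^j/j!`, fine too).
With `m ≥ 8 X + 8`: `∑_{j ≥ m} X^j/j! ≤ 2 (eX/m)^m ≤ 2 exp(-m) ≤ 2 exp(-X)`.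
By Mertens `X ≤ 3 ∑_{q ≤ z} 1/q ≤ 3 (log log z + C₁)` (`z ≥ 2`), so `2r ≤ C₂ (1 + log log N)` works.
The error is at most `(1 + 3 z)^(2r) ≤ (4z)^(2r) ≤ exp(3 · 2r · log z) ≤ N^(1/4)` when the constant `C` in the
hypothesis is large; and `N exp(-X) ≥ N exp(-3 log log N - 3 C₁) ≥ c N^(1/4)`. -/

namespace P031

open Finset Real

private theorem Brun_alt (m k : ℕ) :
    ∑ j ∈ range (k + 1), (-1 : ℝ) ^ j * ((m + 1).choose j : ℝ) = (-1) ^ k * (m.choose k : ℝ) := by
  induction k with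
  | zero => simp
  | succ k ih =>
    rw [sum_range_succ, ih, Nat.choose_succ_succ]
    push_cast
    ring

/-- truncated weight -/
private noncomputable def gB (k : ℕ) (j : ℕ) : ℝ := if j ≤ k then (-1) ^ j else 0

private theorem Brun_trunc (k : ℕ) (f : ℕ → ℝ) (m : ℕ) :
    ∑ j ∈ range (m + 1), (m.choose j : ℝ) * (if j ≤ k then f j else 0) =
      ∑ j ∈ range (k + 1), (m.choose j : ℝ) * f j := by
  have h1 : ∀ L : ℕ, m ≤ L → k ≤ L →
      ∑ j ∈ range (L + 1), (m.choose j : ℝ) * (if j ≤ k then f j else 0) =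
      ∑ j ∈ range (k + 1), (m.choose j : ℝ) * f j := by
    intro L _ hL2
    rw [← Finset.sum_subset (Finset.range_subset_range.2 (Nat.succ_le_succ hL2))]
    · apply Finset.sum_congr rfl
      intro j hj
      rw [if_pos (Nat.lt_succ_iff.1 (Finset.mem_range.1 hj))]
    · intro j _ hj
      rw [Finset.mem_range, not_lt] at hj
      rw [if_neg (by omega), mul_zero]
  rw [← h1 (max m k) (le_max_left _ _) (le_max_right _ _)]
  apply Finset.sum_subset (Finset.range_subset_range.2 (Nat.succ_le_succ (le_max_left _ _)))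
  intro j _ hj
  rw [Finset.mem_range, not_lt] at hj
  rw [Nat.choose_eq_zero_of_lt (by omega)]
  simp

private theorem Brun_bonf (S : Finset ℕ) (r : ℕ) :
    (if S = ∅ then (1 : ℝ) else 0) ≤ ∑ D ∈ S.powerset, gB (2 * r) D.card := by
  have h1 : ∑ D ∈ S.powerset, gB (2 * r) D.card =
      ∑ j ∈ range (2 * r + 1), (S.card.choose j : ℝ) * (-1) ^ j := by
    rw [Finset.sum_powerset_apply_card (fun j => gB (2 * r) j)]
    rw [← Brun_trunc (2 * r) (fun j => (-1 : ℝ) ^ j) S.card]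
    apply Finset.sum_congr rfl
    intro j _
    rw [nsmul_eq_mul]
    rfl
  rw [h1]
  rcases Nat.eq_zero_or_pos S.card with h0 | hpos
  · have hS : S = ∅ := Finset.card_eq_zero.1 h0
    subst hS
    rw [if_pos rfl]
    rw [Finset.sum_eq_single 0]
    · simp
    · intro j _ hj
      rw [Finset.card_empty, Nat.choose_eq_zero_of_lt (Nat.pos_of_ne_zero hj)]
      simp
    · intro h
      simp at h
  · have hne : S ≠ ∅ := Finset.card_pos.1 hpos |>.ne_empty
    rw [if_neg hne]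
    obtain ⟨m, hm⟩ := Nat.exists_eq_succ_of_ne_zero hpos.ne'
    rw [hm]
    have h2 := Brun_alt m (2 * r)
    have h3 : ∑ j ∈ range (2 * r + 1), ((m.succ).choose j : ℝ) * (-1) ^ j =
        (-1) ^ (2 * r) * (m.choose (2 * r) : ℝ) := by
      rw [← h2]
      apply Finset.sum_congr rfl
      intro j _
      rw [Nat.succ_eq_add_one]
      ring
    rw [h3, pow_mul]
    simp

private theorem Brun_res (P : ℕ) (hP : 0 < P) (a : ℕ) (N : ℕ) :
    |(((range N).filter (fun n => n % P = a % P)).card : ℝ) - (N : ℝ) / P| ≤ 1 := by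
  have hcard : ((range N).filter (fun n => n % P = a % P)).card =
      N / P + if a % P < N % P then 1 else 0 := by
    rw [← Nat.count_modEq_card N hP a, Nat.count_eq_card_filter_range]
    rfl
  rw [hcard]
  have hrR : (0 : ℝ) < (P : ℝ) := by exact_mod_cast hP
  have h1 : (N : ℝ) = (P : ℝ) * ((N / P : ℕ) : ℝ) + ((N % P : ℕ) : ℝ) := by
    exact_mod_cast (Nat.div_add_mod N P).symm
  have h2 : (N : ℝ) / (P : ℝ) = ((N / P : ℕ) : ℝ) + ((N % P : ℕ) : ℝ) / (P : ℝ) := by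
    rw [div_eq_iff hrR.ne', add_mul, div_mul_cancel₀ _ hrR.ne']
    linarith [h1]
  have h3 : 0 ≤ ((N % P : ℕ) : ℝ) / (P : ℝ) := by positivity
  have h4 : ((N % P : ℕ) : ℝ) / (P : ℝ) ≤ 1 := by
    rw [div_le_one hrR]
    exact_mod_cast (Nat.mod_lt N hP).le
  rw [h2, abs_le]
  push_cast
  split_ifs
  · constructor
    · linarith
    · linarith
  · constructor
    · linarith
    · linarith

private theorem Brun_set (P : ℕ) (hP : 0 < P) (A : Finset ℕ) (hA : A ⊆ range P) (N : ℕ) :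
    |(((range N).filter (fun n => n % P ∈ A)).card : ℝ) - (N : ℝ) * A.card / P| ≤ A.card := by
  have h1 : (((range N).filter (fun n => n % P ∈ A)).card : ℝ) =
      ∑ a ∈ A, (((range N).filter (fun n => n % P = a % P)).card : ℝ) := by
    rw [← Nat.cast_sum]
    congr 1
    rw [Finset.card_eq_sum_card_fiberwise (f := fun n => n % P) (t := A)
      (s := (range N).filter (fun n => n % P ∈ A))]
    · apply Finset.sum_congr rfl
      intro a ha
      congr 1
      ext n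
      simp only [Finset.mem_filter, Finset.mem_range]
      have hap : a % P = a := Nat.mod_eq_of_lt (Finset.mem_range.1 (hA ha))
      constructor
      · rintro ⟨⟨h1, h2⟩, h3⟩
        exact ⟨h1, by rw [hap]; exact h3⟩
      · rintro ⟨h1, h2⟩
        rw [hap] at h2
        exact ⟨⟨h1, by rw [h2]; exact ha⟩, h2⟩
    · intro n hn
      exact (Finset.mem_filter.1 hn).2
  have h2 : (N : ℝ) * A.card / P = ∑ a ∈ A, (N : ℝ) / P := by
    rw [Finset.sum_const, nsmul_eq_mul]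
    ring
  rw [h1, h2, ← Finset.sum_sub_distrib]
  refine (Finset.abs_sum_le_sum_abs _ _).trans ?_
  calc ∑ a ∈ A, |(((range N).filter (fun n => n % P = a % P)).card : ℝ) - (N : ℝ) / P|
      ≤ ∑ _a ∈ A, (1 : ℝ) := Finset.sum_le_sum (fun a _ => Brun_res P hP a N)
    _ = A.card := by simp

private theorem Brun_crt (R : ℕ → Finset ℕ) (D : Finset ℕ) (hD : ∀ q ∈ D, q.Prime)
    (hR : ∀ q ∈ D, R q ⊆ range q) :
    ((range (∏ q ∈ D, q)).filter (fun n => ∀ q ∈ D, n % q ∈ R q)).card = ∏ q ∈ D, (R q).card := by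
  induction D using Finset.induction_on with
  | empty => simp
  | insert p D hp ih =>
    have hD' : ∀ q ∈ D, q.Prime := fun q hq => hD q (Finset.mem_insert_of_mem hq)
    have ih' := ih hD' (fun q hq => hR q (Finset.mem_insert_of_mem hq))
    have hpp : p.Prime := hD p (Finset.mem_insert_self _ _)
    set P := ∏ q ∈ D, q with hPdef
    have hPpos : 0 < P := Finset.prod_pos (fun q hq => (hD' q hq).pos)
    have hcop : Nat.Coprime p P := by
      apply Nat.Coprime.prod_right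
      intro q hq
      exact (Nat.coprime_primes hpp (hD' q hq)).2 (fun h => hp (h ▸ hq))
    rw [Finset.prod_insert hp, Finset.prod_insert hp, ← ih', ← Finset.card_product]
    refine Finset.card_nbij' (fun n => (n % p, n % P))
      (fun x => (Nat.chineseRemainder hcop x.1 x.2 : ℕ)) ?_ ?_ ?_ ?_
    · intro n hn
      simp only [Finset.coe_filter, Finset.mem_range, Set.mem_setOf_eq] at hn
      simp only [Finset.coe_product, Set.mem_prod, Finset.mem_coe, Finset.mem_filter,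
        Finset.mem_range]
      refine ⟨hn.2 p (Finset.mem_insert_self _ _), Nat.mod_lt _ hPpos, ?_⟩
      intro q hq
      rw [Nat.mod_mod_of_dvd _ (Finset.dvd_prod_of_mem (fun q => q) hq)]
      exact hn.2 q (Finset.mem_insert_of_mem hq)
    · intro x hx
      simp only [Finset.coe_product, Set.mem_prod, Finset.mem_coe, Finset.mem_filter,
        Finset.mem_range] at hx
      simp only [Finset.coe_filter, Finset.mem_range, Set.mem_setOf_eq]
      have hc := (Nat.chineseRemainder hcop x.1 x.2).2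
      refine ⟨Nat.chineseRemainder_lt_mul hcop _ _ hpp.pos.ne' hPpos.ne', ?_⟩
      intro q hq
      rcases Finset.mem_insert.1 hq with rfl | hq
      · have h1 : (Nat.chineseRemainder hcop x.1 x.2 : ℕ) % q = x.1 % q := hc.1
        rw [h1, Nat.mod_eq_of_lt (Finset.mem_range.1 (hR q (Finset.mem_insert_self _ _) hx.1))]
        exact hx.1
      · have h1 : (Nat.chineseRemainder hcop x.1 x.2 : ℕ) % P = x.2 % P := hc.2
        have h2 : (Nat.chineseRemainder hcop x.1 x.2 : ℕ) % q = x.2 % q := by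
          have h3 : q ∣ P := Finset.dvd_prod_of_mem (fun q => q) hq
          rw [← Nat.mod_mod_of_dvd _ h3, h1, Nat.mod_mod_of_dvd _ h3]
        rw [h2]
        exact hx.2.2 q hq
    · intro n hn
      simp only [Finset.coe_filter, Finset.mem_range, Set.mem_setOf_eq] at hn
      have hc := (Nat.chineseRemainder hcop (n % p) (n % P)).2
      have hlt := Nat.chineseRemainder_lt_mul hcop (n % p) (n % P) hpp.pos.ne' hPpos.ne'
      have h1 : (Nat.chineseRemainder hcop (n % p) (n % P) : ℕ) ≡ n [MOD p] :=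
        hc.1.trans (Nat.mod_modEq _ _)
      have h2 : (Nat.chineseRemainder hcop (n % p) (n % P) : ℕ) ≡ n [MOD P] :=
        hc.2.trans (Nat.mod_modEq _ _)
      have h3 : (Nat.chineseRemainder hcop (n % p) (n % P) : ℕ) ≡ n [MOD p * P] :=
        (Nat.modEq_and_modEq_iff_modEq_mul hcop).1 ⟨h1, h2⟩
      exact h3.eq_of_lt_of_lt hlt hn.1
    · intro x hx
      simp only [Finset.coe_product, Set.mem_prod, Finset.mem_coe, Finset.mem_filter,
        Finset.mem_range] at hx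
      have hc := (Nat.chineseRemainder hcop x.1 x.2).2
      have h1 : (Nat.chineseRemainder hcop x.1 x.2 : ℕ) % p = x.1 % p := hc.1
      have h2 : (Nat.chineseRemainder hcop x.1 x.2 : ℕ) % P = x.2 % P := hc.2
      ext
      · show (Nat.chineseRemainder hcop x.1 x.2 : ℕ) % p = x.1
        rw [h1, Nat.mod_eq_of_lt (Finset.mem_range.1 (hR p (Finset.mem_insert_self _ _) hx.1))]
      · show (Nat.chineseRemainder hcop x.1 x.2 : ℕ) % P = x.2
        rw [h2, Nat.mod_eq_of_lt hx.2.1]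

private theorem Brun_cntD (R : ℕ → Finset ℕ) (D : Finset ℕ) (hD : ∀ q ∈ D, q.Prime)
    (hR : ∀ q ∈ D, R q ⊆ range q) (N : ℕ) :
    |(((range N).filter (fun n => ∀ q ∈ D, n % q ∈ R q)).card : ℝ) -
      (N : ℝ) * ∏ q ∈ D, ((R q).card : ℝ) / (q : ℝ)| ≤ ∏ q ∈ D, ((R q).card : ℝ) := by
  set P := ∏ q ∈ D, q with hPdef
  have hPpos : 0 < P := Finset.prod_pos (fun q hq => (hD q hq).pos)
  set A := (range P).filter (fun n => ∀ q ∈ D, n % q ∈ R q) with hA
  have hAcard : A.card = ∏ q ∈ D, (R q).card := Brun_crt R D hD hR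
  have h1 : (range N).filter (fun n => ∀ q ∈ D, n % q ∈ R q) =
      (range N).filter (fun n => n % P ∈ A) := by
    apply Finset.filter_congr
    intro n _
    rw [hA, Finset.mem_filter, Finset.mem_range]
    constructor
    · intro h
      refine ⟨Nat.mod_lt _ hPpos, fun q hq => ?_⟩
      rw [Nat.mod_mod_of_dvd _ (Finset.dvd_prod_of_mem (fun q => q) hq)]
      exact h q hq
    · intro h q hq
      have := h.2 q hq
      rwa [Nat.mod_mod_of_dvd _ (Finset.dvd_prod_of_mem (fun q => q) hq)] at this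
  have h2 := Brun_set P hPpos A (Finset.filter_subset _ _) N
  rw [← h1, hAcard] at h2
  rw [Finset.prod_div_distrib, ← mul_div_assoc]
  push_cast at h2
  rw [hPdef] at h2
  push_cast at h2
  exact h2

private theorem Brun_err (Q : Finset ℕ) (r : ℕ) :
    ∑ D ∈ Q.powerset, (if D.card ≤ 2 * r then (1 : ℝ) else 0) * 3 ^ D.card ≤
      (1 + 3 * (Q.card : ℝ)) ^ (2 * r) := by
  have h1 : ∑ D ∈ Q.powerset, (if D.card ≤ 2 * r then (1 : ℝ) else 0) * 3 ^ D.card =
      ∑ j ∈ range (2 * r + 1), (Q.card.choose j : ℝ) * 3 ^ j := by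
    rw [Finset.sum_powerset_apply_card
      (fun j => (if j ≤ 2 * r then (1 : ℝ) else 0) * 3 ^ j)]
    rw [← Brun_trunc (2 * r) (fun j => (3 : ℝ) ^ j) Q.card]
    apply Finset.sum_congr rfl
    intro j _
    rw [nsmul_eq_mul]
    split_ifs <;> simp
  rw [h1, add_comm (1 : ℝ), add_pow]
  apply Finset.sum_le_sum
  intro j hj
  have hj' : j ≤ 2 * r := Nat.lt_succ_iff.1 (Finset.mem_range.1 hj)
  have h2 : (Q.card.choose j : ℝ) ≤ (Q.card : ℝ) ^ j := by
    exact_mod_cast Nat.choose_le_pow _ _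
  have h3 : (1 : ℝ) ≤ ((2 * r).choose j : ℝ) := by
    exact_mod_cast Nat.choose_pos hj'
  calc (Q.card.choose j : ℝ) * 3 ^ j ≤ (Q.card : ℝ) ^ j * 3 ^ j :=
        mul_le_mul_of_nonneg_right h2 (by positivity)
    _ = (3 * (Q.card : ℝ)) ^ j * 1 := by rw [mul_pow]; ring
    _ ≤ (3 * (Q.card : ℝ)) ^ j * ((2 * r).choose j : ℝ) :=
        mul_le_mul_of_nonneg_left h3 (by positivity)
    _ = (3 * (Q.card : ℝ)) ^ j * 1 ^ (2 * r - j) * ((2 * r).choose j : ℝ) := by
        rw [one_pow, mul_one]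


private theorem Brun_mt (Q : Finset ℕ) (w : ℕ → ℝ) (hw0 : ∀ q ∈ Q, 0 ≤ w q)
    (hw1 : ∀ q ∈ Q, w q ≤ 1) (r : ℕ) :
    ∑ D ∈ Q.powerset, gB (2 * r) D.card * ∏ q ∈ D, w q ≤
      Real.exp (- ∑ q ∈ Q, w q) + Real.exp (8 * ∑ q ∈ Q, w q) / 8 ^ (2 * r) := by
  have hwD : ∀ D ∈ Q.powerset, 0 ≤ ∏ q ∈ D, w q := fun D hD =>
    Finset.prod_nonneg (fun q hq => hw0 q (Finset.mem_powerset.1 hD hq))
  have h1 : ∀ D ∈ Q.powerset, gB (2 * r) D.card * ∏ q ∈ D, w q ≤
      ∏ q ∈ D, (- w q) + (∏ q ∈ D, (8 * w q)) / 8 ^ (2 * r) := by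
    intro D hD
    have h2 : ∏ q ∈ D, (- w q) = (-1) ^ D.card * ∏ q ∈ D, w q := by
      rw [Finset.prod_neg]
    have h3 : ∏ q ∈ D, (8 * w q) = 8 ^ D.card * ∏ q ∈ D, w q := by
      rw [Finset.prod_mul_distrib, Finset.prod_const]
    rw [h2, h3]
    unfold gB
    have h8 : (0 : ℝ) < 8 ^ (2 * r) := by positivity
    split_ifs with hc
    · have : 0 ≤ 8 ^ D.card * (∏ q ∈ D, w q) / 8 ^ (2 * r) := by
        have := hwD D hD
        positivity
      linarith
    · rw [not_le] at hc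
      have h4 : (8 : ℝ) ^ (2 * r) ≤ 8 ^ D.card := pow_le_pow_right₀ (by norm_num) hc.le
      have h5 : ∏ q ∈ D, w q ≤ 8 ^ D.card * (∏ q ∈ D, w q) / 8 ^ (2 * r) := by
        rw [le_div_iff₀ h8, mul_comm]
        exact mul_le_mul_of_nonneg_right h4 (hwD D hD)
      have h6 : -(∏ q ∈ D, w q) ≤ (-1) ^ D.card * ∏ q ∈ D, w q := by
        have h7 : |(-1 : ℝ) ^ D.card| = 1 := by simp
        have h8 := (abs_le.1 h7.le).1
        have := mul_le_mul_of_nonneg_right h8 (hwD D hD)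
        linarith
      rw [zero_mul]
      linarith
  refine (Finset.sum_le_sum h1).trans ?_
  rw [Finset.sum_add_distrib, ← Finset.sum_div, ← Finset.prod_one_add, ← Finset.prod_one_add]
  apply add_le_add
  · rw [← Finset.sum_neg_distrib, Real.exp_sum]
    apply Finset.prod_le_prod
    · intro q hq
      linarith [hw1 q hq]
    · intro q _
      have := Real.add_one_le_exp (- w q)
      linarith
  · apply div_le_div_of_nonneg_right _ (by positivity)
    rw [Finset.mul_sum, Real.exp_sum]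
    apply Finset.prod_le_prod
    · intro q hq
      linarith [hw0 q hq]
    · intro q _
      have := Real.add_one_le_exp (8 * w q)
      linarith


/-- the sieve inequality with parameters -/
private theorem Brun_main (N : ℕ) (Q : Finset ℕ) (R : ℕ → Finset ℕ) (r : ℕ)
    (hQ : ∀ q ∈ Q, q.Prime) (hR : ∀ q ∈ Q, R q ⊆ Finset.range q ∧ (R q).card ≤ 3) :
    (((Finset.range N).filter (fun n => ∀ q ∈ Q, n % q ∉ R q)).card : ℝ) ≤
      N * (Real.exp (- ∑ q ∈ Q, ((R q).card : ℝ) / (q : ℝ)) +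
        Real.exp (8 * ∑ q ∈ Q, ((R q).card : ℝ) / (q : ℝ)) / 8 ^ (2 * r)) +
      (1 + 3 * (Q.card : ℝ)) ^ (2 * r) := by
  classical
  set w : ℕ → ℝ := fun q => ((R q).card : ℝ) / (q : ℝ) with hw
  have hw0 : ∀ q ∈ Q, 0 ≤ w q := fun q _ => by positivity
  have hw1 : ∀ q ∈ Q, w q ≤ 1 := by
    intro q hq
    have h1 : (R q).card ≤ q := by
      have := Finset.card_le_card (hR q hq).1
      rwa [Finset.card_range] at this
    have h2 : (0 : ℝ) < q := by exact_mod_cast (hQ q hq).pos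
    rw [hw]
    simp only
    rw [div_le_one h2]
    exact_mod_cast h1
  set f : Finset ℕ → ℝ := fun D =>
    (((range N).filter (fun n => ∀ q ∈ D, n % q ∈ R q)).card : ℝ) with hf
  have hfD : ∀ D ∈ Q.powerset, |f D - N * ∏ q ∈ D, w q| ≤ 3 ^ D.card := by
    intro D hD
    have hDQ := Finset.mem_powerset.1 hD
    have h1 := Brun_cntD R D (fun q hq => hQ q (hDQ hq)) (fun q hq => (hR q (hDQ hq)).1) N
    refine h1.trans ?_
    rw [← Finset.prod_const]
    apply Finset.prod_le_prod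
    · intro q _
      positivity
    · intro q hq
      exact_mod_cast (hR q (hDQ hq)).2
  -- step 1
  have hstep1 : (((Finset.range N).filter (fun n => ∀ q ∈ Q, n % q ∉ R q)).card : ℝ) ≤
      ∑ D ∈ Q.powerset, gB (2 * r) D.card * f D := by
    have h1 : (((Finset.range N).filter (fun n => ∀ q ∈ Q, n % q ∉ R q)).card : ℝ) =
        ∑ n ∈ range N, (if Q.filter (fun q => n % q ∈ R q) = ∅ then (1 : ℝ) else 0) := by
      rw [Finset.card_filter]
      push_cast
      apply Finset.sum_congr rfl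
      intro n _
      simp only [Finset.filter_eq_empty_iff]
    rw [h1]
    have h2 : ∀ n ∈ range N, (if Q.filter (fun q => n % q ∈ R q) = ∅ then (1 : ℝ) else 0) ≤
        ∑ D ∈ Q.powerset, gB (2 * r) D.card * (if ∀ q ∈ D, n % q ∈ R q then 1 else 0) := by
      intro n _
      refine (Brun_bonf (Q.filter (fun q => n % q ∈ R q)) r).trans (le_of_eq ?_)
      have h3 : (Q.filter (fun q => n % q ∈ R q)).powerset =
          Q.powerset.filter (fun D => ∀ q ∈ D, n % q ∈ R q) := by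
        ext D
        simp only [Finset.mem_powerset, Finset.mem_filter]
        constructor
        · intro h
          exact ⟨fun q hq => (Finset.mem_filter.1 (h hq)).1,
            fun q hq => (Finset.mem_filter.1 (h hq)).2⟩
        · rintro ⟨h1, h2⟩ q hq
          exact Finset.mem_filter.2 ⟨h1 hq, h2 q hq⟩
      rw [h3, Finset.sum_filter]
      apply Finset.sum_congr rfl
      intro D _
      split_ifs <;> simp
    refine (Finset.sum_le_sum h2).trans (le_of_eq ?_)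
    rw [Finset.sum_comm]
    apply Finset.sum_congr rfl
    intro D _
    rw [← Finset.mul_sum]
    congr 1
    rw [hf]
    simp only
    rw [Finset.card_filter]
    push_cast
    rfl
  refine hstep1.trans ?_
  have habs : ∀ j, |gB (2 * r) j| = if j ≤ 2 * r then 1 else 0 := by
    intro j
    unfold gB
    split_ifs <;> simp
  -- step 2
  have hstep2 : ∑ D ∈ Q.powerset, gB (2 * r) D.card * f D ≤
      N * ∑ D ∈ Q.powerset, gB (2 * r) D.card * ∏ q ∈ D, w q +
      ∑ D ∈ Q.powerset, (if D.card ≤ 2 * r then (1 : ℝ) else 0) * 3 ^ D.card := by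
    rw [Finset.mul_sum, ← Finset.sum_add_distrib]
    apply Finset.sum_le_sum
    intro D hD
    have h1 := hfD D hD
    have h2 : gB (2 * r) D.card * (f D - N * ∏ q ∈ D, w q) ≤
        |gB (2 * r) D.card| * 3 ^ D.card := by
      refine (le_abs_self _).trans ?_
      rw [abs_mul]
      exact mul_le_mul_of_nonneg_left h1 (abs_nonneg _)
    rw [habs] at h2
    linarith [h2]
  refine hstep2.trans ?_
  have hstep3 := Brun_err Q r
  have hstep4 := Brun_mt Q w hw0 hw1 r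
  have hN0 : (0 : ℝ) ≤ N := Nat.cast_nonneg N
  have := mul_le_mul_of_nonneg_left hstep4 hN0
  linarith

private theorem Brun_numA (X : ℝ) (r : ℕ) (hr1 : 9 / 4 * X ≤ r) :
    Real.exp (8 * X) / 8 ^ (2 * r) ≤ Real.exp (-X) := by
  rw [div_le_iff₀ (by positivity)]
  have h1 : Real.exp 2 ≤ 8 := by
    have h2 : Real.exp 2 = Real.exp 1 * Real.exp 1 := by
      rw [← Real.exp_add]
      norm_num
    have h3 := Real.exp_one_lt_d9
    have h4 := Real.exp_pos 1
    rw [h2]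
    nlinarith only [h3, h4]
  have h2 : Real.exp ((2 * r : ℕ) * 2) ≤ 8 ^ (2 * r) := by
    rw [Real.exp_nat_mul]
    exact pow_le_pow_left₀ (Real.exp_pos _).le h1 _
  calc Real.exp (8 * X) ≤ Real.exp (-X) * Real.exp ((2 * r : ℕ) * 2) := by
        rw [← Real.exp_add]
        apply Real.exp_le_exp.2
        push_cast
        linarith
    _ ≤ Real.exp (-X) * 8 ^ (2 * r) := mul_le_mul_of_nonneg_left h2 (Real.exp_pos _).le

private theorem Brun_numB (N : ℕ) (z : ℝ) (c : ℕ) (r : ℕ) (X K LL : ℝ) (hz : 2 ≤ z)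
    (hc : (c : ℝ) ≤ z) (hNpos : (0 : ℝ) < N) (hK : 6 ≤ K) (hLL : 0 ≤ LL)
    (hlz : 1 / 2 ≤ Real.log z)
    (hXK : X ≤ K * (1 + LL)) (hr2 : (r : ℝ) < 9 / 4 * X + 1)
    (hbig : (3 * (9 / 2 * K + 2) + 2 * K) * Real.log z * (1 + LL) ≤ Real.log N) :
    (1 + 3 * (c : ℝ)) ^ (2 * r) ≤ N * Real.exp (-X) := by
  have hz0 : 0 < z := by linarith
  have h4 : 1 + 3 * (c : ℝ) ≤ Real.exp (3 * Real.log z) := by
    have h5 : Real.exp (3 * Real.log z) = z ^ 3 := by
      have h5' : (3 : ℝ) * Real.log z = (3 : ℕ) * Real.log z := by push_cast; ring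
      rw [h5', Real.exp_nat_mul, Real.exp_log hz0]
    rw [h5]
    have h51 : 4 * z ≤ z ^ 3 := by nlinarith only [mul_pos hz0 hz0, hz]
    linarith
  have h6 : (1 + 3 * (c : ℝ)) ^ (2 * r) ≤ Real.exp ((2 * r : ℕ) * (3 * Real.log z)) := by
    rw [Real.exp_nat_mul]
    exact pow_le_pow_left₀ (by positivity) h4 _
  refine h6.trans ?_
  have h7 : (N : ℝ) * Real.exp (-X) = Real.exp (Real.log N - X) := by
    rw [sub_eq_add_neg, Real.exp_add, Real.exp_log hNpos]
  rw [h7]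
  apply Real.exp_le_exp.2
  push_cast
  have h8 : 2 * (r : ℝ) ≤ (9 / 2 * K + 2) * (1 + LL) := by
    have : 2 * (r : ℝ) ≤ 9 / 2 * X + 2 := by linarith
    have h81 : 9 / 2 * X + 2 ≤ 9 / 2 * (K * (1 + LL)) + 2 * (1 + LL) := by linarith
    linarith
  have h9 : 2 * (r : ℝ) * (3 * Real.log z) ≤ (9 / 2 * K + 2) * (1 + LL) * (3 * Real.log z) :=
    mul_le_mul_of_nonneg_right h8 (by linarith)
  have h10 : K * (1 + LL) * 1 ≤ K * (1 + LL) * (2 * Real.log z) := by
    have h0 : 0 ≤ K * (1 + LL) := mul_nonneg (by linarith) (by linarith)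
    exact mul_le_mul_of_nonneg_left (by linarith) h0
  have h11 : (9 / 2 * K + 2) * (1 + LL) * (3 * Real.log z) + K * (1 + LL) * (2 * Real.log z) =
      (3 * (9 / 2 * K + 2) + 2 * K) * Real.log z * (1 + LL) := by ring
  linarith

private theorem Brun_X (C1 LL z : ℝ) (hC1 : 1 ≤ C1) (hLL : 0 ≤ LL)
    (hmert : ∀ β : ℝ, 0 ≤ β → ∀ S : Finset ℕ,
      (∀ p ∈ S, p.Prime ∧ ll p ≤ β) → ∑ p ∈ S, 1 / ((p : ℝ) - 1) ≤ β + C1)
    (Q : Finset ℕ) (R : ℕ → Finset ℕ) (hz : 2 ≤ z) (hzL : Real.log (Real.log z) ≤ LL)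
    (hQ : ∀ q ∈ Q, q.Prime ∧ (q : ℝ) ≤ z)
    (hR : ∀ q ∈ Q, R q ⊆ Finset.range q ∧ (R q).card ≤ 3) :
    ∑ q ∈ Q, ((R q).card : ℝ) / (q : ℝ) ≤ 3 * (1 + C1) * (1 + LL) := by
  have h1 : ∑ q ∈ Q, ((R q).card : ℝ) / (q : ℝ) ≤ 3 * ∑ q ∈ Q, 1 / ((q : ℝ) - 1) := by
    rw [Finset.mul_sum]
    apply Finset.sum_le_sum
    intro q hq
    have hq2 : (2 : ℝ) ≤ q := by exact_mod_cast (hQ q hq).1.two_le
    have h2 : ((R q).card : ℝ) ≤ 3 := by exact_mod_cast (hR q hq).2
    calc ((R q).card : ℝ) / (q : ℝ) ≤ 3 / (q : ℝ) :=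
          div_le_div_of_nonneg_right h2 (by linarith)
      _ ≤ 3 / ((q : ℝ) - 1) := by
          apply div_le_div_of_nonneg_left (by norm_num) (by linarith) (by linarith)
      _ = 3 * (1 / ((q : ℝ) - 1)) := by ring
  have h2 : ∑ q ∈ Q, 1 / ((q : ℝ) - 1) ≤ LL + C1 := by
    apply hmert LL hLL Q
    intro q hq
    refine ⟨(hQ q hq).1, ?_⟩
    have hq2 : (2 : ℝ) ≤ q := by exact_mod_cast (hQ q hq).1.two_le
    have hlq : 0 < Real.log (q : ℝ) := Real.log_pos (by linarith)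
    unfold ll
    refine (Real.log_le_log hlq (Real.log_le_log (by linarith) (hQ q hq).2)).trans hzL
  have h3 : LL + C1 ≤ (1 + C1) * (1 + LL) := by
    have : 0 ≤ C1 * LL := mul_nonneg (by linarith) hLL
    linarith only [this]
  linarith

private theorem Brun_Qc (Q : Finset ℕ) (z : ℝ) (hz : 0 ≤ z)
    (hQ : ∀ q ∈ Q, q.Prime ∧ (q : ℝ) ≤ z) : (Q.card : ℝ) ≤ z := by
  have h1 : Q ⊆ Finset.Icc 1 ⌊z⌋₊ := by
    intro q hq
    rw [Finset.mem_Icc]
    exact ⟨(hQ q hq).1.one_lt.le, Nat.le_floor (hQ q hq).2⟩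
  have h2 := Finset.card_le_card h1
  rw [Nat.card_Icc] at h2
  have h3 : (Q.card : ℝ) ≤ (⌊z⌋₊ : ℝ) := by
    have : Q.card ≤ ⌊z⌋₊ := by omega
    exact_mod_cast this
  exact h3.trans (Nat.floor_le hz)

private theorem Brun_fin (N X A B K : ℝ) (c : ℝ) (hN : 0 < N) (hmain : c ≤ N * (Real.exp (-X) + A) + B)
    (hA : A ≤ Real.exp (-X)) (hB : B ≤ N * Real.exp (-X)) (hK : 3 ≤ K) :
    c ≤ K * N * Real.exp (-X) := by
  have hexp := Real.exp_pos (-X)
  have h1 : N * A ≤ N * Real.exp (-X) := mul_le_mul_of_nonneg_left hA hN.le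
  have h2 : 3 * (N * Real.exp (-X)) ≤ K * (N * Real.exp (-X)) :=
    mul_le_mul_of_nonneg_right hK (by positivity)
  have h3 : N * (Real.exp (-X) + A) = N * Real.exp (-X) + N * A := by ring
  have h4 : K * N * Real.exp (-X) = K * (N * Real.exp (-X)) := by ring
  rw [h4]
  linarith

private theorem Brun_lz (A L z N : ℝ) (hA : 1 ≤ A) (hL : 0 ≤ L) (hz : 0 ≤ z)
    (h : A * z * (1 + L) ≤ N) : z ≤ N := by
  have h1 : z ≤ A * z := by nlinarith
  have h2 : A * z * 1 ≤ A * z * (1 + L) := by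
    apply mul_le_mul_of_nonneg_left (by linarith)
    positivity
  linarith

theorem brun : ∃ C : ℝ, 1 ≤ C ∧ ∀ (N : ℕ) (z : ℝ) (Q : Finset ℕ) (R : ℕ → Finset ℕ),
    3 ≤ N → 2 ≤ z → (∀ q ∈ Q, q.Prime ∧ (q : ℝ) ≤ z) →
    (∀ q ∈ Q, R q ⊆ Finset.range q ∧ (R q).card ≤ 3) →
    C * Real.log z * (1 + Real.log (Real.log (N : ℝ))) ≤ Real.log (N : ℝ) →
    (((Finset.range N).filter (fun n => ∀ q ∈ Q, n % q ∉ R q)).card : ℝ) ≤
      C * N * Real.exp (- ∑ q ∈ Q, ((R q).card : ℝ) / (q : ℝ)) := by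
  obtain ⟨C1, hC1, hmert⟩ := mert_all
  have hK6 : 6 ≤ 3 * (1 + C1) := by linarith
  refine ⟨3 * (9 / 2 * (3 * (1 + C1)) + 2) + 2 * (3 * (1 + C1)), by linarith, ?_⟩
  intro N z Q R hN hz hQ hR hbig
  have hN3 : (3 : ℝ) ≤ N := by exact_mod_cast hN
  have hNpos : (0 : ℝ) < N := by linarith
  have hlogN : 1 < Real.log (N : ℝ) := by
    rw [Real.lt_log_iff_exp_lt hNpos]
    exact lt_of_lt_of_le Real.exp_one_lt_three hN3
  have hLL : 0 < Real.log (Real.log (N : ℝ)) := Real.log_pos hlogN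
  have hz0 : 0 < z := by linarith
  have hlz : 1 / 2 ≤ Real.log z := by
    have h1 : Real.log 2 ≤ Real.log z := Real.log_le_log (by norm_num) hz
    have h2 := Real.log_two_gt_d9
    linarith
  have hlogz : Real.log z ≤ Real.log (N : ℝ) :=
    Brun_lz _ _ _ _ (by linarith) hLL.le (by linarith) hbig
  have hXK := Brun_X C1 (Real.log (Real.log (N : ℝ))) z hC1 hLL.le hmert Q R hz
    (Real.log_le_log (by linarith) hlogz) hQ hR
  have hX0 : 0 ≤ ∑ q ∈ Q, ((R q).card : ℝ) / (q : ℝ) :=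
    Finset.sum_nonneg (fun q _ => by positivity)
  have hQc := Brun_Qc Q z hz0.le hQ
  have hmain := Brun_main N Q R ⌈9 / 4 * ∑ q ∈ Q, ((R q).card : ℝ) / (q : ℝ)⌉₊
    (fun q hq => (hQ q hq).1) hR
  have hr1 : 9 / 4 * ∑ q ∈ Q, ((R q).card : ℝ) / (q : ℝ) ≤
    (⌈9 / 4 * ∑ q ∈ Q, ((R q).card : ℝ) / (q : ℝ)⌉₊ : ℝ) := Nat.le_ceil _
  have hr2 : (⌈9 / 4 * ∑ q ∈ Q, ((R q).card : ℝ) / (q : ℝ)⌉₊ : ℝ) <
    9 / 4 * ∑ q ∈ Q, ((R q).card : ℝ) / (q : ℝ) + 1 := Nat.ceil_lt_add_one (by positivity)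
  exact Brun_fin _ _ _ _ _ _ hNpos hmain (Brun_numA _ _ hr1)
    (Brun_numB N z Q.card _ _ _ _ hz hQc hNpos hK6 hLL.le hlz hXK hr2 hbig) (by linarith)

end P031
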