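import Vale.Agent.Lib.P031.Mert

/-!
# P031 Cell: sums of `wt p = ∏ 1/(p_i - 1)` over boxes (on the `ll` scale) and the cell lemma.
`Finset.prod_univ_sum` : `∏_i ∑_{q ∈ A i} f q = ∑_{p ∈ piFinset A} ∏_i f (p i)`.
-/

namespace P031

open Finset Real

theorem Cell_wt_nonneg {p : Fin nn → ℕ} (hp : ∀ i, (p i).Prime) : 0 ≤ wt p := by
  unfold wt
  refine Finset.prod_nonneg fun i _ => ?_
  have h2 : (2 : ℝ) ≤ p i := by exact_mod_cast (hp i).two_le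
  apply div_nonneg zero_le_one
  linarith

theorem Cell_sum_pi (A : Fin nn → Finset ℕ) :
    ∑ p ∈ Fintype.piFinset A, wt p = ∏ i, ∑ q ∈ A i, 1 / ((q : ℝ) - 1) := by
  unfold wt
  rw [Finset.prod_univ_sum]

theorem Cell_mem_PI {α β : ℝ} {p : ℕ} : p ∈ PI α β ↔ p.Prime ∧ α ≤ ll p ∧ ll p < β := by
  refine ⟨mert_PI_mem, fun h => ?_⟩
  unfold PI
  rw [Finset.mem_filter, Finset.mem_range]
  refine ⟨?_, h⟩
  have h1 := ((mert_ll_lt h.1 β).1 h.2.2).le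
  have h2 : p ≤ ⌊Real.exp (Real.exp β)⌋₊ := Nat.le_floor h1
  omega

/-- `mert` in every coordinate -/
theorem box_lower : ∃ C : ℝ, 1 ≤ C ∧ ∀ (α : Fin nn → ℝ) (l : ℝ) (S : Finset (Fin nn → ℕ)),
    C ≤ l → (∀ i, 0 ≤ α i) → (∀ p ∈ S, ∀ i, (p i).Prime) →
    (∀ p : Fin nn → ℕ, (∀ i, (p i).Prime ∧ α i ≤ ll (p i) ∧ ll (p i) < α i + l) → p ∈ S) →
    (l - C) ^ nn ≤ ∑ p ∈ S, wt p := by
  obtain ⟨C, hC1, hC⟩ := mert
  refine ⟨C, hC1, ?_⟩
  intro α l S hl hα hS hmem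
  have hsub : Fintype.piFinset (fun i => PI (α i) (α i + l)) ⊆ S := by
    intro p hp
    rw [Fintype.mem_piFinset] at hp
    exact hmem p fun i => Cell_mem_PI.1 (hp i)
  have h1 : ∑ p ∈ Fintype.piFinset (fun i => PI (α i) (α i + l)), wt p ≤ ∑ p ∈ S, wt p :=
    Finset.sum_le_sum_of_subset_of_nonneg hsub fun p hp _ => Cell_wt_nonneg (hS p hp)
  refine le_trans ?_ h1
  rw [Cell_sum_pi]
  have h2 : (l - C) ^ nn = ∏ _i : Fin nn, (l - C) := by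
    rw [Finset.prod_const, Finset.card_univ, Fintype.card_fin]
  rw [h2]
  refine Finset.prod_le_prod (fun i _ => by linarith) fun i _ => ?_
  have h3 := (hC (α i) (α i + l) (hα i) (by linarith)).1
  linarith

theorem box_upper : ∃ C : ℝ, 1 ≤ C ∧ ∀ (α : Fin nn → ℝ) (l : ℝ) (R : Finset (Fin nn → ℕ)),
    0 ≤ l → (∀ i, 0 ≤ α i) →
    (∀ p ∈ R, ∀ i, (p i).Prime ∧ α i ≤ ll (p i) ∧ ll (p i) ≤ α i + l) →
    ∑ p ∈ R, wt p ≤ (l + C) ^ nn := by
  obtain ⟨C, hC1, hC⟩ := mert_int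
  refine ⟨C, hC1, ?_⟩
  intro α l R hl hα hR
  have hsub : R ⊆ Fintype.piFinset (fun i => R.image (fun p => p i)) := by
    intro p hp
    rw [Fintype.mem_piFinset]
    exact fun i => Finset.mem_image_of_mem (fun p : Fin nn → ℕ => p i) hp
  have hA : ∀ i, ∀ q ∈ R.image (fun p => p i), q.Prime ∧ α i ≤ ll q ∧ ll q ≤ α i + l := by
    intro i q hq
    obtain ⟨p, hp, rfl⟩ := Finset.mem_image.1 hq
    exact hR p hp i
  have h1 : ∑ p ∈ R, wt p ≤ ∑ p ∈ Fintype.piFinset (fun i => R.image (fun p => p i)), wt p :=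
    Finset.sum_le_sum_of_subset_of_nonneg hsub fun p hp _ => by
      rw [Fintype.mem_piFinset] at hp
      exact Cell_wt_nonneg fun i => (hA i _ (hp i)).1
  refine h1.trans ?_
  rw [Cell_sum_pi]
  have h2 : (l + C) ^ nn = ∏ _i : Fin nn, (l + C) := by
    rw [Finset.prod_const, Finset.card_univ, Fintype.card_fin]
  rw [h2]
  refine Finset.prod_le_prod (fun i _ => ?_) fun i _ => ?_
  · refine Finset.sum_nonneg fun q hq => ?_
    have h3 : (2 : ℝ) ≤ q := by exact_mod_cast (hA i q hq).1.two_le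
    apply div_nonneg zero_le_one
    linarith
  · have h3 := hC (α i) (α i + l) (hα i) (by linarith) _ (hA i)
    linarith

theorem Cell_floor {h : ℝ} (hh : 0 < h) {u : ℝ} (hu : 0 ≤ u) :
    (⌊u / h⌋₊ : ℝ) * h ≤ u ∧ u < ((⌊u / h⌋₊ : ℝ) + 1) * h := by
  constructor
  · rw [← le_div_iff₀ hh]
    exact Nat.floor_le (div_nonneg hu hh.le)
  · rw [← div_lt_iff₀ hh]
    exact Nat.lt_floor_add_one _

/-- the boxes of two different cells are disjoint -/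
theorem Cell_disj {z : Fin nn → ℝ} {h μ : ℝ} (hh : 0 < h) (hμ1 : μ < 1)
    {κ κ' : Fin nn → ℕ} (hne : κ ≠ κ') :
    Disjoint
      (Fintype.piFinset (fun i => PI ((1 - μ) * ((κ i : ℝ) * h) + μ * z i)
        ((1 - μ) * ((κ i : ℝ) * h) + μ * z i + (1 - μ) * h)))
      (Fintype.piFinset (fun i => PI ((1 - μ) * ((κ' i : ℝ) * h) + μ * z i)
        ((1 - μ) * ((κ' i : ℝ) * h) + μ * z i + (1 - μ) * h))) := by
  rw [Finset.disjoint_left]
  intro p hp hp'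
  rw [Fintype.mem_piFinset] at hp hp'
  apply hne
  funext i
  have h1 := Cell_mem_PI.1 (hp i)
  have h2 := Cell_mem_PI.1 (hp' i)
  have hpos : 0 < (1 - μ) * h := mul_pos (by linarith) hh
  have key : ∀ a b : ℕ, (1 - μ) * ((a : ℝ) * h) + μ * z i ≤ ll (p i) →
      ll (p i) < (1 - μ) * ((b : ℝ) * h) + μ * z i + (1 - μ) * h → a ≤ b := by
    intro a b ha hb
    have h3 : ((1 - μ) * h) * a < ((1 - μ) * h) * (b + 1) := by linarith only [ha, hb]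
    have h4 : (a : ℝ) < b + 1 := lt_of_mul_lt_mul_left h3 hpos.le
    have h5 : a < b + 1 := by exact_mod_cast h4
    omega
  exact le_antisymm (key _ _ h1.2.1 h2.2.2) (key _ _ h2.2.1 h1.2.2)

/-- the box of a cell which occurs is in `S` -/
theorem Cell_sub {z : Fin nn → ℝ} {h μ : ℝ} {R S : Finset (Fin nn → ℕ)}
    (hh : 0 < h) (hμ1 : μ < 1)
    (hR : ∀ p ∈ R, ∀ i, (p i).Prime ∧ 0 ≤ ll (p i))
    (hRS : ∀ p ∈ R, ∀ p' : Fin nn → ℕ, (∀ i, (p' i).Prime) →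
      (∀ i, ∃ y : ℝ, |y - ll (p i)| ≤ h ∧ ll (p' i) = (1 - μ) * y + μ * z i) → p' ∈ S)
    {p : Fin nn → ℕ} (hp : p ∈ R) :
    Fintype.piFinset (fun i => PI ((1 - μ) * ((⌊ll (p i) / h⌋₊ : ℝ) * h) + μ * z i)
        ((1 - μ) * ((⌊ll (p i) / h⌋₊ : ℝ) * h) + μ * z i + (1 - μ) * h)) ⊆ S := by
  intro p' hp'
  rw [Fintype.mem_piFinset] at hp'
  refine hRS p hp p' (fun i => (Cell_mem_PI.1 (hp' i)).1) fun i => ?_
  obtain ⟨-, h1, h2⟩ := Cell_mem_PI.1 (hp' i)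
  obtain ⟨h3, h4⟩ := Cell_floor hh (hR p hp i).2
  have hμ : 0 < 1 - μ := by linarith
  refine ⟨(ll (p' i) - μ * z i) / (1 - μ), ?_, ?_⟩
  · have h5 : (⌊ll (p i) / h⌋₊ : ℝ) * h ≤ (ll (p' i) - μ * z i) / (1 - μ) := by
      rw [le_div_iff₀ hμ]
      linarith
    have h6 : (ll (p' i) - μ * z i) / (1 - μ) < ((⌊ll (p i) / h⌋₊ : ℝ) + 1) * h := by
      rw [div_lt_iff₀ hμ]
      linarith
    rw [abs_le]
    constructor <;> linarith
  · field_simp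
    ring

/-- Cell lemma. For `p ∈ R` let `k_i = ⌊ll (p i)/h⌋₊`. The sum over the `p ∈ R` with a given cell vector `k` is at most
`(h + C)^nn`. For every cell vector `k` which occurs, all prime tuples `p'` with
`(1-μ) k_i h + μ z_i ≤ ll (p' i) < (1-μ)(k_i+1) h + μ z_i` are in `S` (take `y_i = (ll (p' i) - μ z_i)/(1-μ)`), their sum is at
least `((1-μ) h - C)^nn` and these boxes are disjoint for different `k`. -/
theorem cell_lemma : ∃ C : ℝ, 1 ≤ C ∧ ∀ (z : Fin nn → ℝ) (h μ : ℝ) (R S : Finset (Fin nn → ℕ)),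
    0 < h → 0 < μ → μ < 1 → C < (1 - μ) * h → (∀ i, 0 ≤ z i) → (∀ p ∈ S, ∀ i, (p i).Prime) →
    (∀ p ∈ R, ∀ i, (p i).Prime ∧ 0 ≤ ll (p i)) →
    (∀ p ∈ R, ∀ p' : Fin nn → ℕ, (∀ i, (p' i).Prime) →
      (∀ i, ∃ y : ℝ, |y - ll (p i)| ≤ h ∧ ll (p' i) = (1 - μ) * y + μ * z i) → p' ∈ S) →
    ∑ p ∈ R, wt p ≤ ((h + C) / ((1 - μ) * h - C)) ^ nn * ∑ p ∈ S, wt p := by
  classical
  obtain ⟨C1, hC1, hlow⟩ := box_lower
  obtain ⟨C2, hC2, hup⟩ := box_upper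
  refine ⟨max C1 C2, le_max_of_le_left hC1, ?_⟩
  intro z h μ R S hh hμ hμ1 hC hz hS hR hRS
  obtain ⟨C, hCdef⟩ : ∃ C : ℝ, C = max C1 C2 := ⟨_, rfl⟩
  rw [← hCdef] at hC ⊢
  have hCC1 : C1 ≤ C := hCdef ▸ le_max_left _ _
  have hCC2 : C2 ≤ C := hCdef ▸ le_max_right _ _
  obtain ⟨k, hk⟩ : ∃ k : (Fin nn → ℕ) → (Fin nn → ℕ), k = fun p i => ⌊ll (p i) / h⌋₊ := ⟨_, rfl⟩
  obtain ⟨bx, hbx⟩ : ∃ bx : (Fin nn → ℕ) → Finset (Fin nn → ℕ), bx = fun κ =>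
      Fintype.piFinset (fun i => PI ((1 - μ) * ((κ i : ℝ) * h) + μ * z i)
        ((1 - μ) * ((κ i : ℝ) * h) + μ * z i + (1 - μ) * h)) := ⟨_, rfl⟩
  -- upper bound
  have hU : ∑ p ∈ R, wt p ≤ (R.image k).card * (h + C) ^ nn := by
    rw [← Finset.sum_fiberwise_of_maps_to (fun p hp => Finset.mem_image_of_mem k hp) wt,
      ← nsmul_eq_mul, ← Finset.sum_const]
    refine Finset.sum_le_sum fun κ _ => ?_
    refine (hup (fun i => (κ i : ℝ) * h) h (R.filter fun p => k p = κ) hh.le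
      (fun i => by positivity) ?_).trans ?_
    · intro p hp i
      obtain ⟨h1, h2⟩ := Finset.mem_filter.1 hp
      obtain ⟨h3, h4⟩ := hR p h1 i
      obtain ⟨h5, h6⟩ := Cell_floor hh h4
      have h7 : κ i = ⌊ll (p i) / h⌋₊ := by rw [← h2, hk]
      rw [h7]
      exact ⟨h3, h5, by linarith⟩
    · exact pow_le_pow_left₀ (by linarith) (by linarith) _
  -- lower bound
  have hbsub : ∀ κ ∈ R.image k, bx κ ⊆ S := by
    intro κ hκ
    obtain ⟨p, hp, rfl⟩ := Finset.mem_image.1 hκ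
    rw [hbx, hk]
    exact Cell_sub hh hμ1 hR hRS hp
  have hbdisj : ((R.image k : Finset (Fin nn → ℕ)) : Set (Fin nn → ℕ)).PairwiseDisjoint bx := by
    intro κ _ κ' _ hne
    rw [hbx]
    exact Cell_disj hh hμ1 hne
  have hL : (R.image k).card * ((1 - μ) * h - C) ^ nn ≤ ∑ p ∈ S, wt p := by
    have h1 : ∑ p ∈ (R.image k).biUnion bx, wt p ≤ ∑ p ∈ S, wt p := by
      refine Finset.sum_le_sum_of_subset_of_nonneg ?_ fun p hp _ => Cell_wt_nonneg (hS p hp)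
      intro p hp
      obtain ⟨κ, hκ, h2⟩ := Finset.mem_biUnion.1 hp
      exact hbsub κ hκ h2
    refine le_trans ?_ h1
    rw [Finset.sum_biUnion hbdisj, ← nsmul_eq_mul, ← Finset.sum_const]
    refine Finset.sum_le_sum fun κ hκ => ?_
    refine le_trans (pow_le_pow_left₀ (by linarith) (by linarith : (1 - μ) * h - C ≤
      (1 - μ) * h - C1) _) ?_
    refine hlow (fun i => (1 - μ) * ((κ i : ℝ) * h) + μ * z i) ((1 - μ) * h) (bx κ)
      (by linarith) (fun i => ?_) (fun p hp i => hS p (hbsub κ hκ hp) i) ?_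
    · have h2 : 0 ≤ 1 - μ := by linarith
      have h3 := hz i
      positivity
    · intro p hp
      rw [hbx]
      simp only [Fintype.mem_piFinset]
      exact fun i => Cell_mem_PI.2 (hp i)
  have hpos : 0 < ((1 - μ) * h - C) ^ nn := pow_pos (by linarith) _
  have hpos2 : 0 ≤ (h + C) ^ nn := pow_nonneg (by linarith) _
  rw [div_pow, div_mul_eq_mul_div, le_div_iff₀ hpos]
  calc (∑ p ∈ R, wt p) * ((1 - μ) * h - C) ^ nn
      ≤ ((R.image k).card * (h + C) ^ nn) * ((1 - μ) * h - C) ^ nn :=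
        mul_le_mul_of_nonneg_right hU hpos.le
    _ = (h + C) ^ nn * ((R.image k).card * ((1 - μ) * h - C) ^ nn) := by ring
    _ ≤ (h + C) ^ nn * ∑ p ∈ S, wt p := mul_le_mul_of_nonneg_left hL hpos2

end P031
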