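import Vale.Agent.Lib.P031.Imp

/-!
# P031: definitions.

Everything is measured in powers of one large parameter `σ`:
`s = σ^120 = log log x`, block length `b = σ^102`, tolerance `σ^84`, `y1 = σ^111`,
`y2 = σ^119`, `σ^113` (bound for the number of prime factors of the smooth tail),
slack `δ = 1/σ^4`, at most `σ^10` primes above `y1`.
-/

namespace P031

open Finset

/-- log log -/
noncomputable def ll (n : ℕ) : ℝ := Real.log (Real.log (n : ℝ))

open Classical in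
/-- the set of totient values `≤ x` -/
noncomputable def Vset (x : ℝ) : Finset ℕ :=
  (Finset.Icc 1 ⌊x⌋₊).filter (fun v => ∃ m : ℕ, Nat.totient m = v)

/-- the number of totient values `≤ x` -/
noncomputable def V (x : ℝ) : ℕ := (Vset x).card

/-- number of prime factors with multiplicity -/
def Om (n : ℕ) : ℕ := n.primeFactorsList.length

/-- largest prime factor (`0` for `n = 0, 1`) -/
def maxp (n : ℕ) : ℕ := n.primeFactors.sup id

/-- index of the block of `q` (blocks of length `σ^102` on the `log log` scale) -/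
noncomputable def blk (σ : ℝ) (q : ℕ) : ℕ := ⌊ll q / σ ^ 102⌋₊

/-- the number of prime factors (with multiplicity) of `n` in block `t` -/
noncomputable def cnt (σ : ℝ) (t n : ℕ) : ℕ :=
  (n.primeFactorsList.filter (fun q => blk σ q = t)).length

/-- number of blocks -/
noncomputable def Tm (σ : ℝ) : ℕ := ⌈σ ^ 18⌉₊ + 3

/-- universal bound for all integers which occur -/
noncomputable def EE (σ : ℝ) : ℕ := ⌊Real.exp (Real.exp (σ ^ 120 + 1))⌋₊

/-- the primes in the blocks `≥ 1` -/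
noncomputable def QS (σ : ℝ) : Finset ℕ :=
  (Finset.range (EE σ + 1)).filter (fun q => q.Prime ∧ 1 ≤ blk σ q)

/-- `x log x - x + 1` -/
noncomputable def QQ (x : ℝ) : ℝ := x * Real.log x - x + 1

open Classical in
/-- `QQ` cut off below `1` -/
noncomputable def Qp (x : ℝ) : ℝ := if x ≤ 1 then 0 else QQ x

/-- `a_k = QQ (k+1) - QQ k` -/
noncomputable def aa (k : ℕ) : ℝ :=
  ((k : ℝ) + 1) * Real.log ((k : ℝ) + 1) - (k : ℝ) * Real.log (k : ℝ) - 1

/-- the rarity functional -/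
noncomputable def II (σ : ℝ) (n : ℕ) : ℝ :=
  ∑ t ∈ Finset.Icc 1 (Tm σ), σ ^ 102 * Qp ((cnt σ t n : ℝ) / σ ^ 102)

/-- the functional `C_k(w)`: cost of `w` under `k` full rows -/
noncomputable def CC (σ : ℝ) (k : ℕ) (w : ℕ) : ℝ :=
  ∑ t ∈ Finset.Icc 1 (Tm σ), σ ^ 102 * (QQ ((k : ℝ) + (cnt σ t w : ℝ) / σ ^ 102) - QQ (k : ℝ))

/-- normal primes -/
def Normal (σ : ℝ) (p : ℕ) : Prop :=
  (∀ t : ℕ, 1 ≤ t → ((t : ℝ) + 2) * σ ^ 102 ≤ ll p →
    |(cnt σ t (p - 1) : ℝ) - σ ^ 102| ≤ σ ^ 84) ∧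
  (∀ t : ℕ, (cnt σ t (p - 1) : ℝ) ≤ 30 * σ ^ 102)

open Classical in
/-- the part of `m` composed of the primes `p` with `ll p ≤ t` -/
noncomputable def lowp (t : ℝ) (m : ℕ) : ℕ :=
  ∏ p ∈ m.primeFactors.filter (fun p => ll p ≤ t), p ^ m.factorization p

/-- `v` has no square factor `q^2`, `q` a prime of a block `≥ 1` -/
def Sq (σ : ℝ) (v : ℕ) : Prop := ∀ q : ℕ, q.Prime → 1 ≤ blk σ q → ¬ q ^ 2 ∣ v

/-- regular integers -/
def Rg (σ : ℝ) (v : ℕ) : Prop :=
  0 < v ∧ (Om v : ℝ) ≤ 20 * σ ^ 120 ∧ Sq σ v ∧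
    (∀ p : ℕ, p.Prime → σ ^ 111 < ll p → ¬ (p * (p - 1)) ∣ v)

/-- good preimages -/
def GoodPre (σ : ℝ) (m : ℕ) : Prop :=
  (∀ p ∈ m.primeFactors, σ ^ 111 < ll p → Normal σ p) ∧
  ((Om (Nat.totient (lowp (σ ^ 111) m)) : ℝ) ≤ σ ^ 113) ∧
  (∀ t : ℝ, σ ^ 119 ≤ t → II σ (Nat.totient (lowp t m)) ≤ (1 + 2 / σ ^ 4) * t)

/-- regular totient values all of whose preimages are good -/
def WW (σ : ℝ) (w : ℕ) : Prop :=
  Rg σ w ∧ (∃ m : ℕ, Nat.totient m = w) ∧ (∀ m : ℕ, Nat.totient m = w → GoodPre σ m)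

/-- the least possible largest prime factor of a preimage of `w` -/
noncomputable def PW (w : ℕ) : ℕ := sInf {k | ∃ m : ℕ, Nat.totient m = w ∧ maxp m = k}

open Classical in
/-- a preimage with the least possible largest prime factor -/
noncomputable def mW (w : ℕ) : ℕ :=
  if h : ∃ m : ℕ, Nat.totient m = w ∧ maxp m = PW w then h.choose else 1

open Classical in
/-- the good `w < EE σ` -/
noncomputable def Wfin (σ : ℝ) : Finset ℕ :=
  (Finset.Icc 1 (EE σ - 1)).filter (fun w => WW σ w)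

/-- number of free coordinates -/
def nn : ℕ := 121

/-- coordinates of a tuple, extended by zero -/
noncomputable def xx (p : Fin nn → ℕ) (k : ℕ) : ℝ := if h : k < nn then ll (p ⟨k, h⟩) else 0

/-- the constraint functional `B_k(x) = ∑_{j<k} a_{k-j} x_j + C_{k+1}` -/
noncomputable def BB (C : ℕ → ℝ) (x : ℕ → ℝ) (k : ℕ) : ℝ :=
  (∑ j ∈ Finset.range k, aa (k - j) * x j) + C (k + 1)

open Classical in
/-- relaxed tuples over `w` -/
noncomputable def RR (σ : ℝ) (w : ℕ) : Finset (Fin nn → ℕ) :=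
  (Fintype.piFinset (fun _ => (Finset.range (EE σ + 1)).filter Nat.Prime)).filter (fun p =>
    StrictMono p ∧ (∀ i, PW w < p i ∧ σ ^ 119 ≤ ll (p i) ∧ ll (p i) ≤ σ ^ 120 - σ) ∧
    (∀ k, k < nn → BB (fun j => CC σ j w) (xx p) k ≤ (1 + 3 / σ ^ 4) * xx p k) ∧
    BB (fun j => CC σ j w) (xx p) nn ≤ (1 + 4 / σ ^ 4) * σ ^ 120)

open Classical in
/-- strict tuples over `w` -/
noncomputable def SS (σ : ℝ) (w : ℕ) : Finset (Fin nn → ℕ) :=
  (Fintype.piFinset (fun _ => (Finset.range (EE σ + 1)).filter Nat.Prime)).filter (fun p =>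
    StrictMono p ∧ (∀ i, PW w < p i ∧ σ ^ 119 ≤ ll (p i) ∧ ll (p i) ≤ σ ^ 120 - σ) ∧
    (∀ k, k < nn → BB (fun j => CC σ j w) (xx p) k ≤ (1 - 3 / σ ^ 4) * xx p k) ∧
    BB (fun j => CC σ j w) (xx p) nn ≤ (1 - 3 / σ ^ 4) * σ ^ 120)

/-- the weight of a tuple -/
noncomputable def wt (p : Fin nn → ℕ) : ℝ := ∏ i, 1 / ((p i : ℝ) - 1)

/-- total weight of the relaxed tuples -/
noncomputable def TR (σ : ℝ) : ℝ := ∑ w ∈ Wfin σ, (1 / (w : ℝ)) * ∑ p ∈ RR σ w, wt p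

/-- total weight of the strict tuples -/
noncomputable def TS (σ : ℝ) : ℝ := ∑ w ∈ Wfin σ, (1 / (w : ℝ)) * ∑ p ∈ SS σ w, wt p

end P031
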