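import Vale.Agent.Lib.P031.Defs

/-!
# P031 Euler: Euler product upper bounds (Rankin).
-/

namespace P031

open Finset Real

/-- Proof: with `K` larger than all exponents, `n ↦ (n.factorization restricted to Q)` is injective from `S` into
the functions `Q → {0, …, K}`, the summand is the product over `q ∈ Q` of `h q k` (`1` if `k = 0`);
`Finset.prod_univ_sum` (or `Finset.prod_sum`). -/
theorem euler_le (Q : Finset ℕ) (h : ℕ → ℕ → ℝ) (H : ℕ → ℝ) (S : Finset ℕ)
    (hQ : ∀ q ∈ Q, q.Prime) (h0 : ∀ q k, 0 ≤ h q k)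
    (hH : ∀ q ∈ Q, ∀ K : ℕ, ∑ k ∈ Finset.Icc 1 K, h q k ≤ H q)
    (hS : ∀ n ∈ S, n ≠ 0 ∧ ∀ q ∈ n.primeFactors, q ∈ Q) :
    ∑ n ∈ S, ∏ q ∈ n.primeFactors, h q (n.factorization q) ≤ ∏ q ∈ Q, (1 + H q) := by
  classical
  set K : ℕ := S.sup id with hK
  set F : ℕ → ℕ → ℝ := fun q k => if k = 0 then 1 else h q k with hF
  have hF0 : ∀ q k, 0 ≤ F q k := by
    intro q k
    simp only [hF]
    split_ifs
    · exact zero_le_one
    · exact h0 q k
  have hsum : ∀ q ∈ Q, ∑ k ∈ range (K + 1), F q k ≤ 1 + H q := by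
    intro q hq
    rw [Finset.sum_range_succ']
    have e1 : F q 0 = 1 := by simp [hF]
    have e2 : ∑ k ∈ range K, F q (k + 1) = ∑ k ∈ Finset.Icc 1 K, h q k := by
      have e3 : ∀ k ∈ range K, F q (k + 1) = h q (k + 1) := by
        intro k _
        simp [hF]
      rw [Finset.sum_congr rfl e3, Finset.range_eq_Ico, Finset.sum_Ico_add' (fun k => h q k) 0 K 1,
        zero_add]
      rfl
    rw [e1, e2]
    have := hH q hq K
    linarith
  have hprod : ∏ q ∈ Q, ∑ k ∈ range (K + 1), F q k ≤ ∏ q ∈ Q, (1 + H q) :=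
    Finset.prod_le_prod (fun q _ => Finset.sum_nonneg fun k _ => hF0 q k) hsum
  refine le_trans ?_ hprod
  rw [Finset.prod_sum]
  set g : ℕ → ((q : ℕ) → q ∈ Q → ℕ) := fun n q _ => n.factorization q with hg
  have hinj : Set.InjOn g (S : Set ℕ) := by
    intro a ha b hb hab
    have ha' := hS a ha
    have hb' := hS b hb
    refine Nat.eq_of_factorization_eq ha'.1 hb'.1 fun q => ?_
    by_cases hq : q ∈ Q
    · have := congrFun (congrFun hab q) hq
      exact this
    · have h1 : q ∉ a.primeFactors := fun h => hq (ha'.2 q h)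
      have h2 : q ∉ b.primeFactors := fun h => hq (hb'.2 q h)
      rw [← Nat.support_factorization, Finsupp.notMem_support_iff] at h1 h2
      rw [h1, h2]
  have hval : ∀ n ∈ S, ∏ q ∈ n.primeFactors, h q (n.factorization q) =
      ∏ x ∈ Q.attach, F x.1 (g n x.1 x.2) := by
    intro n hn
    have e1 : ∏ x ∈ Q.attach, F x.1 (g n x.1 x.2) = ∏ q ∈ Q, F q (n.factorization q) :=
      Finset.prod_attach Q (fun q => F q (n.factorization q))
    rw [e1, ← Finset.prod_subset (s₁ := n.primeFactors) (s₂ := Q) (fun q hq => (hS n hn).2 q hq)]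
    · refine Finset.prod_congr rfl fun q hq => ?_
      have h3 : n.factorization q ≠ 0 := by
        rw [← Nat.support_factorization, Finsupp.mem_support_iff] at hq
        exact hq
      simp [hF, h3]
    · intro q _ hq
      have h3 : n.factorization q = 0 := by
        rw [← Nat.support_factorization, Finsupp.notMem_support_iff] at hq
        exact hq
      simp [hF, h3]
  rw [Finset.sum_congr rfl hval, ← Finset.sum_image (s := S) (g := g)
    (f := fun p => ∏ x ∈ Q.attach, F x.1 (p x.1 x.2)) hinj]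
  refine Finset.sum_le_sum_of_subset_of_nonneg ?_ fun p _ _ =>
    Finset.prod_nonneg fun x _ => hF0 _ _
  intro p hp
  obtain ⟨n, hn, rfl⟩ := Finset.mem_image.1 hp
  rw [Finset.mem_pi]
  intro q _
  rw [Finset.mem_range]
  have h4 : n ≤ K := Finset.le_sup (f := id) hn
  have h5 : n.factorization q < n := Nat.factorization_lt q (hS n hn).1
  show n.factorization q < K + 1
  omega

end P031
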