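import Vale.Agent.Lib.P031.Defs

/-!
# P031 Fac: the number of ordered factorizations of `n` into `d` factors is at most `d ^ Om n`.

Proof by induction on `n` (`Nat.recOnMul` or on `primeFactorsList`): if `n = q m`, `q` prime, every ordered factorization
`f` of `n` has an index `i` with `q ∣ f i`; dividing `f i` by `q` gives a factorization of `m`; the map
`f ↦ (i, f with f i / q)` (choose the least such `i`) is injective, so the count is at most `d` times the count for `m`.
-/

namespace P031

open Finset

theorem Fac_step (d q m : ℕ) (hq : q.Prime) (hm : m ≠ 0) :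
    (Nat.finMulAntidiag d (q * m)).card ≤ d * (Nat.finMulAntidiag d m).card := by
  classical
  have hsub : Nat.finMulAntidiag d (q * m) ⊆
      ((univ : Finset (Fin d)) ×ˢ Nat.finMulAntidiag d m).image
        (fun z => Function.update z.2 z.1 (q * z.2 z.1)) := by
    intro f hf
    rw [Nat.mem_finMulAntidiag] at hf
    obtain ⟨i, -, hi⟩ := (Prime.dvd_finsetProd_iff hq.prime f).1 (hf.1 ▸ Dvd.intro m rfl)
    obtain ⟨c, hc⟩ := hi
    rw [mem_image]
    refine ⟨(i, Function.update f i c), ?_, ?_⟩
    · rw [mem_product]
      refine ⟨mem_univ i, ?_⟩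
      rw [Nat.mem_finMulAntidiag]
      refine ⟨?_, hm⟩
      have h1 : q * ∏ j, Function.update f i c j = q * m := by
        rw [← hf.1, Finset.prod_update_of_mem (mem_univ i), ← mul_assoc, ← hc]
        exact (Finset.mul_prod_erase univ f (mem_univ i)) ▸ by rw [Finset.sdiff_singleton_eq_erase]
      exact Nat.eq_of_mul_eq_mul_left hq.pos h1
    · simp only [Function.update_self, Function.update_idem]
      rw [← hc]
      exact Function.update_eq_self i f
  calc (Nat.finMulAntidiag d (q * m)).card ≤ _ := card_le_card hsub
    _ ≤ _ := card_image_le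
    _ = d * (Nat.finMulAntidiag d m).card := by
      rw [card_product, card_univ, Fintype.card_fin]

theorem Fac_Om (q m : ℕ) (hq : q.Prime) (hm : m ≠ 0) : Om (q * m) = Om m + 1 := by
  unfold Om
  rw [(Nat.perm_primeFactorsList_mul hq.ne_zero hm).length_eq, List.length_append,
    Nat.primeFactorsList_prime hq, add_comm]
  rfl

theorem card_fac (d n : ℕ) (hn : n ≠ 0) : (Nat.finMulAntidiag d n).card ≤ d ^ (Om n) := by
  induction n using induction_on_primes with
  | zero => exact absurd rfl hn
  | one => simp [Om, Nat.finMulAntidiag_one]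
  | prime_mul q m hq ih =>
    have hm : m ≠ 0 := right_ne_zero_of_mul hn
    rw [Fac_Om q m hq hm, pow_succ']
    exact (Fac_step d q m hq hm).trans (Nat.mul_le_mul_left d (ih hm))

end P031
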