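import Vale.Agent.Lib.P031.Imp

/-!
# P031 SubsetSum: sum over the subsets of bounded size.
`∑_{C ⊆ S, |C| ≤ J} ∏_{p ∈ C} x_p ≤ (1 + ∑_{p ∈ S} x_p)^J`. Proof by induction on `J`: a nonempty `C` with `|C| ≤ J + 1` is
`insert a C'` with `a = min C`, `C' = C \ {a}`, so the sum for `J + 1` is at most `1 + ∑_a x_a · (sum for J)
≤ (1 + ∑ x)(1 + ∑ x)^J`.
-/

namespace P031

open Finset

theorem subset_sum (S : Finset ℕ) (x : ℕ → ℝ) (hx : ∀ p ∈ S, 0 ≤ x p) (J : ℕ) :
    ∑ C ∈ S.powerset.filter (fun C => C.card ≤ J), ∏ p ∈ C, x p ≤ (1 + ∑ p ∈ S, x p) ^ J := by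
  classical
  rw [Finset.sum_filter]
  induction S using Finset.induction_on generalizing J with
  | empty => simp
  | insert a S ha ih =>
    have hxa : 0 ≤ x a := hx a (Finset.mem_insert_self a S)
    have hxS : ∀ p ∈ S, 0 ≤ x p := fun p hp => hx p (Finset.mem_insert_of_mem hp)
    have hs : 0 ≤ ∑ p ∈ S, x p := Finset.sum_nonneg hxS
    rw [Finset.sum_powerset_insert ha, Finset.sum_insert ha]
    cases J with
    | zero =>
      have h2 : ∑ C ∈ S.powerset, (if (insert a C).card ≤ 0 then ∏ p ∈ insert a C, x p else 0)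
          = 0 := by
        apply Finset.sum_eq_zero
        intro C _
        rw [if_neg]
        have : 0 < (insert a C).card := Finset.card_pos.mpr ⟨a, Finset.mem_insert_self a C⟩
        omega
      rw [h2, add_zero]
      simp
    | succ J =>
      have h1 := ih hxS (J + 1)
      have h2 : ∑ C ∈ S.powerset, (if (insert a C).card ≤ J + 1 then ∏ p ∈ insert a C, x p else 0)
          = x a * ∑ C ∈ S.powerset, (if C.card ≤ J then ∏ p ∈ C, x p else 0) := by
        rw [Finset.mul_sum]
        apply Finset.sum_congr rfl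
        intro C hC
        have haC : a ∉ C := fun h => ha (Finset.mem_powerset.mp hC h)
        rw [Finset.card_insert_of_notMem haC, Finset.prod_insert haC]
        by_cases h : C.card ≤ J
        · rw [if_pos (by omega), if_pos h]
        · rw [if_neg (by omega), if_neg h, mul_zero]
      have h3 := mul_le_mul_of_nonneg_left (ih hxS J) hxa
      rw [h2]
      calc _ ≤ (1 + ∑ p ∈ S, x p) ^ (J + 1) + x a * (1 + ∑ p ∈ S, x p) ^ J := add_le_add h1 h3
        _ = (1 + ∑ p ∈ S, x p) ^ J * (1 + (x a + ∑ p ∈ S, x p)) := by ring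
        _ ≤ (1 + (x a + ∑ p ∈ S, x p)) ^ J * (1 + (x a + ∑ p ∈ S, x p)) := by
            apply mul_le_mul_of_nonneg_right _ (by linarith)
            exact pow_le_pow_left₀ (by linarith) (by linarith) J
        _ = (1 + (x a + ∑ p ∈ S, x p)) ^ (J + 1) := by ring

end P031
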