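import Vale.Agent.Lib.P031.PairDisj
import Vale.Agent.Lib.P031.SubsetSum
import Vale.Agent.Lib.P031.Mert

/-!
# P031 Pairs: the pair lemma.

Cancel the common primes: `C = P ∩ P'`, `d1 = (P \ C, f, P' \ C, f')`; `d ↦ (C, d1)` is injective, `vv P f = ∏_C (p-1) vv (P \ C) f`.
`DH σ d1`: `Adm` is inherited by subsets, `maxs P ∉ P'` so `maxs (P \ C) = maxs P`, `AP (P \ C) ≤ AP P` (`Rt` and `Qp` are monotone).
So `∑_d 1/vv ≤ ∑_C ∏_{p ∈ C} 1/(p-1) · exp(-2 σ^115)` by `disj_w` for each `C` (subset of the primes `≤ EE σ` with `ll > σ^111`,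
`|C| ≤ ⌊σ^10⌋`), and by `subset_sum`, `mert_int` the sum over `C` is `≤ (σ^120 + C0 + 2)^(σ^10) ≤ exp(σ^11)`.
`pairs_x`: for fixed `C`, `disj_x` with `X/∏_C (p-1)`.
-/

namespace P031

open Finset Real

theorem pairs_Qp_mono {x y : ℝ} (hxy : x ≤ y) : Qp x ≤ Qp y := by
  rcases le_total x 1 with hx | hx
  · have : Qp x = 0 := by
      unfold Qp
      rw [if_pos hx]
    rw [this]
    exact Qp_nonneg y
  · rw [Qp_eq hx, Qp_eq (hx.trans hxy)]
    exact QQ_mono hx hxy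

theorem pairs_AP_mono {σ : ℝ} (_hσ : 0 ≤ σ) {P Q : Finset ℕ} (h : P ⊆ Q) :
    AP σ P ≤ AP σ Q := by
  unfold AP
  refine Finset.sum_le_sum fun t _ => ?_
  refine mul_le_mul_of_nonneg_left (pairs_Qp_mono ?_) (by positivity)
  unfold Rt
  exact_mod_cast Finset.card_le_card (Finset.filter_subset_filter _ h)

theorem pairs_Adm_sub {σ : ℝ} {P Q : Finset ℕ} {f : ℕ} (h : P ⊆ Q) (hQ : Adm σ Q f) :
    Adm σ P f where
  pr := fun p hp => hQ.pr p (h hp)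
  cardP := le_trans (by exact_mod_cast Finset.card_le_card h) hQ.cardP
  fpos := hQ.fpos
  fsm := hQ.fsm
  fOm := hQ.fOm

/-- the product over the common primes -/
def pairsPrC (C : Finset ℕ) : ℕ := ∏ p ∈ C, (p - 1)

theorem pairs_vv {P C : Finset ℕ} (h : C ⊆ P) (f : ℕ) : vv P f = pairsPrC C * vv (P \ C) f := by
  unfold vv pairsPrC
  rw [← Finset.prod_sdiff h]
  ring

theorem pairs_prC_pos {C : Finset ℕ} (h : ∀ p ∈ C, p.Prime) : 0 < pairsPrC C := by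
  unfold pairsPrC
  refine Finset.prod_pos fun p hp => ?_
  have := (h p hp).two_le
  omega

/-- the common primes -/
def pairsCmn (d : Finset ℕ × ℕ × Finset ℕ × ℕ) : Finset ℕ := d.1 ∩ d.2.2.1

/-- the reduced pair -/
def pairsRed (d : Finset ℕ × ℕ × Finset ℕ × ℕ) : Finset ℕ × ℕ × Finset ℕ × ℕ :=
  (d.1 \ pairsCmn d, d.2.1, d.2.2.1 \ pairsCmn d, d.2.2.2)

theorem pairs_red_inj {d e : Finset ℕ × ℕ × Finset ℕ × ℕ} (h : pairsCmn d = pairsCmn e)
    (h' : pairsRed d = pairsRed e) : d = e := by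
  obtain ⟨P, f, P', f'⟩ := d
  obtain ⟨R, g, R', g'⟩ := e
  unfold pairsRed at h'
  simp only [Prod.mk.injEq] at h'
  obtain ⟨h1, h2, h3, h4⟩ := h'
  have e1 : P = (P \ pairsCmn (P, f, P', f')) ∪ pairsCmn (P, f, P', f') :=
    (Finset.sdiff_union_of_subset Finset.inter_subset_left).symm
  have e2 : R = (R \ pairsCmn (R, g, R', g')) ∪ pairsCmn (R, g, R', g') :=
    (Finset.sdiff_union_of_subset Finset.inter_subset_left).symm
  have e3 : P' = (P' \ pairsCmn (P, f, P', f')) ∪ pairsCmn (P, f, P', f') :=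
    (Finset.sdiff_union_of_subset Finset.inter_subset_right).symm
  have e4 : R' = (R' \ pairsCmn (R, g, R', g')) ∪ pairsCmn (R, g, R', g') :=
    (Finset.sdiff_union_of_subset Finset.inter_subset_right).symm
  have e5 : P = R := by rw [e1, e2, h1, h]
  have e6 : P' = R' := by rw [e3, e4, h3, h]
  rw [e5, e6, h2, h4]

theorem pairs_maxs_mem {P : Finset ℕ} (h : P.Nonempty) : maxs P ∈ P := by
  obtain ⟨x, hx, hx'⟩ := Finset.exists_mem_eq_sup P h id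
  unfold maxs
  rw [hx']
  exact hx

theorem pairs_maxs_sdiff {P C : Finset ℕ} (h : P.Nonempty) (hC : maxs P ∉ C) :
    maxs (P \ C) = maxs P := by
  apply le_antisymm
  · exact Finset.sup_mono Finset.sdiff_subset
  · exact Finset.le_sup (f := id) (Finset.mem_sdiff.2 ⟨pairs_maxs_mem h, hC⟩)

/-- the data of a colliding pair -/
def PairsPH (σ : ℝ) (d : Finset ℕ × ℕ × Finset ℕ × ℕ) : Prop :=
  Adm σ d.1 d.2.1 ∧ Adm σ d.2.2.1 d.2.2.2 ∧ vv d.1 d.2.1 = vv d.2.2.1 d.2.2.2 ∧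
      (vv d.1 d.2.1 : ℝ) ≤ Real.exp (Real.exp (σ ^ 120 + 1)) ∧
      d.1.Nonempty ∧ maxs d.1 ∉ d.2.2.1 ∧ σ ^ 119 ≤ ll (maxs d.1) ∧
      AP σ d.1 ≤ (1 - (5 / 2) / σ ^ 4) * ll (maxs d.1)

theorem pairs_cmn_prime {σ : ℝ} {d : Finset ℕ × ℕ × Finset ℕ × ℕ} (h : PairsPH σ d) :
    ∀ p ∈ pairsCmn d, p.Prime := fun p hp => (h.1.pr p (Finset.inter_subset_left hp)).1

theorem pairs_maxs_red {σ : ℝ} {d : Finset ℕ × ℕ × Finset ℕ × ℕ} (h : PairsPH σ d) :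
    maxs (pairsRed d).1 = maxs d.1 :=
  pairs_maxs_sdiff h.2.2.2.2.1 fun hm => h.2.2.2.2.2.1 (Finset.inter_subset_right hm)

theorem pairs_vv_red {d : Finset ℕ × ℕ × Finset ℕ × ℕ} :
    vv d.1 d.2.1 = pairsPrC (pairsCmn d) * vv (pairsRed d).1 (pairsRed d).2.1 :=
  pairs_vv Finset.inter_subset_left _

theorem pairs_red_DH {σ : ℝ} (hσ : 0 ≤ σ) {d : Finset ℕ × ℕ × Finset ℕ × ℕ} (h : PairsPH σ d) :
    DH σ (pairsRed d) := by
  have hp := pairs_prC_pos (pairs_cmn_prime h)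
  have hmax := pairs_maxs_red h
  obtain ⟨h1, h2, h3, h4, h5, h6, h7, h8⟩ := h
  have hv1 : vv d.1 d.2.1 = pairsPrC (pairsCmn d) * vv (pairsRed d).1 (pairsRed d).2.1 :=
    pairs_vv Finset.inter_subset_left _
  have hv2 : vv d.2.2.1 d.2.2.2 = pairsPrC (pairsCmn d) * vv (pairsRed d).2.2.1 (pairsRed d).2.2.2 :=
    pairs_vv Finset.inter_subset_right _
  have hle : vv (pairsRed d).1 (pairsRed d).2.1 ≤ vv d.1 d.2.1 := by
    rw [hv1]
    exact Nat.le_mul_of_pos_left _ hp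
  refine ⟨pairs_Adm_sub Finset.sdiff_subset h1, pairs_Adm_sub Finset.sdiff_subset h2, ?_,
    le_trans (by exact_mod_cast hle) h4, ?_, ?_, ?_, ?_⟩
  · rw [hv1, hv2] at h3
    exact Nat.eq_of_mul_eq_mul_left hp h3
  · rw [Finset.disjoint_left]
    intro x hx hx'
    have hx1 := Finset.mem_sdiff.1 hx
    have hx2 := Finset.mem_sdiff.1 hx'
    exact hx1.2 (Finset.mem_inter.2 ⟨hx1.1, hx2.1⟩)
  · exact ⟨maxs d.1, Finset.mem_sdiff.2 ⟨pairs_maxs_mem h5, fun hm =>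
      h6 (Finset.inter_subset_right hm)⟩⟩
  · rw [hmax]
    exact h7
  · rw [hmax]
    exact (pairs_AP_mono hσ Finset.sdiff_subset).trans h8

open Classical in
/-- the primes which can be common -/
noncomputable def pairsScm (σ : ℝ) : Finset ℕ :=
  (Finset.range (EE σ + 1)).filter (fun p => p.Prime ∧ σ ^ 111 < ll p)

theorem pairs_cmn_mem {σ : ℝ} (_hσ : 0 ≤ σ) {d : Finset ℕ × ℕ × Finset ℕ × ℕ} (h : PairsPH σ d) :
    pairsCmn d ∈ (pairsScm σ).powerset.filter (fun C => C.card ≤ ⌊σ ^ 10⌋₊) := by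
  rw [Finset.mem_filter, Finset.mem_powerset]
  constructor
  · intro p hp
    have h1 := h.1.pr p (Finset.inter_subset_left hp)
    unfold pairsScm
    rw [Finset.mem_filter, Finset.mem_range]
    exact ⟨by omega, h1.1, h1.2.1⟩
  · refine Nat.le_floor (le_trans ?_ h.1.cardP)
    exact_mod_cast Finset.card_le_card Finset.inter_subset_left

theorem pairs_sum_C : ∀ᶠ σ : ℝ in Filter.atTop,
    ∑ C ∈ (pairsScm σ).powerset.filter (fun C => C.card ≤ ⌊σ ^ 10⌋₊), 1 / (pairsPrC C : ℝ)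
      ≤ Real.exp (σ ^ 115) := by
  obtain ⟨K, hK1, hK⟩ := mert_int
  filter_upwards [Filter.eventually_ge_atTop (K + 10)] with σ hσ
  have hσ1 : (11 : ℝ) ≤ σ := by linarith
  have hσ0 : (0 : ℝ) ≤ σ := by linarith
  have hpr : ∀ p ∈ pairsScm σ, p.Prime ∧ σ ^ 111 ≤ ll p ∧ ll p ≤ σ ^ 120 + 1 := by
    intro p hp
    unfold pairsScm at hp
    rw [Finset.mem_filter, Finset.mem_range] at hp
    obtain ⟨h1, h2, h3⟩ := hp
    exact ⟨h2, h3.le, (le_EE_iff h2.two_le).1 (by omega)⟩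
  have h111 : σ ^ 111 ≤ σ ^ 120 + 1 := by
    have : σ ^ 111 ≤ σ ^ 120 := pow_le_pow_right₀ (by linarith) (by norm_num)
    linarith
  have h1 : ∑ p ∈ pairsScm σ, 1 / ((p : ℝ) - 1) ≤ (σ ^ 120 + 1 - σ ^ 111) + K :=
    hK _ _ (by positivity) h111 _ hpr
  have h2 : 1 + ∑ p ∈ pairsScm σ, 1 / ((p : ℝ) - 1) ≤ σ ^ 121 := by
    have h3 : σ ^ 121 = σ ^ 120 * σ := by ring
    have h4 : σ ≤ σ ^ 120 := by
      calc σ = σ ^ 1 := (pow_one σ).symm
        _ ≤ σ ^ 120 := pow_le_pow_right₀ (by linarith) (by norm_num)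
    have h5 : (0 : ℝ) ≤ σ ^ 111 := by positivity
    have h6 : σ ^ 120 * 11 ≤ σ ^ 120 * σ := mul_le_mul_of_nonneg_left hσ1 (by positivity)
    rw [h3]
    linarith
  have hnn : ∀ p ∈ pairsScm σ, (0 : ℝ) ≤ 1 / ((p : ℝ) - 1) := by
    intro p hp
    have h3 : (2 : ℝ) ≤ p := by exact_mod_cast (hpr p hp).1.two_le
    apply div_nonneg zero_le_one
    linarith
  have h3 := subset_sum (pairsScm σ) (fun p => 1 / ((p : ℝ) - 1)) hnn ⌊σ ^ 10⌋₊
  have h4 : ∑ C ∈ (pairsScm σ).powerset.filter (fun C => C.card ≤ ⌊σ ^ 10⌋₊), 1 / (pairsPrC C : ℝ)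
      = ∑ C ∈ (pairsScm σ).powerset.filter (fun C => C.card ≤ ⌊σ ^ 10⌋₊),
        ∏ p ∈ C, 1 / ((p : ℝ) - 1) := by
    refine Finset.sum_congr rfl fun C hC => ?_
    rw [Finset.mem_filter, Finset.mem_powerset] at hC
    unfold pairsPrC
    rw [Nat.cast_prod, Finset.prod_div_distrib, Finset.prod_const_one]
    congr 1
    refine Finset.prod_congr rfl fun p hp => ?_
    have h5 := (hpr p (hC.1 hp)).1.one_lt.le
    rw [Nat.cast_sub h5, Nat.cast_one]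
  rw [h4]
  refine h3.trans ?_
  have hS0 : 0 ≤ ∑ p ∈ pairsScm σ, 1 / ((p : ℝ) - 1) := Finset.sum_nonneg hnn
  calc (1 + ∑ p ∈ pairsScm σ, 1 / ((p : ℝ) - 1)) ^ ⌊σ ^ 10⌋₊
      ≤ (σ ^ 121) ^ ⌊σ ^ 10⌋₊ := pow_le_pow_left₀ (by linarith) h2 _
    _ ≤ (Real.exp (121 * σ)) ^ ⌊σ ^ 10⌋₊ := by
        apply pow_le_pow_left₀ (by positivity)
        have h5 : σ ≤ Real.exp σ := by
          have := Real.add_one_le_exp σ
          linarith
        calc σ ^ 121 ≤ (Real.exp σ) ^ 121 := pow_le_pow_left₀ hσ0 h5 _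
          _ = Real.exp (121 * σ) := by
              rw [← Real.exp_nat_mul]
              norm_num
    _ = Real.exp (⌊σ ^ 10⌋₊ * (121 * σ)) := by rw [← Real.exp_nat_mul]
    _ ≤ Real.exp (σ ^ 115) := by
        apply Real.exp_le_exp.mpr
        have h5 : (⌊σ ^ 10⌋₊ : ℝ) ≤ σ ^ 10 := Nat.floor_le (by positivity)
        have h6 : (121 : ℝ) ≤ σ ^ 2 := by nlinarith only [hσ1]
        calc (⌊σ ^ 10⌋₊ : ℝ) * (121 * σ) ≤ σ ^ 10 * (σ ^ 2 * σ) := by gcongr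
          _ = σ ^ 13 := by ring
          _ ≤ σ ^ 115 := pow_le_pow_right₀ (by linarith) (by norm_num)

theorem pairs_w_PH : ∀ᶠ σ : ℝ in Filter.atTop, ∀ D : Finset (Finset ℕ × ℕ × Finset ℕ × ℕ),
    (∀ d ∈ D, PairsPH σ d) → ∑ d ∈ D, 1 / (vv d.1 d.2.1 : ℝ) ≤ Real.exp (-(σ ^ 115)) := by
  filter_upwards [disj_w, pairs_sum_C, Filter.eventually_ge_atTop 0] with σ h1 h2 hσ
  intro D hD
  rw [← Finset.sum_fiberwise_of_maps_to (g := pairsCmn) (fun d hd => pairs_cmn_mem hσ (hD d hd))]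
  have h3 : ∀ C ∈ (pairsScm σ).powerset.filter (fun C => C.card ≤ ⌊σ ^ 10⌋₊),
      ∑ d ∈ D with pairsCmn d = C, 1 / (vv d.1 d.2.1 : ℝ)
        ≤ 1 / (pairsPrC C : ℝ) * Real.exp (-(2 * σ ^ 115)) := by
    intro C _
    have h4 : ∀ d ∈ D.filter (fun d => pairsCmn d = C), 1 / (vv d.1 d.2.1 : ℝ)
        = 1 / (pairsPrC C : ℝ) * (1 / (vv (pairsRed d).1 (pairsRed d).2.1 : ℝ)) := by
      intro d hd
      rw [Finset.mem_filter] at hd
      rw [pairs_vv_red, hd.2, Nat.cast_mul, one_div_mul_one_div]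
    rw [Finset.sum_congr rfl h4, ← Finset.mul_sum]
    refine mul_le_mul_of_nonneg_left ?_ (by positivity)
    have h5 : ∑ d ∈ D.filter (fun d => pairsCmn d = C), 1 / (vv (pairsRed d).1 (pairsRed d).2.1 : ℝ)
        = ∑ e ∈ (D.filter (fun d => pairsCmn d = C)).image pairsRed, 1 / (vv e.1 e.2.1 : ℝ) := by
      rw [Finset.sum_image]
      intro d hd e he hde
      rw [Finset.mem_coe, Finset.mem_filter] at hd he
      exact pairs_red_inj (hd.2.trans he.2.symm) hde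
    rw [h5]
    apply h1
    intro e he
    rw [Finset.mem_image] at he
    obtain ⟨d, hd, rfl⟩ := he
    exact pairs_red_DH hσ (hD d (Finset.mem_filter.1 hd).1)
  refine (Finset.sum_le_sum h3).trans ?_
  rw [← Finset.sum_mul]
  calc (∑ C ∈ (pairsScm σ).powerset.filter (fun C => C.card ≤ ⌊σ ^ 10⌋₊), 1 / (pairsPrC C : ℝ))
        * Real.exp (-(2 * σ ^ 115))
      ≤ Real.exp (σ ^ 115) * Real.exp (-(2 * σ ^ 115)) :=
        mul_le_mul_of_nonneg_right h2 (Real.exp_pos _).le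
    _ = Real.exp (-(σ ^ 115)) := by
        rw [← Real.exp_add]
        congr 1
        ring

theorem pairs_w : ∀ᶠ σ : ℝ in Filter.atTop, ∀ D : Finset (Finset ℕ × ℕ × Finset ℕ × ℕ),
    (∀ d ∈ D, Adm σ d.1 d.2.1 ∧ Adm σ d.2.2.1 d.2.2.2 ∧ vv d.1 d.2.1 = vv d.2.2.1 d.2.2.2 ∧
      (vv d.1 d.2.1 : ℝ) ≤ Real.exp (Real.exp (σ ^ 120 + 1)) ∧
      d.1.Nonempty ∧ maxs d.1 ∉ d.2.2.1 ∧ σ ^ 119 ≤ ll (maxs d.1) ∧
      AP σ d.1 ≤ (1 - (5 / 2) / σ ^ 4) * ll (maxs d.1)) →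
    ∑ d ∈ D, 1 / (vv d.1 d.2.1 : ℝ) ≤ Real.exp (-(σ ^ 115)) :=
  pairs_w_PH

theorem pairs_x : ∀ᶠ σ : ℝ in Filter.atTop, ∀ (X : ℝ) (D : Finset (Finset ℕ × ℕ × Finset ℕ × ℕ)),
    0 ≤ X → X ≤ Real.exp (Real.exp (σ ^ 120 + 1)) →
    (∀ d ∈ D, Adm σ d.1 d.2.1 ∧ Adm σ d.2.2.1 d.2.2.2 ∧ vv d.1 d.2.1 = vv d.2.2.1 d.2.2.2 ∧
      (vv d.1 d.2.1 : ℝ) ≤ X ∧
      d.1.Nonempty ∧ maxs d.1 ∉ d.2.2.1 ∧ σ ^ 120 - 1 ≤ ll (maxs d.1) ∧
      AP σ d.1 ≤ (1 - (5 / 2) / σ ^ 4) * ll (maxs d.1)) →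
    (D.card : ℝ) ≤ X * Real.exp (-(σ ^ 120)) * Real.exp (-(σ ^ 115)) := by
  filter_upwards [disj_x, pairs_sum_C, Filter.eventually_ge_atTop 2] with σ h1 h2 hσ2
  intro X D hX hX' hD
  have hσ : (0 : ℝ) ≤ σ := by linarith
  have h119 : σ ^ 119 ≤ σ ^ 120 - 1 := by
    have e : σ ^ 120 = σ ^ 119 * σ := by ring
    have h3 : (1 : ℝ) ≤ σ ^ 119 := one_le_pow₀ (by linarith)
    have h4 : σ ^ 119 * 2 ≤ σ ^ 119 * σ := mul_le_mul_of_nonneg_left hσ2 (by positivity)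
    linarith
  have hPH : ∀ d ∈ D, PairsPH σ d := by
    intro d hd
    obtain ⟨a1, a2, a3, a4, a5, a6, a7, a8⟩ := hD d hd
    exact ⟨a1, a2, a3, a4.trans hX', a5, a6, h119.trans a7, a8⟩
  have hc : (D.card : ℝ) = ∑ C ∈ (pairsScm σ).powerset.filter (fun C => C.card ≤ ⌊σ ^ 10⌋₊),
      ((D.filter (fun d => pairsCmn d = C)).card : ℝ) := by
    rw [Finset.card_eq_sum_card_fiberwise (f := pairsCmn)
      (fun d hd => pairs_cmn_mem hσ (hPH d hd)), Nat.cast_sum]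
  rw [hc]
  have h3 : ∀ C ∈ (pairsScm σ).powerset.filter (fun C => C.card ≤ ⌊σ ^ 10⌋₊),
      ((D.filter (fun d => pairsCmn d = C)).card : ℝ)
        ≤ 1 / (pairsPrC C : ℝ) * (X * Real.exp (-(σ ^ 120)) * Real.exp (-(2 * σ ^ 115))) := by
    intro C _
    have h5 : (D.filter (fun d => pairsCmn d = C)).card
        = ((D.filter (fun d => pairsCmn d = C)).image pairsRed).card := by
      rw [Finset.card_image_of_injOn]
      intro d hd e he hde
      rw [Finset.mem_coe, Finset.mem_filter] at hd he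
      exact pairs_red_inj (hd.2.trans he.2.symm) hde
    rw [h5]
    have h6 := h1 (X * (1 / (pairsPrC C : ℝ))) ((D.filter (fun d => pairsCmn d = C)).image pairsRed)
      (by positivity) (by
        intro e he
        rw [Finset.mem_image] at he
        obtain ⟨d, hd, rfl⟩ := he
        rw [Finset.mem_filter] at hd
        obtain ⟨a1, a2, a3, a4, a5, a6, a7, a8⟩ := hD d hd.1
        have hph := hPH d hd.1
        refine ⟨pairs_red_DH hσ hph, ?_, ?_⟩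
        · have hp := pairs_prC_pos (pairs_cmn_prime hph)
          rw [hd.2] at hp
          have hp' : (0 : ℝ) < pairsPrC C := by exact_mod_cast hp
          rw [pairs_vv_red, hd.2, Nat.cast_mul] at a4
          rw [mul_one_div, le_div_iff₀ hp', mul_comm]
          exact a4
        · rw [pairs_maxs_red hph]
          exact a7)
    refine h6.trans (le_of_eq ?_)
    ring
  refine (Finset.sum_le_sum h3).trans ?_
  rw [← Finset.sum_mul]
  calc (∑ C ∈ (pairsScm σ).powerset.filter (fun C => C.card ≤ ⌊σ ^ 10⌋₊), 1 / (pairsPrC C : ℝ))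
        * (X * Real.exp (-(σ ^ 120)) * Real.exp (-(2 * σ ^ 115)))
      ≤ Real.exp (σ ^ 115) * (X * Real.exp (-(σ ^ 120)) * Real.exp (-(2 * σ ^ 115))) :=
        mul_le_mul_of_nonneg_right h2 (by positivity)
    _ = X * Real.exp (-(σ ^ 120)) * (Real.exp (σ ^ 115) * Real.exp (-(2 * σ ^ 115))) := by ring
    _ = X * Real.exp (-(σ ^ 120)) * Real.exp (-(σ ^ 115)) := by
        rw [← Real.exp_add]
        congr 2
        ring

end P031
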