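import Vale.Agent.Lib.P031.LBDefs
import Vale.Agent.Lib.P031.APle
import Vale.Agent.Lib.P031.Pairs
import Vale.Agent.Lib.P031.PiB
import Vale.Agent.Lib.P031.Mert

/-!
# P031 LBPairs: few collisions between tuples.

Let `τ = (w, p, P0) ≠ τ' = (w', p', P0')` be in `LBT σ X` with the same value `v`.
Level `nn + 1` (top): `P0 ≠ P0'`, say `P0 > P0'`. The pair
`d = (insert P0 (PP σ w p nn), ff σ w, insert P0' (PP σ w' p' nn), ff σ w')` satisfies the hypotheses of `pairs_x`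
(`adm_PP`; `maxs = P0 ∉` second set as all its elements are `≤ P0' < P0`; `ll P0 ≥ ll √X = ll X - log 2 ≥ s - 1`;
`AP_le` and the constraint `BB nn ≤ (1 - 3/σ^4) s` give `AP ≤ (1 - 3/σ^4) s + σ^112 ≤ (1 - (5/2)/σ^4)(s - 1)`), and `τ, τ'` are
determined by `d` (`PP_inj`, `maxs`). So there are at most
`2 X exp(-s) exp(-σ^115)` ordered pairs of this kind.
Otherwise `P0 = P0'`. Let `k < nn` be the largest index with `p k ≠ p' k` (it exists: if `p = p'` then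
`w = w'` from the equality of the values). Say `p k > p' k`. Then `vt w p (k+1) = vt w' p' (k+1)` (cancel the common factors), and
`d = (PP σ w p (k+1), ff σ w, PP σ w' p' (k+1), ff σ w')` satisfies the hypotheses of `pairs_w`
(`AP ≤ (1 - 3/σ^4) x_k + σ^112 ≤ (1 - (5/2)/σ^4) x_k` as `x_k ≥ σ^119`). Given `d` and the common primes
`p_{k+1}, …, p_{nn-1}`, the number of common `P0 > √X` is at most `C · 2 · X/(∏_{i>k}(p_i - 1) vv d · log X)` (`pi_cheb` with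
`K = 2`). Sum over the common primes: `(s + C)^(nn)` (`mert_all`), over `d`: `pairs_w`. Total at most
`nn · 2 C (X/log X)(s + C)^nn exp(-σ^115)`.
Altogether at most `(X/log X) exp(-σ^100)` ordered pairs. -/

namespace P031

open Finset Real

open Classical in
/-- the facts at a fixed `σ` -/
structure LBPairs_H (σ : ℝ) : Prop where
  big : 4 ≤ σ
  adm : ∀ w ∈ Wfin σ, ∀ p : Fin nn → ℕ, StrictMono p →
    (∀ i, (p i).Prime ∧ Normal σ (p i) ∧ PW w < p i ∧ σ ^ 119 ≤ ll (p i) ∧ p i ≤ EE σ) →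
    (∀ k, k ≤ nn → Adm σ (PP σ w p k) (ff σ w) ∧ vv (PP σ w p k) (ff σ w) = vt w p k) ∧
    (∀ k (hk : k < nn), maxs (PP σ w p (k + 1)) = p ⟨k, hk⟩) ∧
    (∀ P0 : ℕ, P0.Prime → Normal σ P0 → P0 ≤ EE σ → (∀ i, p i < P0) →
      Adm σ (insert P0 (PP σ w p nn)) (ff σ w) ∧
      vv (insert P0 (PP σ w p nn)) (ff σ w) = (P0 - 1) * vt w p nn ∧
      maxs (insert P0 (PP σ w p nn)) = P0)
  inj : ∀ w ∈ Wfin σ, ∀ w' ∈ Wfin σ, ∀ p p' : Fin nn → ℕ,
    StrictMono p → StrictMono p' →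
    (∀ i, (p i).Prime ∧ Normal σ (p i) ∧ PW w < p i ∧ σ ^ 119 ≤ ll (p i) ∧ p i ≤ EE σ) →
    (∀ i, (p' i).Prime ∧ Normal σ (p' i) ∧ PW w' < p' i ∧ σ ^ 119 ≤ ll (p' i) ∧ p' i ≤ EE σ) →
    ∀ k, k ≤ nn → PP σ w p k = PP σ w' p' k → ff σ w = ff σ w' →
    w = w' ∧ ∀ i : Fin nn, i.val < k → p i = p' i
  ap : ∀ w ∈ Wfin σ, ∀ p : Fin nn → ℕ, StrictMono p →
    (∀ i, (p i).Prime ∧ Normal σ (p i) ∧ PW w < p i ∧ σ ^ 119 ≤ ll (p i) ∧ p i ≤ EE σ) →
    (∀ k, k < nn → AP σ (PP σ w p (k + 1)) ≤ BB (fun j => CC σ j w) (xx p) k + σ ^ 112) ∧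
    (∀ P0 : ℕ, P0.Prime → Normal σ P0 → P0 ≤ EE σ → (∀ i, p i < P0) →
      AP σ (insert P0 (PP σ w p nn)) ≤ BB (fun j => CC σ j w) (xx p) nn + σ ^ 112)
  pw : ∀ D : Finset (Finset ℕ × ℕ × Finset ℕ × ℕ),
    (∀ d ∈ D, Adm σ d.1 d.2.1 ∧ Adm σ d.2.2.1 d.2.2.2 ∧ vv d.1 d.2.1 = vv d.2.2.1 d.2.2.2 ∧
      (vv d.1 d.2.1 : ℝ) ≤ Real.exp (Real.exp (σ ^ 120 + 1)) ∧
      d.1.Nonempty ∧ maxs d.1 ∉ d.2.2.1 ∧ σ ^ 119 ≤ ll (maxs d.1) ∧
      AP σ d.1 ≤ (1 - (5 / 2) / σ ^ 4) * ll (maxs d.1)) →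
    ∑ d ∈ D, 1 / (vv d.1 d.2.1 : ℝ) ≤ Real.exp (-(σ ^ 115))
  px : ∀ (X : ℝ) (D : Finset (Finset ℕ × ℕ × Finset ℕ × ℕ)),
    0 ≤ X → X ≤ Real.exp (Real.exp (σ ^ 120 + 1)) →
    (∀ d ∈ D, Adm σ d.1 d.2.1 ∧ Adm σ d.2.2.1 d.2.2.2 ∧ vv d.1 d.2.1 = vv d.2.2.1 d.2.2.2 ∧
      (vv d.1 d.2.1 : ℝ) ≤ X ∧
      d.1.Nonempty ∧ maxs d.1 ∉ d.2.2.1 ∧ σ ^ 120 - 1 ≤ ll (maxs d.1) ∧
      AP σ d.1 ≤ (1 - (5 / 2) / σ ^ 4) * ll (maxs d.1)) →
    (D.card : ℝ) ≤ X * Real.exp (-(σ ^ 120)) * Real.exp (-(σ ^ 115))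

open Classical in
theorem LBPairs_ev : ∀ᶠ σ : ℝ in Filter.atTop, LBPairs_H σ := by
  filter_upwards [adm_PP, PP_inj, AP_le, pairs_w, pairs_x,
    Filter.eventually_ge_atTop (4 : ℝ)] with σ h1 h2 h3 h4 h5 h6
  exact ⟨h6, h1, h2, h3, h4, h5⟩

/-- membership facts -/
structure LBPairs_G (σ X : ℝ) (τ : ℕ × (Fin nn → ℕ) × ℕ) : Prop where
  hw : τ.1 ∈ Wfin σ
  mono : StrictMono τ.2.1
  pr : ∀ i, (τ.2.1 i).Prime ∧ Normal σ (τ.2.1 i) ∧ PW τ.1 < τ.2.1 i ∧ σ ^ 119 ≤ ll (τ.2.1 i) ∧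
    τ.2.1 i ≤ EE σ
  lt : ∀ i, τ.2.1 i < τ.2.2
  bk : ∀ k, k < nn → BB (fun j => CC σ j τ.1) (xx τ.2.1) k ≤ (1 - 3 / σ ^ 4) * xx τ.2.1 k
  bn : BB (fun j => CC σ j τ.1) (xx τ.2.1) nn ≤ (1 - 3 / σ ^ 4) * σ ^ 120
  pP : τ.2.2.Prime
  nP : Normal σ τ.2.2
  eP : τ.2.2 ≤ EE σ
  sP : Real.sqrt X < τ.2.2
  lP : σ ^ 120 - 1 ≤ ll τ.2.2
  vle : (valT τ : ℝ) ≤ X

open Classical in
theorem LBPairs_mem {σ X : ℝ} (hσ : 4 ≤ σ) (hX : Real.exp (Real.exp (σ ^ 120)) ≤ X)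
    {τ : ℕ × (Fin nn → ℕ) × ℕ} (h : τ ∈ LBT σ X) : LBPairs_G σ X τ := by
  unfold LBT at h
  rw [Finset.mem_filter, Finset.mem_product, Finset.mem_product] at h
  obtain ⟨⟨hw, hp, hP⟩, hS, hN, hNP, hsq, hv⟩ := h
  rw [Finset.mem_filter, Finset.mem_range] at hP
  rw [Fintype.mem_piFinset] at hp
  unfold SS at hS
  rw [Finset.mem_filter] at hS
  obtain ⟨-, hmono, hpr, hbk, hbn⟩ := hS
  have hX0 : 0 < X := (Real.exp_pos _).trans_le hX
  have hL : Real.exp (σ ^ 120) ≤ Real.log X := (Real.le_log_iff_exp_le hX0).mpr hX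
  have hL0 : 0 < Real.log X := (Real.exp_pos _).trans_le hL
  have hs : σ ≤ σ ^ 120 := le_self_pow₀ (by linarith) (by norm_num)
  have hlP : σ ^ 120 - 1 ≤ ll τ.2.2 := by
    rw [le_ll_iff hP.2.two_le]
    refine le_trans ?_ hsq.le
    rw [Real.le_sqrt' (Real.exp_pos _)]
    refine le_trans ?_ hX
    rw [← Real.exp_nat_mul, Real.exp_le_exp]
    have h1 : Real.exp (σ ^ 120 - 1) = Real.exp (σ ^ 120) / Real.exp 1 := Real.exp_sub _ _
    have h2 : (2:ℝ) ≤ Real.exp 1 := by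
      have := Real.exp_one_gt_d9
      linarith
    rw [h1]
    push_cast
    rw [← mul_div_assoc, div_le_iff₀ (Real.exp_pos _)]
    nlinarith only [Real.exp_pos (σ ^ 120), h2]
  refine ⟨hw, hmono, ?_, ?_, hbk, hbn, hP.2, hNP, by omega, hsq, hlP, hv⟩
  · intro i
    have h1 := Finset.mem_filter.mp (hp i)
    rw [Finset.mem_range] at h1
    exact ⟨h1.2, hN i, (hpr i).1, (hpr i).2.1, by omega⟩
  · intro i
    apply lt_of_ll_lt hP.2.two_le
    have := (hpr i).2.2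
    linarith

open Classical in
theorem LBPairs_pos {σ X : ℝ} {τ : ℕ × (Fin nn → ℕ) × ℕ} (h : LBPairs_G σ X τ) (k : ℕ) :
    0 < vt τ.1 τ.2.1 k := by
  unfold vt
  apply Nat.mul_pos
  · have h1 := h.hw
    unfold Wfin at h1
    rw [Finset.mem_filter, Finset.mem_Icc] at h1
    exact h1.1.1
  · apply Finset.prod_pos
    intro i _
    have := (h.pr i).1.two_le
    omega

theorem LBPairs_vt (w : ℕ) (p : Fin nn → ℕ) (k : Fin nn) :
    vt w p nn = vt w p (k.val + 1) * ∏ i, ((if k < i then p i else 2) - 1) := by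
  unfold vt
  have h1 : (Finset.univ.filter (fun i : Fin nn => i.val < nn)) = Finset.univ := by
    apply Finset.filter_true_of_mem
    intro i _
    exact i.isLt
  have h3 : ∏ i ∈ Finset.univ.filter (fun i : Fin nn => ¬ i.val < k.val + 1), (p i - 1) =
      ∏ i, ((if k < i then p i else 2) - 1) := by
    rw [Finset.prod_filter]
    apply Finset.prod_congr rfl
    intro i _
    by_cases h : k < i
    · have h2 : ¬ i.val < k.val + 1 := by
        have : k.val < i.val := h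
        omega
      rw [if_pos h2, if_pos h]
    · have h2 : i.val < k.val + 1 := by
        have : ¬ k.val < i.val := h
        omega
      rw [if_neg (not_not.mpr h2), if_neg h]
      rfl
  rw [h1, ← Finset.prod_filter_mul_prod_filter_not Finset.univ
    (fun i : Fin nn => i.val < k.val + 1), h3, mul_assoc]

open Classical in
theorem LBPairs_le_maxs {P : Finset ℕ} {q : ℕ} (h : q ∈ P) : q ≤ maxs P :=
  Finset.le_sup (f := id) h

/-- elements of `PP σ w p nn` are smaller than `P0` -/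
theorem LBPairs_PP_lt {σ X : ℝ} (H : LBPairs_H σ) {τ : ℕ × (Fin nn → ℕ) × ℕ}
    (h : LBPairs_G σ X τ) {q : ℕ} (hq : q ∈ PP σ τ.1 τ.2.1 nn) : q < τ.2.2 := by
  have h1 := (H.adm τ.1 h.hw τ.2.1 h.mono h.pr).2.1 120 (by unfold nn; norm_num)
  have h2 := LBPairs_le_maxs (show q ∈ PP σ τ.1 τ.2.1 (120 + 1) from hq)
  rw [h1] at h2
  exact lt_of_le_of_lt h2 (h.lt _)

open Classical in
theorem LBPairs_top {σ X : ℝ} (H : LBPairs_H σ) (hX : Real.exp (Real.exp (σ ^ 120)) ≤ X)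
    (hX2 : X ≤ Real.exp (Real.exp (σ ^ 120 + 1 / 2)))
    (S : Finset ((ℕ × (Fin nn → ℕ) × ℕ) × (ℕ × (Fin nn → ℕ) × ℕ)))
    (hS : ∀ z ∈ S, z.1 ∈ LBT σ X ∧ z.2 ∈ LBT σ X ∧ valT z.1 = valT z.2 ∧ z.2.2.2 < z.1.2.2) :
    (S.card : ℝ) ≤ X * Real.exp (-(σ ^ 120)) * Real.exp (-(σ ^ 115)) := by
  have hσ := H.big
  have hX0 : 0 < X := (Real.exp_pos _).trans_le hX
  have hG1 : ∀ z ∈ S, LBPairs_G σ X z.1 := fun z hz => LBPairs_mem hσ hX (hS z hz).1
  have hG2 : ∀ z ∈ S, LBPairs_G σ X z.2 := fun z hz => LBPairs_mem hσ hX (hS z hz).2.1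
  set f : (ℕ × (Fin nn → ℕ) × ℕ) × (ℕ × (Fin nn → ℕ) × ℕ) → Finset ℕ × ℕ × Finset ℕ × ℕ :=
    fun z => (insert z.1.2.2 (PP σ z.1.1 z.1.2.1 nn), ff σ z.1.1,
      insert z.2.2.2 (PP σ z.2.1 z.2.2.1 nn), ff σ z.2.1) with hf
  have hdet : ∀ τ τ' : ℕ × (Fin nn → ℕ) × ℕ, LBPairs_G σ X τ → LBPairs_G σ X τ' →
      insert τ.2.2 (PP σ τ.1 τ.2.1 nn) = insert τ'.2.2 (PP σ τ'.1 τ'.2.1 nn) →
      ff σ τ.1 = ff σ τ'.1 → τ = τ' := by
    intro τ τ' g g' h1 h2
    have m1 := ((H.adm τ.1 g.hw τ.2.1 g.mono g.pr).2.2 τ.2.2 g.pP g.nP g.eP g.lt).2.2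
    have m2 := ((H.adm τ'.1 g'.hw τ'.2.1 g'.mono g'.pr).2.2 τ'.2.2 g'.pP g'.nP g'.eP g'.lt).2.2
    have h3 : τ.2.2 = τ'.2.2 := by rw [← m1, ← m2, h1]
    have n1 : τ.2.2 ∉ PP σ τ.1 τ.2.1 nn := fun hh => lt_irrefl _ (LBPairs_PP_lt H g hh)
    have n2 : τ'.2.2 ∉ PP σ τ'.1 τ'.2.1 nn := fun hh => lt_irrefl _ (LBPairs_PP_lt H g' hh)
    have h4 : PP σ τ.1 τ.2.1 nn = PP σ τ'.1 τ'.2.1 nn := by
      rw [← Finset.erase_insert n1, ← Finset.erase_insert n2, h1, h3]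
    obtain ⟨e1, e2⟩ := H.inj τ.1 g.hw τ'.1 g'.hw τ.2.1 τ'.2.1 g.mono g'.mono g.pr g'.pr nn le_rfl
      h4 h2
    have e3 : τ.2.1 = τ'.2.1 := funext fun i => e2 i i.isLt
    exact Prod.ext e1 (Prod.ext e3 h3)
  have hinj : Set.InjOn f S := by
    intro z hz z' hz' he
    rw [hf] at he
    simp only [Prod.mk.injEq] at he
    obtain ⟨a1, a2, a3, a4⟩ := he
    have b1 := hdet z.1 z'.1 (hG1 z hz) (hG1 z' hz') a1 a2
    have b2 := hdet z.2 z'.2 (hG2 z hz) (hG2 z' hz') a3 a4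
    exact Prod.ext b1 b2
  rw [← Finset.card_image_of_injOn hinj]
  refine H.px X (S.image f) hX0.le (hX2.trans ?_) ?_
  · rw [Real.exp_le_exp, Real.exp_le_exp]
    linarith
  · intro d hd
    obtain ⟨z, hz, rfl⟩ := Finset.mem_image.mp hd
    obtain ⟨-, -, hval, hlt⟩ := hS z hz
    have g1 := hG1 z hz
    have g2 := hG2 z hz
    obtain ⟨A1, A2, A3⟩ := (H.adm z.1.1 g1.hw z.1.2.1 g1.mono g1.pr).2.2 z.1.2.2 g1.pP g1.nP g1.eP g1.lt
    obtain ⟨B1, B2, B3⟩ := (H.adm z.2.1 g2.hw z.2.2.1 g2.mono g2.pr).2.2 z.2.2.2 g2.pP g2.nP g2.eP g2.lt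
    have hap := (H.ap z.1.1 g1.hw z.1.2.1 g1.mono g1.pr).2 z.1.2.2 g1.pP g1.nP g1.eP g1.lt
    simp only [hf]
    refine ⟨A1, B1, ?_, ?_, Finset.insert_nonempty _ _, ?_, ?_, ?_⟩
    · rw [A2, B2]
      exact hval
    · rw [A2]
      exact g1.vle
    · rw [A3, Finset.mem_insert, not_or]
      refine ⟨hlt.ne', fun hh => ?_⟩
      exact absurd (LBPairs_PP_lt H g2 hh) (not_lt.mpr hlt.le)
    · rw [A3]
      exact g1.lP
    · rw [A3]
      have hbn := g1.bn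
      have hl := g1.lP
      have hσ4 : 0 < σ ^ 4 := by positivity
      have e0 : (5 / 2) / σ ^ 4 ≤ 1 := by
        rw [div_le_one hσ4]
        calc (5 / 2 : ℝ) ≤ 4 := by norm_num
          _ ≤ σ := hσ
          _ ≤ σ ^ 4 := le_self_pow₀ (by linarith) (by norm_num)
      have e1 : (1 - 5 / 2 / σ ^ 4) * (σ ^ 120 - 1) ≤ (1 - 5 / 2 / σ ^ 4) * ll z.1.2.2 :=
        mul_le_mul_of_nonneg_left hl (by linarith)
      have e2 : (3 / σ ^ 4) * σ ^ 120 = 3 * σ ^ 116 := by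
        have : σ ^ 120 = σ ^ 4 * σ ^ 116 := by ring
        rw [this]
        field_simp
      have e3 : (5 / 2 / σ ^ 4) * σ ^ 120 = 5 / 2 * σ ^ 116 := by
        have : σ ^ 120 = σ ^ 4 * σ ^ 116 := by ring
        rw [this]
        field_simp
      have e4 : σ ^ 116 = σ ^ 4 * σ ^ 112 := by ring
      have e5 : (1:ℝ) ≤ σ ^ 112 := one_le_pow₀ (by linarith)
      have e6 : (4:ℝ) ≤ σ ^ 4 := hσ.trans (le_self_pow₀ (by linarith) (by norm_num))
      have e7 : 4 * σ ^ 112 ≤ σ ^ 116 := by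
        rw [e4]
        exact mul_le_mul_of_nonneg_right e6 (by linarith)
      have e8 : 0 ≤ 5 / 2 / σ ^ 4 := by positivity
      calc AP σ (insert z.1.2.2 (PP σ z.1.1 z.1.2.1 nn)) ≤ (1 - 3 / σ ^ 4) * σ ^ 120 + σ ^ 112 := by
            linarith
        _ = σ ^ 120 - 3 * σ ^ 116 + σ ^ 112 := by rw [sub_mul, e2, one_mul]
        _ ≤ σ ^ 120 - 5 / 2 * σ ^ 116 - 1 := by linarith
        _ ≤ (1 - 5 / 2 / σ ^ 4) * (σ ^ 120 - 1) := by
            have : (1 - 5 / 2 / σ ^ 4) * (σ ^ 120 - 1) =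
              σ ^ 120 - (5 / 2 / σ ^ 4) * σ ^ 120 - 1 + 5 / 2 / σ ^ 4 := by ring
            rw [this, e3]
            linarith
        _ ≤ _ := e1

open Classical in
theorem LBPairs_mid {σ X C C' : ℝ} (H : LBPairs_H σ) (hX : Real.exp (Real.exp (σ ^ 120)) ≤ X)
    (hX2 : X ≤ Real.exp (Real.exp (σ ^ 120 + 1 / 2))) (hC1 : 1 ≤ C) (hCX : C ≤ X) (hC'1 : 1 ≤ C')
    (hC : ∀ (X K : ℝ) (d : ℕ) (S : Finset ℕ), C ≤ X → 1 ≤ K → 1 ≤ d →
      (∀ P ∈ S, P.Prime ∧ (((P - 1) * d : ℕ) : ℝ) ≤ X ∧ Real.log X / K ≤ Real.log (P : ℝ)) →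
      (S.card : ℝ) ≤ C * K * X / (d * Real.log X))
    (hC' : ∀ β : ℝ, 0 ≤ β → ∀ S : Finset ℕ, (∀ p ∈ S, p.Prime ∧ ll p ≤ β) →
      ∑ p ∈ S, 1 / ((p : ℝ) - 1) ≤ β + C') (k : Fin nn)
    (S : Finset ((ℕ × (Fin nn → ℕ) × ℕ) × (ℕ × (Fin nn → ℕ) × ℕ)))
    (hS : ∀ z ∈ S, z.1 ∈ LBT σ X ∧ z.2 ∈ LBT σ X ∧ valT z.1 = valT z.2 ∧ z.2.2.2 = z.1.2.2 ∧
      z.2.2.1 k < z.1.2.1 k ∧ ∀ j, k < j → z.1.2.1 j = z.2.2.1 j) :
    (S.card : ℝ) ≤ 2 * C * (X / Real.log X) * Real.exp (-(σ ^ 115)) * (σ ^ 120 + 1 + C') ^ nn := by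
  have hσ := H.big
  have hX0 : 0 < X := (Real.exp_pos _).trans_le hX
  have hL : Real.exp (σ ^ 120) ≤ Real.log X := (Real.le_log_iff_exp_le hX0).mpr hX
  have hL0 : 0 < Real.log X := (Real.exp_pos _).trans_le hL
  have hs0 : 0 ≤ σ ^ 120 := by positivity
  have hG1 : ∀ z ∈ S, LBPairs_G σ X z.1 := fun z hz => LBPairs_mem hσ hX (hS z hz).1
  have hG2 : ∀ z ∈ S, LBPairs_G σ X z.2 := fun z hz => LBPairs_mem hσ hX (hS z hz).2.1
  set f : (ℕ × (Fin nn → ℕ) × ℕ) × (ℕ × (Fin nn → ℕ) × ℕ) → Finset ℕ × ℕ × Finset ℕ × ℕ :=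
    fun z => (PP σ z.1.1 z.1.2.1 (k.val + 1), ff σ z.1.1,
      PP σ z.2.1 z.2.2.1 (k.val + 1), ff σ z.2.1) with hf
  set u : (ℕ × (Fin nn → ℕ) × ℕ) × (ℕ × (Fin nn → ℕ) × ℕ) → (Fin nn → ℕ) :=
    fun z i => if k < i then z.1.2.1 i else 2 with hu
  set D := S.image f with hD
  set T : Fin nn → Finset ℕ := fun i => if k < i then (Finset.range (EE σ + 1)).filter Nat.Prime
    else {2} with hT
  set U := Fintype.piFinset T with hU
  -- values
  have hvt : ∀ z ∈ S, vt z.1.1 z.1.2.1 (k.val + 1) = vt z.2.1 z.2.2.1 (k.val + 1) := by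
    intro z hz
    obtain ⟨-, -, hval, hP, -, hj⟩ := hS z hz
    unfold valT at hval
    rw [hP, LBPairs_vt z.1.1 z.1.2.1 k, LBPairs_vt z.2.1 z.2.2.1 k] at hval
    have h1 : ∏ i, ((if k < i then z.1.2.1 i else 2) - 1) =
        ∏ i, ((if k < i then z.2.2.1 i else 2) - 1) := by
      apply Finset.prod_congr rfl
      intro i _
      by_cases h : k < i
      · rw [if_pos h, if_pos h, hj i h]
      · rw [if_neg h, if_neg h]
    rw [h1] at hval
    have h2 : 0 < z.1.2.2 - 1 := by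
      have := (hG1 z hz).pP.two_le
      omega
    have h3 : 0 < ∏ i, ((if k < i then z.2.2.1 i else 2) - 1) := by
      apply Finset.prod_pos
      intro i _
      split_ifs
      · have := ((hG2 z hz).pr i).1.two_le
        omega
      · norm_num
    have h4 := Nat.eq_of_mul_eq_mul_left h2 hval
    exact Nat.eq_of_mul_eq_mul_right h3 h4
  have hvv : ∀ z ∈ S, vv (f z).1 (f z).2.1 = vt z.1.1 z.1.2.1 (k.val + 1) := by
    intro z hz
    have g1 := hG1 z hz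
    exact ((H.adm z.1.1 g1.hw z.1.2.1 g1.mono g1.pr).1 (k.val + 1) k.isLt).2
  have hvalT : ∀ z ∈ S, valT z.1 =
      (z.1.2.2 - 1) * (vv (f z).1 (f z).2.1 * ∏ i, (u z i - 1)) := by
    intro z hz
    unfold valT
    rw [LBPairs_vt z.1.1 z.1.2.1 k, hvv z hz]
  have hupos : ∀ z ∈ S, 0 < ∏ i, (u z i - 1) := by
    intro z hz
    apply Finset.prod_pos
    intro i _
    simp only [hu]
    split_ifs
    · have := ((hG1 z hz).pr i).1.two_le
      omega
    · norm_num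
  have hvvpos : ∀ z ∈ S, 0 < vv (f z).1 (f z).2.1 := by
    intro z hz
    rw [hvv z hz]
    exact LBPairs_pos (hG1 z hz) _
  -- sum over `D`
  have hDsum : ∑ d ∈ D, 1 / (vv d.1 d.2.1 : ℝ) ≤ Real.exp (-(σ ^ 115)) := by
    refine H.pw D ?_
    intro d hd
    obtain ⟨z, hz, rfl⟩ := Finset.mem_image.mp hd
    obtain ⟨-, -, hval, hP, hlt, hj⟩ := hS z hz
    have g1 := hG1 z hz
    have g2 := hG2 z hz
    obtain ⟨A1, A2, -⟩ := H.adm z.1.1 g1.hw z.1.2.1 g1.mono g1.pr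
    obtain ⟨B1, B2, -⟩ := H.adm z.2.1 g2.hw z.2.2.1 g2.mono g2.pr
    have A3 := A2 k.val k.isLt
    have B3 := B2 k.val k.isLt
    have hap := (H.ap z.1.1 g1.hw z.1.2.1 g1.mono g1.pr).1 k.val k.isLt
    have hmax : maxs (f z).1 = z.1.2.1 k := A3
    refine ⟨(A1 (k.val + 1) k.isLt).1, (B1 (k.val + 1) k.isLt).1, ?_, ?_, ?_, ?_, ?_, ?_⟩
    · rw [hvv z hz, hvt z hz]
      exact ((B1 (k.val + 1) k.isLt).2).symm
    · have h1 : vv (f z).1 (f z).2.1 ≤ valT z.1 := by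
        rw [hvalT z hz]
        have h2 : 1 ≤ z.1.2.2 - 1 := by
          have := g1.pP.two_le
          omega
        have h3 := hupos z hz
        calc vv (f z).1 (f z).2.1 ≤ vv (f z).1 (f z).2.1 * ∏ i, (u z i - 1) :=
              Nat.le_mul_of_pos_right _ h3
          _ ≤ _ := Nat.le_mul_of_pos_left _ h2
      have h2 : (vv (f z).1 (f z).2.1 : ℝ) ≤ (valT z.1 : ℝ) := by exact_mod_cast h1
      refine (h2.trans g1.vle).trans (hX2.trans ?_)
      rw [Real.exp_le_exp, Real.exp_le_exp]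
      linarith
    · by_contra hne
      rw [Finset.not_nonempty_iff_eq_empty] at hne
      have h1 : maxs (f z).1 = 0 := by
        rw [hne]
        rfl
      rw [hmax] at h1
      exact (g1.pr k).1.ne_zero h1
    · rw [hmax]
      intro hh
      have h1 := LBPairs_le_maxs hh
      have h2 : maxs (f z).2.2.1 = z.2.2.1 k := B3
      rw [h2] at h1
      omega
    · rw [hmax]
      exact (g1.pr k).2.2.2.1
    · rw [hmax]
      have hbk := g1.bk k.val k.isLt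
      have hxx : xx z.1.2.1 k.val = ll (z.1.2.1 k) := by
        unfold xx
        rw [dif_pos k.isLt]
      rw [hxx] at hbk
      have hl := (g1.pr k).2.2.2.1
      have hσ4 : 0 < σ ^ 4 := by positivity
      have e1 : σ ^ 115 ≤ (1 / σ ^ 4) * ll (z.1.2.1 k) := by
        have : σ ^ 115 = (1 / σ ^ 4) * σ ^ 119 := by
          have h5 : σ ^ 119 = σ ^ 4 * σ ^ 115 := by ring
          rw [h5]
          field_simp
        rw [this]
        exact mul_le_mul_of_nonneg_left hl (by positivity)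
      have e2 : 2 * σ ^ 112 ≤ σ ^ 115 := by
        have h5 : σ ^ 115 = σ ^ 3 * σ ^ 112 := by ring
        have h6 : (2:ℝ) ≤ σ ^ 3 := (show (2:ℝ) ≤ σ by linarith).trans
          (le_self_pow₀ (by linarith) (by norm_num))
        rw [h5]
        exact mul_le_mul_of_nonneg_right h6 (by positivity)
      have e3 : (1 - 3 / σ ^ 4) * ll (z.1.2.1 k) + σ ^ 112 ≤
          (1 - 5 / 2 / σ ^ 4) * ll (z.1.2.1 k) := by
        have : (1 - 5 / 2 / σ ^ 4) * ll (z.1.2.1 k) = (1 - 3 / σ ^ 4) * ll (z.1.2.1 k) +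
          1 / 2 * ((1 / σ ^ 4) * ll (z.1.2.1 k)) := by ring
        rw [this]
        linarith
      refine le_trans ?_ e3
      exact hap.trans (by linarith)
  -- sum over `U`
  have hUsum : ∑ v ∈ U, ∏ i, 1 / ((v i : ℝ) - 1) ≤ (σ ^ 120 + 1 + C') ^ nn := by
    rw [hU, ← Finset.prod_univ_sum T (fun _ q => 1 / ((q : ℝ) - 1))]
    have h1 : ∀ i : Fin nn, 0 ≤ ∑ q ∈ T i, 1 / ((q : ℝ) - 1) ∧
        ∑ q ∈ T i, 1 / ((q : ℝ) - 1) ≤ σ ^ 120 + 1 + C' := by
      intro i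
      simp only [hT]
      split_ifs with h
      · constructor
        · apply Finset.sum_nonneg
          intro q hq
          have h2 : (2 : ℝ) ≤ q := by exact_mod_cast (Finset.mem_filter.mp hq).2.two_le
          apply one_div_nonneg.mpr
          linarith
        · apply hC' (σ ^ 120 + 1) (by linarith)
          intro q hq
          rw [Finset.mem_filter, Finset.mem_range] at hq
          exact ⟨hq.2, (le_EE_iff hq.2.two_le).mp (by omega)⟩
      · rw [Finset.sum_singleton]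
        constructor
        · norm_num
        · norm_num
          linarith
    calc ∏ i, ∑ q ∈ T i, 1 / ((q : ℝ) - 1) ≤ ∏ _i : Fin nn, (σ ^ 120 + 1 + C') :=
          Finset.prod_le_prod (fun i _ => (h1 i).1) (fun i _ => (h1 i).2)
      _ = (σ ^ 120 + 1 + C') ^ nn := by
          rw [Finset.prod_const, Finset.card_univ, Fintype.card_fin]
  -- the fibres
  have hmaps : ∀ z ∈ S, (f z, u z) ∈ D ×ˢ U := by
    intro z hz
    rw [Finset.mem_product]
    refine ⟨Finset.mem_image_of_mem f hz, ?_⟩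
    rw [hU, Fintype.mem_piFinset]
    intro i
    simp only [hT, hu]
    split_ifs
    · rw [Finset.mem_filter, Finset.mem_range]
      have := (hG1 z hz).pr i
      exact ⟨by omega, this.1⟩
    · exact Finset.mem_singleton_self _
  have hfib : ∀ b ∈ D ×ˢ U, ((S.filter (fun z => (f z, u z) = b)).card : ℝ) ≤
      2 * C * (X / Real.log X) * ((1 / (vv b.1.1 b.1.2.1 : ℝ)) * ∏ i, 1 / ((b.2 i : ℝ) - 1)) := by
    intro b hb
    rw [Finset.mem_product] at hb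
    have hb1 : 0 < vv b.1.1 b.1.2.1 := by
      obtain ⟨z, hz, hzb⟩ := Finset.mem_image.mp hb.1
      rw [← hzb]
      exact hvvpos z hz
    have hb2 : ∀ i, 2 ≤ b.2 i := by
      intro i
      have h1 := hb.2
      rw [hU, Fintype.mem_piFinset] at h1
      have h2 := h1 i
      simp only [hT] at h2
      split_ifs at h2
      · exact (Finset.mem_filter.mp h2).2.two_le
      · rw [Finset.mem_singleton] at h2
        omega
    set dd : ℕ := vv b.1.1 b.1.2.1 * ∏ i, (b.2 i - 1) with hdd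
    have hddpos : 1 ≤ dd := by
      apply Nat.mul_pos hb1
      apply Finset.prod_pos
      intro i _
      have := hb2 i
      omega
    have hinj : Set.InjOn (fun z : (ℕ × (Fin nn → ℕ) × ℕ) × (ℕ × (Fin nn → ℕ) × ℕ) => z.1.2.2)
        (S.filter (fun z => (f z, u z) = b)) := by
      intro z hz z' hz' he
      rw [Finset.mem_coe, Finset.mem_filter] at hz hz'
      have he' : z.1.2.2 = z'.1.2.2 := he
      obtain ⟨hz1, hz2⟩ := hz
      obtain ⟨hz'1, hz'2⟩ := hz'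
      rw [← hz'2] at hz2
      obtain ⟨e1, e2⟩ := Prod.ext_iff.mp hz2
      simp only [hf, Prod.mk.injEq] at e1
      obtain ⟨a1, a2, a3, a4⟩ := e1
      have g1 := hG1 z hz1
      have g2 := hG2 z hz1
      have g1' := hG1 z' hz'1
      have g2' := hG2 z' hz'1
      obtain ⟨c1, c2⟩ := H.inj z.1.1 g1.hw z'.1.1 g1'.hw z.1.2.1 z'.1.2.1 g1.mono g1'.mono
        g1.pr g1'.pr (k.val + 1) k.isLt a1 a2
      obtain ⟨d1, d2⟩ := H.inj z.2.1 g2.hw z'.2.1 g2'.hw z.2.2.1 z'.2.2.1 g2.mono g2'.mono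
        g2.pr g2'.pr (k.val + 1) k.isLt a3 a4
      have htail : ∀ i, k < i → z.1.2.1 i = z'.1.2.1 i := by
        intro i hi
        have h1 : u z i = u z' i := congrFun e2 i
        simp only [hu] at h1
        rw [if_pos hi, if_pos hi] at h1
        exact h1
      have c3 : z.1.2.1 = z'.1.2.1 := by
        funext i
        by_cases hi : k < i
        · exact htail i hi
        · apply c2
          have : ¬ k.val < i.val := hi
          omega
      have d3 : z.2.2.1 = z'.2.2.1 := by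
        funext i
        by_cases hi : k < i
        · rw [← (hS z hz1).2.2.2.2.2 i hi, ← (hS z' hz'1).2.2.2.2.2 i hi]
          exact htail i hi
        · apply d2
          have : ¬ k.val < i.val := hi
          omega
      have d4 : z.2.2.2 = z'.2.2.2 := by
        rw [(hS z hz1).2.2.2.1, (hS z' hz'1).2.2.2.1]
        exact he'
      exact Prod.ext (Prod.ext c1 (Prod.ext c3 he')) (Prod.ext d1 (Prod.ext d3 d4))
    rw [← Finset.card_image_of_injOn hinj]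
    have h1 := hC X 2 dd ((S.filter (fun z => (f z, u z) = b)).image (fun z => z.1.2.2)) hCX
      (by norm_num) hddpos (by
      intro P hP
      obtain ⟨z, hz, rfl⟩ := Finset.mem_image.mp hP
      obtain ⟨hz1, hz2⟩ := Finset.mem_filter.mp hz
      have g1 := hG1 z hz1
      refine ⟨g1.pP, ?_, ?_⟩
      · have h2 := hvalT z hz1
        have h3 : f z = b.1 := by rw [← hz2]
        have h4 : u z = b.2 := by rw [← hz2]
        rw [h3, h4] at h2
        show (((z.1.2.2 - 1) * dd : ℕ) : ℝ) ≤ X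
        rw [hdd, ← h2]
        exact g1.vle
      · have h2 : 0 < Real.sqrt X := Real.sqrt_pos.mpr hX0
        have h3 := Real.log_le_log h2 g1.sP.le
        rw [Real.log_sqrt hX0.le] at h3
        exact h3)
    refine h1.trans (le_of_eq ?_)
    rw [hdd]
    push_cast
    have h5 : ∏ i, 1 / ((b.2 i : ℝ) - 1) = 1 / ∏ i, ((b.2 i : ℝ) - 1) := by
      rw [Finset.prod_div_distrib, Finset.prod_const_one]
    have h6 : ∏ i, (((b.2 i - 1 : ℕ)) : ℝ) = ∏ i, ((b.2 i : ℝ) - 1) := by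
      apply Finset.prod_congr rfl
      intro i _
      have := hb2 i
      rw [Nat.cast_sub (by omega), Nat.cast_one]
    rw [h5, h6]
    have h7 : (vv b.1.1 b.1.2.1 : ℝ) ≠ 0 := by exact_mod_cast hb1.ne'
    have h8 : ∏ i, ((b.2 i : ℝ) - 1) ≠ 0 := by
      apply ne_of_gt
      apply Finset.prod_pos
      intro i _
      have : (2:ℝ) ≤ b.2 i := by exact_mod_cast hb2 i
      linarith
    field_simp
  have hcard : (S.card : ℝ) = ∑ b ∈ D ×ˢ U, ((S.filter (fun z => (f z, u z) = b)).card : ℝ) := by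
    have h1 := Finset.card_eq_sum_card_fiberwise (f := fun z => (f z, u z)) (s := S) (t := D ×ˢ U)
      (fun z hz => hmaps z hz)
    rw [h1]
    push_cast
    rfl
  rw [hcard]
  calc ∑ b ∈ D ×ˢ U, ((S.filter (fun z => (f z, u z) = b)).card : ℝ)
      ≤ ∑ b ∈ D ×ˢ U, 2 * C * (X / Real.log X) *
          ((1 / (vv b.1.1 b.1.2.1 : ℝ)) * ∏ i, 1 / ((b.2 i : ℝ) - 1)) := Finset.sum_le_sum hfib
    _ = 2 * C * (X / Real.log X) * ((∑ d ∈ D, 1 / (vv d.1 d.2.1 : ℝ)) *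
          ∑ v ∈ U, ∏ i, 1 / ((v i : ℝ) - 1)) := by
        rw [← Finset.mul_sum, Finset.sum_mul_sum, Finset.sum_product]
    _ ≤ 2 * C * (X / Real.log X) * (Real.exp (-(σ ^ 115)) * (σ ^ 120 + 1 + C') ^ nn) := by
        apply mul_le_mul_of_nonneg_left _ (by positivity)
        apply mul_le_mul hDsum hUsum _ (Real.exp_pos _).le
        apply Finset.sum_nonneg
        intro v hv
        apply Finset.prod_nonneg
        intro i _
        rw [hU, Fintype.mem_piFinset] at hv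
        have h2 := hv i
        simp only [hT] at h2
        apply one_div_nonneg.mpr
        split_ifs at h2
        · have h3 : (2 : ℝ) ≤ v i := by exact_mod_cast (Finset.mem_filter.mp h2).2.two_le
          linarith
        · rw [Finset.mem_singleton] at h2
          rw [h2]
          norm_num
    _ = _ := by ring

/-- growth -/
theorem LBPairs_growth (C C' : ℝ) (hC : 1 ≤ C) (hC' : 1 ≤ C') : ∀ᶠ σ : ℝ in Filter.atTop,
    4 + 4 * nn * C * (σ ^ 120 + 1 + C') ^ nn ≤ Real.exp (σ ^ 115 - σ ^ 100) := by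
  have h0 := (isLittleO_pow_exp_atTop (n := 121 * nn + 2)).bound (c := 1) one_pos
  filter_upwards [h0, Filter.eventually_ge_atTop (2 + C'), Filter.eventually_ge_atTop
    (4 * nn * C + 4)] with σ h1 h2 h3
  have hσ : 3 ≤ σ := by linarith
  have hσ0 : 0 < σ := by linarith
  have h4 : σ ^ 120 + 1 + C' ≤ σ ^ 121 := by
    have e1 : σ ^ 121 = σ * σ ^ 120 := by ring
    have e2 : (1:ℝ) ≤ σ ^ 120 := one_le_pow₀ (by linarith)
    have e3 : (2 + C') * σ ^ 120 ≤ σ * σ ^ 120 := mul_le_mul_of_nonneg_right h2 (by linarith)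
    nlinarith only [h2, hσ, e2]
  have h5 : (σ ^ 120 + 1 + C') ^ nn ≤ σ ^ (121 * nn) := by
    rw [pow_mul]
    exact pow_le_pow_left₀ (by positivity) h4 nn
  have h6 : (1:ℝ) ≤ σ ^ (121 * nn) := one_le_pow₀ (by linarith)
  have h7 : 4 + 4 * nn * C * (σ ^ 120 + 1 + C') ^ nn ≤ σ ^ (121 * nn + 2) := by
    have e1 : σ ^ (121 * nn + 2) = σ ^ (121 * nn) * σ ^ 2 := pow_add _ _ _
    have e2 : σ ≤ σ ^ 2 := by nlinarith only [hσ]
    have e3 : 4 * nn * C * (σ ^ 120 + 1 + C') ^ nn ≤ 4 * nn * C * σ ^ (121 * nn) :=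
      mul_le_mul_of_nonneg_left h5 (by positivity)
    calc 4 + 4 * nn * C * (σ ^ 120 + 1 + C') ^ nn ≤ 4 * σ ^ (121 * nn) +
          4 * nn * C * σ ^ (121 * nn) := by linarith
      _ = σ ^ (121 * nn) * (4 * nn * C + 4) := by ring
      _ ≤ σ ^ (121 * nn) * σ ^ 2 := mul_le_mul_of_nonneg_left (h3.trans e2) (by linarith)
      _ = _ := e1.symm
  have h8 : σ ^ (121 * nn + 2) ≤ Real.exp σ := by
    rw [Real.norm_of_nonneg (by positivity), Real.norm_of_nonneg (Real.exp_pos _).le, one_mul] at h1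
    exact h1
  refine h7.trans (h8.trans (Real.exp_le_exp.mpr ?_))
  have e1 : σ ^ 115 = σ ^ 15 * σ ^ 100 := by ring
  have e2 : σ ≤ σ ^ 100 := le_self_pow₀ (by linarith) (by norm_num)
  have e3 : (2:ℝ) ≤ σ ^ 15 := (show (2:ℝ) ≤ σ by linarith).trans
    (le_self_pow₀ (by linarith) (by norm_num))
  rw [e1]
  nlinarith only [hσ0, e2, e3]

open Classical in
theorem LB_pairs : ∀ᶠ σ : ℝ in Filter.atTop, ∀ X : ℝ,
    Real.exp (Real.exp (σ ^ 120)) ≤ X → X ≤ Real.exp (Real.exp (σ ^ 120 + 1 / 2)) →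
    ((((LBT σ X) ×ˢ (LBT σ X)).filter (fun z => z.1 ≠ z.2 ∧ valT z.1 = valT z.2)).card : ℝ) ≤
      X / Real.log X * Real.exp (-(σ ^ 100)) := by
  obtain ⟨C, hC1, hC⟩ := pi_cheb
  obtain ⟨C', hC'1, hC'⟩ := mert_all
  filter_upwards [LBPairs_ev, LBPairs_growth C C' hC1 hC'1, Filter.eventually_ge_atTop C]
    with σ H hgr hCσ
  intro X hX hX2
  have hσ := H.big
  have hX0 : 0 < X := (Real.exp_pos _).trans_le hX
  have hL : Real.exp (σ ^ 120) ≤ Real.log X := (Real.le_log_iff_exp_le hX0).mpr hX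
  have hL0 : 0 < Real.log X := (Real.exp_pos _).trans_le hL
  have hL2 : Real.log X ≤ Real.exp (σ ^ 120 + 1 / 2) := (Real.log_le_iff_le_exp hX0).mpr hX2
  have hCX : C ≤ X := by
    have h1 : σ ≤ σ ^ 120 := le_self_pow₀ (by linarith) (by norm_num)
    have h2 := Real.add_one_le_exp (σ ^ 120)
    have h3 := Real.add_one_le_exp (Real.exp (σ ^ 120))
    linarith
  set Z := (((LBT σ X) ×ˢ (LBT σ X)).filter (fun z => z.1 ≠ z.2 ∧ valT z.1 = valT z.2)) with hZ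
  have hZm : ∀ z ∈ Z, z.1 ∈ LBT σ X ∧ z.2 ∈ LBT σ X ∧ z.1 ≠ z.2 ∧ valT z.1 = valT z.2 := by
    intro z hz
    rw [hZ, Finset.mem_filter, Finset.mem_product] at hz
    exact ⟨hz.1.1, hz.1.2, hz.2.1, hz.2.2⟩
  set A : ℝ := X * Real.exp (-(σ ^ 120)) * Real.exp (-(σ ^ 115)) with hA
  set B : ℝ := 2 * C * (X / Real.log X) * Real.exp (-(σ ^ 115)) * (σ ^ 120 + 1 + C') ^ nn with hB
  have hswap : ∀ S : Finset ((ℕ × (Fin nn → ℕ) × ℕ) × (ℕ × (Fin nn → ℕ) × ℕ)),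
      (S.image Prod.swap).card = S.card := fun S =>
    Finset.card_image_of_injective S Prod.swap_injective
  have hZa : ((Z.filter (fun z => z.2.2.2 < z.1.2.2)).card : ℝ) ≤ A := by
    apply LBPairs_top H hX hX2
    intro z hz
    obtain ⟨h1, h2⟩ := Finset.mem_filter.mp hz
    obtain ⟨a, b, c, d⟩ := hZm z h1
    exact ⟨a, b, d, h2⟩
  have hZb : ((Z.filter (fun z => z.1.2.2 < z.2.2.2)).card : ℝ) ≤ A := by
    rw [← hswap]
    apply LBPairs_top H hX hX2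
    intro z hz
    obtain ⟨z', hz', rfl⟩ := Finset.mem_image.mp hz
    obtain ⟨h1, h2⟩ := Finset.mem_filter.mp hz'
    obtain ⟨a, b, c, d⟩ := hZm z' h1
    exact ⟨b, a, d.symm, h2⟩
  have hMa : ∀ k : Fin nn, ((Z.filter (fun z => z.2.2.2 = z.1.2.2 ∧
      z.2.2.1 k < z.1.2.1 k ∧ ∀ j, k < j → z.1.2.1 j = z.2.2.1 j)).card : ℝ) ≤ B := by
    intro k
    apply LBPairs_mid H hX hX2 hC1 hCX hC'1 hC hC' k
    intro z hz
    obtain ⟨h1, h2⟩ := Finset.mem_filter.mp hz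
    obtain ⟨a, b, c, d⟩ := hZm z h1
    exact ⟨a, b, d, h2⟩
  have hMb : ∀ k : Fin nn, ((Z.filter (fun z => z.2.2.2 = z.1.2.2 ∧
      z.1.2.1 k < z.2.2.1 k ∧ ∀ j, k < j → z.1.2.1 j = z.2.2.1 j)).card : ℝ) ≤ B := by
    intro k
    rw [← hswap]
    apply LBPairs_mid H hX hX2 hC1 hCX hC'1 hC hC' k
    intro z hz
    obtain ⟨z', hz', rfl⟩ := Finset.mem_image.mp hz
    obtain ⟨h1, h2, h3, h4⟩ := Finset.mem_filter.mp hz'
    obtain ⟨a, b, c, d⟩ := hZm z' h1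
    exact ⟨b, a, d.symm, h2.symm, h3, fun j hj => (h4 j hj).symm⟩
  have hcover : Z ⊆ (Z.filter (fun z => z.2.2.2 < z.1.2.2) ∪
      Z.filter (fun z => z.1.2.2 < z.2.2.2)) ∪
      Finset.univ.biUnion (fun k : Fin nn => Z.filter (fun z => z.2.2.2 = z.1.2.2 ∧
        z.2.2.1 k < z.1.2.1 k ∧ ∀ j, k < j → z.1.2.1 j = z.2.2.1 j) ∪
        Z.filter (fun z => z.2.2.2 = z.1.2.2 ∧
        z.1.2.1 k < z.2.2.1 k ∧ ∀ j, k < j → z.1.2.1 j = z.2.2.1 j)) := by
    intro z hz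
    obtain ⟨h1, h2, h3, h4⟩ := hZm z hz
    have g1 := LBPairs_mem hσ hX h1
    have g2 := LBPairs_mem hσ hX h2
    rw [Finset.mem_union, Finset.mem_union]
    rcases lt_trichotomy z.1.2.2 z.2.2.2 with hlt | heq | hgt
    · left; right
      exact Finset.mem_filter.mpr ⟨hz, hlt⟩
    · right
      have hne : (Finset.univ.filter (fun k : Fin nn => z.1.2.1 k ≠ z.2.2.1 k)).Nonempty := by
        by_contra hemp
        rw [Finset.not_nonempty_iff_eq_empty, Finset.filter_eq_empty_iff] at hemp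
        have hpp : z.1.2.1 = z.2.2.1 := by
          funext i
          have := hemp (Finset.mem_univ i)
          push Not at this
          exact this
        apply h3
        have hww : z.1.1 = z.2.1 := by
          unfold valT vt at h4
          rw [heq, hpp] at h4
          have e1 : 0 < z.2.2.2 - 1 := by
            have := g2.pP.two_le
            omega
          have e2 := Nat.eq_of_mul_eq_mul_left e1 h4
          refine Nat.eq_of_mul_eq_mul_right ?_ e2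
          apply Finset.prod_pos
          intro i _
          have := (g2.pr i).1.two_le
          omega
        exact Prod.ext hww (Prod.ext hpp heq)
      set k := (Finset.univ.filter (fun k : Fin nn => z.1.2.1 k ≠ z.2.2.1 k)).max' hne with hk
      have hk1 : z.1.2.1 k ≠ z.2.2.1 k := (Finset.mem_filter.mp (Finset.max'_mem _ hne)).2
      have hk2 : ∀ j, k < j → z.1.2.1 j = z.2.2.1 j := by
        intro j hj
        by_contra hcon
        have hj' : j ∈ Finset.univ.filter (fun k : Fin nn => z.1.2.1 k ≠ z.2.2.1 k) :=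
          Finset.mem_filter.mpr ⟨Finset.mem_univ j, hcon⟩
        have := Finset.le_max' _ j hj'
        exact absurd hj (not_lt.mpr this)
      rw [Finset.mem_biUnion]
      refine ⟨k, Finset.mem_univ k, ?_⟩
      rw [Finset.mem_union]
      rcases lt_or_gt_of_ne hk1 with h5 | h5
      · right
        exact Finset.mem_filter.mpr ⟨hz, heq.symm, h5, hk2⟩
      · left
        exact Finset.mem_filter.mpr ⟨hz, heq.symm, h5, hk2⟩
    · left; left
      exact Finset.mem_filter.mpr ⟨hz, hgt⟩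
  have hcard : (Z.card : ℝ) ≤ 2 * A + nn * (2 * B) := by
    have h1 := (Finset.card_le_card hcover).trans ((Finset.card_union_le _ _).trans
      (add_le_add (Finset.card_union_le _ _) (Finset.card_biUnion_le.trans
        (Finset.sum_le_sum fun k _ => Finset.card_union_le _ _))))
    have h2 : (Z.card : ℝ) ≤ (((Z.filter (fun z => z.2.2.2 < z.1.2.2)).card : ℝ) +
        ((Z.filter (fun z => z.1.2.2 < z.2.2.2)).card : ℝ)) +
        ∑ k : Fin nn, (((Z.filter (fun z => z.2.2.2 = z.1.2.2 ∧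
        z.2.2.1 k < z.1.2.1 k ∧ ∀ j, k < j → z.1.2.1 j = z.2.2.1 j)).card : ℝ) +
        ((Z.filter (fun z => z.2.2.2 = z.1.2.2 ∧
        z.1.2.1 k < z.2.2.1 k ∧ ∀ j, k < j → z.1.2.1 j = z.2.2.1 j)).card : ℝ)) := by
      exact_mod_cast h1
    have h3 : ∑ k : Fin nn, (((Z.filter (fun z => z.2.2.2 = z.1.2.2 ∧
        z.2.2.1 k < z.1.2.1 k ∧ ∀ j, k < j → z.1.2.1 j = z.2.2.1 j)).card : ℝ) +
        ((Z.filter (fun z => z.2.2.2 = z.1.2.2 ∧
        z.1.2.1 k < z.2.2.1 k ∧ ∀ j, k < j → z.1.2.1 j = z.2.2.1 j)).card : ℝ)) ≤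
        ∑ _k : Fin nn, 2 * B := by
      apply Finset.sum_le_sum
      intro k _
      have := hMa k
      have := hMb k
      linarith
    rw [Finset.sum_const, Finset.card_univ, Fintype.card_fin, nsmul_eq_mul] at h3
    linarith
  refine hcard.trans ?_
  have hA2 : A ≤ 2 * (X / Real.log X) * Real.exp (-(σ ^ 115)) := by
    have e1 : Real.exp (-(σ ^ 120)) ≤ 2 / Real.log X := by
      rw [le_div_iff₀ hL0]
      calc Real.exp (-(σ ^ 120)) * Real.log X ≤ Real.exp (-(σ ^ 120)) * Real.exp (σ ^ 120 + 1 / 2) :=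
            mul_le_mul_of_nonneg_left hL2 (Real.exp_pos _).le
        _ = Real.exp (1 / 2) := by rw [← Real.exp_add]; ring_nf
        _ ≤ 2 := by
            have h1 : Real.exp (1 / 2) * Real.exp (1 / 2) = Real.exp 1 := by
              rw [← Real.exp_add]; norm_num
            have h2 := Real.exp_one_lt_d9
            nlinarith only [Real.exp_pos (1 / 2 : ℝ), h1, h2]
    calc A ≤ X * (2 / Real.log X) * Real.exp (-(σ ^ 115)) := by
          rw [hA]
          apply mul_le_mul_of_nonneg_right _ (Real.exp_pos _).le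
          exact mul_le_mul_of_nonneg_left e1 hX0.le
      _ = _ := by ring
  have hfin : Real.exp (-(σ ^ 115)) * (4 + 4 * nn * C * (σ ^ 120 + 1 + C') ^ nn) ≤
      Real.exp (-(σ ^ 100)) := by
    calc _ ≤ Real.exp (-(σ ^ 115)) * Real.exp (σ ^ 115 - σ ^ 100) :=
          mul_le_mul_of_nonneg_left hgr (Real.exp_pos _).le
      _ = Real.exp (-(σ ^ 100)) := by rw [← Real.exp_add]; ring_nf
  have hXL : 0 ≤ X / Real.log X := by positivity
  calc 2 * A + nn * (2 * B) ≤ 2 * (2 * (X / Real.log X) * Real.exp (-(σ ^ 115))) + nn * (2 * B) := by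
        linarith
    _ = X / Real.log X * (Real.exp (-(σ ^ 115)) * (4 + 4 * nn * C * (σ ^ 120 + 1 + C') ^ nn)) := by
        rw [hB]; ring
    _ ≤ X / Real.log X * Real.exp (-(σ ^ 100)) := mul_le_mul_of_nonneg_left hfin hXL

end P031
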