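import Vale.Agent.Lib.P031.UB1
import Vale.Agent.Lib.P031.Mert
import Vale.Agent.Lib.P031.Basic

/-!
# P031 UB2: tuples with a coordinate near the top.

Let `p ∈ RN σ w`, `N = nn - 1`; then `ll (p N) > s - σ` (strictly increasing), `ll (p N) ≤ s + 1`.
With `C_j = CC σ j w`, `x = xx p`, `BB nn = aa 1 x_N + ∑_{j<N} aa (nn - j) x_j + C_(nn+1) ≤ (1 + 4/σ^4) s`, so
`A := ∑_{j<N} aa (nn - j) x_j + C_(nn+1) ≤ 0.62 s`; hence `x_(N-1) ≤ 0.62 s/aa 2 ≤ 0.69 s`, and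
`BB k` for `k ≤ N` is `≤ A ≤ 0.62 s` (`aa_mono`, `CC_mono`). Therefore, for every prime `q` with
`0.7 s ≤ ll q ≤ 0.95 s`, the tuple `p'` obtained from `p` by replacing `p N` by `q` is in `RR σ w`
(`BB nn` for it is `≤ 0.3863 · 0.95 s + 0.62 s ≤ 0.99 s`; `BB k`, `k ≤ N`, is unchanged). The sum of `1/(q - 1)` over these `q` is
`≥ 0.25 s - C ≥ 0.2 s`. So with `ρ = ` the tuple without its last entry,
`∑_ρ 1/(w ∏_{j<N}(p_j - 1)) ≤ TR σ/(0.2 s)`.
For fixed `(w, ρ)`: `d0 = w ∏_{j<N} (p_j - 1)` satisfies `log d0 ≤ C s exp(0.69 s) ≤ (log X)/8`; `√X < v = (P0-1)(p_N - 1) d0`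
and `P0 > p_N` give `log P0 ≥ (log X)/8`; by `pi_cheb` the number of `P0` for given `p_N` is
`≤ C · 8 X/(d0 (p_N - 1) log X)`, and `∑_{p_N} 1/(p_N - 1) ≤ σ + 1 + C` (`mert_int`). Total
`≤ C (σ + 1 + C)/(0.2 s) · (X/log X) TR σ ≤ ε (X/log X) TR σ`. -/

namespace P031

open Finset Real

/-- the last index -/
private def UB2_la : Fin nn := ⟨120, by decide⟩

private lemma UB2_lt_la {i : Fin nn} (h : i ≠ UB2_la) : i.val < 120 := by
  have h1 : i.val < 121 := i.isLt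
  have h2 : i.val ≠ 120 := fun h3 => h (Fin.ext h3)
  omega

private lemma UB2_big {σ : ℝ} (hσ : 100 ≤ σ) : 1000000 ≤ σ ^ 120 ∧ σ ≤ σ ^ 120 / 1000 ∧
    4 / σ ^ 4 ≤ 1 / 1000 ∧ 0 ≤ 3 / σ ^ 4 ∧ 0 ≤ 4 / σ ^ 4 ∧ σ ^ 119 ≤ σ ^ 120 / 100 := by
  have h0 : 0 < σ := by linarith
  have h1 : (100 : ℝ) ^ 3 ≤ σ ^ 3 := pow_le_pow_left₀ (by norm_num) hσ 3
  have h2 : (1 : ℝ) ≤ σ ^ 116 := one_le_pow₀ (by linarith)
  have h3 : (100 : ℝ) ^ 4 ≤ σ ^ 4 := pow_le_pow_left₀ (by norm_num) hσ 4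
  have h4 : σ ^ 120 = σ * (σ ^ 3 * σ ^ 116) := by ring
  have h5 : (1000000 : ℝ) ≤ σ ^ 3 * σ ^ 116 := by nlinarith only [h1, h2]
  have h6 : σ ^ 120 = σ * σ ^ 119 := by ring
  have h7 : 0 < σ ^ 119 := by positivity
  refine ⟨?_, ?_, ?_, by positivity, by positivity, ?_⟩
  · rw [h4]
    nlinarith only [h2, h3]
  · rw [h4]
    nlinarith only [h0, h1, h2, h3]
  · rw [div_le_div_iff₀ (by positivity) (by norm_num)]
    linarith only [h3]
  · rw [h6]
    nlinarith only [hσ, h7]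

private lemma UB2_RN {σ : ℝ} {w : ℕ} {p : Fin nn → ℕ} (hp : p ∈ RN σ w) :
    (∀ i, (p i).Prime ∧ p i ≤ EE σ) ∧ StrictMono p ∧ (∀ i, PW w < p i ∧ σ ^ 119 ≤ ll (p i)) ∧
    (∃ i, σ ^ 120 - σ < ll (p i)) ∧
    (∀ k, k < nn → BB (fun j => CC σ j w) (xx p) k ≤ (1 + 3 / σ ^ 4) * xx p k) ∧
    BB (fun j => CC σ j w) (xx p) nn ≤ (1 + 4 / σ ^ 4) * σ ^ 120 := by
  unfold RN at hp
  rw [Finset.mem_filter, Fintype.mem_piFinset] at hp
  obtain ⟨h1, h2, h3, h4, h5, h6⟩ := hp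
  refine ⟨fun i => ?_, h2, h3, h4, h5, h6⟩
  have := h1 i
  rw [Finset.mem_filter, Finset.mem_range] at this
  exact ⟨this.2, by omega⟩

private lemma UB2_mem_RR {σ : ℝ} {w : ℕ} {p : Fin nn → ℕ}
    (h1 : ∀ i, (p i).Prime ∧ p i ≤ EE σ) (h2 : StrictMono p)
    (h3 : ∀ i, PW w < p i ∧ σ ^ 119 ≤ ll (p i) ∧ ll (p i) ≤ σ ^ 120 - σ)
    (h5 : ∀ k, k < nn → BB (fun j => CC σ j w) (xx p) k ≤ (1 + 3 / σ ^ 4) * xx p k)
    (h6 : BB (fun j => CC σ j w) (xx p) nn ≤ (1 + 4 / σ ^ 4) * σ ^ 120) : p ∈ RR σ w := by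
  unfold RR
  rw [Finset.mem_filter, Fintype.mem_piFinset]
  refine ⟨fun i => ?_, h2, h3, h5, h6⟩
  rw [Finset.mem_filter, Finset.mem_range]
  exact ⟨by have := (h1 i).2; omega, (h1 i).1⟩

/-- the part of `BB 121` without the top coordinate -/
private noncomputable def UB2_A (C x : ℕ → ℝ) : ℝ :=
  (∑ j ∈ Finset.range 120, aa (121 - j) * x j) + C 122

private lemma UB2_BB_nn (C x : ℕ → ℝ) : BB C x nn = UB2_A C x + aa 1 * x 120 := by
  unfold BB nn UB2_A
  rw [Finset.sum_range_succ]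
  norm_num
  ring

private lemma UB2_BB_le {σ : ℝ} (hσ : 1 ≤ σ) (w : ℕ) (x : ℕ → ℝ) (hx : ∀ j, j < 120 → 0 ≤ x j)
    {k : ℕ} (hk : k ≤ 120) :
    BB (fun j => CC σ j w) x k ≤ UB2_A (fun j => CC σ j w) x := by
  unfold BB UB2_A
  have h1 : ∑ j ∈ Finset.range k, aa (k - j) * x j ≤ ∑ j ∈ Finset.range k, aa (121 - j) * x j := by
    refine Finset.sum_le_sum fun j hj => ?_
    rw [Finset.mem_range] at hj
    exact mul_le_mul_of_nonneg_right (aa_mono (by omega)) (hx j (by omega))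
  have h2 : ∑ j ∈ Finset.range k, aa (121 - j) * x j ≤
      ∑ j ∈ Finset.range 120, aa (121 - j) * x j := by
    refine Finset.sum_le_sum_of_subset_of_nonneg ?_ ?_
    · intro j hj
      rw [Finset.mem_range] at hj ⊢
      omega
    · intro j hj _
      rw [Finset.mem_range] at hj
      exact mul_nonneg (aa_pos (by omega)).le (hx j hj)
  have h3 : CC σ (k + 1) w ≤ CC σ 122 w := CC_mono hσ (by omega) w
  linarith

private lemma UB2_A_ge {σ : ℝ} (hσ : 1 ≤ σ) (w : ℕ) (x : ℕ → ℝ) (hx : ∀ j, j < 120 → 0 ≤ x j)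
    {k : ℕ} (hk : k < 120) :
    0.909 * x k ≤ UB2_A (fun j => CC σ j w) x := by
  unfold UB2_A
  have h1 : aa (121 - k) * x k ≤ ∑ j ∈ Finset.range 120, aa (121 - j) * x j := by
    refine Finset.single_le_sum (f := fun j => aa (121 - j) * x j) ?_ (Finset.mem_range.2 hk)
    intro j hj
    rw [Finset.mem_range] at hj
    exact mul_nonneg (aa_pos (by omega)).le (hx j hj)
  have h2 : aa 2 ≤ aa (121 - k) := aa_mono (by omega)
  have h3 := aa_two_lo
  have h4 := CC_nonneg hσ (k := 122) (by norm_num) w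
  have h5 := hx k hk
  nlinarith only [h1, h2, h3, h4, h5]

private lemma UB2_xx_eq (p : Fin nn → ℕ) {k : ℕ} (hk : k < nn) : xx p k = ll (p ⟨k, hk⟩) := by
  unfold xx
  rw [dif_pos hk]

private lemma UB2_xx_la (p : Fin nn → ℕ) : xx p 120 = ll (p UB2_la) :=
  UB2_xx_eq p (by decide)

private lemma UB2_xx_upd (p : Fin nn → ℕ) (q : ℕ) {k : ℕ} (hk : k < 120) :
    xx (Function.update p UB2_la q) k = xx p k := by
  have h : k < nn := by unfold nn; omega
  rw [UB2_xx_eq _ h, UB2_xx_eq _ h, Function.update_of_ne]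
  intro h1
  have h2 : k = 120 := congrArg Fin.val h1
  omega

private lemma UB2_A_congr (C x y : ℕ → ℝ) (h : ∀ j, j < 120 → x j = y j) :
    UB2_A C x = UB2_A C y := by
  unfold UB2_A
  congr 1
  refine Finset.sum_congr rfl fun j hj => ?_
  rw [Finset.mem_range] at hj
  rw [h j hj]

private lemma UB2_BB_congr (C x y : ℕ → ℝ) {k : ℕ} (hk : k ≤ 120) (h : ∀ j, j < 120 → x j = y j) :
    BB C x k = BB C y k := by
  unfold BB
  congr 1
  refine Finset.sum_congr rfl fun j hj => ?_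
  rw [Finset.mem_range] at hj
  rw [h j (by omega)]

/-- basic facts on the tuples of `RN` -/
private lemma UB2_facts {σ : ℝ} (hσ : 100 ≤ σ) {w : ℕ} {p : Fin nn → ℕ} (hp : p ∈ RN σ w) :
    (∀ j, j < 120 → 0 ≤ xx p j) ∧ σ ^ 120 - σ < ll (p UB2_la) ∧ ll (p UB2_la) ≤ σ ^ 120 + 1 ∧
    UB2_A (fun j => CC σ j w) (xx p) ≤ 0.62 * σ ^ 120 ∧
    (∀ i, i ≠ UB2_la → ll (p i) ≤ 0.69 * σ ^ 120) := by
  obtain ⟨hb1, hb2, hb3, hb4, hb5, -⟩ := UB2_big hσ
  obtain ⟨h1, h2, h3, ⟨i, hi⟩, h5, h6⟩ := UB2_RN hp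
  have h119 : 0 ≤ σ ^ 119 := by positivity
  have hx : ∀ j, j < 120 → 0 ≤ xx p j := by
    intro j hj
    rw [UB2_xx_eq p (show j < nn by unfold nn; omega)]
    exact h119.trans (h3 _).2
  have hla : σ ^ 120 - σ < ll (p UB2_la) := by
    refine hi.trans_le (ll_mono (h1 i).1.two_le (h2.monotone ?_))
    have : i.val < 121 := i.isLt
    show i.val ≤ 120
    omega
  have hA : UB2_A (fun j => CC σ j w) (xx p) ≤ 0.62 * σ ^ 120 := by
    rw [UB2_BB_nn, UB2_xx_la] at h6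
    have h7 := aa_one_lo
    have h8 : 0.386 * (σ ^ 120 - σ) ≤ aa 1 * ll (p UB2_la) := by
      have h9 : 0 ≤ σ ^ 120 - σ := by linarith
      nlinarith only [hla, h7, h9]
    nlinarith only [hb1, hb2, hb3, h6, h8]
  refine ⟨hx, hla, (le_EE_iff (h1 _).1.two_le).1 (h1 _).2, hA, fun i hi' => ?_⟩
  have h7 := UB2_lt_la hi'
  have h8 := UB2_A_ge (by linarith : 1 ≤ σ) w (xx p) hx h7
  rw [UB2_xx_eq p (show i.val < nn from i.isLt)] at h8
  have h9 : p ⟨i.val, i.isLt⟩ = p i := rfl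
  rw [h9] at h8
  linarith

/-- moving the top coordinate down gives a relaxed tuple -/
private lemma UB2_move {σ : ℝ} (hσ : 100 ≤ σ) {w : ℕ} {p : Fin nn → ℕ} (hp : p ∈ RN σ w)
    {q : ℕ} (hq : q.Prime) (hq1 : 0.7 * σ ^ 120 ≤ ll q) (hq2 : ll q < 0.95 * σ ^ 120) :
    Function.update p UB2_la q ∈ RR σ w := by
  obtain ⟨hb1, hb2, hb3, hb4, hb5, hb6⟩ := UB2_big hσ
  obtain ⟨hx, hla, hla2, hA, hsm⟩ := UB2_facts hσ hp
  obtain ⟨h1, h2, h3, -, h5, h6⟩ := UB2_RN hp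
  have hlt : ∀ i, i ≠ UB2_la → p i < q := by
    intro i hi
    refine lt_of_ll_lt hq.two_le ?_
    have := hsm i hi
    linarith
  have hxu : ∀ j, j < 120 → xx (Function.update p UB2_la q) j = xx p j := fun j hj =>
    UB2_xx_upd p q hj
  have hxl : xx (Function.update p UB2_la q) 120 = ll q := by
    rw [UB2_xx_la, Function.update_self]
  have h0la : (⟨0, by decide⟩ : Fin nn) ≠ UB2_la := by decide
  refine UB2_mem_RR ?_ ?_ ?_ ?_ ?_
  · intro i
    by_cases hi : i = UB2_la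
    · rw [hi, Function.update_self]
      exact ⟨hq, (le_EE_iff hq.two_le).2 (by linarith)⟩
    · rw [Function.update_of_ne hi]
      exact h1 i
  · intro i j hij
    by_cases hj : j = UB2_la
    · have hi : i ≠ UB2_la := by
        rintro rfl
        rw [hj] at hij
        exact lt_irrefl _ hij
      rw [hj, Function.update_self, Function.update_of_ne hi]
      exact hlt i hi
    · have hi : i ≠ UB2_la := by
        rintro rfl
        have h7 := UB2_lt_la hj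
        have h8 : UB2_la.val < j.val := hij
        have h9 : UB2_la.val = 120 := rfl
        omega
      rw [Function.update_of_ne hi, Function.update_of_ne hj]
      exact h2 hij
  · intro i
    by_cases hi : i = UB2_la
    · rw [hi, Function.update_self]
      refine ⟨(h3 _).1.trans (hlt _ h0la), by linarith, by linarith⟩
    · rw [Function.update_of_ne hi]
      refine ⟨(h3 i).1, (h3 i).2, ?_⟩
      have := hsm i hi
      linarith
  · intro k hk
    rcases Nat.lt_or_ge k 120 with hk1 | hk1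
    · rw [hxu k hk1, UB2_BB_congr _ _ (xx p) hk1.le hxu]
      exact h5 k hk
    · have hk2 : k = 120 := by
        have : k < 121 := hk
        omega
      rw [hk2, hxl, UB2_BB_congr _ _ (xx p) le_rfl hxu]
      have h7 := UB2_BB_le (by linarith : 1 ≤ σ) w (xx p) hx (le_refl 120)
      nlinarith only [hq1, hq2, hb4, hA, h7]
  · rw [UB2_BB_nn, hxl, UB2_A_congr _ _ (xx p) hxu]
    have h7 := aa_one_hi
    have h8 := aa_one_lo
    nlinarith only [hq2, hb1, hb5, hA, h7, h8]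


/-- the weight without the top coordinate -/
private noncomputable def UB2_om (ρ : Fin nn → ℕ) : ℝ :=
  ∏ i ∈ Finset.univ.erase UB2_la, 1 / ((ρ i : ℝ) - 1)

/-- the value without the top coordinate -/
private def UB2_d0 (w : ℕ) (ρ : Fin nn → ℕ) : ℕ :=
  w * ∏ i ∈ Finset.univ.erase UB2_la, (ρ i - 1)

private lemma UB2_om_upd (ρ : Fin nn → ℕ) (q : ℕ) :
    UB2_om (Function.update ρ UB2_la q) = UB2_om ρ := by
  unfold UB2_om
  refine Finset.prod_congr rfl fun i hi => ?_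
  rw [Function.update_of_ne (Finset.ne_of_mem_erase hi)]

private lemma UB2_d0_upd (w : ℕ) (ρ : Fin nn → ℕ) (q : ℕ) :
    UB2_d0 w (Function.update ρ UB2_la q) = UB2_d0 w ρ := by
  unfold UB2_d0
  refine congrArg (fun z => w * z) (Finset.prod_congr rfl fun i hi => ?_)
  rw [Function.update_of_ne (Finset.ne_of_mem_erase hi)]

private lemma UB2_wt (p : Fin nn → ℕ) : wt p = 1 / ((p UB2_la : ℝ) - 1) * UB2_om p := by
  unfold wt UB2_om
  rw [Finset.mul_prod_erase _ (fun i => 1 / ((p i : ℝ) - 1)) (Finset.mem_univ _)]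

private lemma UB2_vt (w : ℕ) (p : Fin nn → ℕ) : vt w p nn = (p UB2_la - 1) * UB2_d0 w p := by
  unfold vt UB2_d0
  have h1 : Finset.univ.filter (fun i : Fin nn => i.val < nn) = Finset.univ := by
    refine Finset.filter_true_of_mem fun i _ => i.isLt
  rw [h1, ← Finset.mul_prod_erase _ (fun i => p i - 1) (Finset.mem_univ UB2_la)]
  exact Nat.mul_left_comm _ _ _

open Classical in
/-- the tuples without the top coordinate -/
private noncomputable def UB2_Rho (σ : ℝ) (w : ℕ) : Finset (Fin nn → ℕ) :=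
  (RN σ w).image (fun p => Function.update p UB2_la 0)

private lemma UB2_wt_nonneg {p : Fin nn → ℕ} (h : ∀ i, (p i).Prime) : 0 ≤ wt p := by
  unfold wt
  refine Finset.prod_nonneg fun i _ => ?_
  have h2 : (2 : ℝ) ≤ p i := by exact_mod_cast (h i).two_le
  have h3 : (0 : ℝ) ≤ (p i : ℝ) - 1 := by linarith
  positivity

private lemma UB2_om_nonneg {σ : ℝ} {w : ℕ} {ρ : Fin nn → ℕ} (h : ρ ∈ UB2_Rho σ w) :
    0 ≤ UB2_om ρ := by
  unfold UB2_Rho at h
  rw [Finset.mem_image] at h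
  obtain ⟨p, hp, rfl⟩ := h
  rw [UB2_om_upd]
  unfold UB2_om
  refine Finset.prod_nonneg fun i _ => ?_
  have h2 : (2 : ℝ) ≤ p i := by exact_mod_cast ((UB2_RN hp).1 i).1.two_le
  have h3 : (0 : ℝ) ≤ (p i : ℝ) - 1 := by linarith
  positivity

private lemma UB2_sum_q {σ : ℝ} (hσ : 100 ≤ σ) :
    0.2 * σ ^ 120 ≤ ∑ q ∈ PI (0.7 * σ ^ 120) (0.95 * σ ^ 120), 1 / ((q : ℝ) - 1) := by
  obtain ⟨hb1, -⟩ := UB2_big hσ
  have h1 := mert_low (α := 0.7 * σ ^ 120) (β := 0.95 * σ ^ 120) (by positivity) (by linarith)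
  have h2 : ∑ q ∈ PI (0.7 * σ ^ 120) (0.95 * σ ^ 120), 1 / (q : ℝ) ≤
      ∑ q ∈ PI (0.7 * σ ^ 120) (0.95 * σ ^ 120), 1 / ((q : ℝ) - 1) := by
    refine Finset.sum_le_sum fun q hq => ?_
    have h3 : (2 : ℝ) ≤ q := by exact_mod_cast (mert_PI_mem hq).1.two_le
    exact one_div_le_one_div_of_le (by linarith) (by linarith)
  linarith

/-- the weight of the relaxed tuples is large compared to the weight of the shortened tuples -/
private lemma UB2_sumRR {σ : ℝ} (hσ : 100 ≤ σ) (w : ℕ) :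
    0.2 * σ ^ 120 * ∑ ρ ∈ UB2_Rho σ w, UB2_om ρ ≤ ∑ p ∈ RR σ w, wt p := by
  classical
  have h1 : ∑ x ∈ UB2_Rho σ w ×ˢ PI (0.7 * σ ^ 120) (0.95 * σ ^ 120),
      wt (Function.update x.1 UB2_la x.2) =
      ∑ p ∈ (UB2_Rho σ w ×ˢ PI (0.7 * σ ^ 120) (0.95 * σ ^ 120)).image
        (fun x => Function.update x.1 UB2_la x.2), wt p := by
    refine (Finset.sum_image ?_).symm
    rintro ⟨ρ, q⟩ hx ⟨ρ', q'⟩ hx' h
    rw [Finset.mem_coe, Finset.mem_product] at hx hx'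
    simp only at h hx hx'
    have hq : q = q' := by
      have := congrFun h UB2_la
      rwa [Function.update_self, Function.update_self] at this
    have hρ : ρ = ρ' := by
      funext i
      by_cases hi : i = UB2_la
      · have h2 := hx.1
        have h3 := hx'.1
        unfold UB2_Rho at h2 h3
        rw [Finset.mem_image] at h2 h3
        obtain ⟨a, -, rfl⟩ := h2
        obtain ⟨b, -, rfl⟩ := h3
        rw [hi, Function.update_self, Function.update_self]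
      · have := congrFun h i
        rwa [Function.update_of_ne hi, Function.update_of_ne hi] at this
    rw [hq, hρ]
  have h2 : ∑ p ∈ (UB2_Rho σ w ×ˢ PI (0.7 * σ ^ 120) (0.95 * σ ^ 120)).image
        (fun x => Function.update x.1 UB2_la x.2), wt p ≤ ∑ p ∈ RR σ w, wt p := by
    refine Finset.sum_le_sum_of_subset_of_nonneg ?_ ?_
    · intro p hp
      rw [Finset.mem_image] at hp
      obtain ⟨⟨ρ, q⟩, hx, rfl⟩ := hp
      rw [Finset.mem_product] at hx
      obtain ⟨hρ, hq⟩ := hx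
      unfold UB2_Rho at hρ
      rw [Finset.mem_image] at hρ
      obtain ⟨p, hp, hpe⟩ := hρ
      obtain ⟨hq1, hq2, hq3⟩ := mert_PI_mem hq
      simp only at hpe ⊢
      rw [← hpe, Function.update_idem]
      exact UB2_move hσ hp hq1 hq2 hq3
    · intro p hp _
      refine UB2_wt_nonneg fun i => ?_
      unfold RR at hp
      rw [Finset.mem_filter, Fintype.mem_piFinset] at hp
      have := hp.1 i
      rw [Finset.mem_filter] at this
      exact this.2
  have h3 : ∑ x ∈ UB2_Rho σ w ×ˢ PI (0.7 * σ ^ 120) (0.95 * σ ^ 120),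
      wt (Function.update x.1 UB2_la x.2) =
      (∑ ρ ∈ UB2_Rho σ w, UB2_om ρ) *
        ∑ q ∈ PI (0.7 * σ ^ 120) (0.95 * σ ^ 120), 1 / ((q : ℝ) - 1) := by
    rw [Finset.sum_product, Finset.sum_mul_sum]
    refine Finset.sum_congr rfl fun ρ _ => Finset.sum_congr rfl fun q _ => ?_
    rw [UB2_wt, UB2_om_upd, Function.update_self]
    ring
  rw [← h1, h3] at h2
  refine le_trans ?_ h2
  rw [mul_comm]
  exact mul_le_mul_of_nonneg_left (UB2_sum_q hσ)
    (Finset.sum_nonneg fun ρ hρ => UB2_om_nonneg hρ)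

private lemma UB2_log_le {n : ℕ} (hn : 2 ≤ n) {u : ℝ} (h : ll n ≤ u) :
    Real.log (n : ℝ) ≤ Real.exp u := by
  have h1 : (0 : ℝ) < n := by
    have : 0 < n := by omega
    exact_mod_cast this
  rw [Real.log_le_iff_le_exp h1]
  exact (ll_le_iff hn).1 h

private lemma UB2_exp {s : ℝ} (hs : 1000000 ≤ s) :
    (20 * s + 121) * Real.exp (0.69 * s) ≤ Real.exp s / 8 := by
  have h1 : Real.exp s = Real.exp (0.69 * s) * Real.exp (0.31 * s) := by
    rw [← Real.exp_add]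
    ring_nf
  have h2 := Real.quadratic_le_exp_of_nonneg (x := 0.31 * s) (by linarith)
  have h3 : 8 * (20 * s + 121) ≤ Real.exp (0.31 * s) := by nlinarith
  have h4 := Real.exp_pos (0.69 * s)
  rw [h1]
  nlinarith only [h3, h4]

private lemma UB2_logd {σ : ℝ} (hσ : 100 ≤ σ) {w : ℕ} (hw : w ∈ Wfin σ) {p : Fin nn → ℕ}
    (hp : p ∈ RN σ w) :
    1 ≤ UB2_d0 w p ∧ Real.log (UB2_d0 w p : ℝ) ≤ Real.exp (σ ^ 120) / 8 := by
  classical
  obtain ⟨hb1, -⟩ := UB2_big hσ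
  obtain ⟨h1, -, h3, -⟩ := UB2_RN hp
  obtain ⟨-, -, -, -, hsm⟩ := UB2_facts hσ hp
  unfold Wfin at hw
  rw [Finset.mem_filter, Finset.mem_Icc] at hw
  obtain ⟨⟨hw1, -⟩, hW⟩ := hw
  have h0la : (⟨0, by decide⟩ : Fin nn) ≠ UB2_la := by decide
  obtain ⟨q, hq⟩ : ∃ q : ℕ, q = p ⟨0, by decide⟩ := ⟨_, rfl⟩
  have hqp : q.Prime := by rw [hq]; exact (h1 _).1
  have hlq : Real.log (q : ℝ) ≤ Real.exp (0.69 * σ ^ 120) := by
    refine UB2_log_le hqp.two_le ?_
    rw [hq]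
    exact hsm _ h0la
  obtain ⟨hm1, hm2⟩ := mW_spec hW.2.1
  have hm0 : mW w ≠ 0 := by
    intro h
    rw [h, Nat.totient_zero] at hm1
    omega
  have hwq : w ≤ q ^ Om (mW w) := by
    have e1 : w ≤ mW w := by
      conv_lhs => rw [← hm1]
      exact Nat.totient_le _
    have e2 := le_maxp_pow hm0
    rw [hm2] at e2
    have e3 : PW w ≤ q := by rw [hq]; exact (h3 _).1.le
    exact e1.trans (e2.trans (Nat.pow_le_pow_left e3 _))
  have hOm : (Om (mW w) : ℝ) ≤ 20 * σ ^ 120 + 1 := by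
    have e1 := Om_le_tot hm0
    rw [hm1] at e1
    have e2 := hW.1.2.1
    have e3 : (Om (mW w) : ℝ) ≤ (Om w : ℝ) + 1 := by exact_mod_cast e1
    linarith
  have hq0 : 0 ≤ Real.log (q : ℝ) := Real.log_natCast_nonneg q
  have hlw : Real.log (w : ℝ) ≤ (20 * σ ^ 120 + 1) * Real.exp (0.69 * σ ^ 120) := by
    have e1 : Real.log (w : ℝ) ≤ Real.log ((q : ℝ) ^ Om (mW w)) := by
      refine Real.log_le_log (by exact_mod_cast hw1) ?_
      exact_mod_cast hwq
    rw [Real.log_pow] at e1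
    refine e1.trans (mul_le_mul hOm hlq hq0 (by positivity))
  have hpos : ∀ i, 1 ≤ p i - 1 := by
    intro i
    have := (h1 i).1.two_le
    omega
  have hd0 : 1 ≤ UB2_d0 w p := by
    unfold UB2_d0
    refine Nat.one_le_iff_ne_zero.2 (mul_ne_zero (by omega) ?_)
    refine Finset.prod_ne_zero_iff.2 fun i _ => ?_
    have := hpos i
    omega
  refine ⟨hd0, ?_⟩
  have hlog : Real.log (UB2_d0 w p : ℝ) =
      Real.log (w : ℝ) + ∑ i ∈ Finset.univ.erase UB2_la, Real.log ((p i - 1 : ℕ) : ℝ) := by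
    unfold UB2_d0
    rw [Nat.cast_mul, Nat.cast_prod, Real.log_mul, Real.log_prod]
    · intro i _
      have := hpos i
      have h : p i - 1 ≠ 0 := by omega
      exact_mod_cast h
    · have h : w ≠ 0 := by omega
      exact_mod_cast h
    · refine Finset.prod_ne_zero_iff.2 fun i _ => ?_
      have := hpos i
      have h : p i - 1 ≠ 0 := by omega
      exact_mod_cast h
  have hsum : ∑ i ∈ Finset.univ.erase UB2_la, Real.log ((p i - 1 : ℕ) : ℝ) ≤
      120 * Real.exp (0.69 * σ ^ 120) := by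
    have e1 : ∑ i ∈ Finset.univ.erase UB2_la, Real.log ((p i - 1 : ℕ) : ℝ) ≤
        ∑ i ∈ Finset.univ.erase UB2_la, Real.exp (0.69 * σ ^ 120) := by
      refine Finset.sum_le_sum fun i hi => ?_
      refine le_trans ?_ (UB2_log_le (h1 i).1.two_le (hsm i (Finset.ne_of_mem_erase hi)))
      refine Real.log_le_log ?_ ?_
      · exact_mod_cast hpos i
      · exact_mod_cast Nat.sub_le _ _
    have e2 : (Finset.univ.erase UB2_la).card = 120 := by
      rw [Finset.card_erase_of_mem (Finset.mem_univ _), Finset.card_univ, Fintype.card_fin]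
      rfl
    rw [Finset.sum_const, e2, nsmul_eq_mul] at e1
    exact_mod_cast e1
  rw [hlog]
  have hE := UB2_exp hb1
  have e3 : (20 * σ ^ 120 + 121) * Real.exp (0.69 * σ ^ 120) =
      (20 * σ ^ 120 + 1) * Real.exp (0.69 * σ ^ 120) + 120 * Real.exp (0.69 * σ ^ 120) := by ring
  linarith


open Classical in
/-- the primes `P0` for given `d` -/
private noncomputable def UB2_T (X : ℝ) (d : ℕ) : Finset ℕ :=
  (Finset.range (⌊X⌋₊ + 2)).filter (fun P => P.Prime ∧ (((P - 1) * d : ℕ) : ℝ) ≤ X ∧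
    Real.log X / 8 ≤ Real.log (P : ℝ))

/-- the top coordinates -/
private noncomputable def UB2_Q (σ : ℝ) : Finset ℕ :=
  (Finset.range (EE σ + 1)).filter (fun q => q.Prime ∧ σ ^ 120 - σ ≤ ll q)

private lemma UB2_sumQ {σ : ℝ} (hσ : 100 ≤ σ) :
    ∑ q ∈ UB2_Q σ, 1 / ((q : ℝ) - 1) ≤ 2 * σ := by
  obtain ⟨hb1, hb2, -⟩ := UB2_big hσ
  have h := mert_up (α := σ ^ 120 - σ) (β := σ ^ 120 + 1) (by linarith) (by linarith) (UB2_Q σ) ?_
  · linarith
  · intro q hq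
    unfold UB2_Q at hq
    rw [Finset.mem_filter, Finset.mem_range] at hq
    exact ⟨hq.2.1, hq.2.2, (le_EE_iff hq.2.1.two_le).1 (by omega)⟩

private lemma UB2_inv_d0 {σ : ℝ} {w : ℕ} {ρ : Fin nn → ℕ} (h : ρ ∈ UB2_Rho σ w) :
    1 / (UB2_d0 w ρ : ℝ) = 1 / (w : ℝ) * UB2_om ρ := by
  unfold UB2_Rho at h
  rw [Finset.mem_image] at h
  obtain ⟨p, hp, rfl⟩ := h
  rw [UB2_om_upd, UB2_d0_upd]
  unfold UB2_d0 UB2_om
  rw [Nat.cast_mul, Nat.cast_prod, one_div, mul_inv, one_div, ← Finset.prod_inv_distrib]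
  congr 1
  refine Finset.prod_congr rfl fun i _ => ?_
  have h1 := ((UB2_RN hp).1 i).1.one_lt
  rw [Nat.cast_sub h1.le, Nat.cast_one, one_div]

theorem UB_top : ∀ ε : ℝ, 0 < ε → ∀ᶠ σ : ℝ in Filter.atTop, ∀ (X : ℝ) (S : Finset ℕ),
    Real.exp (Real.exp (σ ^ 120)) ≤ X → X ≤ Real.exp (Real.exp (σ ^ 120 + 1 / 2)) →
    (∀ v ∈ S, Real.sqrt X < v ∧ (v : ℝ) ≤ X ∧
      ∃ w ∈ Wfin σ, ∃ p ∈ RN σ w, ∃ P0 : ℕ, P0.Prime ∧ (∀ i, p i < P0) ∧
        v = (P0 - 1) * vt w p nn) →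
    (S.card : ℝ) ≤ ε * (X / Real.log X) * TR σ := by
  classical
  intro ε hε
  obtain ⟨C, hC1, hC⟩ := pi_cheb
  filter_upwards [Filter.eventually_ge_atTop (100 : ℝ), Filter.eventually_ge_atTop C,
    Filter.eventually_ge_atTop (80 * C / ε)] with σ hσ hσC hσε X S hX _ hS
  obtain ⟨hb1, hb2, hb3, hb4, hb5, hb6⟩ := UB2_big hσ
  have hX0 : 0 < X := (Real.exp_pos _).trans_le hX
  have hLX : Real.exp (σ ^ 120) ≤ Real.log X := (Real.le_log_iff_exp_le hX0).2 hX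
  have hL0 : 0 < Real.log X := (Real.exp_pos _).trans_le hLX
  have hCX : C ≤ X := by
    have e1 := Real.add_one_le_exp (σ ^ 120)
    have e2 := Real.add_one_le_exp (Real.exp (σ ^ 120))
    linarith
  -- covering
  have hcov : S ⊆ (Wfin σ).biUnion (fun w => (UB2_Rho σ w).biUnion (fun ρ =>
      (UB2_Q σ).biUnion (fun q => (UB2_T X ((q - 1) * UB2_d0 w ρ)).image
        (fun P => (P - 1) * ((q - 1) * UB2_d0 w ρ))))) := by
    intro v hv
    obtain ⟨hv1, hv2, w, hw, p, hp, P0, hP0, hlt, hve⟩ := hS v hv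
    obtain ⟨h1, -, h3, -, -, -⟩ := UB2_RN hp
    obtain ⟨-, hla, hla2, -, hsm⟩ := UB2_facts hσ hp
    obtain ⟨hd1, hd2⟩ := UB2_logd hσ hw hp
    rw [UB2_vt] at hve
    rw [Finset.mem_biUnion]
    refine ⟨w, hw, ?_⟩
    rw [Finset.mem_biUnion]
    refine ⟨Function.update p UB2_la 0, Finset.mem_image.2 ⟨p, hp, rfl⟩, ?_⟩
    rw [Finset.mem_biUnion]
    refine ⟨p UB2_la, ?_, ?_⟩
    · unfold UB2_Q
      rw [Finset.mem_filter, Finset.mem_range]
      exact ⟨by have := (h1 UB2_la).2; omega, (h1 _).1, hla.le⟩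
    · rw [Finset.mem_image, UB2_d0_upd]
      refine ⟨P0, ?_, hve.symm⟩
      have hq2 := (h1 UB2_la).1.two_le
      have hP2 := hP0.two_le
      unfold UB2_T
      rw [Finset.mem_filter, Finset.mem_range]
      refine ⟨?_, hP0, ?_, ?_⟩
      · have e1 : P0 - 1 ≤ v := by
          rw [hve]
          refine Nat.le_mul_of_pos_right _ (Nat.mul_pos (by omega) (by omega))
        have e2 : v ≤ ⌊X⌋₊ := Nat.le_floor hv2
        omega
      · rw [← hve]
        exact hv2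
      · have e1 : Real.log X / 2 < Real.log (v : ℝ) := by
          have e2 : Real.log (Real.sqrt X) = Real.log X / 2 := Real.log_sqrt hX0.le
          rw [← e2]
          exact Real.log_lt_log (Real.sqrt_pos.2 hX0) hv1
        have e3 : (v : ℝ) ≤ (P0 : ℝ) * ((P0 : ℝ) * (UB2_d0 w p : ℝ)) := by
          have e4 : v ≤ P0 * (P0 * UB2_d0 w p) := by
            rw [hve]
            refine Nat.mul_le_mul (Nat.sub_le _ _) (Nat.mul_le_mul_right _ ?_)
            have := hlt UB2_la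
            omega
          exact_mod_cast e4
        have hP0' : (0 : ℝ) < P0 := by exact_mod_cast hP0.pos
        have hd0' : (0 : ℝ) < UB2_d0 w p := by exact_mod_cast hd1
        have hv0 : (0 : ℝ) < v := (Real.sqrt_pos.2 hX0).trans hv1
        have e5 : Real.log (v : ℝ) ≤
            Real.log (P0 : ℝ) + (Real.log (P0 : ℝ) + Real.log (UB2_d0 w p : ℝ)) := by
          rw [← Real.log_mul hP0'.ne' hd0'.ne', ← Real.log_mul hP0'.ne' (mul_pos hP0' hd0').ne']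
          exact Real.log_le_log hv0 e3
        linarith
  -- the count for fixed `d`
  have hT : ∀ w ∈ Wfin σ, ∀ ρ ∈ UB2_Rho σ w, ∀ q ∈ UB2_Q σ,
      ((UB2_T X ((q - 1) * UB2_d0 w ρ)).card : ℝ) ≤
        8 * C * (X / Real.log X) * (1 / (w : ℝ) * UB2_om ρ * (1 / ((q : ℝ) - 1))) := by
    intro w hw ρ hρ q hq
    have hinv := UB2_inv_d0 hρ
    have hd : 1 ≤ UB2_d0 w ρ := by
      unfold UB2_Rho at hρ
      rw [Finset.mem_image] at hρ
      obtain ⟨p, hp, rfl⟩ := hρ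
      rw [UB2_d0_upd]
      exact (UB2_logd hσ hw hp).1
    have hq' : q.Prime := by
      unfold UB2_Q at hq
      rw [Finset.mem_filter] at hq
      exact hq.2.1
    have hq1 : 1 ≤ q - 1 := by
      have := hq'.two_le
      omega
    have h1 := hC X 8 ((q - 1) * UB2_d0 w ρ) (UB2_T X ((q - 1) * UB2_d0 w ρ)) hCX (by norm_num)
      (Nat.one_le_iff_ne_zero.2 (mul_ne_zero (by omega) (by omega))) ?_
    · refine h1.trans (le_of_eq ?_)
      rw [← hinv, Nat.cast_mul, Nat.cast_sub hq'.one_lt.le, Nat.cast_one]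
      have e1 : ((q : ℝ) - 1) ≠ 0 := by
        have : (2 : ℝ) ≤ q := by exact_mod_cast hq'.two_le
        linarith
      have e2 : (UB2_d0 w ρ : ℝ) ≠ 0 := by
        have : UB2_d0 w ρ ≠ 0 := by omega
        exact_mod_cast this
      field_simp
    · intro P hP
      unfold UB2_T at hP
      rw [Finset.mem_filter] at hP
      exact hP.2
  have hXL : 0 < X / Real.log X := div_pos hX0 hL0
  have hcard : (S.card : ℝ) ≤ ∑ w ∈ Wfin σ, ∑ ρ ∈ UB2_Rho σ w, ∑ q ∈ UB2_Q σ,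
      8 * C * (X / Real.log X) * (1 / (w : ℝ) * UB2_om ρ * (1 / ((q : ℝ) - 1))) := by
    have e1 : S.card ≤ ∑ w ∈ Wfin σ, ∑ ρ ∈ UB2_Rho σ w, ∑ q ∈ UB2_Q σ,
        (UB2_T X ((q - 1) * UB2_d0 w ρ)).card := by
      refine (Finset.card_le_card hcov).trans (Finset.card_biUnion_le.trans ?_)
      refine Finset.sum_le_sum fun w _ => Finset.card_biUnion_le.trans ?_
      refine Finset.sum_le_sum fun ρ _ => Finset.card_biUnion_le.trans ?_
      exact Finset.sum_le_sum fun q _ => Finset.card_image_le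
    have e2 : (S.card : ℝ) ≤ ∑ w ∈ Wfin σ, ∑ ρ ∈ UB2_Rho σ w, ∑ q ∈ UB2_Q σ,
        ((UB2_T X ((q - 1) * UB2_d0 w ρ)).card : ℝ) := by exact_mod_cast e1
    refine e2.trans ?_
    exact Finset.sum_le_sum fun w hw => Finset.sum_le_sum fun ρ hρ =>
      Finset.sum_le_sum fun q hq => hT w hw ρ hρ q hq
  have hfac : ∑ w ∈ Wfin σ, ∑ ρ ∈ UB2_Rho σ w, ∑ q ∈ UB2_Q σ,
      8 * C * (X / Real.log X) * (1 / (w : ℝ) * UB2_om ρ * (1 / ((q : ℝ) - 1))) =
      8 * C * (X / Real.log X) * (∑ q ∈ UB2_Q σ, 1 / ((q : ℝ) - 1)) *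
        ∑ w ∈ Wfin σ, 1 / (w : ℝ) * ∑ ρ ∈ UB2_Rho σ w, UB2_om ρ := by
    rw [Finset.mul_sum]
    refine Finset.sum_congr rfl fun w _ => ?_
    rw [← mul_assoc, Finset.mul_sum]
    refine Finset.sum_congr rfl fun ρ _ => ?_
    rw [Finset.mul_sum, Finset.sum_mul, Finset.sum_mul]
    refine Finset.sum_congr rfl fun q _ => ?_
    ring
  have hTR : 0.2 * σ ^ 120 * ∑ w ∈ Wfin σ, 1 / (w : ℝ) * ∑ ρ ∈ UB2_Rho σ w, UB2_om ρ ≤
      TR σ := by
    unfold TR
    rw [Finset.mul_sum]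
    refine Finset.sum_le_sum fun w _ => ?_
    have e1 := mul_le_mul_of_nonneg_left (UB2_sumRR hσ w) (by positivity : (0:ℝ) ≤ 1 / (w : ℝ))
    refine le_trans (le_of_eq ?_) e1
    ring
  have hM0 : 0 ≤ ∑ w ∈ Wfin σ, 1 / (w : ℝ) * ∑ ρ ∈ UB2_Rho σ w, UB2_om ρ := by
    refine Finset.sum_nonneg fun w _ => mul_nonneg (by positivity) ?_
    exact Finset.sum_nonneg fun ρ hρ => UB2_om_nonneg hρ
  obtain ⟨M, hM⟩ : ∃ M : ℝ, M = ∑ w ∈ Wfin σ, 1 / (w : ℝ) * ∑ ρ ∈ UB2_Rho σ w, UB2_om ρ :=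
    ⟨_, rfl⟩
  obtain ⟨Y, hY⟩ : ∃ Y : ℝ, Y = X / Real.log X := ⟨_, rfl⟩
  rw [hfac, ← hM, ← hY] at hcard
  rw [← hM] at hTR hM0
  rw [← hY] at hXL ⊢
  have hQ := UB2_sumQ hσ
  have h80 : 80 * C ≤ ε * σ := by
    have := (div_le_iff₀ hε).1 hσε
    linarith
  have h119 : (1 : ℝ) ≤ σ ^ 119 := one_le_pow₀ (by linarith)
  have h118 : (1 : ℝ) ≤ σ ^ 118 := one_le_pow₀ (by linarith)
  have hσ0 : 0 < σ := by linarith
  have hfin : 8 * C * (2 * σ) ≤ ε * (0.2 * σ ^ 120) := by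
    have e1 : ε * (0.2 * σ ^ 120) = 0.2 * (ε * σ) * σ * σ ^ 118 := by ring
    rw [e1]
    have e2 : 8 * C * (2 * σ) ≤ 0.2 * (ε * σ) * σ := by nlinarith only [h80, hσ0]
    have e3 : 0 ≤ 0.2 * (ε * σ) * σ := by positivity
    nlinarith only [h118, e2, e3]
  calc (S.card : ℝ) ≤ 8 * C * Y * (∑ q ∈ UB2_Q σ, 1 / ((q : ℝ) - 1)) * M := hcard
    _ ≤ 8 * C * Y * (2 * σ) * M := by
        refine mul_le_mul_of_nonneg_right (mul_le_mul_of_nonneg_left hQ ?_) hM0
        positivity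
    _ = Y * M * (8 * C * (2 * σ)) := by ring
    _ ≤ Y * M * (ε * (0.2 * σ ^ 120)) := mul_le_mul_of_nonneg_left hfin (by positivity)
    _ = ε * Y * (0.2 * σ ^ 120 * M) := by ring
    _ ≤ ε * Y * TR σ := mul_le_mul_of_nonneg_left hTR (by positivity)

end P031
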