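import Vale.Agent.Lib.P031.UB1
import Vale.Agent.Lib.P031.Mert

/-!
# P031 UB3: values with few primes above `y2`.

`v = w ∏_{q ∈ P} (q - 1)`, `1 ≤ |P| ≤ nn`, `ll (PW w) < σ^119`, so `log w ≤ (20 s + 1) exp(σ^119) ≤ (log X)/4`. With
`P0 = max P`, `(P0)^nn ≥ v/w ≥ X^(1/4)`, so `log P0 ≥ (log X)/(4 nn)`. For fixed `w` and `P1 = P \ {P0}` the number of `P0` is at
most `C nn X/(d log X)`, `d = w ∏_{P1} (q - 1)` (`pi_cheb`), and
`∑_{P1} ∏ 1/(q-1) ≤ ∑_{j ≤ nn - 1} (∑_q 1/(q-1))^j ≤ nn (s + C)^(nn-1)` (`mert_all`). -/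

namespace P031

open Finset Real

private theorem UB3_num {σ : ℝ} (hσ : 2 ≤ σ) :
    (20 * σ ^ 120 + 1) * Real.exp (σ ^ 119) ≤ Real.exp (σ ^ 120) / 4 := by
  have h0 : (0 : ℝ) < σ := by linarith
  have h1 : 0 ≤ σ ^ 119 := by positivity
  have h2 : σ ^ 119 + σ ^ 119 ≤ σ ^ 120 := by
    have : σ ^ 120 = σ * σ ^ 119 := by ring
    rw [this]
    nlinarith
  have h3 : Real.exp (σ ^ 119) * Real.exp (σ ^ 119) ≤ Real.exp (σ ^ 120) := by
    rw [← Real.exp_add]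
    exact Real.exp_le_exp.mpr h2
  have h4 := Real.quadratic_le_exp_of_nonneg h1
  have h5 : (σ ^ 119) ^ 2 = σ ^ 118 * σ ^ 120 := by ring
  have h6 : (200 : ℝ) ≤ σ ^ 118 := by
    calc (200 : ℝ) ≤ 2 ^ 118 := by norm_num
      _ ≤ σ ^ 118 := pow_le_pow_left₀ (by norm_num) hσ 118
  have h7 : (1 : ℝ) ≤ σ ^ 120 := one_le_pow₀ (by linarith)
  have h8 : 4 * (20 * σ ^ 120 + 1) ≤ Real.exp (σ ^ 119) := by
    rw [h5] at h4
    nlinarith only [h1, h4, h6, h7]
  have h9 := mul_le_mul_of_nonneg_right h8 (Real.exp_pos (σ ^ 119)).le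
  linarith

private theorem UB3_log_w {σ : ℝ} (hσ : 2 ≤ σ) {w : ℕ} (hw : w ∈ Wfin σ)
    (hl : ll (PW w) < σ ^ 119) : 1 ≤ w ∧ Real.log (w : ℝ) ≤ Real.exp (σ ^ 120) / 4 := by
  classical
  unfold Wfin at hw
  rw [Finset.mem_filter, Finset.mem_Icc] at hw
  obtain ⟨⟨hw1, -⟩, hR, hex, -⟩ := hw
  refine ⟨hw1, ?_⟩
  obtain ⟨hm1, hm2⟩ := mW_spec hex
  have hm0 : mW w ≠ 0 := by
    intro h
    rw [h, Nat.totient_zero] at hm1
    omega
  have h1 : (w : ℝ) ≤ (PW w : ℝ) ^ (Om (mW w)) := by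
    have h2 : w ≤ mW w := by
      calc w = Nat.totient (mW w) := hm1.symm
        _ ≤ mW w := Nat.totient_le _
    have h3 := le_maxp_pow hm0
    rw [hm2] at h3
    exact_mod_cast h2.trans h3
  have h4 : (Om (mW w) : ℝ) ≤ 20 * σ ^ 120 + 1 := by
    have h5 := Om_le_tot hm0
    rw [hm1] at h5
    have h6 : (Om (mW w) : ℝ) ≤ (Om w : ℝ) + 1 := by exact_mod_cast h5
    have h7 := hR.2.1
    linarith
  have h5 : Real.log (PW w : ℝ) ≤ Real.exp (σ ^ 119) := by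
    by_cases h : 0 < Real.log (PW w : ℝ)
    · have h6 : Real.log (PW w : ℝ) = Real.exp (ll (PW w)) := (Real.exp_log h).symm
      rw [h6]
      exact Real.exp_le_exp.mpr hl.le
    · exact (not_lt.mp h).trans (Real.exp_pos _).le
  have h6 : Real.log (w : ℝ) ≤ Om (mW w) * Real.log (PW w : ℝ) := by
    rw [← Real.log_pow]
    exact Real.log_le_log (by exact_mod_cast hw1) h1
  have h7 : (Om (mW w) : ℝ) * Real.log (PW w : ℝ) ≤ (20 * σ ^ 120 + 1) * Real.exp (σ ^ 119) := by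
    calc (Om (mW w) : ℝ) * Real.log (PW w : ℝ) ≤ (Om (mW w) : ℝ) * Real.exp (σ ^ 119) :=
          mul_le_mul_of_nonneg_left h5 (Nat.cast_nonneg _)
      _ ≤ (20 * σ ^ 120 + 1) * Real.exp (σ ^ 119) :=
          mul_le_mul_of_nonneg_right h4 (Real.exp_pos _).le
  exact h6.trans (h7.trans (UB3_num hσ))

/-- a list as a tuple, padded with `2` -/
private theorem UB3_tuple (m : ℕ) (l : List ℕ) (hl : l.length ≤ m) :
    ∃ p : Fin m → ℕ, (∀ i, p i ∈ l ∨ p i = 2) ∧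
      ∏ i, (p i - 1) = (l.map (fun q => q - 1)).prod := by
  induction m generalizing l with
  | zero =>
    have h : l = [] := List.length_eq_zero_iff.mp (by omega)
    subst h
    exact ⟨fun i => i.elim0, fun i => i.elim0, by simp⟩
  | succ m ih =>
    cases l with
    | nil => exact ⟨fun _ => 2, fun _ => Or.inr rfl, by simp⟩
    | cons a l =>
      obtain ⟨p, hp1, hp2⟩ := ih l (by simpa using hl)
      refine ⟨Fin.cons a p, ?_, ?_⟩
      · intro i
        refine Fin.cases ?_ (fun i => ?_) i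
        · left
          simp
        · rcases hp1 i with h | h
          · left
            simp [h]
          · right
            simp [h]
      · rw [Fin.prod_univ_succ]
        simp [hp2]

private theorem UB3_log_max {X L : ℝ} (hX : 0 < X) (hL : L = Real.log X) {w P0 : ℕ} (hw : 1 ≤ w)
    (hlw : Real.log (w : ℝ) ≤ L / 4) {P : Finset ℕ} (hP : P.card ≤ 121)
    (hPle : ∀ q ∈ P, q ≤ P0) (hP0 : 1 ≤ P0)
    (hv : Real.sqrt X < ((w * ∏ q ∈ P, (q - 1) : ℕ) : ℝ)) : L / 484 ≤ Real.log (P0 : ℝ) := by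
  have h1 : ∏ q ∈ P, (q - 1) ≤ P0 ^ 121 := by
    calc ∏ q ∈ P, (q - 1) ≤ ∏ _q ∈ P, P0 :=
          Finset.prod_le_prod' fun q hq => (Nat.sub_le _ _).trans (hPle q hq)
      _ = P0 ^ P.card := by rw [Finset.prod_const]
      _ ≤ P0 ^ 121 := Nat.pow_le_pow_right hP0 hP
  have h2 : ((w * ∏ q ∈ P, (q - 1) : ℕ) : ℝ) ≤ (w : ℝ) * (P0 : ℝ) ^ 121 := by
    exact_mod_cast Nat.mul_le_mul_left w h1
  have h3 : Real.log (Real.sqrt X) ≤ Real.log ((w : ℝ) * (P0 : ℝ) ^ 121) :=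
    Real.log_le_log (Real.sqrt_pos.mpr hX) (hv.le.trans h2)
  have hw0 : (w : ℝ) ≠ 0 := by
    have : (0 : ℝ) < w := by exact_mod_cast hw
    exact this.ne'
  have hP00 : ((P0 : ℝ) ^ 121) ≠ 0 := by
    have : (0 : ℝ) < P0 := by exact_mod_cast hP0
    positivity
  rw [Real.log_sqrt hX.le, Real.log_mul hw0 hP00, Real.log_pow, ← hL] at h3
  push_cast at h3
  linarith

private theorem UB3_sum {B : ℝ} (A : Finset ℕ) (hB : ∑ q ∈ A, 1 / ((q : ℝ) - 1) ≤ B)
    (hA : ∀ q ∈ A, q.Prime) :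
    ∑ p ∈ Fintype.piFinset (fun _ : Fin 120 => A), ∏ i, 1 / ((p i : ℝ) - 1) ≤ B ^ 120 := by
  have h := Finset.prod_univ_sum (fun _ : Fin 120 => A) (fun _ q => 1 / ((q : ℝ) - 1))
  rw [← h, Finset.prod_const, Finset.card_univ, Fintype.card_fin]
  refine pow_le_pow_left₀ (Finset.sum_nonneg fun q hq => ?_) hB 120
  have h2 : (2 : ℝ) ≤ q := by exact_mod_cast (hA q hq).two_le
  have h3 : (0 : ℝ) < (q : ℝ) - 1 := by linarith
  positivity

theorem UB_few : ∃ C : ℝ, 1 ≤ C ∧ ∀ᶠ σ : ℝ in Filter.atTop, ∀ (X : ℝ) (S : Finset ℕ),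
    Real.exp (Real.exp (σ ^ 120)) ≤ X → X ≤ Real.exp (Real.exp (σ ^ 120 + 1 / 2)) →
    (∀ v ∈ S, Real.sqrt X < v ∧ (v : ℝ) ≤ X ∧
      ∃ w ∈ Wfin σ, ll (PW w) < σ ^ 119 ∧ ∃ P : Finset ℕ, P.Nonempty ∧ P.card ≤ nn ∧
        (∀ q ∈ P, q.Prime ∧ q ≤ EE σ) ∧ v = w * ∏ q ∈ P, (q - 1)) →
    (S.card : ℝ) ≤ C * (X / Real.log X) * (σ ^ 120) ^ (nn - 1) * Wsm σ := by
  classical
  obtain ⟨C1, hC1, hcheb⟩ := pi_cheb
  obtain ⟨C2, hC2, hmert⟩ := mert_all
  refine ⟨C1 * 484 * 2 ^ 120, ?_, ?_⟩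
  · have h1 : (1 : ℝ) ≤ 484 * 2 ^ 120 := by norm_num
    nlinarith
  filter_upwards [Filter.eventually_ge_atTop (2 : ℝ), Filter.eventually_ge_atTop C1,
    Filter.eventually_ge_atTop (C2 + 1)] with σ hσ hσ1 hσ2 X S hX1 hX2 hS
  have hσ0 : (0 : ℝ) < σ := by linarith
  have hs : σ ≤ σ ^ 120 := le_self_pow₀ (by linarith) (by norm_num)
  have hX0 : 0 < X := (Real.exp_pos _).trans_le hX1
  have hL1 : Real.exp (σ ^ 120) ≤ Real.log X := (Real.le_log_iff_exp_le hX0).mpr hX1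
  have he1 : σ ^ 120 + 1 ≤ Real.exp (σ ^ 120) := Real.add_one_le_exp _
  have he2 : Real.exp (σ ^ 120) + 1 ≤ Real.exp (Real.exp (σ ^ 120)) := Real.add_one_le_exp _
  have hC1X : C1 ≤ X := by linarith
  have hL0 : 0 < Real.log X := by linarith
  obtain ⟨A, hA⟩ : ∃ A : Finset ℕ, A = (Finset.range (EE σ + 1)).filter Nat.Prime := ⟨_, rfl⟩
  have hAp : ∀ q ∈ A, q.Prime := by
    intro q hq
    rw [hA, Finset.mem_filter] at hq
    exact hq.2
  have hmemA : ∀ q : ℕ, q.Prime → q ≤ EE σ → q ∈ A := by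
    intro q hq hle
    rw [hA, Finset.mem_filter, Finset.mem_range]
    exact ⟨Nat.lt_succ_of_le hle, hq⟩
  have hE2 : 2 ≤ EE σ := by
    unfold EE
    refine Nat.le_floor ?_
    push_cast
    exact mert_two_le (by positivity)
  have h2A : 2 ∈ A := hmemA 2 Nat.prime_two hE2
  have hsumA : ∑ q ∈ A, 1 / ((q : ℝ) - 1) ≤ 2 * σ ^ 120 := by
    have h1 := hmert (σ ^ 120 + 1) (by positivity) A (by
      intro q hq
      refine ⟨hAp q hq, ?_⟩
      rw [mert_le_ll (hAp q hq)]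
      rw [hA, Finset.mem_filter, Finset.mem_range] at hq
      have h2 : q ≤ EE σ := Nat.lt_succ_iff.mp hq.1
      have h3 : (EE σ : ℝ) ≤ Real.exp (Real.exp (σ ^ 120 + 1)) :=
        Nat.floor_le (Real.exp_pos _).le
      have h4 : (q : ℝ) ≤ EE σ := by exact_mod_cast h2
      exact h4.trans h3)
    linarith
  obtain ⟨d, hd⟩ : ∃ d : ℕ → (Fin 120 → ℕ) → ℕ, d = fun w p => w * ∏ i, (p i - 1) := ⟨_, rfl⟩
  obtain ⟨T, hT⟩ : ∃ T : ℕ → (Fin 120 → ℕ) → Finset ℕ, T = fun w p =>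
    (Finset.range (EE σ + 1)).filter (fun P0 => P0.Prime ∧ (((P0 - 1) * d w p : ℕ) : ℝ) ≤ X ∧
      Real.log X / 484 ≤ Real.log (P0 : ℝ)) := ⟨_, rfl⟩
  obtain ⟨W', hW'⟩ : ∃ W' : Finset ℕ, W' = (Wfin σ).filter (fun w => ll (PW w) < σ ^ 119) :=
    ⟨_, rfl⟩
  have hsub : S ⊆ W'.biUnion fun w => (Fintype.piFinset fun _ : Fin 120 => A).biUnion fun p =>
      (T w p).image (fun P0 => (P0 - 1) * d w p) := by
    intro v hv
    obtain ⟨hv1, hv2, w, hw, hlw, P, hPne, hPc, hPq, hvP⟩ := hS v hv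
    obtain ⟨hw1, hw2⟩ := UB3_log_w hσ hw hlw
    have hPc' : P.card ≤ 121 := hPc
    set P0 := P.max' hPne with hP0
    have hP0mem : P0 ∈ P := Finset.max'_mem P hPne
    have hP0p := (hPq P0 hP0mem).1
    have hlen : (P.erase P0).toList.length ≤ 120 := by
      rw [Finset.length_toList, Finset.card_erase_of_mem hP0mem]
      omega
    obtain ⟨p, hp1, hp2⟩ := UB3_tuple 120 (P.erase P0).toList hlen
    have hprod : ∏ q ∈ P, (q - 1) = (P0 - 1) * ∏ i, (p i - 1) := by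
      rw [hp2, Finset.prod_map_toList, Finset.mul_prod_erase P (fun q => q - 1) hP0mem]
    have hveq : v = (P0 - 1) * d w p := by
      rw [hvP, hprod, hd]
      ring
    rw [Finset.mem_biUnion]
    refine ⟨w, by rw [hW', Finset.mem_filter]; exact ⟨hw, hlw⟩, ?_⟩
    rw [Finset.mem_biUnion]
    refine ⟨p, ?_, ?_⟩
    · rw [Fintype.mem_piFinset]
      intro i
      rcases hp1 i with h | h
      · rw [Finset.mem_toList] at h
        have h' := Finset.mem_of_mem_erase h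
        exact hmemA _ (hPq _ h').1 (hPq _ h').2
      · rw [h]
        exact h2A
    · rw [Finset.mem_image]
      refine ⟨P0, ?_, hveq.symm⟩
      rw [hT, Finset.mem_filter, Finset.mem_range]
      refine ⟨Nat.lt_succ_of_le (hPq P0 hP0mem).2, hP0p, ?_, ?_⟩
      · rw [← hveq]
        exact hv2
      · refine UB3_log_max hX0 rfl hw1 (by linarith) hPc' (fun q hq => Finset.le_max' P q hq)
          hP0p.one_lt.le ?_
        rw [← hvP]
        exact hv1
  have hcard1 : (S.card : ℝ) ≤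
      ∑ w ∈ W', ∑ p ∈ Fintype.piFinset (fun _ : Fin 120 => A), ((T w p).card : ℝ) := by
    have h1 : S.card ≤ ∑ w ∈ W', ∑ p ∈ Fintype.piFinset (fun _ : Fin 120 => A), (T w p).card := by
      refine (Finset.card_le_card hsub).trans (Finset.card_biUnion_le.trans ?_)
      refine Finset.sum_le_sum fun w _ => ?_
      refine Finset.card_biUnion_le.trans (Finset.sum_le_sum fun p _ => ?_)
      exact Finset.card_image_le
    exact_mod_cast h1
  have hterm : ∀ w ∈ W', ∀ p ∈ Fintype.piFinset (fun _ : Fin 120 => A), ((T w p).card : ℝ) ≤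
      (C1 * 484 * (X / Real.log X)) * ((1 / (w : ℝ)) * ∏ i, 1 / ((p i : ℝ) - 1)) := by
    intro w hw p hp
    have hw1 : 1 ≤ w := by
      rw [hW', Finset.mem_filter] at hw
      exact (UB3_log_w hσ hw.1 hw.2).1
    rw [Fintype.mem_piFinset] at hp
    have hpi : ∀ i, 1 ≤ p i - 1 := fun i => by
      have := (hAp _ (hp i)).two_le
      omega
    have hd1 : 1 ≤ d w p := by
      rw [hd]
      exact Nat.mul_pos hw1 (Finset.prod_pos fun i _ => hpi i)
    have h1 := hcheb X 484 (d w p) (T w p) hC1X (by norm_num) hd1 (by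
      intro P0 hP0
      rw [hT, Finset.mem_filter] at hP0
      exact hP0.2)
    refine h1.trans (le_of_eq ?_)
    have hdc : ((d w p : ℕ) : ℝ) = (w : ℝ) * ∏ i, ((p i : ℝ) - 1) := by
      rw [hd]
      push_cast
      congr 1
      refine Finset.prod_congr rfl fun i _ => ?_
      rw [Nat.cast_sub (by have := hpi i; omega)]
      simp
    rw [hdc]
    have hprodinv : ∏ i, 1 / ((p i : ℝ) - 1) = 1 / ∏ i, ((p i : ℝ) - 1) := by
      rw [Finset.prod_div_distrib, Finset.prod_const_one]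
    rw [hprodinv]
    have hne1 : (w : ℝ) ≠ 0 := by
      have : (0 : ℝ) < w := by exact_mod_cast hw1
      exact this.ne'
    have hne2 : ∏ i, ((p i : ℝ) - 1) ≠ 0 := by
      refine Finset.prod_ne_zero_iff.mpr fun i _ => ?_
      have h2 : (2 : ℝ) ≤ p i := by exact_mod_cast (hAp _ (hp i)).two_le
      have h3 : (0 : ℝ) < (p i : ℝ) - 1 := by linarith
      exact h3.ne'
    field_simp
  have hcard2 : (S.card : ℝ) ≤ ∑ w ∈ W', (C1 * 484 * (X / Real.log X)) *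
      ((1 / (w : ℝ)) * (2 * σ ^ 120) ^ 120) := by
    refine hcard1.trans (Finset.sum_le_sum fun w hw => ?_)
    refine (Finset.sum_le_sum (hterm w hw)).trans ?_
    rw [← Finset.mul_sum, ← Finset.mul_sum]
    refine mul_le_mul_of_nonneg_left (mul_le_mul_of_nonneg_left ?_ (by positivity))
      (by positivity)
    exact UB3_sum A hsumA hAp
  refine hcard2.trans (le_of_eq ?_)
  have hWsm : Wsm σ = ∑ w ∈ W', 1 / (w : ℝ) := by
    unfold Wsm
    rw [hW']
  have hnn : nn - 1 = 120 := rfl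
  rw [hWsm, hnn, ← Finset.mul_sum, ← Finset.sum_mul, mul_pow]
  ring

end P031
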