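import Vale.Agent.Lib.P031.LinUB
import Vale.Agent.Lib.P031.WFacts

/-!
# P031 UBCases: shape of the typical totient values.

Proof. `N = mW v`, repeatedly split off the largest prime (`WW_split`, possible as long as `maxp > y1`); the primes of
`N` with `ll ≥ σ^119` are `P0 > p_{nn-1} > … `. `ll P0 ≥ σ^119` since `N ≥ v > √X`, `N ≤ (maxp N)^(Om N)`,
`Om N ≤ Om v + 1 ≤ 20 s + 1`.
* If there are at least `nn + 1` of them, split off exactly `nn + 1`: `v = (P0 - 1) vt w p nn`, `w = φ(rest) ∈ WW`,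
  `PW w ≤ maxp rest < p 0`. All these primes are normal (`GoodPre`). For `k < nn`, with `t = xx p k = ll (p k)`,
  `lowp t N = p_k … p_0 rest`, so `(p_k - 1) vt w p k = φ(lowp t N)` and `GoodPre` gives
  `II ≤ (1 + 2/σ^4) t`; with `lin_UB`, `BB k ≤ (1 + 2/σ^4) t + σ^105 ≤ (1 + 3/σ^4) t` (as `t ≥ σ^119`). For `k = nn` use
  `t = ll P0 ≤ ll (X + 1) ≤ σ^120 + 3/4`: `BB nn ≤ (1 + 2/σ^4)(σ^120 + 3/4) + σ^105 ≤ (1 + 4/σ^4) σ^120`.
  So `p ∈ RR σ w` or `p ∈ RN σ w`.
* Otherwise split off all of them (at least `1`, at most `nn`): third case, `w = φ(rest)` with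
  `ll (maxp rest) < σ^119`.
In all cases `w ≤ v/(P0 - 1) < EE σ`. -/

namespace P031

open Finset Real

/-- the preimage with the `i` largest primes split off -/
private def UBCases_N (N : ℕ) : ℕ → ℕ
  | 0 => N
  | i + 1 => UBCases_N N i / maxp (UBCases_N N i)

/-- the conclusion of `WW_split` -/
private def UBCases_Spl (σ : ℝ) (N : ℕ) : Prop :=
    (maxp N).Prime ∧ Normal σ (maxp N) ∧ N = maxp N * (N / maxp N) ∧ ¬ maxp N ∣ N / maxp N ∧
    N / maxp N ≠ 0 ∧ maxp (N / maxp N) < maxp N ∧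
    Nat.totient N = (maxp N - 1) * Nat.totient (N / maxp N) ∧
    WW σ (Nat.totient (N / maxp N))

private theorem UBCases_WW {σ : ℝ} (hs : ∀ N : ℕ, WW σ (Nat.totient N) →
    σ ^ 111 < ll (maxp N) → UBCases_Spl σ N) {N : ℕ} (hN : WW σ (Nat.totient N)) (m : ℕ)
    (hg : ∀ i < m, σ ^ 111 < ll (maxp (UBCases_N N i))) :
    WW σ (Nat.totient (UBCases_N N m)) := by
  induction m with
  | zero => exact hN
  | succ m ih =>
    have h1 := ih fun i hi => hg i (Nat.lt_succ_of_lt hi)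
    exact (hs _ h1 (hg m (Nat.lt_succ_self m))).2.2.2.2.2.2.2

private theorem UBCases_Sp {σ : ℝ} (hs : ∀ N : ℕ, WW σ (Nat.totient N) →
    σ ^ 111 < ll (maxp N) → UBCases_Spl σ N) {N : ℕ} (hN : WW σ (Nat.totient N)) (m : ℕ)
    (hg : ∀ i < m, σ ^ 111 < ll (maxp (UBCases_N N i))) (i : ℕ) (hi : i < m) :
    UBCases_Spl σ (UBCases_N N i) :=
  hs _ (UBCases_WW hs hN i fun j hj => hg j (hj.trans hi)) (hg i hi)

private theorem UBCases_anti {σ : ℝ} {N m : ℕ} (h : ∀ i < m, UBCases_Spl σ (UBCases_N N i))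
    (i j : ℕ) (hij : i < j) (hj : j ≤ m) :
    maxp (UBCases_N N j) < maxp (UBCases_N N i) := by
  induction j with
  | zero => omega
  | succ j ih =>
    have h1 : maxp (UBCases_N N (j + 1)) < maxp (UBCases_N N j) := (h j (by omega)).2.2.2.2.2.1
    rcases Nat.lt_succ_iff_lt_or_eq.mp hij with h2 | rfl
    · exact h1.trans (ih h2 (by omega))
    · exact h1

private theorem UBCases_prod {σ : ℝ} {N m : ℕ} (h : ∀ i < m, UBCases_Spl σ (UBCases_N N i)) :
    Nat.totient N = Nat.totient (UBCases_N N m) *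
      ∏ i ∈ Finset.range m, (maxp (UBCases_N N i) - 1) := by
  induction m with
  | zero => simp [UBCases_N]
  | succ m ih =>
    rw [ih fun i hi => h i (Nat.lt_succ_of_lt hi), Finset.prod_range_succ]
    have h1 := (h m (Nat.lt_succ_self m)).2.2.2.2.2.2.1
    rw [h1]
    have h2 : UBCases_N N (m + 1) = UBCases_N N m / maxp (UBCases_N N m) := rfl
    rw [h2]
    ring

private theorem UBCases_vt_zero (w : ℕ) (p : Fin nn → ℕ) : vt w p 0 = w := by
  simp [vt]

private theorem UBCases_vt_succ (w : ℕ) (p : Fin nn → ℕ) (k : ℕ) (hk : k < nn) :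
    vt w p (k + 1) = (p ⟨k, hk⟩ - 1) * vt w p k := by
  unfold vt
  have h : (Finset.univ.filter (fun i : Fin nn => i.val < k + 1)) =
      insert ⟨k, hk⟩ (Finset.univ.filter (fun i : Fin nn => i.val < k)) := by
    ext i
    simp only [mem_filter, mem_univ, true_and, mem_insert, Fin.ext_iff]
    omega
  rw [h, prod_insert (by simp)]
  ring

/-- `GoodPre` at the largest prime -/
private theorem UBCases_II {σ : ℝ} {N : ℕ} (hN : GoodPre σ N) (hN0 : N ≠ 0)
    (hl : σ ^ 119 ≤ ll (maxp N)) : II σ (Nat.totient N) ≤ (1 + 2 / σ ^ 4) * ll (maxp N) := by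
  have h1 := hN.2.2 (ll (maxp N)) hl
  rw [lowp_eq_self hN0] at h1
  · exact h1
  · intro q hq
    exact ll_mono (Nat.prime_of_mem_primeFactors hq).two_le (le_maxp hq)

/-- the numbers -/
private theorem UBCases_ev : ∀ᶠ σ : ℝ in Filter.atTop,
    σ ^ 119 ≤ σ ^ 120 - Real.log 2 - Real.log (20 * σ ^ 120 + 1) := by
  have h1 : Filter.Tendsto (fun x : ℝ => Real.log x / x) Filter.atTop (nhds 0) := by
    have := Real.isLittleO_log_id_atTop.tendsto_div_nhds_zero
    exact this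
  have h2 : Filter.Tendsto (fun σ : ℝ => 20 * σ ^ 120 + 1) Filter.atTop Filter.atTop :=
    Filter.tendsto_atTop_add_const_right _ _
      ((Filter.tendsto_pow_atTop (by norm_num)).const_mul_atTop (by norm_num))
  have h3 := h1.comp h2
  have h4 : ∀ᶠ σ : ℝ in Filter.atTop,
      Real.log (20 * σ ^ 120 + 1) / (20 * σ ^ 120 + 1) < 1 / 100 :=
    h3.eventually (gt_mem_nhds (by norm_num))
  filter_upwards [h4, Filter.eventually_ge_atTop (100 : ℝ)] with σ h5 hσ
  have hσ0 : 0 < σ := by linarith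
  have h6 : 0 < 20 * σ ^ 120 + 1 := by positivity
  rw [div_lt_iff₀ h6] at h5
  have h7 : Real.log 2 ≤ 1 := by
    have := Real.log_two_lt_d9
    linarith
  have h8 : σ ^ 120 = σ * σ ^ 119 := by ring
  have h9 : 1 ≤ σ ^ 119 := one_le_pow₀ (by linarith)
  nlinarith only [h5, hσ, h7, h9]

/-- the size of the integers which occur -/
private theorem UBCases_X {s X : ℝ} (hs : 2 ≤ s) (hX : X ≤ Real.exp (Real.exp (s + 1 / 2))) :
    X + 1 ≤ Real.exp (Real.exp (s + 3 / 4)) := by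
  have h1 : 1 ≤ Real.exp (s + 1 / 2) := Real.one_le_exp (by linarith)
  have h2 : Real.exp (s + 3 / 4) = Real.exp (s + 1 / 2) * Real.exp (1 / 4) := by
    rw [← Real.exp_add]
    congr 1
    ring
  have h3 : 1 + 1 / 4 ≤ Real.exp (1 / 4) := by
    have := Real.add_one_le_exp (1 / 4 : ℝ)
    linarith
  have h2' : 3 ≤ Real.exp (s + 1 / 2) := by
    have := Real.add_one_le_exp (s + 1 / 2)
    linarith
  have h4 : Real.exp (s + 1 / 2) + 1 / 2 ≤ Real.exp (s + 3 / 4) := by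
    rw [h2]
    nlinarith only [h3, h2']
  have h5 : Real.exp (Real.exp (s + 1 / 2)) * (1 + 1 / 2) ≤ Real.exp (Real.exp (s + 3 / 4)) := by
    calc Real.exp (Real.exp (s + 1 / 2)) * (1 + 1 / 2)
        ≤ Real.exp (Real.exp (s + 1 / 2)) * Real.exp (1 / 2) := by
          apply mul_le_mul_of_nonneg_left _ (Real.exp_pos _).le
          have := Real.add_one_le_exp (1 / 2 : ℝ)
          linarith
      _ = Real.exp (Real.exp (s + 1 / 2) + 1 / 2) := by rw [← Real.exp_add]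
      _ ≤ _ := Real.exp_le_exp.mpr h4
  have h6 : 2 ≤ Real.exp (Real.exp (s + 1 / 2)) := by
    have := Real.add_one_le_exp (Real.exp (s + 1 / 2))
    linarith
  linarith

open Classical in
/-- `w ≤ v ≤ X` is in `Wfin` -/
private theorem UBCases_Wfin {σ X : ℝ} (hσ : 2 ≤ σ ^ 120)
    (hX : X ≤ Real.exp (Real.exp (σ ^ 120 + 1 / 2))) {v w : ℕ} (hv : (v : ℝ) ≤ X) (hwv : w ≤ v)
    (hw : WW σ w) : w ∈ Wfin σ := by
  have h1 := UBCases_X hσ hX
  have h2 : Real.exp (Real.exp (σ ^ 120 + 3 / 4)) ≤ Real.exp (Real.exp (σ ^ 120 + 1)) :=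
    Real.exp_le_exp.mpr (Real.exp_le_exp.mpr (by linarith))
  have h3 : w + 1 ≤ EE σ := by
    unfold EE
    apply Nat.le_floor
    push_cast
    have : (w : ℝ) ≤ v := by exact_mod_cast hwv
    linarith
  unfold Wfin
  exact Finset.mem_filter.mpr ⟨Finset.mem_Icc.mpr ⟨hw.1.1, by omega⟩, hw⟩

/-- the largest prime factor of the preimage is large -/
private theorem UBCases_top {σ X : ℝ}
    (hev : σ ^ 119 ≤ σ ^ 120 - Real.log 2 - Real.log (20 * σ ^ 120 + 1))
    (hX : Real.exp (Real.exp (σ ^ 120)) ≤ X) {v N : ℕ} (hW : WW σ v) (hN : Nat.totient N = v)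
    (hv : Real.sqrt X < v) : σ ^ 119 ≤ ll (maxp N) := by
  have hX0 : 0 < X := lt_of_lt_of_le (Real.exp_pos _) hX
  have hv1 : 1 < (v : ℝ) := by
    have h1 : (1 : ℝ) ≤ Real.sqrt X := by
      rw [Real.one_le_sqrt]
      refine le_trans (Real.one_le_exp (Real.exp_pos _).le) hX
    linarith
  have hv2 : 2 ≤ v := by exact_mod_cast hv1
  have hN0 : N ≠ 0 := by
    rintro rfl
    rw [Nat.totient_zero] at hN
    omega
  have hNv : v ≤ N := by
    rw [← hN]
    exact Nat.totient_le N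
  have hN2 : 2 ≤ N := hv2.trans hNv
  have h1 := ll_le_maxp hN2
  have h2 : ll v ≤ ll N := ll_mono hv2 hNv
  have h3 : σ ^ 120 - Real.log 2 ≤ ll v := by
    unfold ll
    have h4 : Real.exp (σ ^ 120) / 2 ≤ Real.log v := by
      have h5 : Real.log (Real.sqrt X) ≤ Real.log v :=
        Real.log_le_log (Real.sqrt_pos.mpr hX0) hv.le
      rw [Real.log_sqrt hX0.le] at h5
      have h6 : Real.exp (σ ^ 120) ≤ Real.log X := by
        rw [Real.le_log_iff_exp_le hX0]
        exact hX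
      linarith
    have h7 : Real.log (Real.exp (σ ^ 120) / 2) ≤ Real.log (Real.log v) :=
      Real.log_le_log (by positivity) h4
    rw [Real.log_div (Real.exp_pos _).ne' (by norm_num), Real.log_exp] at h7
    exact h7
  have h8 : Real.log (Om N) ≤ Real.log (20 * σ ^ 120 + 1) := by
    have h9 : (Om N : ℝ) ≤ 20 * σ ^ 120 + 1 := by
      have h10 := Om_le_tot hN0
      rw [hN] at h10
      have h11 : (Om N : ℝ) ≤ Om v + 1 := by exact_mod_cast h10
      have h12 := hW.1.2.1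
      linarith
    have h13 : 0 < (Om N : ℝ) := by
      have := tot_Om_pos hN2
      exact_mod_cast this
    exact Real.log_le_log h13 h9
  linarith

/-- the primes are at most `X + 1` -/
private theorem UBCases_ll {s X : ℝ} (hs : 2 ≤ s)
    (hX : X ≤ Real.exp (Real.exp (s + 1 / 2))) {v P : ℕ} (hv : (v : ℝ) ≤ X) (hP : P.Prime)
    (hPv : P - 1 ≤ v) : ll P ≤ s + 3 / 4 := by
  rw [ll_le_iff hP.two_le]
  have h1 := UBCases_X hs hX
  have h2 : (P : ℝ) ≤ v + 1 := by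
    have : P ≤ v + 1 := by omega
    exact_mod_cast this
  linarith

/-- the case of many large primes -/
private theorem UBCases_A {σ X : ℝ} (hσ : 2 ≤ σ)
    (hlin : ∀ (w : ℕ) (p : Fin nn → ℕ), w ≠ 0 →
    (Om w : ℝ) ≤ 20 * σ ^ 120 → (∀ i, ∀ q ∈ w.primeFactors, q < p i) → StrictMono p →
    (∀ i, (p i).Prime ∧ Normal σ (p i) ∧ σ ^ 111 < ll (p i) ∧ ll (p i) ≤ σ ^ 120 + 1) →
    (∀ k (hk : k < nn), BB (fun j => CC σ j w) (xx p) k - σ ^ 105 ≤
      II σ ((p ⟨k, hk⟩ - 1) * vt w p k)) ∧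
    (∀ P0 : ℕ, P0.Prime → Normal σ P0 → ll P0 ≤ σ ^ 120 + 1 → (∀ i, p i < P0) →
      BB (fun j => CC σ j w) (xx p) nn - σ ^ 105 ≤ II σ ((P0 - 1) * vt w p nn)))
    (hs : ∀ N : ℕ, WW σ (Nat.totient N) → σ ^ 111 < ll (maxp N) → UBCases_Spl σ N)
    (hX : X ≤ Real.exp (Real.exp (σ ^ 120 + 1 / 2))) {v N : ℕ} (hW : WW σ v)
    (hN : Nat.totient N = v) (hv : (v : ℝ) ≤ X)
    (hg : ∀ i < nn + 1, σ ^ 119 ≤ ll (maxp (UBCases_N N i))) :
    ∃ w ∈ Wfin σ, ∃ p : Fin nn → ℕ, (p ∈ RR σ w ∨ p ∈ RN σ w) ∧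
      ∃ P0 : ℕ, P0.Prime ∧ (∀ i, p i < P0) ∧ v = (P0 - 1) * vt w p nn := by
  have hσ0 : 0 < σ := by linarith
  have h119 : σ ^ 111 < σ ^ 119 := pow_lt_pow_right₀ (by linarith) (by norm_num)
  have hs120 : 2 ≤ σ ^ 120 := by
    calc (2 : ℝ) ≤ σ := hσ
      _ = σ ^ 1 := (pow_one σ).symm
      _ ≤ σ ^ 120 := pow_le_pow_right₀ (by linarith) (by norm_num)
  have hWN : WW σ (Nat.totient N) := by rw [hN]; exact hW
  have hg' : ∀ i < nn + 1, σ ^ 111 < ll (maxp (UBCases_N N i)) :=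
    fun i hi => lt_of_lt_of_le h119 (hg i hi)
  have hSp := UBCases_Sp hs hWN (nn + 1) hg'
  have hWi : ∀ i ≤ nn + 1, WW σ (Nat.totient (UBCases_N N i)) := fun i hi =>
    UBCases_WW hs hWN i fun j hj => hg' j (lt_of_lt_of_le hj hi)
  have hanti := UBCases_anti hSp
  have hdvd : ∀ i ≤ nn + 1, Nat.totient (UBCases_N N i) ∣ v := by
    intro i hi
    have h1 := UBCases_prod (σ := σ) (N := N) (m := i) fun j hj => hSp j (lt_of_lt_of_le hj hi)
    rw [← hN, h1]
    exact Dvd.intro _ rfl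
  have hv0 : 0 < v := hW.1.1
  have hPv : ∀ i < nn + 1, maxp (UBCases_N N i) - 1 ≤ v := by
    intro i hi
    have h1 := (hSp i hi).2.2.2.2.2.2.1
    have h2 : maxp (UBCases_N N i) - 1 ∣ Nat.totient (UBCases_N N i) := by
      rw [h1]
      exact Dvd.intro _ rfl
    exact Nat.le_of_dvd hv0 (h2.trans (hdvd i hi.le))
  have hll : ∀ i < nn + 1, ll (maxp (UBCases_N N i)) ≤ σ ^ 120 + 3 / 4 := fun i hi =>
    UBCases_ll hs120 hX hv (hSp i hi).1 (hPv i hi)
  have hN0 : ∀ i < nn + 1, UBCases_N N i ≠ 0 := by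
    intro i hi h
    have h1 := hWi i hi.le
    rw [h, Nat.totient_zero] at h1
    exact absurd h1.1.1 (by simp)
  have hII : ∀ i < nn + 1, II σ (Nat.totient (UBCases_N N i)) ≤
      (1 + 2 / σ ^ 4) * ll (maxp (UBCases_N N i)) := fun i hi =>
    UBCases_II ((hWi i hi.le).2.2 _ rfl) (hN0 i hi) (hg i hi)
  -- the data
  obtain ⟨w, hw⟩ : ∃ w, w = Nat.totient (UBCases_N N (nn + 1)) := ⟨_, rfl⟩
  have hWw : WW σ w := by
    rw [hw]
    exact hWi _ le_rfl
  obtain ⟨p, hp⟩ : ∃ p : Fin nn → ℕ, p = fun i => maxp (UBCases_N N (nn - i.val)) := ⟨_, rfl⟩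
  have hpi : ∀ i : Fin nn, p i = maxp (UBCases_N N (nn - i.val)) := fun i => by rw [hp]
  have hidx : ∀ i : Fin nn, nn - i.val < nn + 1 := fun i => by omega
  have hmono : StrictMono p := by
    intro i j hij
    rw [hpi, hpi]
    have h1 : i.val < j.val := hij
    have h2 := j.isLt
    exact hanti (nn - j.val) (nn - i.val) (by omega) (by omega)
  have hpP0 : ∀ i, p i < maxp N := by
    intro i
    rw [hpi]
    have h2 := i.isLt
    exact hanti 0 (nn - i.val) (by omega) (by omega)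
  have hmaxw : ∀ i, maxp (UBCases_N N (nn + 1)) < p i := by
    intro i
    rw [hpi]
    exact hanti (nn - i.val) (nn + 1) (by omega) le_rfl
  have hvt : ∀ k ≤ nn, Nat.totient (UBCases_N N (nn + 1 - k)) = vt w p k := by
    intro k
    induction k with
    | zero =>
      intro _
      rw [UBCases_vt_zero, hw]
      rfl
    | succ k ih =>
      intro hk
      have h1 := ih (by omega)
      rw [UBCases_vt_succ w p k hk, ← h1, hpi]
      have h2 : nn + 1 - (k + 1) = nn - k := by omega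
      have h3 := (hSp (nn - k) (by omega)).2.2.2.2.2.2.1
      have h4 : UBCases_N N (nn + 1 - k) = UBCases_N N (nn - k) / maxp (UBCases_N N (nn - k)) := by
        have : nn + 1 - k = (nn - k) + 1 := by omega
        rw [this]
        rfl
      rw [h2, h3, h4]
  have hvP0 : v = (maxp N - 1) * vt w p nn := by
    have h1 := (hSp 0 (by omega)).2.2.2.2.2.2.1
    have h2 := hvt nn le_rfl
    have h3 : nn + 1 - nn = 1 := by omega
    rw [h3] at h2
    rw [← h2, ← hN]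
    exact h1
  have hwv : w ≤ v := by
    rw [hw]
    exact Nat.le_of_dvd hv0 (hdvd _ le_rfl)
  have hNw0 : UBCases_N N (nn + 1) ≠ 0 := (hSp nn (by omega)).2.2.2.2.1
  have hpw : ∀ i, ∀ q ∈ w.primeFactors, q < p i := by
    intro i q hq
    have h1 : q ∣ Nat.totient (UBCases_N N (nn + 1)) := by
      rw [← hw]
      exact Nat.dvd_of_mem_primeFactors hq
    exact lt_of_le_of_lt (prime_dvd_tot_le hNw0 (Nat.prime_of_mem_primeFactors hq) h1) (hmaxw i)
  have hpfacts : ∀ i, (p i).Prime ∧ Normal σ (p i) ∧ σ ^ 111 < ll (p i) ∧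
      ll (p i) ≤ σ ^ 120 + 1 := by
    intro i
    rw [hpi]
    have h1 := hSp _ (hidx i)
    have h2 := hll _ (hidx i)
    exact ⟨h1.1, h1.2.1, hg' _ (hidx i), by linarith⟩
  obtain ⟨hB1, hB2⟩ := hlin w p hWw.1.1.ne' hWw.1.2.1 hpw hmono hpfacts
  have hσ4 : 0 < σ ^ 4 := by positivity
  have hBk : ∀ k, k < nn → BB (fun j => CC σ j w) (xx p) k ≤ (1 + 3 / σ ^ 4) * xx p k := by
    intro k hk
    have h1 := hB1 k hk
    have h2 : (p ⟨k, hk⟩ - 1) * vt w p k = Nat.totient (UBCases_N N (nn - k)) := by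
      rw [← UBCases_vt_succ w p k hk, ← hvt (k + 1) hk]
      congr 2
      omega
    rw [h2] at h1
    have h3 := hII (nn - k) (by omega)
    have h4 : xx p k = ll (maxp (UBCases_N N (nn - k))) := by
      unfold xx
      rw [dif_pos hk, hpi]
    rw [h4]
    have h5 := hg (nn - k) (by omega)
    generalize ll (maxp (UBCases_N N (nn - k))) = t at *
    have h6 : σ ^ 105 ≤ 1 / σ ^ 4 * t := by
      rw [one_div, ← div_eq_inv_mul, le_div_iff₀ hσ4]
      have h7 : σ ^ 105 * σ ^ 4 ≤ σ ^ 119 := by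
        rw [← pow_add]
        exact pow_le_pow_right₀ (by linarith) (by norm_num)
      linarith
    have h8 : (1 + 3 / σ ^ 4) * t = (1 + 2 / σ ^ 4) * t + 1 / σ ^ 4 * t := by ring
    rw [h8]
    linarith
  have hBn : BB (fun j => CC σ j w) (xx p) nn ≤ (1 + 4 / σ ^ 4) * σ ^ 120 := by
    have h0 := hSp 0 (by omega)
    have h1 := hB2 (maxp N) h0.1 h0.2.1 (by have := hll 0 (by omega); change ll (maxp N) ≤ _ at this; linarith) hpP0
    rw [← hvP0] at h1
    have h3 := hII 0 (by omega)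
    have h4 := hll 0 (by omega)
    change II σ (Nat.totient N) ≤ (1 + 2 / σ ^ 4) * ll (maxp N) at h3
    change ll (maxp N) ≤ _ at h4
    rw [hN] at h3
    have h5 : (1 + 2 / σ ^ 4) * ll (maxp N) ≤ (1 + 2 / σ ^ 4) * (σ ^ 120 + 3 / 4) :=
      mul_le_mul_of_nonneg_left h4 (by positivity)
    have h6 : (1 + 4 / σ ^ 4) * σ ^ 120 = (1 + 2 / σ ^ 4) * σ ^ 120 + 2 * σ ^ 116 := by
      have : σ ^ 120 = σ ^ 4 * σ ^ 116 := by ring
      rw [this]
      field_simp
      ring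
    rw [h6]
    have h7 : 2 / σ ^ 4 ≤ 1 := by
      rw [div_le_one hσ4]
      calc (2 : ℝ) ≤ σ := hσ
        _ = σ ^ 1 := (pow_one σ).symm
        _ ≤ σ ^ 4 := pow_le_pow_right₀ (by linarith) (by norm_num)
    have h8 : σ ^ 105 ≤ σ ^ 116 := pow_le_pow_right₀ (by linarith) (by norm_num)
    have h9 : 2 ≤ σ ^ 116 := by
      calc (2 : ℝ) ≤ σ := hσ
        _ = σ ^ 1 := (pow_one σ).symm
        _ ≤ σ ^ 116 := pow_le_pow_right₀ (by linarith) (by norm_num)
    have h10 : (1 + 2 / σ ^ 4) * (σ ^ 120 + 3 / 4) =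
        (1 + 2 / σ ^ 4) * σ ^ 120 + 3 / 4 + 3 / 4 * (2 / σ ^ 4) := by ring
    rw [h10] at h5
    generalize (1 + 2 / σ ^ 4) * σ ^ 120 = A1 at *
    generalize (1 + 2 / σ ^ 4) * ll (maxp N) = A2 at *
    linarith
  have hpE : p ∈ Fintype.piFinset (fun _ : Fin nn => (Finset.range (EE σ + 1)).filter Nat.Prime) := by
    rw [Fintype.mem_piFinset]
    intro i
    rw [Finset.mem_filter, Finset.mem_range]
    have h1 := hpfacts i
    exact ⟨Nat.lt_succ_of_le ((le_EE_iff h1.1.two_le).mpr h1.2.2.2), h1.1⟩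
  have hPW : ∀ i, PW w < p i := fun i => lt_of_le_of_lt (PW_le hw.symm) (hmaxw i)
  have hp119 : ∀ i, σ ^ 119 ≤ ll (p i) := by
    intro i
    rw [hpi]
    exact hg _ (hidx i)
  refine ⟨w, UBCases_Wfin hs120 hX hv hwv hWw, p, ?_, maxp N, (hSp 0 (by omega)).1, hpP0, hvP0⟩
  by_cases hc : ∀ i, ll (p i) ≤ σ ^ 120 - σ
  · left
    unfold RR
    rw [Finset.mem_filter]
    exact ⟨hpE, hmono, fun i => ⟨hPW i, hp119 i, hc i⟩, hBk, hBn⟩
  · right
    push Not at hc
    unfold RN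
    rw [Finset.mem_filter]
    exact ⟨hpE, hmono, fun i => ⟨hPW i, hp119 i⟩, hc, hBk, hBn⟩

/-- the case of few large primes -/
private theorem UBCases_B {σ X : ℝ} (hσ : 2 ≤ σ)
    (hs : ∀ N : ℕ, WW σ (Nat.totient N) → σ ^ 111 < ll (maxp N) → UBCases_Spl σ N)
    (hX : X ≤ Real.exp (Real.exp (σ ^ 120 + 1 / 2))) {v N : ℕ} (hW : WW σ v)
    (hN : Nat.totient N = v) (hv : (v : ℝ) ≤ X) (m : ℕ) (hm1 : 1 ≤ m) (hm : m ≤ nn)
    (hg : ∀ i < m, σ ^ 119 ≤ ll (maxp (UBCases_N N i)))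
    (hgm : ll (maxp (UBCases_N N m)) < σ ^ 119) :
    ∃ w ∈ Wfin σ, ll (PW w) < σ ^ 119 ∧ ∃ P : Finset ℕ, P.Nonempty ∧ P.card ≤ nn ∧
      (∀ q ∈ P, q.Prime ∧ q ≤ EE σ) ∧ v = w * ∏ q ∈ P, (q - 1) := by
  have hσ0 : 0 < σ := by linarith
  have h119 : σ ^ 111 < σ ^ 119 := pow_lt_pow_right₀ (by linarith) (by norm_num)
  have hs120 : 2 ≤ σ ^ 120 := by
    calc (2 : ℝ) ≤ σ := hσ
      _ = σ ^ 1 := (pow_one σ).symm
      _ ≤ σ ^ 120 := pow_le_pow_right₀ (by linarith) (by norm_num)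
  have hWN : WW σ (Nat.totient N) := by rw [hN]; exact hW
  have hg' : ∀ i < m, σ ^ 111 < ll (maxp (UBCases_N N i)) :=
    fun i hi => lt_of_lt_of_le h119 (hg i hi)
  have hSp := UBCases_Sp hs hWN m hg'
  have hWm := UBCases_WW hs hWN m hg'
  have hanti := UBCases_anti hSp
  have hprod := UBCases_prod hSp
  have hv0 : 0 < v := hW.1.1
  have hinj : Set.InjOn (fun i => maxp (UBCases_N N i)) (Finset.range m : Set ℕ) := by
    intro i hi j hj hij
    simp only [Finset.coe_range, Set.mem_Iio] at hi hj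
    simp only at hij
    rcases lt_trichotomy i j with h | h | h
    · have := hanti i j h hj.le
      omega
    · exact h
    · have := hanti j i h hi.le
      omega
  refine ⟨Nat.totient (UBCases_N N m), ?_, ?_, (Finset.range m).image
    (fun i => maxp (UBCases_N N i)), ?_, ?_, ?_, ?_⟩
  · refine UBCases_Wfin hs120 hX hv (Nat.le_of_dvd hv0 ?_) hWm
    rw [← hN, hprod]
    exact Dvd.intro _ rfl
  · have h1 : PW (Nat.totient (UBCases_N N m)) ≤ maxp (UBCases_N N m) := PW_le rfl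
    rcases Nat.lt_or_ge (PW (Nat.totient (UBCases_N N m))) 2 with h2 | h2
    · have h3 : ll (PW (Nat.totient (UBCases_N N m))) = 0 := by
        unfold ll
        have : PW (Nat.totient (UBCases_N N m)) = 0 ∨ PW (Nat.totient (UBCases_N N m)) = 1 := by
          omega
        rcases this with h | h <;> rw [h] <;> simp
      rw [h3]
      positivity
    · exact lt_of_le_of_lt (ll_mono h2 h1) hgm
  · rw [Finset.image_nonempty]
    exact ⟨0, Finset.mem_range.mpr hm1⟩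
  · refine Finset.card_image_le.trans ?_
    rw [Finset.card_range]
    exact hm
  · intro q hq
    obtain ⟨i, hi, rfl⟩ := Finset.mem_image.mp hq
    have hi' := Finset.mem_range.mp hi
    have h1 := hSp i hi'
    refine ⟨h1.1, (le_EE_iff h1.1.two_le).mpr ?_⟩
    have h2 : maxp (UBCases_N N i) - 1 ≤ v := by
      apply Nat.le_of_dvd hv0
      rw [← hN, hprod]
      exact Dvd.dvd.mul_left (Finset.dvd_prod_of_mem
        (fun i => maxp (UBCases_N N i) - 1) hi) _
    have h3 := UBCases_ll hs120 hX hv h1.1 h2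
    linarith
  · rw [Finset.prod_image hinj, ← hN]
    exact hprod

theorem ub_cases : ∀ᶠ σ : ℝ in Filter.atTop, ∀ X : ℝ, Real.exp (Real.exp (σ ^ 120)) ≤ X →
    X ≤ Real.exp (Real.exp (σ ^ 120 + 1 / 2)) → ∀ v : ℕ, WW σ v → Real.sqrt X < v →
    (v : ℝ) ≤ X →
    (∃ w ∈ Wfin σ, ∃ p ∈ RR σ w, ∃ P0 : ℕ, P0.Prime ∧ v = (P0 - 1) * vt w p nn) ∨
    (∃ w ∈ Wfin σ, ∃ p ∈ RN σ w, ∃ P0 : ℕ, P0.Prime ∧ (∀ i, p i < P0) ∧
      v = (P0 - 1) * vt w p nn) ∨
    (∃ w ∈ Wfin σ, ll (PW w) < σ ^ 119 ∧ ∃ P : Finset ℕ, P.Nonempty ∧ P.card ≤ nn ∧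
      (∀ q ∈ P, q.Prime ∧ q ≤ EE σ) ∧ v = w * ∏ q ∈ P, (q - 1)) := by
  filter_upwards [lin_UB, WW_split, UBCases_ev, Filter.eventually_ge_atTop (2 : ℝ)]
    with σ hlin hs hev hσ X hX1 hX2 v hW hv1 hv2
  have hN : Nat.totient (mW v) = v := (mW_spec hW.2.1).1
  have htop := UBCases_top hev hX1 hW hN hv1
  by_cases hall : ∀ i < nn + 1, σ ^ 119 ≤ ll (maxp (UBCases_N (mW v) i))
  · obtain ⟨w, hw, p, hp, P0, h1, h2, h3⟩ := UBCases_A hσ hlin hs hX2 hW hN hv2 hall
    rcases hp with hp | hp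
    · exact Or.inl ⟨w, hw, p, hp, P0, h1, h3⟩
    · exact Or.inr (Or.inl ⟨w, hw, p, hp, P0, h1, h2, h3⟩)
  · right
    right
    push Not at hall
    classical
    have hex : ∃ i, i < nn + 1 ∧ ll (maxp (UBCases_N (mW v) i)) < σ ^ 119 := hall
    have hm := Nat.find_spec hex
    have hmin : ∀ i < Nat.find hex, σ ^ 119 ≤ ll (maxp (UBCases_N (mW v) i)) := by
      intro i hi
      have h1 := Nat.find_min hex hi
      by_contra h2
      push Not at h2
      exact h1 ⟨lt_trans hi hm.1, h2⟩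
    have hm1 : 1 ≤ Nat.find hex := by
      by_contra h
      have h0 : Nat.find hex = 0 := by omega
      have h2 := hm.2
      rw [h0] at h2
      change ll (maxp (mW v)) < _ at h2
      linarith
    exact UBCases_B hσ hs hX2 hW hN hv2 _ hm1 (by have := hm.1; omega) hmin hm.2

end P031
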