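import Vale.Agent.Lib.P031.LBCount
import Vale.Agent.Lib.P031.LBPairs
import Vale.Agent.Lib.P031.UBCases
import Vale.Agent.Lib.P031.UB2
import Vale.Agent.Lib.P031.UB3
import Vale.Agent.Lib.P031.Bad

namespace P031

open Finset Real

open Classical in
theorem final_card_image {α β : Type*} [DecidableEq β] (A : Finset α) (f : α → β) :
    A.card ≤ (A.image f).card + ((A ×ˢ A).filter (fun z => z.1 ≠ z.2 ∧ f z.1 = f z.2)).card := by
  rcases A.eq_empty_or_nonempty with h | ⟨a0, ha0⟩
  · subst h; simp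
  set g : β → α := fun b => if h : ∃ a ∈ A, f a = b then h.choose else a0 with hg
  have hgs : ∀ a ∈ A, g (f a) ∈ A ∧ f (g (f a)) = f a := by
    intro a ha
    have h : ∃ a' ∈ A, f a' = f a := ⟨a, ha, rfl⟩
    simp only [hg]
    rw [dif_pos h]
    exact h.choose_spec
  have h1 : A.card = (A.filter (fun a => a = g (f a))).card +
      (A.filter (fun a => ¬ a = g (f a))).card := by
    rw [Finset.card_filter_add_card_filter_not]
  rw [h1]
  apply Nat.add_le_add
  · apply Finset.card_le_card_of_injOn f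
    · intro a ha
      exact Finset.mem_coe.2 (Finset.mem_image_of_mem f (Finset.mem_filter.1 ha).1)
    · intro a ha b hb hab
      have ha' := (Finset.mem_filter.1 ha).2
      have hb' := (Finset.mem_filter.1 hb).2
      rw [ha', hb', hab]
  · apply Finset.card_le_card_of_injOn (fun a => (a, g (f a)))
    · intro a ha
      have ha' := Finset.mem_filter.1 ha
      have := hgs a ha'.1
      simp only [Finset.coe_filter, Finset.mem_product, Set.mem_ofPred_eq]
      exact ⟨⟨ha'.1, this.1⟩, ha'.2, this.2.symm⟩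
    · intro a _ b _ hab
      exact (Prod.mk.inj hab).1

theorem final_totient_prod (m : ℕ) (I : Finset (Fin nn)) (p : Fin nn → ℕ)
    (hp : ∀ i, (p i).Prime) (hinj : Function.Injective p) (hm : ∀ i, ¬ p i ∣ m) :
    Nat.totient (m * ∏ i ∈ I, p i) = Nat.totient m * ∏ i ∈ I, (p i - 1) := by
  induction I using Finset.induction_on with
  | empty => simp
  | insert a I ha ih =>
    rw [Finset.prod_insert ha, Finset.prod_insert ha]
    have hcop : Nat.Coprime (p a) (m * ∏ i ∈ I, p i) := by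
      rw [(hp a).coprime_iff_not_dvd]
      intro h
      rcases (hp a).dvd_mul.1 h with h | h
      · exact hm a h
      · obtain ⟨i, hi, h2⟩ := (Prime.dvd_finsetProd_iff (hp a).prime _).1 h
        have := (Nat.prime_dvd_prime_iff_eq (hp a) (hp i)).1 h2
        exact ha (hinj this ▸ hi)
    have e : m * (p a * ∏ i ∈ I, p i) = p a * (m * ∏ i ∈ I, p i) := by ring
    rw [e, Nat.totient_mul hcop, ih, Nat.totient_prime (hp a)]
    ring

/-- values of tuples are totient values -/
theorem final_val : ∀ᶠ σ : ℝ in Filter.atTop, ∀ X : ℝ,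
    Real.exp (Real.exp (σ ^ 120)) ≤ X → ∀ τ ∈ LBT σ X, valT τ ∈ Vset X := by
  filter_upwards [Filter.eventually_ge_atTop (2 : ℝ)] with σ hσ X hX τ hτ
  classical
  unfold LBT at hτ
  simp only [Finset.mem_filter, Finset.mem_product, Fintype.mem_piFinset, Finset.mem_range] at hτ
  obtain ⟨⟨hw, hpp, hP0⟩, hSS, hN, hN0, hsq, hle⟩ := hτ
  have hw' := hw
  unfold Wfin at hw'
  rw [Finset.mem_filter, Finset.mem_Icc] at hw'
  have hWW := hw'.2
  obtain ⟨m, hm⟩ := hWW.2.1
  have hspec := mW_spec ⟨m, hm⟩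
  have hwpos : 0 < τ.1 := hw'.1.1
  have hmW0 : mW τ.1 ≠ 0 := by
    intro h0
    rw [h0] at hspec
    simp at hspec
    omega
  unfold SS at hSS
  rw [Finset.mem_filter] at hSS
  obtain ⟨_, hmono, hall, _, _⟩ := hSS
  have hpr : ∀ i, (τ.2.1 i).Prime := fun i => (hpp i).2
  have hnd : ∀ i, ¬ τ.2.1 i ∣ mW τ.1 := by
    intro i h
    have h1 : τ.2.1 i ∈ (mW τ.1).primeFactors := Nat.mem_primeFactors.2 ⟨hpr i, h, hmW0⟩
    have h2 := le_maxp h1
    rw [hspec.2] at h2
    exact absurd (hall i).1 (not_lt.2 h2)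
  have hP0big : ∀ i, τ.2.1 i < τ.2.2 := by
    intro i
    have h1 : (τ.2.1 i : ℝ) ≤ Real.exp (Real.exp (σ ^ 120 - σ)) :=
      (ll_le_iff (hpr i).two_le).1 (hall i).2.2
    have h2 : Real.exp (Real.exp (σ ^ 120 - σ)) ≤ Real.sqrt X := by
      apply Real.le_sqrt_of_sq_le
      refine le_trans ?_ hX
      rw [← Real.exp_nat_mul]
      apply Real.exp_le_exp.2
      have : Real.exp (σ ^ 120 - σ) = Real.exp (σ ^ 120) * Real.exp (-σ) := by
        rw [← Real.exp_add]; ring_nf
      rw [this]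
      have h3 : Real.exp (-σ) ≤ 1 / 2 := by
        rw [Real.exp_neg]
        have : 2 ≤ Real.exp σ := by
          have := Real.add_one_le_exp σ
          linarith
        rw [inv_eq_one_div]
        apply one_div_le_one_div_of_le (by norm_num) this
      have h4 : 0 < Real.exp (σ ^ 120) := Real.exp_pos _
      push_cast
      nlinarith only [h3, h4]
    have h3 : (τ.2.1 i : ℝ) < τ.2.2 := by linarith
    exact_mod_cast h3
  set M := mW τ.1 * ∏ i : Fin nn, τ.2.1 i with hM
  have hMt : Nat.totient M = vt τ.1 τ.2.1 nn := by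
    rw [hM, final_totient_prod _ _ _ hpr hmono.injective hnd, hspec.1]
    have hfil : Finset.univ.filter (fun i : Fin nn => i.val < nn) = Finset.univ :=
      Finset.filter_true_of_mem (fun i _ => i.2)
    unfold vt
    rw [hfil]
  have hcop : Nat.Coprime τ.2.2 M := by
    rw [hP0.2.coprime_iff_not_dvd]
    intro h
    rcases hP0.2.dvd_mul.1 h with h | h
    · have h1 : τ.2.2 ∈ (mW τ.1).primeFactors := Nat.mem_primeFactors.2 ⟨hP0.2, h, hmW0⟩
      have h2 := le_maxp h1
      rw [hspec.2] at h2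
      have h3 := (hall ⟨0, by unfold nn; norm_num⟩).1
      have h4 := hP0big ⟨0, by unfold nn; norm_num⟩
      exact absurd (lt_trans h3 h4) (not_lt.2 h2)
    · obtain ⟨i, hi, h2⟩ := (Prime.dvd_finsetProd_iff hP0.2.prime _).1 h
      have h5 := (Nat.prime_dvd_prime_iff_eq hP0.2 (hpr i)).1 h2
      exact absurd (hP0big i) (by rw [h5]; exact lt_irrefl _)
  unfold Vset valT
  rw [Finset.mem_filter, Finset.mem_Icc]
  have hvpos : 0 < (τ.2.2 - 1) * vt τ.1 τ.2.1 nn := by
    apply Nat.mul_pos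
    · have := hP0.2.two_le
      omega
    · rw [← hMt]
      apply Nat.totient_pos.2
      rw [hM]
      apply Nat.mul_pos (Nat.pos_of_ne_zero hmW0)
      exact Finset.prod_pos (fun i _ => (hpr i).pos)
  refine ⟨⟨hvpos, Nat.le_floor hle⟩, τ.2.2 * M, ?_⟩
  rw [Nat.totient_mul hcop, Nat.totient_prime hP0.2, hMt]


theorem final_TS_large : ∀ᶠ σ : ℝ in Filter.atTop, 1 ≤ TS σ := by
  obtain ⟨c, hc, h⟩ := TS_small
  have hlim : Filter.Tendsto (fun σ : ℝ => c * σ ^ 120) Filter.atTop Filter.atTop :=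
    Filter.Tendsto.const_mul_atTop hc (Filter.tendsto_pow_atTop (by norm_num))
  filter_upwards [h, hlim.eventually_ge_atTop 1] with σ h1 h2
  have h3 : 1 ≤ (c * σ ^ 120) ^ nn := one_le_pow₀ h2
  calc (1 : ℝ) ≤ (c * σ ^ 120) ^ nn * Wsm σ := by nlinarith only [h1.2, h3]
    _ ≤ TS σ := h1.1

/-- the values of the tuples of `LBT` are totient values `≤ X`
(`φ(P0 ∏ p_i · mW w)`, all coprime) and the number of distinct values is at least the number of tuples minus the
number of ordered colliding pairs -/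
theorem LB_V : ∀ ε : ℝ, 0 < ε → ∀ᶠ σ : ℝ in Filter.atTop, ∀ X : ℝ,
    Real.exp (Real.exp (σ ^ 120)) ≤ X → X ≤ Real.exp (Real.exp (σ ^ 120 + 1 / 2)) →
    (1 - ε) * (X / Real.log X) * TS σ ≤ (V X : ℝ) := by
  classical
  intro ε hε
  have hexp : Filter.Tendsto (fun σ : ℝ => Real.exp (-(σ ^ 100))) Filter.atTop (nhds 0) :=
    Real.tendsto_exp_neg_atTop_nhds_zero.comp (Filter.tendsto_pow_atTop (by norm_num))
  filter_upwards [LB_count (ε / 2) (by linarith), LB_pairs, final_val, final_TS_large,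
    hexp.eventually (gt_mem_nhds (show (0 : ℝ) < ε / 2 by linarith))] with σ h1 h2 h3 h4 h5 X hX hX'
  have hcnt := h1 X hX hX'
  have hprs := h2 X hX hX'
  have hval := h3 X hX
  have hsub : (LBT σ X).image valT ⊆ Vset X := by
    intro v hv
    obtain ⟨τ, hτ, rfl⟩ := Finset.mem_image.1 hv
    exact hval τ hτ
  have hc := final_card_image (LBT σ X) valT
  have hV : ((LBT σ X).image valT).card ≤ V X := Finset.card_le_card hsub
  have hX1 : 1 < X := by
    have : (1 : ℝ) < Real.exp (Real.exp (σ ^ 120)) := Real.one_lt_exp_iff.2 (Real.exp_pos _)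
    linarith
  have hpos : 0 < X / Real.log X := div_pos (by linarith) (Real.log_pos hX1)
  have hc' : ((LBT σ X).card : ℝ) ≤ (V X : ℝ) +
      ((((LBT σ X) ×ˢ (LBT σ X)).filter (fun z => z.1 ≠ z.2 ∧ valT z.1 = valT z.2)).card : ℝ) := by
    have : (LBT σ X).card ≤ V X +
      (((LBT σ X) ×ˢ (LBT σ X)).filter (fun z => z.1 ≠ z.2 ∧ valT z.1 = valT z.2)).card := by
      calc (LBT σ X).card ≤ _ := hc
        _ ≤ _ := by
          apply Nat.add_le_add hV
          apply le_of_eq
          congr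
    exact_mod_cast this
  have h6 : X / Real.log X * Real.exp (-(σ ^ 100)) ≤ X / Real.log X * (ε / 2 * TS σ) := by
    apply mul_le_mul_of_nonneg_left _ hpos.le
    nlinarith only [hε, h4, h5]
  linarith only [hcnt, hprs, hc', h6]


theorem UB_V : ∀ ε : ℝ, 0 < ε → ∀ᶠ σ : ℝ in Filter.atTop, ∀ X : ℝ,
    Real.exp (Real.exp (σ ^ 120)) ≤ X → X ≤ Real.exp (Real.exp (σ ^ 120 + 1 / 2)) →
    (V X : ℝ) ≤ (1 + ε) * (X / Real.log X) * TS σ := by
  classical
  intro ε0 hε0
  set ε := min ε0 1 / 10 with hεdef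
  have hε : 0 < ε := by positivity
  have hε1 : ε ≤ 1 / 10 := by
    have := min_le_right ε0 1
    linarith
  have hεε : 10 * ε ≤ ε0 := by
    have := min_le_left ε0 1
    linarith
  obtain ⟨C, hC1, hC⟩ := UB_few
  obtain ⟨c, hc, hcs⟩ := TS_small
  have hexp : Filter.Tendsto (fun σ : ℝ => Real.exp (-(σ ^ 60))) Filter.atTop (nhds 0) :=
    Real.tendsto_exp_neg_atTop_nhds_zero.comp (Filter.tendsto_pow_atTop (by norm_num))
  have hbig : Filter.Tendsto (fun σ : ℝ => c ^ nn * σ ^ 120) Filter.atTop Filter.atTop :=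
    Filter.Tendsto.const_mul_atTop (by positivity) (Filter.tendsto_pow_atTop (by norm_num))
  filter_upwards [ub_cases, UB_main ε hε, UB_top ε hε, hC, hcs, TR_le ε hε, bad_count,
    final_TS_large, hexp.eventually (gt_mem_nhds hε), hbig.eventually_ge_atTop (C / ε),
    Filter.eventually_ge_atTop (1 : ℝ)]
    with σ h1 h2 h3 h4 h5 h6 h7 h8 h9 h10 h11 X hX hX'
  have hX1 : 1 < X := by
    have : (1 : ℝ) < Real.exp (Real.exp (σ ^ 120)) := Real.one_lt_exp_iff.2 (Real.exp_pos _)
    linarith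
  have hpos : 0 < X / Real.log X := div_pos (by linarith) (Real.log_pos hX1)
  set G := (Vset X).filter (fun v => WW σ v ∧ Real.sqrt X < v) with hG
  set B := (Vset X).filter (fun v => ¬ (WW σ v ∧ Real.sqrt X < v)) with hB
  have hVcard : (V X : ℝ) = (G.card : ℝ) + (B.card : ℝ) := by
    have : V X = G.card + B.card := by
      rw [hG, hB, Finset.card_filter_add_card_filter_not]
      rfl
    exact_mod_cast this
  have hBc : (B.card : ℝ) ≤ X / Real.log X * Real.exp (-(σ ^ 60)) := by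
    have := h7 X hX hX'
    refine le_trans (le_of_eq ?_) this
    rw [hB]
  set S1 := G.filter (fun v => ∃ w ∈ Wfin σ, ∃ p ∈ RR σ w, ∃ P0 : ℕ, P0.Prime ∧
      v = (P0 - 1) * vt w p nn) with hS1
  set S2 := G.filter (fun v => ∃ w ∈ Wfin σ, ∃ p ∈ RN σ w, ∃ P0 : ℕ, P0.Prime ∧ (∀ i, p i < P0) ∧
      v = (P0 - 1) * vt w p nn) with hS2
  set S3 := G.filter (fun v => ∃ w ∈ Wfin σ, ll (PW w) < σ ^ 119 ∧ ∃ P : Finset ℕ, P.Nonempty ∧
      P.card ≤ nn ∧ (∀ q ∈ P, q.Prime ∧ q ≤ EE σ) ∧ v = w * ∏ q ∈ P, (q - 1)) with hS3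
  have hGmem : ∀ v ∈ G, WW σ v ∧ Real.sqrt X < v ∧ (v : ℝ) ≤ X := by
    intro v hv
    rw [hG, Finset.mem_filter] at hv
    refine ⟨hv.2.1, hv.2.2, ?_⟩
    have h := hv.1
    unfold Vset at h
    rw [Finset.mem_filter, Finset.mem_Icc] at h
    exact le_trans (Nat.cast_le.2 h.1.2) (Nat.floor_le (by linarith))
  have hcov : G ⊆ S1 ∪ (S2 ∪ S3) := by
    intro v hv
    obtain ⟨hw, hs, hl⟩ := hGmem v hv
    rcases h1 X hX hX' v hw hs hl with h | h | h
    · exact Finset.mem_union_left _ (Finset.mem_filter.2 ⟨hv, h⟩)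
    · exact Finset.mem_union_right _ (Finset.mem_union_left _ (Finset.mem_filter.2 ⟨hv, h⟩))
    · exact Finset.mem_union_right _ (Finset.mem_union_right _ (Finset.mem_filter.2 ⟨hv, h⟩))
  have hGcard : (G.card : ℝ) ≤ (S1.card : ℝ) + ((S2.card : ℝ) + (S3.card : ℝ)) := by
    have : G.card ≤ S1.card + (S2.card + S3.card) :=
      calc G.card ≤ (S1 ∪ (S2 ∪ S3)).card := Finset.card_le_card hcov
        _ ≤ S1.card + (S2 ∪ S3).card := Finset.card_union_le _ _
        _ ≤ S1.card + (S2.card + S3.card) := Nat.add_le_add_left (Finset.card_union_le _ _) _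
    exact_mod_cast this
  have b1 : (S1.card : ℝ) ≤ (1 + ε) * (X / Real.log X) * TR σ := by
    apply h2 X S1 hX hX'
    intro v hv
    rw [hS1, Finset.mem_filter] at hv
    exact ⟨(hGmem v hv.1).2.2, hv.2⟩
  have b2 : (S2.card : ℝ) ≤ ε * (X / Real.log X) * TR σ := by
    apply h3 X S2 hX hX'
    intro v hv
    rw [hS2, Finset.mem_filter] at hv
    exact ⟨(hGmem v hv.1).2.1, (hGmem v hv.1).2.2, hv.2⟩
  have b3 : (S3.card : ℝ) ≤ C * (X / Real.log X) * (σ ^ 120) ^ (nn - 1) * Wsm σ := by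
    apply h4 X S3 hX hX'
    intro v hv
    rw [hS3, Finset.mem_filter] at hv
    exact ⟨(hGmem v hv.1).2.1, (hGmem v hv.1).2.2, hv.2⟩
  have hW0 : 0 ≤ Wsm σ := by linarith [h5.2]
  have b3' : C * (σ ^ 120) ^ (nn - 1) * Wsm σ ≤ ε * TS σ := by
    have hs : (0 : ℝ) < σ ^ 120 := by positivity
    have e1 : (c * σ ^ 120) ^ nn = c ^ nn * σ ^ 120 * (σ ^ 120) ^ (nn - 1) := by
      rw [mul_pow, mul_assoc, ← pow_succ' (σ ^ 120) (nn - 1)]
      rfl
    have e2 : C ≤ ε * (c ^ nn * σ ^ 120) := by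
      rw [div_le_iff₀ hε] at h10
      linarith
    calc C * (σ ^ 120) ^ (nn - 1) * Wsm σ
        ≤ (ε * (c ^ nn * σ ^ 120)) * (σ ^ 120) ^ (nn - 1) * Wsm σ := by
          apply mul_le_mul_of_nonneg_right _ hW0
          exact mul_le_mul_of_nonneg_right e2 (by positivity)
      _ = ε * ((c * σ ^ 120) ^ nn * Wsm σ) := by rw [e1]; ring
      _ ≤ ε * TS σ := mul_le_mul_of_nonneg_left h5.1 hε.le
  set L := X / Real.log X with hL
  have hTS : 0 < TS σ := by linarith
  have c1 : (S1.card : ℝ) ≤ L * ((1 + ε) * ((1 + ε) * TS σ)) := by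
    calc (S1.card : ℝ) ≤ (1 + ε) * L * TR σ := b1
      _ = L * ((1 + ε) * TR σ) := by ring
      _ ≤ L * ((1 + ε) * ((1 + ε) * TS σ)) := by
        apply mul_le_mul_of_nonneg_left _ hpos.le
        apply mul_le_mul_of_nonneg_left h6 (by linarith)
  have c2 : (S2.card : ℝ) ≤ L * (ε * ((1 + ε) * TS σ)) := by
    calc (S2.card : ℝ) ≤ ε * L * TR σ := b2
      _ = L * (ε * TR σ) := by ring
      _ ≤ L * (ε * ((1 + ε) * TS σ)) := by
        apply mul_le_mul_of_nonneg_left _ hpos.le
        apply mul_le_mul_of_nonneg_left h6 hε.le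
  have c3 : (S3.card : ℝ) ≤ L * (ε * TS σ) := by
    calc (S3.card : ℝ) ≤ C * L * (σ ^ 120) ^ (nn - 1) * Wsm σ := b3
      _ = L * (C * (σ ^ 120) ^ (nn - 1) * Wsm σ) := by ring
      _ ≤ L * (ε * TS σ) := mul_le_mul_of_nonneg_left b3' hpos.le
  have c4 : (B.card : ℝ) ≤ L * (ε * TS σ) := by
    refine le_trans hBc (mul_le_mul_of_nonneg_left ?_ hpos.le)
    nlinarith only [hε, h8, h9]
  have hLT : 0 < L * TS σ := mul_pos hpos hTS
  have hfin : (V X : ℝ) ≤ L * TS σ * ((1 + ε) * (1 + ε) + ε * (1 + ε) + ε + ε) := by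
    rw [hVcard]
    calc (G.card : ℝ) + B.card ≤ (L * ((1 + ε) * ((1 + ε) * TS σ)) + (L * (ε * ((1 + ε) * TS σ)) +
          L * (ε * TS σ))) + L * (ε * TS σ) := by linarith
      _ = _ := by ring
  have hq : (1 + ε) * (1 + ε) + ε * (1 + ε) + ε + ε ≤ 1 + ε0 := by nlinarith only [hε, hε1, hεε]
  calc (V X : ℝ) ≤ _ := hfin
    _ ≤ L * TS σ * (1 + ε0) := mul_le_mul_of_nonneg_left hq hLT.le
    _ = (1 + ε0) * L * TS σ := by ring

/-- `σ` as a function of `x` -/
noncomputable def sig (x : ℝ) : ℝ := (Real.log (Real.log x)) ^ ((1 : ℝ) / 120)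

theorem sig_tendsto : Filter.Tendsto sig Filter.atTop Filter.atTop := by
  unfold sig
  exact (tendsto_rpow_atTop (by norm_num)).comp
    (Real.tendsto_log_atTop.comp Real.tendsto_log_atTop)

theorem sig_pow {x : ℝ} (hx : Real.exp 1 ≤ x) : Real.exp (Real.exp ((sig x) ^ 120)) = x := by
  have h1 : 1 ≤ Real.log x := by
    rw [Real.le_log_iff_exp_le (lt_of_lt_of_le (Real.exp_pos _) hx)]
    exact hx
  have h2 : 0 ≤ Real.log (Real.log x) := Real.log_nonneg h1
  have h3 : (sig x) ^ 120 = Real.log (Real.log x) := by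
    unfold sig
    rw [← Real.rpow_natCast, ← Real.rpow_mul h2]
    norm_num
  rw [h3, Real.exp_log (by linarith), Real.exp_log (lt_of_lt_of_le (Real.exp_pos _) hx)]

/-- uniform asymptotics -/
theorem final_asymp (c : ℝ) (hc : 1 ≤ c) :
    Filter.Tendsto (fun x : ℝ => (V (c * x) : ℝ) * Real.log (c * x) / (c * x) / TS (sig x))
      Filter.atTop (nhds 1) := by
  have hrange : ∀ᶠ x : ℝ in Filter.atTop,
      c * x ≤ Real.exp (Real.exp ((sig x) ^ 120 + 1 / 2)) ∧ Real.exp 1 ≤ x := by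
    have h1 : ∀ᶠ x : ℝ in Filter.atTop, Real.log c ≤ Real.log x / 2 :=
      (Real.tendsto_log_atTop.atTop_div_const (by norm_num)).eventually_ge_atTop _
    filter_upwards [h1, Filter.eventually_ge_atTop (Real.exp 1)] with x h1 h2
    refine ⟨?_, h2⟩
    have hx0 : 0 < x := lt_of_lt_of_le (Real.exp_pos _) h2
    have h3 := sig_pow h2
    have h4 : Real.log x = Real.exp ((sig x) ^ 120) := by
      conv_lhs => rw [← h3]
      rw [Real.log_exp]
    have hlx : 0 < Real.log x := by rw [h4]; exact Real.exp_pos _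
    rw [← Real.exp_log (show 0 < c * x by positivity)]
    apply Real.exp_le_exp.2
    rw [Real.log_mul (by linarith) hx0.ne', Real.exp_add, ← h4]
    have h5 : (1 : ℝ) + 1 / 2 ≤ Real.exp (1 / 2) := by
      have := Real.add_one_le_exp (1 / 2 : ℝ)
      linarith
    nlinarith only [h1, hlx, h5]
  rw [Metric.tendsto_nhds]
  intro ε hε
  have hl := sig_tendsto.eventually (LB_V (ε / 2) (by linarith))
  have hu := sig_tendsto.eventually (UB_V (ε / 2) (by linarith))
  have ht := sig_tendsto.eventually final_TS_large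
  filter_upwards [hl, hu, ht, hrange] with x h1 h2 h3 h4
  have hx0 : 0 < x := lt_of_lt_of_le (Real.exp_pos _) h4.2
  have h5 := sig_pow h4.2
  have h6 : Real.exp (Real.exp ((sig x) ^ 120)) ≤ c * x := by
    rw [h5]
    nlinarith only [hc, hx0]
  have h1' := h1 (c * x) h6 h4.1
  have h2' := h2 (c * x) h6 h4.1
  have hcx : 1 < c * x := by
    have : (1 : ℝ) < Real.exp (Real.exp ((sig x) ^ 120)) := Real.one_lt_exp_iff.2 (Real.exp_pos _)
    linarith
  have hlog : 0 < Real.log (c * x) := Real.log_pos hcx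
  have hpos : 0 < c * x / Real.log (c * x) := div_pos (by linarith) hlog
  have hT : 0 < TS (sig x) := by linarith
  have e : (V (c * x) : ℝ) * Real.log (c * x) / (c * x) / TS (sig x) =
      (V (c * x) : ℝ) / (c * x / Real.log (c * x) * TS (sig x)) := by
    field_simp
  rw [e, Real.dist_eq, abs_lt]
  have hD : 0 < c * x / Real.log (c * x) * TS (sig x) := mul_pos hpos hT
  constructor
  · have : 1 - ε / 2 ≤ (V (c * x) : ℝ) / (c * x / Real.log (c * x) * TS (sig x)) := by
      rw [le_div_iff₀ hD]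
      linarith
    linarith
  · have : (V (c * x) : ℝ) / (c * x / Real.log (c * x) * TS (sig x)) ≤ 1 + ε / 2 := by
      rw [div_le_iff₀ hD]
      linarith
    linarith

theorem main (c : ℝ) (hc : 1 < c) :
    Filter.Tendsto (fun x : ℝ => (V (c * x) : ℝ) / (V x : ℝ)) Filter.atTop (nhds c) := by
  have hA := final_asymp 1 le_rfl
  have hB := final_asymp c hc.le
  simp only [one_mul] at hA
  have hlog : Filter.Tendsto (fun x : ℝ => Real.log x / Real.log (c * x)) Filter.atTop (nhds 1) := by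
    have h1 : Filter.Tendsto (fun x : ℝ => Real.log c / Real.log x + 1) Filter.atTop
        (nhds (0 + 1)) :=
      (Real.tendsto_log_atTop.const_div_atTop (Real.log c)).add_const 1
    rw [zero_add] at h1
    have h2 := h1.inv₀ one_ne_zero
    rw [inv_one] at h2
    refine h2.congr' ?_
    filter_upwards [Filter.eventually_gt_atTop (1 : ℝ)] with x hx
    have hl : 0 < Real.log x := Real.log_pos hx
    have hl2 : 0 < Real.log c := Real.log_pos hc
    rw [Real.log_mul (by linarith) (by linarith)]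
    field_simp
  have hAB := (hB.div hA one_ne_zero).mul (hlog.const_mul c)
  rw [div_one, mul_one, one_mul] at hAB
  refine hAB.congr' ?_
  have ht := sig_tendsto.eventually final_TS_large
  have hA0 : ∀ᶠ x : ℝ in Filter.atTop, (0 : ℝ) < (V x : ℝ) * Real.log x / x / TS (sig x) :=
    hA.eventually (lt_mem_nhds one_pos)
  filter_upwards [ht, hA0, Filter.eventually_gt_atTop (1 : ℝ)] with x h1 h2 h3
  have hT : TS (sig x) ≠ 0 := by
    have : 0 < TS (sig x) := by linarith
    exact this.ne'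
  have hx : x ≠ 0 := by linarith
  have hl : Real.log x ≠ 0 := (Real.log_pos h3).ne'
  have hl2 : Real.log (c * x) ≠ 0 := (Real.log_pos (by nlinarith only [hc, h3])).ne'
  have hV : (V x : ℝ) ≠ 0 := by
    intro h
    rw [h] at h2
    simp at h2
  have hc0 : c ≠ 0 := by linarith
  simp only [Pi.div_apply]
  field_simp

end P031
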