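import Mathlib.Tactic
import Mathlib.NumberTheory.Harmonic.Bounds
import Mathlib.NumberTheory.Chebyshev
import Mathlib.Data.Int.CardIntervalMod
import Mathlib.NumberTheory.DirichletCharacter.Basic
import Mathlib.Analysis.SpecialFunctions.Trigonometric.DerivHyp
import Mathlib.Analysis.Complex.ExponentialBounds
import Mathlib.Algebra.Order.Star.Real
import Mathlib.Analysis.PSeries
import Mathlib.Algebra.Order.Ring.Star
import Mathlib.Data.Int.Star
import Mathlib.Algebra.Field.ZMod

/-!
# P031 Imp: the part of Mathlib used by the P031 files (faster to load than all of Mathlib).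
-/
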