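import Vale.Agent.Lib.P031.Reg

/-!
# P031 RegDeep: the deep `w`.

Notation: `C_w j = CC σ j w`, `z_w(τ) = zt C_w (m0 σ w) τ`, `cost w = BB C_w (z_w(0)) nn`, `s = σ^120`.
`w` is nice if `cost w ≤ 0.8 s`.
-/

namespace P031

open Finset Real

private theorem regdeep_factor (C ε : ℝ) (hε : 0 < ε) : ∀ᶠ σ : ℝ in Filter.atTop,
    ((σ ^ 102 + C) / ((1 - 1 / σ) * σ ^ 102 - C)) ^ nn ≤ 1 + ε := by
  have h1 : Filter.Tendsto (fun σ : ℝ => C / σ ^ 102) Filter.atTop (nhds 0) :=
    tendsto_const_nhds.div_atTop (Filter.tendsto_pow_atTop (by norm_num))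
  have h2 : Filter.Tendsto (fun σ : ℝ => 1 / σ) Filter.atTop (nhds 0) :=
    tendsto_const_nhds.div_atTop Filter.tendsto_id
  have h3 : Filter.Tendsto (fun σ : ℝ => ((1 + C / σ ^ 102) / ((1 - 1 / σ) - C / σ ^ 102)) ^ nn)
      Filter.atTop (nhds (((1 + 0) / ((1 - 0) - 0)) ^ nn)) := by
    apply Filter.Tendsto.pow
    apply Filter.Tendsto.div
    · exact tendsto_const_nhds.add h1
    · exact (tendsto_const_nhds.sub h2).sub h1
    · norm_num
  have h4 : (((1 + 0) / ((1 - 0) - 0) : ℝ)) ^ nn < 1 + ε := by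
    have : (((1 + 0) / ((1 - 0) - 0) : ℝ)) = 1 := by norm_num
    rw [this, one_pow]
    linarith
  have h5 := h3.eventually_lt_const h4
  filter_upwards [h5, Filter.eventually_gt_atTop 0] with σ hσ hσ0
  have hh : (σ ^ 102 : ℝ) ≠ 0 := by positivity
  have e1 : σ ^ 102 + C = (1 + C / σ ^ 102) * σ ^ 102 := by
    rw [add_mul, div_mul_cancel₀ _ hh, one_mul]
  have e2 : (1 - 1 / σ) * σ ^ 102 - C = ((1 - 1 / σ) - C / σ ^ 102) * σ ^ 102 := by
    generalize (1 - 1 / σ) = a
    rw [sub_mul, div_mul_cancel₀ _ hh]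
  rw [e2, e1, mul_div_mul_right _ _ hh]
  exact hσ.le

private theorem regdeep_mem_SS {σ : ℝ} {w : ℕ} {p : Fin nn → ℕ} : p ∈ SS σ w ↔
    (∀ i, p i < EE σ + 1 ∧ (p i).Prime) ∧
    StrictMono p ∧ (∀ i, PW w < p i ∧ σ ^ 119 ≤ ll (p i) ∧ ll (p i) ≤ σ ^ 120 - σ) ∧
    (∀ k, k < nn → BB (fun j => CC σ j w) (xx p) k ≤ (1 - 3 / σ ^ 4) * xx p k) ∧
    BB (fun j => CC σ j w) (xx p) nn ≤ (1 - 3 / σ ^ 4) * σ ^ 120 := by
  unfold SS
  rw [Finset.mem_filter, Fintype.mem_piFinset]
  simp only [Finset.mem_filter, Finset.mem_range]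

private theorem regdeep_mem_RR {σ : ℝ} {w : ℕ} {p : Fin nn → ℕ} : p ∈ RR σ w ↔
    (∀ i, p i < EE σ + 1 ∧ (p i).Prime) ∧
    StrictMono p ∧ (∀ i, PW w < p i ∧ σ ^ 119 ≤ ll (p i) ∧ ll (p i) ≤ σ ^ 120 - σ) ∧
    (∀ k, k < nn → BB (fun j => CC σ j w) (xx p) k ≤ (1 + 3 / σ ^ 4) * xx p k) ∧
    BB (fun j => CC σ j w) (xx p) nn ≤ (1 + 4 / σ ^ 4) * σ ^ 120 := by
  unfold RR
  rw [Finset.mem_filter, Fintype.mem_piFinset]
  simp only [Finset.mem_filter, Finset.mem_range]

private theorem regdeep_ll_zero_one {m : ℕ} (h : m < 2) : ll m = 0 := by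
  have : m = 0 ∨ m = 1 := by omega
  rcases this with h | h
  · rw [h]
    simp [ll]
  · rw [h]
    simp [ll]

private theorem regdeep_xx {p : Fin nn → ℕ} {k : ℕ} (h : k < nn) : xx p k = ll (p ⟨k, h⟩) := by
  unfold xx
  rw [dif_pos h]

private theorem regdeep_nonneg {σ : ℝ} {w : ℕ} : 0 ≤ ∑ p ∈ SS σ w, wt p := by
  apply Finset.sum_nonneg
  intro p hp
  rw [regdeep_mem_SS] at hp
  unfold wt
  apply Finset.prod_nonneg
  intro i _
  have h1 := (hp.1 i).2.one_lt
  have h2 : (1 : ℝ) < p i := by exact_mod_cast h1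
  apply div_nonneg zero_le_one
  linarith

/-- deep `w`: `cell_lemma` with `h = σ^102`, `μ = 1/σ`, `z = z_w(σ^119)` (nonnegative), hypothesis by `deep_map`
(`ε = 4/σ^4`, `s1 = σ^120 - σ`, `K(ε s + h) ≤ μ τ = σ^118`). The factor
`((h + C)/((1-μ) h - C))^nn → 1`. -/
theorem deep_total : ∀ ε : ℝ, 0 < ε → ∀ᶠ σ : ℝ in Filter.atTop, ∀ w ∈ Wfin σ,
    BB (fun j => CC σ j w) (zt (fun j => CC σ j w) (m0 σ w) (σ ^ 119)) nn ≤ σ ^ 120 - σ ^ 119 →
      ∑ p ∈ RR σ w, wt p ≤ (1 + ε) * ∑ p ∈ SS σ w, wt p := by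
  intro ε hε
  obtain ⟨C, hC1, hcell⟩ := cell_lemma
  obtain ⟨K, hK1, hdeep⟩ := deep_map
  filter_upwards [regdeep_factor C ε hε, Filter.eventually_gt_atTop (10 : ℝ),
    Filter.eventually_gt_atTop (2 * C), Filter.eventually_gt_atTop (5 * K)] with σ hfac h10 h2C h5K
  intro w hw hBB
  have hσ0 : 0 < σ := by linarith
  have hσ1 : 1 ≤ σ := by linarith
  have hinv : 1 / σ ≤ 1 / 10 := by
    apply div_le_div_of_nonneg_left zero_le_one (by norm_num) h10.le
  have hinv0 : 0 < 1 / σ := by positivity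
  have hp102 : σ ≤ σ ^ 102 := le_self_pow₀ hσ1 (by norm_num)
  have hτ0 : 0 < σ ^ 119 := by positivity
  have hm0 : σ ^ 119 ≤ m0 σ w := le_max_right _ _
  set z : ℕ → ℝ := zt (fun j => CC σ j w) (m0 σ w) (σ ^ 119) with hz
  have hz0 : ∀ k, 0 ≤ z k := by
    intro k
    have := (zt_ge (fun j => CC σ j w) (m0 σ w) (σ ^ 119) hτ0.le k).1
    rw [← hz] at this
    linarith
  have hCC0 : ∀ j, 1 ≤ j → 0 ≤ (fun j => CC σ j w) j := fun j hj => CC_nonneg hσ1 hj w
  have hCCm : ∀ j, 1 ≤ j → (fun j => CC σ j w) j ≤ (fun j => CC σ j w) (j + 1) :=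
    fun j hj => CC_mono hσ1 (Nat.le_succ j) w
  have hkey : ∑ p ∈ RR σ w, wt p ≤
      ((σ ^ 102 + C) / ((1 - 1 / σ) * σ ^ 102 - C)) ^ nn * ∑ p ∈ SS σ w, wt p := by
    apply hcell (fun i : Fin nn => z i) (σ ^ 102) (1 / σ) (RR σ w) (SS σ w) (by positivity)
      hinv0 (by linarith) _ (fun i => hz0 i)
    · intro p hp i
      exact ((regdeep_mem_SS.mp hp).1 i).2
    · intro p hp i
      have h := regdeep_mem_RR.mp hp
      exact ⟨(h.1 i).2, hτ0.le.trans (h.2.2.1 i).2.1⟩
    · intro p hp p' hp'prime hp'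
      obtain ⟨hpr, hmono, hrange, hBBk, hBBn⟩ := regdeep_mem_RR.mp hp
      choose y hy1 hy2 using hp'
      have h4 : σ ^ 4 ≠ 0 := by positivity
      have e1 : 4 / σ ^ 4 * σ ^ 120 = 4 * σ ^ 116 := by
        rw [div_mul_eq_mul_div, div_eq_iff h4]
        ring
      have e2 : 1 / σ * σ ^ 119 = σ ^ 118 := by
        rw [one_div, inv_mul_eq_iff_eq_mul₀ hσ0.ne']
        ring
      have e3 : 4 / σ ^ 4 ≤ 1 := by
        rw [div_le_one (by positivity)]
        have : (10 : ℝ) ^ 4 ≤ σ ^ 4 := by gcongr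
        linarith
      have hxx0 : ∀ k, k < nn → σ ^ 119 ≤ xx p k := by
        intro k hk
        rw [regdeep_xx hk]
        exact (hrange ⟨k, hk⟩).2.1
      have hres := hdeep (fun j => CC σ j w) (m0 σ w) (4 / σ ^ 4) (σ ^ 120) (σ ^ 120 - σ) (σ ^ 119)
        (σ ^ 102) (1 / σ) (xx p) (fun k => if h : k < nn then y ⟨k, h⟩ else 0)
        (by positivity) e3 (by positivity) hτ0.le
        (by
          have : σ ^ 120 = σ * σ ^ 119 := by ring
          rw [this, le_div_iff₀ (by norm_num)]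
          nlinarith only [hσ1, hinv, hinv0, hτ0, e2])
        (by positivity) hinv0 (by linarith)
        (by
          have : σ ≤ 0.1 * σ ^ 120 := by
            have h6 : σ ^ 120 = σ * σ ^ 119 := by ring
            have h7 : σ ≤ σ ^ 119 := le_self_pow₀ hσ1 (by norm_num)
            nlinarith only [hσ1, hinv, hinv0, e2, h7]
          linarith)
        (by linarith)
        (by
          rw [e1, e2]
          have h6 : σ ^ 102 ≤ σ ^ 116 := pow_le_pow_right₀ hσ1 (by norm_num)
          have h7 : σ ^ 118 = σ ^ 2 * σ ^ 116 := by ring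
          have h8 : 5 * K ≤ σ ^ 2 := by nlinarith only [h5K, hσ1]
          have h9 : 0 < σ ^ 116 := by positivity
          rw [h7]
          calc K * (4 * σ ^ 116 + σ ^ 102) ≤ K * (4 * σ ^ 116 + σ ^ 116) := by
                apply mul_le_mul_of_nonneg_left _ (by linarith)
                linarith
            _ = (5 * K) * σ ^ 116 := by ring
            _ ≤ σ ^ 2 * σ ^ 116 := mul_le_mul_of_nonneg_right h8 h9.le)
        (by positivity) (by linarith) hCC0 hCCm
        (by
          have h0 : 0 < nn := by norm_num [nn]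
          rw [regdeep_xx h0]
          apply max_le
          · rcases Nat.lt_or_ge (PW w) 2 with h | h
            · rw [regdeep_ll_zero_one h]
              exact hτ0.le.trans (hrange ⟨0, h0⟩).2.1
            · exact ll_mono h (hrange ⟨0, h0⟩).1.le
          · exact (hrange ⟨0, h0⟩).2.1)
        (by
          intro k hk
          rw [regdeep_xx hk, regdeep_xx (Nat.lt_of_succ_lt hk)]
          apply ll_mono (hpr _).2.two_le
          apply hmono.monotone
          exact Nat.le_succ k)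
        (by
          intro k hk
          rw [regdeep_xx hk]
          exact (hrange ⟨k, hk⟩).2.2)
        (by
          intro k hk
          refine (hBBk k hk).trans ?_
          apply mul_le_mul_of_nonneg_right _ (hτ0.le.trans (hxx0 k hk))
          have : 3 / σ ^ 4 ≤ 4 / σ ^ 4 := by gcongr; norm_num
          linarith)
        hBBn hBB
        (by
          intro k hk
          show |(if h : k < nn then y ⟨k, h⟩ else 0) - xx p k| ≤ σ ^ 102
          rw [dif_pos hk, regdeep_xx hk]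
          exact hy1 ⟨k, hk⟩)
        (xx p')
        (by
          intro k hk
          show xx p' k = (1 - 1 / σ) * (if h : k < nn then y ⟨k, h⟩ else 0) + 1 / σ * z k
          rw [dif_pos hk, regdeep_xx hk]
          exact hy2 ⟨k, hk⟩)
      obtain ⟨r1, r2, r3, r4⟩ := hres
      rw [regdeep_mem_SS]
      have hll : ∀ i : Fin nn, m0 σ w < ll (p' i) ∧ ll (p' i) ≤ σ ^ 120 - σ := by
        intro i
        have := r4 i i.2
        rw [regdeep_xx i.2] at this
        exact this
      refine ⟨?_, ?_, ?_, ?_, ?_⟩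
      · intro i
        refine ⟨?_, hp'prime i⟩
        have h6 : p' i ≤ EE σ := by
          rw [le_EE_iff (hp'prime i).two_le]
          have := (hll i).2
          linarith
        omega
      · apply Fin.strictMono_iff_lt_succ (n := nn - 1) |>.mpr
        intro i
        have hi1 : (i : ℕ) + 1 < nn := by
          have := i.2
          omega
        have h6 := r3 i hi1
        rw [regdeep_xx hi1, regdeep_xx (Nat.lt_of_succ_lt hi1)] at h6
        exact lt_of_ll_lt (hp'prime _).two_le h6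
      · intro i
        refine ⟨?_, ?_, (hll i).2⟩
        · apply lt_of_ll_lt (hp'prime i).two_le
          exact lt_of_le_of_lt (le_max_left _ _) (hll i).1
        · exact hm0.trans (hll i).1.le
      · intro k hk
        refine (r1 k hk).trans ?_
        have h6 : 0 ≤ xx p' k := by
          have := (r4 k hk).1
          linarith
        apply mul_le_mul_of_nonneg_right _ h6
        have : 3 / σ ^ 4 ≤ 4 / σ ^ 4 := by gcongr; norm_num
        linarith
      · refine r2.trans ?_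
        apply mul_le_mul_of_nonneg_right _ (by positivity)
        have : 3 / σ ^ 4 ≤ 4 / σ ^ 4 := by gcongr; norm_num
        linarith
    · have h6 : (1 - 1 / 10) * σ ^ 102 ≤ (1 - 1 / σ) * σ ^ 102 := by
        apply mul_le_mul_of_nonneg_right _ (by positivity)
        linarith
      linarith
  refine hkey.trans ?_
  exact mul_le_mul_of_nonneg_right hfac regdeep_nonneg

end P031
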