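import Vale.Agent.Lib.P031.RegShallow
import Vale.Agent.Lib.P031.RegDeep

/-!
# P031 RegMain: `TR ≤ (1 + ε) TS` (add up `shallow_total` and `deep_total`, each with `ε/2`).

Notation: `C_w j = CC σ j w`, `z_w(τ) = zt C_w (m0 σ w) τ`, `cost w = BB C_w (z_w(0)) nn`, `s = σ^120`.
`w` is nice if `cost w ≤ 0.8 s`.
-/

namespace P031

open Finset Real

theorem regMain_wt_nonneg {σ : ℝ} {w : ℕ} {p : Fin nn → ℕ} (hp : p ∈ SS σ w) : 0 ≤ wt p := by
  unfold wt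
  refine Finset.prod_nonneg (fun i _ => ?_)
  unfold SS at hp
  have h1 := (Finset.mem_filter.1 hp).1
  rw [Fintype.mem_piFinset] at h1
  have h2 := (Finset.mem_filter.1 (h1 i)).2
  have h3 : (1 : ℝ) ≤ (p i : ℝ) := by exact_mod_cast h2.one_lt.le
  have h4 : 0 ≤ (p i : ℝ) - 1 := by linarith
  positivity

theorem TR_le : ∀ ε : ℝ, 0 < ε → ∀ᶠ σ : ℝ in Filter.atTop, TR σ ≤ (1 + ε) * TS σ := by
  intro ε hε
  filter_upwards [shallow_total (ε / 2) (by linarith), deep_total (ε / 2) (by linarith)]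
    with σ h1 h2
  have hterm : ∀ w : ℕ, 0 ≤ (1 / (w : ℝ)) * ∑ p ∈ SS σ w, wt p := fun w =>
    mul_nonneg (by positivity) (Finset.sum_nonneg (fun p hp => regMain_wt_nonneg hp))
  have h3 : TR σ = (∑ w ∈ (Wfin σ).filter (fun w => σ ^ 120 - σ ^ 119 <
        BB (fun j => CC σ j w) (zt (fun j => CC σ j w) (m0 σ w) (σ ^ 119)) nn),
      (1 / (w : ℝ)) * ∑ p ∈ RR σ w, wt p) +
      ∑ w ∈ (Wfin σ).filter (fun w => ¬ (σ ^ 120 - σ ^ 119 <
        BB (fun j => CC σ j w) (zt (fun j => CC σ j w) (m0 σ w) (σ ^ 119)) nn)),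
      (1 / (w : ℝ)) * ∑ p ∈ RR σ w, wt p := by
    unfold TR
    exact (Finset.sum_filter_add_sum_filter_not _ _ _).symm
  have h4 : ∑ w ∈ (Wfin σ).filter (fun w => ¬ (σ ^ 120 - σ ^ 119 <
        BB (fun j => CC σ j w) (zt (fun j => CC σ j w) (m0 σ w) (σ ^ 119)) nn)),
      (1 / (w : ℝ)) * ∑ p ∈ RR σ w, wt p ≤ (1 + ε / 2) * TS σ := by
    calc ∑ w ∈ (Wfin σ).filter (fun w => ¬ (σ ^ 120 - σ ^ 119 <
          BB (fun j => CC σ j w) (zt (fun j => CC σ j w) (m0 σ w) (σ ^ 119)) nn)),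
        (1 / (w : ℝ)) * ∑ p ∈ RR σ w, wt p
        ≤ ∑ w ∈ (Wfin σ).filter (fun w => ¬ (σ ^ 120 - σ ^ 119 <
          BB (fun j => CC σ j w) (zt (fun j => CC σ j w) (m0 σ w) (σ ^ 119)) nn)),
          (1 + ε / 2) * ((1 / (w : ℝ)) * ∑ p ∈ SS σ w, wt p) := by
          refine Finset.sum_le_sum (fun w hw => ?_)
          obtain ⟨hw1, hw2⟩ := Finset.mem_filter.1 hw
          have h5 := h2 w hw1 (not_lt.1 hw2)
          have h6 := mul_le_mul_of_nonneg_left h5 (show 0 ≤ 1 / (w : ℝ) by positivity)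
          linarith
      _ = (1 + ε / 2) * ∑ w ∈ (Wfin σ).filter (fun w => ¬ (σ ^ 120 - σ ^ 119 <
          BB (fun j => CC σ j w) (zt (fun j => CC σ j w) (m0 σ w) (σ ^ 119)) nn)),
          (1 / (w : ℝ)) * ∑ p ∈ SS σ w, wt p := by rw [Finset.mul_sum]
      _ ≤ (1 + ε / 2) * TS σ := by
          refine mul_le_mul_of_nonneg_left ?_ (by linarith)
          unfold TS
          exact Finset.sum_le_sum_of_subset_of_nonneg (Finset.filter_subset _ _)
            (fun w _ _ => hterm w)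
  rw [h3]
  linarith

end P031
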