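import Vale.Agent.Lib.P031.TDefs
import Vale.Agent.Lib.P031.PiB
import Vale.Agent.Lib.P031.WFacts

/-!
# P031 UB1: main term of the upper bound.
-/

namespace P031

open Finset Real

private theorem ub1_vt (w : ℕ) (p : Fin nn → ℕ) : vt w p nn = w * ∏ i, (p i - 1) := by
  have h : (Finset.univ.filter (fun i : Fin nn => i.val < nn)) = Finset.univ :=
    Finset.filter_true_of_mem (fun i _ => i.isLt)
  unfold vt
  rw [h]

private theorem ub1_log_le {n : ℕ} (hn : 2 ≤ n) {u : ℝ} (h : ll n ≤ u) :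
    Real.log (n : ℝ) ≤ Real.exp u := by
  have h1 := (ll_le_iff hn).1 h
  have h0 : (0 : ℝ) < n := by
    have : 0 < n := by omega
    exact_mod_cast this
  rw [← Real.log_exp (Real.exp u)]
  exact Real.log_le_log h0 h1

private theorem ub1_w {w q : ℕ} (hw : 1 ≤ w) (h : ∃ m : ℕ, Nat.totient m = w) (hq : PW w < q) :
    w ≤ q ^ (Om w + 1) := by
  obtain ⟨h1, h2⟩ := mW_spec h
  have hm : mW w ≠ 0 := by
    intro h0
    rw [h0, Nat.totient_zero] at h1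
    omega
  have hOm : Om (mW w) ≤ Om w + 1 := by
    have := Om_le_tot hm
    rwa [h1] at this
  have hq1 : 1 ≤ q := by omega
  calc w = Nat.totient (mW w) := h1.symm
    _ ≤ mW w := Nat.totient_le _
    _ ≤ (maxp (mW w)) ^ (Om (mW w)) := le_maxp_pow hm
    _ ≤ q ^ (Om (mW w)) := Nat.pow_le_pow_left (by rw [h2]; omega) _
    _ ≤ q ^ (Om w + 1) := Nat.pow_le_pow_right hq1 hOm

/-- `vt w p nn` has largest prime factor scale `≤ ll (p (nn-1)) ≤ s - σ`: `vt w p nn ≤ w ∏ p_i`,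
`w = φ(mW w) ≤ (PW w)^(20 s + 1)` (`Om (mW w) ≤ Om w + 1`, `le_maxp_pow`), `PW w < p_i`, `log p_i ≤ exp(s - σ)`; so
`log (vt w p nn) ≤ (20 s + 1 + 121) exp(s - σ) ≤ exp(s)/s`. -/
theorem log_vt : ∀ᶠ σ : ℝ in Filter.atTop, ∀ w ∈ Wfin σ, ∀ p : Fin nn → ℕ,
    (∀ i, (p i).Prime ∧ PW w < p i ∧ ll (p i) ≤ σ ^ 120 - σ) →
    1 ≤ vt w p nn ∧ Real.log (vt w p nn : ℝ) ≤ Real.exp (σ ^ 120) / σ ^ 120 := by
  classical
  have hexp : ∀ᶠ σ : ℝ in Filter.atTop, 142 * σ ^ 240 ≤ Real.exp σ := by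
    have h := (isLittleO_pow_exp_atTop (n := 240)).bound (show (0 : ℝ) < 1 / 142 by norm_num)
    filter_upwards [h, Filter.eventually_ge_atTop (0 : ℝ)] with σ h1 h2
    rw [Real.norm_of_nonneg (by positivity), Real.norm_of_nonneg (Real.exp_pos _).le] at h1
    linarith
  filter_upwards [hexp, Filter.eventually_ge_atTop (1 : ℝ)] with σ hσe hσ w hw p hp
  have hσ0 : (0 : ℝ) < σ := by linarith
  unfold Wfin at hw
  obtain ⟨hw1, hw2⟩ := Finset.mem_filter.1 hw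
  have hw0 : 1 ≤ w := (Finset.mem_Icc.1 hw1).1
  have hOm : (Om w : ℝ) ≤ 20 * σ ^ 120 := hw2.1.2.1
  have hn0 : 0 < nn := by unfold nn; norm_num
  have hs1 : 1 ≤ σ ^ 120 := one_le_pow₀ hσ
  have hpos : ∀ i, 1 ≤ p i - 1 := fun i => by
    have := (hp i).1.two_le
    omega
  have hprod1 : 1 ≤ ∏ i, (p i - 1) := Nat.one_le_iff_ne_zero.2
    (Finset.prod_ne_zero_iff.2 fun i _ => by have := hpos i; omega)
  have hlogp : ∀ i, Real.log (p i : ℝ) ≤ Real.exp (σ ^ 120 - σ) := fun i =>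
    ub1_log_le (hp i).1.two_le (hp i).2.2
  rw [ub1_vt]
  refine ⟨Nat.mul_pos hw0 hprod1, ?_⟩
  have hlogw : Real.log (w : ℝ) ≤ ((Om w : ℝ) + 1) * Real.exp (σ ^ 120 - σ) := by
    have h1 := ub1_w hw0 hw2.2.1 (hp ⟨0, hn0⟩).2.1
    have h2 : (w : ℝ) ≤ (p ⟨0, hn0⟩ : ℝ) ^ (Om w + 1) := by exact_mod_cast h1
    have h3 : (0 : ℝ) < w := by exact_mod_cast hw0
    calc Real.log (w : ℝ) ≤ Real.log ((p ⟨0, hn0⟩ : ℝ) ^ (Om w + 1)) := Real.log_le_log h3 h2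
      _ = ((Om w : ℝ) + 1) * Real.log (p ⟨0, hn0⟩ : ℝ) := by
          rw [Real.log_pow]
          push_cast
          ring
      _ ≤ ((Om w : ℝ) + 1) * Real.exp (σ ^ 120 - σ) :=
          mul_le_mul_of_nonneg_left (hlogp _) (add_nonneg (Nat.cast_nonneg _) zero_le_one)
  have hlogprod : Real.log ((∏ i, (p i - 1) : ℕ) : ℝ) ≤ 121 * Real.exp (σ ^ 120 - σ) := by
    have h1 : (∏ i, (p i - 1)) ≤ ∏ i, p i := Finset.prod_le_prod' fun i _ => Nat.sub_le _ _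
    have h2 : ((∏ i, (p i - 1) : ℕ) : ℝ) ≤ ∏ i, (p i : ℝ) := by exact_mod_cast h1
    have h3 : (0 : ℝ) < ((∏ i, (p i - 1) : ℕ) : ℝ) := by exact_mod_cast hprod1
    have h4 : Real.log (∏ i, (p i : ℝ)) = ∑ i, Real.log (p i : ℝ) := by
      apply Real.log_prod
      intro i _
      exact Nat.cast_ne_zero.2 (hp i).1.ne_zero
    calc Real.log ((∏ i, (p i - 1) : ℕ) : ℝ) ≤ Real.log (∏ i, (p i : ℝ)) := Real.log_le_log h3 h2
      _ = ∑ i, Real.log (p i : ℝ) := h4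
      _ ≤ ∑ _i : Fin nn, Real.exp (σ ^ 120 - σ) := Finset.sum_le_sum fun i _ => hlogp i
      _ = 121 * Real.exp (σ ^ 120 - σ) := by
          rw [Finset.sum_const, Finset.card_univ, Fintype.card_fin, nsmul_eq_mul]
          unfold nn
          norm_num
  have hw0R : (w : ℝ) ≠ 0 := by
    have : (0 : ℝ) < w := by exact_mod_cast hw0
    exact this.ne'
  have hpR : ((∏ i, (p i - 1) : ℕ) : ℝ) ≠ 0 := by
    have h3 : (0 : ℝ) < ((∏ i, (p i - 1) : ℕ) : ℝ) := by exact_mod_cast hprod1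
    exact h3.ne'
  rw [Nat.cast_mul, Real.log_mul hw0R hpR]
  have hE0 : 0 < Real.exp (σ ^ 120 - σ) := Real.exp_pos _
  have h5 : Real.log (w : ℝ) + Real.log ((∏ i, (p i - 1) : ℕ) : ℝ) ≤
      142 * σ ^ 120 * Real.exp (σ ^ 120 - σ) := by
    have h6 : (((Om w : ℝ) + 1) + 121) * Real.exp (σ ^ 120 - σ) ≤
        142 * σ ^ 120 * Real.exp (σ ^ 120 - σ) :=
      mul_le_mul_of_nonneg_right (by linarith) hE0.le
    linarith
  refine h5.trans ?_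
  rw [le_div_iff₀ (by positivity), Real.exp_sub]
  have h7 : 142 * σ ^ 120 * (Real.exp (σ ^ 120) / Real.exp σ) * σ ^ 120 =
      142 * σ ^ 240 * Real.exp (σ ^ 120) / Real.exp σ := by
    rw [show (240 : ℕ) = 120 + 120 by norm_num, pow_add]
    ring
  rw [h7, div_le_iff₀ (Real.exp_pos _), mul_comm (Real.exp (σ ^ 120)) (Real.exp σ)]
  exact mul_le_mul_of_nonneg_right hσe (Real.exp_pos _).le

private theorem ub1_inv {w : ℕ} {p : Fin nn → ℕ} (hp : ∀ i, (p i).Prime) :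
    1 / (vt w p nn : ℝ) = 1 / (w : ℝ) * wt p := by
  rw [ub1_vt, Nat.cast_mul, Nat.cast_prod]
  unfold wt
  rw [Finset.prod_div_distrib, Finset.prod_const_one]
  have h : ∏ i, ((p i - 1 : ℕ) : ℝ) = ∏ i, ((p i : ℝ) - 1) := by
    refine Finset.prod_congr rfl fun i _ => ?_
    rw [Nat.cast_sub (hp i).one_lt.le, Nat.cast_one]
  rw [h, one_div_mul_one_div]

open Classical in
private theorem ub1_count {ε X : ℝ} {d : ℕ} {S : Finset ℕ} (hd : 1 ≤ d)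
    (hub : ∀ T : Finset ℕ, (∀ P ∈ T, P.Prime ∧ (((P - 1) * d : ℕ) : ℝ) ≤ X) →
      (T.card : ℝ) ≤ (1 + ε) * (X / d) / Real.log X)
    (hS : ∀ v ∈ S, (v : ℝ) ≤ X) :
    ((S.filter (fun v => ∃ P0 : ℕ, P0.Prime ∧ v = (P0 - 1) * d)).card : ℝ) ≤
      (1 + ε) * (X / d) / Real.log X := by
  let T : Finset ℕ := (Finset.range (⌊X⌋₊ + 2)).filter
    (fun P => P.Prime ∧ (((P - 1) * d : ℕ) : ℝ) ≤ X)
  have h1 : S.filter (fun v => ∃ P0 : ℕ, P0.Prime ∧ v = (P0 - 1) * d) ⊆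
      T.image (fun P => (P - 1) * d) := by
    intro v hv
    obtain ⟨hvS, P0, hP0, rfl⟩ := Finset.mem_filter.1 hv
    have h2 := hS _ hvS
    refine Finset.mem_image.2 ⟨P0, Finset.mem_filter.2 ⟨?_, hP0, h2⟩, rfl⟩
    rw [Finset.mem_range]
    have h3 : (P0 - 1) * d ≤ ⌊X⌋₊ := Nat.le_floor h2
    have h4 : P0 - 1 ≤ (P0 - 1) * d := Nat.le_mul_of_pos_right _ hd
    omega
  have h2 : (S.filter (fun v => ∃ P0 : ℕ, P0.Prime ∧ v = (P0 - 1) * d)).card ≤ T.card :=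
    (Finset.card_le_card h1).trans Finset.card_image_le
  have h3 := hub T fun P hP => (Finset.mem_filter.1 hP).2
  have h4 : ((S.filter (fun v => ∃ P0 : ℕ, P0.Prime ∧ v = (P0 - 1) * d)).card : ℝ) ≤ T.card := by
    exact_mod_cast h2
  exact h4.trans h3

/-- count the triples `(w, p, P0)` by `pi_ub`; `1/(vt w p nn) = (1/w) wt p` -/
theorem UB_main : ∀ ε : ℝ, 0 < ε → ∀ᶠ σ : ℝ in Filter.atTop, ∀ (X : ℝ) (S : Finset ℕ),
    Real.exp (Real.exp (σ ^ 120)) ≤ X → X ≤ Real.exp (Real.exp (σ ^ 120 + 1 / 2)) →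
    (∀ v ∈ S, (v : ℝ) ≤ X ∧
      ∃ w ∈ Wfin σ, ∃ p ∈ RR σ w, ∃ P0 : ℕ, P0.Prime ∧ v = (P0 - 1) * vt w p nn) →
    (S.card : ℝ) ≤ (1 + ε) * (X / Real.log X) * TR σ := by
  classical
  intro ε hε
  filter_upwards [pi_ub ε hε, log_vt] with σ hpi hlog X S hX1 hX2 hS
  have hRR : ∀ w, ∀ p ∈ RR σ w, ∀ i, (p i).Prime ∧ PW w < p i ∧ ll (p i) ≤ σ ^ 120 - σ := by
    intro w p hp i
    unfold RR at hp
    obtain ⟨hp0, hmono, hrange, hB, hBn⟩ := Finset.mem_filter.1 hp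
    exact ⟨(Finset.mem_filter.1 (Fintype.mem_piFinset.1 hp0 i)).2, (hrange i).1, (hrange i).2.2⟩
  have hsub : S ⊆ (Wfin σ).biUnion fun w => (RR σ w).biUnion fun p =>
      S.filter (fun v => ∃ P0 : ℕ, P0.Prime ∧ v = (P0 - 1) * vt w p nn) := by
    intro v hv
    obtain ⟨_, w, hw, p, hp, P0, hP0, hvP⟩ := hS v hv
    exact Finset.mem_biUnion.2 ⟨w, hw, Finset.mem_biUnion.2 ⟨p, hp,
      Finset.mem_filter.2 ⟨hv, P0, hP0, hvP⟩⟩⟩
  have hcard : S.card ≤ ∑ w ∈ Wfin σ, ∑ p ∈ RR σ w,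
      (S.filter (fun v => ∃ P0 : ℕ, P0.Prime ∧ v = (P0 - 1) * vt w p nn)).card := by
    refine (Finset.card_le_card hsub).trans (Finset.card_biUnion_le.trans ?_)
    exact Finset.sum_le_sum fun w _ => Finset.card_biUnion_le
  have hcardR : (S.card : ℝ) ≤ ∑ w ∈ Wfin σ, ∑ p ∈ RR σ w,
      ((S.filter (fun v => ∃ P0 : ℕ, P0.Prime ∧ v = (P0 - 1) * vt w p nn)).card : ℝ) := by
    exact_mod_cast hcard
  refine hcardR.trans ?_
  have hterm : ∀ w ∈ Wfin σ, ∀ p ∈ RR σ w,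
      ((S.filter (fun v => ∃ P0 : ℕ, P0.Prime ∧ v = (P0 - 1) * vt w p nn)).card : ℝ) ≤
        (1 + ε) * (X / Real.log X) * (1 / (w : ℝ) * wt p) := by
    intro w hw p hp
    obtain ⟨h1, h2⟩ := hlog w hw p (hRR w p hp)
    have h3 := ub1_count (ε := ε) (X := X) (S := S) h1
      (fun T hT => hpi X (vt w p nn) T hX1 hX2 h1 h2 hT) (fun v hv => (hS v hv).1)
    refine h3.trans (le_of_eq ?_)
    rw [← ub1_inv fun i => (hRR w p hp i).1]
    ring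
  calc ∑ w ∈ Wfin σ, ∑ p ∈ RR σ w,
      ((S.filter (fun v => ∃ P0 : ℕ, P0.Prime ∧ v = (P0 - 1) * vt w p nn)).card : ℝ)
      ≤ ∑ w ∈ Wfin σ, ∑ p ∈ RR σ w, (1 + ε) * (X / Real.log X) * (1 / (w : ℝ) * wt p) :=
        Finset.sum_le_sum fun w hw => Finset.sum_le_sum fun p hp => hterm w hw p hp
    _ = (1 + ε) * (X / Real.log X) * TR σ := by
        unfold TR
        rw [Finset.mul_sum]
        refine Finset.sum_congr rfl fun w _ => ?_
        rw [Finset.mul_sum, Finset.mul_sum]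

end P031
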