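import Vale.Agent.Lib.P031.LBDefs
import Vale.Agent.Lib.P031.UB1
import Vale.Agent.Lib.P031.NonNormal
import Vale.Agent.Lib.P031.Crude
import Vale.Agent.Lib.P031.RegMain

/-!
# P031 LBCount: number of tuples in the lower bound.

For `(w, p)` with `p ∈ SS σ w`, `d = vt w p nn`: by `pi_lb` (and `log_vt`) the number of primes `P0 > √X` with
`(P0 - 1) d ≤ X` is `≥ (1 - ε)(X/d)/log X`; the total over all `(w, p)` is `(1 - ε)(X/log X) TS σ` (`1/d = (1/w) wt p`).
Subtract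
(a) the `(w, p)` with some `p i` not normal: the number of `P0` is `≤ 2 (X/d)/log X` (`pi_ub`) and
`∑_w 1/w ∑_{p, some p i not normal} wt p ≤ exp(σ^61) · nn · (s + C + 1)^(nn-1) · exp(-σ^65)` (`crude`, `mert_all`,
`nonnormal_sum`);
(b) the `P0` not normal: `nonnormal_count` with `Z = X/d + 1`: `≤ (X/d + 1)/log(X/d + 1) exp(-2 σ^65)`, total
`≤ 4 (X/log X) exp(-2σ^65) TS σ`.
Both are `≤ ε (X/log X) TS σ` as `TS σ ≥ 1` (`TS_small`). Note `P0 ≤ X/d + 1 ≤ EE σ`, and `P0 > √X > p i` automatically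
(`ll (p i) ≤ s - σ`). -/

namespace P031

open Finset Real

private theorem LBCount_num {ε C : ℝ} (hε : 0 < ε) (hC : 1 ≤ C) : ∀ᶠ σ : ℝ in Filter.atTop,
    Real.exp (σ ^ 61) *
      ((nn : ℝ) * (Real.exp (-(σ ^ 65)) * (σ ^ 120 + C) ^ (nn - 1))) ≤ ε := by
  filter_upwards [Filter.eventually_ge_atTop (20000 : ℝ), Filter.eventually_ge_atTop C,
    Filter.eventually_ge_atTop (1 / ε)] with σ h1 h2 h3
  have h0 : 0 < σ := by linarith
  have h01 : 1 ≤ σ := by linarith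
  have hle : σ ≤ σ ^ 120 := le_self_pow₀ h01 (by norm_num)
  have h120 : σ ^ 120 + C ≤ σ ^ 121 := by
    have e : σ ^ 121 = σ * σ ^ 120 := by ring
    rw [e]
    have h4 : 0 ≤ σ ^ 120 := by positivity
    nlinarith only [h1, h2, hle]
  have hexp : σ ≤ Real.exp σ := by
    have := Real.add_one_le_exp σ
    linarith
  have hpow : (σ ^ 120 + C) ^ (nn - 1) ≤ Real.exp (14520 * σ) := by
    have hn : nn - 1 = 120 := by unfold nn; rfl
    rw [hn]
    calc (σ ^ 120 + C) ^ 120 ≤ (σ ^ 121) ^ 120 :=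
          pow_le_pow_left₀ (by positivity) h120 _
      _ = σ ^ 14520 := by rw [← pow_mul]
      _ ≤ (Real.exp σ) ^ 14520 := pow_le_pow_left₀ h0.le hexp _
      _ = Real.exp (14520 * σ) := by
          rw [← Real.exp_nat_mul]
          norm_num
  have hnn : (nn : ℝ) ≤ Real.exp σ := by
    have hn : (nn : ℝ) = 121 := by unfold nn; norm_num
    rw [hn]
    linarith
  have h61 : σ ^ 61 ≤ σ ^ 64 := pow_le_pow_right₀ h01 (by norm_num)
  have h64 : σ ≤ σ ^ 64 := le_self_pow₀ h01 (by norm_num)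
  have h65 : σ ^ 65 = σ * σ ^ 64 := by ring
  have hfin : σ ^ 61 + (σ + (-(σ ^ 65) + 14520 * σ)) ≤ -σ := by
    rw [h65]
    have h5 : 20000 * σ ^ 64 ≤ σ * σ ^ 64 := mul_le_mul_of_nonneg_right h1 (by positivity)
    linarith
  calc Real.exp (σ ^ 61) * ((nn : ℝ) * (Real.exp (-(σ ^ 65)) * (σ ^ 120 + C) ^ (nn - 1)))
      ≤ Real.exp (σ ^ 61) * (Real.exp σ * (Real.exp (-(σ ^ 65)) * Real.exp (14520 * σ))) := by
        refine mul_le_mul_of_nonneg_left ?_ (Real.exp_pos _).le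
        refine mul_le_mul hnn ?_ (by positivity) (Real.exp_pos _).le
        exact mul_le_mul_of_nonneg_left hpow (Real.exp_pos _).le
    _ = Real.exp (σ ^ 61 + (σ + (-(σ ^ 65) + 14520 * σ))) := by
        rw [← Real.exp_add, ← Real.exp_add, ← Real.exp_add]
    _ ≤ Real.exp (-σ) := Real.exp_le_exp.2 hfin
    _ ≤ ε := by
        rw [Real.exp_neg, inv_le_comm₀ (Real.exp_pos _) hε, ← one_div]
        linarith

private theorem LBCount_num2 {ε : ℝ} (hε : 0 < ε) : ∀ᶠ σ : ℝ in Filter.atTop,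
    4 * Real.exp (-(2 * σ ^ 65)) ≤ ε := by
  filter_upwards [Filter.eventually_ge_atTop (1 : ℝ), Filter.eventually_ge_atTop (4 / ε)]
    with σ h1 h2
  have h3 : σ ≤ σ ^ 65 := le_self_pow₀ h1 (by norm_num)
  have h4 := Real.add_one_le_exp (2 * σ ^ 65)
  have h5 : 4 / ε ≤ Real.exp (2 * σ ^ 65) := by linarith
  rw [Real.exp_neg, ← div_eq_mul_inv, div_le_iff₀ (Real.exp_pos _)]
  rw [div_le_iff₀ hε] at h5
  linarith

/-- numerical facts on `Z = X / d + 1` -/
private theorem LBCount_Z {σ X : ℝ} {d : ℕ} (hσ : 20000 ≤ σ)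
    (hX : Real.exp (Real.exp (σ ^ 120)) ≤ X) (hX2 : X ≤ Real.exp (Real.exp (σ ^ 120 + 1 / 2)))
    (hd : 1 ≤ d) (hd2 : Real.log (d : ℝ) ≤ Real.exp (σ ^ 120) / σ ^ 120) :
    Real.exp (Real.exp (σ ^ 110)) ≤ X / d + 1 ∧ X / d + 1 ≤ Real.exp (Real.exp (σ ^ 120 + 1)) ∧
      (X / d + 1) / Real.log (X / d + 1) ≤ 4 * (X / d / Real.log X) := by
  obtain ⟨h0, h1, h2, h3, h4, h5⟩ := PiB_basic σ X d (by linarith) hX hd hd2
  have hd0 : (1 : ℝ) ≤ d := by exact_mod_cast hd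
  have hL : Real.exp (σ ^ 120) ≤ Real.log X := (Real.le_log_iff_exp_le h0).mpr hX
  have hinv : 1 / σ ≤ 1 / 2 := one_div_le_one_div_of_le (by norm_num) (by linarith)
  have hlogX : 0 < Real.log X := by linarith
  have hhalf : 1 / 2 * Real.log X ≤ Real.log (X / d) := by
    have : 1 / 2 * Real.log X ≤ (1 - 1 / σ) * Real.log X :=
      mul_le_mul_of_nonneg_right (by linarith) hlogX.le
    linarith
  have hlog1 : Real.log (X / d) ≤ Real.log (X / d + 1) := Real.log_le_log h5 (by linarith)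
  refine ⟨?_, ?_, ?_⟩
  · have e1 : Real.exp (σ ^ 110) ≤ Real.log (X / d) := by
      refine le_trans ?_ hhalf
      have e2 : Real.exp (σ ^ 110 + 1) ≤ Real.exp (σ ^ 120) := by
        apply Real.exp_le_exp.2
        have e3 : σ ^ 120 = σ ^ 10 * σ ^ 110 := by ring
        have e4 : (1 : ℝ) ≤ σ ^ 110 := one_le_pow₀ (by linarith)
        have e5 : σ ≤ σ ^ 10 := le_self_pow₀ (by linarith) (by norm_num)
        rw [e3]
        nlinarith only [hσ, e4, e5]
      rw [Real.exp_add] at e2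
      have e6 : 2 ≤ Real.exp 1 := by
        have := Real.add_one_le_exp (1 : ℝ)
        linarith
      have e7 := Real.exp_pos (σ ^ 110)
      nlinarith only [hL, e2, e6, e7]
    have e8 : Real.exp (Real.exp (σ ^ 110)) ≤ X / d := by
      rw [← Real.exp_log h5]
      exact Real.exp_le_exp.2 e1
    linarith
  · have e1 : X / d ≤ X := div_le_self h0.le hd0
    have e2 : (1 : ℝ) ≤ Real.exp (Real.exp (σ ^ 120 + 1 / 2)) := by
      rw [← Real.exp_zero]
      exact Real.exp_le_exp.2 (Real.exp_pos _).le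
    have e3 : X / d + 1 ≤ 2 * Real.exp (Real.exp (σ ^ 120 + 1 / 2)) := by linarith
    refine e3.trans ?_
    have e4 : (2 : ℝ) ≤ Real.exp 1 := by
      have := Real.add_one_le_exp (1 : ℝ)
      linarith
    calc 2 * Real.exp (Real.exp (σ ^ 120 + 1 / 2))
        ≤ Real.exp 1 * Real.exp (Real.exp (σ ^ 120 + 1 / 2)) :=
          mul_le_mul_of_nonneg_right e4 (Real.exp_pos _).le
      _ = Real.exp (1 + Real.exp (σ ^ 120 + 1 / 2)) := (Real.exp_add _ _).symm
      _ ≤ Real.exp (Real.exp (σ ^ 120 + 1)) := by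
          apply Real.exp_le_exp.2
          have e5 : σ ^ 120 + 1 = (σ ^ 120 + 1 / 2) + 1 / 2 := by ring
          rw [e5, Real.exp_add (σ ^ 120 + 1 / 2) (1 / 2)]
          have e6 : (3 / 2 : ℝ) ≤ Real.exp (1 / 2) := by
            have := Real.add_one_le_exp (1 / 2 : ℝ)
            linarith
          have e7 : (2 : ℝ) ≤ Real.exp (σ ^ 120 + 1 / 2) := by
            have := Real.add_one_le_exp (σ ^ 120 + 1 / 2)
            have e8 : (1 : ℝ) ≤ σ ^ 120 := one_le_pow₀ (by linarith)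
            linarith
          nlinarith only [e6, e7]
  · have e1 : X / d + 1 ≤ 2 * (X / d) := by linarith
    have e2 : 1 / 2 * Real.log X ≤ Real.log (X / d + 1) := hhalf.trans hlog1
    have e3 : 0 < 1 / 2 * Real.log X := by positivity
    calc (X / d + 1) / Real.log (X / d + 1) ≤ 2 * (X / d) / (1 / 2 * Real.log X) :=
          div_le_div₀ (by positivity) e1 e3 e2
      _ = 4 * (X / d / Real.log X) := by
          field_simp
          norm_num

private theorem LBCount_inv (w : ℕ) {p : Fin nn → ℕ} (hp : ∀ i, 1 ≤ p i) :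
    1 / ((vt w p nn : ℕ) : ℝ) = (1 / (w : ℝ)) * wt p := by
  have h1 : (Finset.univ.filter (fun i : Fin nn => i.val < nn)) = Finset.univ :=
    Finset.filter_true_of_mem fun i _ => i.isLt
  unfold vt wt
  rw [h1, Nat.cast_mul, Nat.cast_prod, one_div_mul_eq_div, Finset.prod_div_distrib,
    Finset.prod_const_one, div_div]
  have h2 : ∀ i ∈ (Finset.univ : Finset (Fin nn)), (((p i - 1 : ℕ)) : ℝ) = (p i : ℝ) - 1 := by
    intro i _
    rw [Nat.cast_sub (hp i), Nat.cast_one]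
  rw [Finset.prod_congr rfl h2, mul_comm]

/-- membership in `SS` -/
private theorem LBCount_SS {σ : ℝ} {w : ℕ} {p : Fin nn → ℕ} (hp : p ∈ SS σ w) :
    (∀ i, (p i).Prime ∧ p i < EE σ + 1) ∧
      (∀ i, PW w < p i ∧ σ ^ 119 ≤ ll (p i) ∧ ll (p i) ≤ σ ^ 120 - σ) := by
  unfold SS at hp
  obtain ⟨h1, h2⟩ := Finset.mem_filter.1 hp
  rw [Fintype.mem_piFinset] at h1
  refine ⟨fun i => ?_, h2.2.1⟩
  have h3 := Finset.mem_filter.1 (h1 i)
  exact ⟨h3.2, Finset.mem_range.1 h3.1⟩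

private theorem LBCount_pos {q : ℕ} (hq : q.Prime) : 0 ≤ 1 / ((q : ℝ) - 1) := by
  have h1 : (2 : ℝ) ≤ q := by exact_mod_cast hq.two_le
  exact one_div_nonneg.2 (by linarith)

open Classical in
/-- the weight of the tuples whose `i`-th coordinate is not normal -/
private theorem LBCount_bad_i {σ C : ℝ} (hσ : 1 ≤ σ)
    (hC : ∀ β : ℝ, 0 ≤ β → ∀ S : Finset ℕ, (∀ p ∈ S, p.Prime ∧ ll p ≤ β) →
      ∑ p ∈ S, 1 / ((p : ℝ) - 1) ≤ β + C)
    (hnn : ∀ (S : Finset ℕ), (∀ p ∈ S, p.Prime ∧ p ≤ EE σ ∧ σ ^ 111 < ll p ∧ ¬ Normal σ p) →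
      ∑ p ∈ S, 1 / ((p : ℝ) - 1) ≤ Real.exp (-(σ ^ 65))) (hC1 : 1 ≤ C) (hσ2 : 2 ≤ σ)
    (w : ℕ) (i : Fin nn) :
    ∑ p ∈ (SS σ w).filter (fun p => ¬ Normal σ (p i)), wt p ≤
      Real.exp (-(σ ^ 65)) * (σ ^ 120 + C) ^ (nn - 1) := by
  obtain ⟨Qa, hQa⟩ : ∃ Qa : Finset ℕ, Qa = (Finset.range (EE σ + 1)).filter
      (fun q => q.Prime ∧ ll q ≤ σ ^ 120) := ⟨_, rfl⟩
  obtain ⟨Qb, hQb⟩ : ∃ Qb : Finset ℕ, Qb = (Finset.range (EE σ + 1)).filter
      (fun q => q.Prime ∧ σ ^ 111 < ll q ∧ ¬ Normal σ q) := ⟨_, rfl⟩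
  have hsub : (SS σ w).filter (fun p => ¬ Normal σ (p i)) ⊆
      Fintype.piFinset (fun j => if j = i then Qb else Qa) := by
    intro p hp
    obtain ⟨hp1, hp2⟩ := Finset.mem_filter.1 hp
    obtain ⟨h1, h2⟩ := LBCount_SS hp1
    rw [Fintype.mem_piFinset]
    intro j
    by_cases hj : j = i
    · rw [if_pos hj, hQb, Finset.mem_filter, Finset.mem_range, hj]
      refine ⟨(h1 i).2, (h1 i).1, ?_, hp2⟩
      have h3 : σ ^ 111 < σ ^ 119 := pow_lt_pow_right₀ (by linarith) (by norm_num)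
      exact lt_of_lt_of_le h3 (h2 i).2.1
    · rw [if_neg hj, hQa, Finset.mem_filter, Finset.mem_range]
      refine ⟨(h1 j).2, (h1 j).1, ?_⟩
      have := (h2 j).2.2
      linarith
  have hprime : ∀ j, ∀ q ∈ (if j = i then Qb else Qa), q.Prime := by
    intro j q hq
    by_cases hj : j = i
    · rw [if_pos hj, hQb, Finset.mem_filter] at hq
      exact hq.2.1
    · rw [if_neg hj, hQa, Finset.mem_filter] at hq
      exact hq.2.1
  have h1 : ∑ p ∈ (SS σ w).filter (fun p => ¬ Normal σ (p i)), wt p ≤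
      ∑ p ∈ Fintype.piFinset (fun j => if j = i then Qb else Qa), wt p := by
    refine Finset.sum_le_sum_of_subset_of_nonneg hsub fun p hp _ => ?_
    rw [Fintype.mem_piFinset] at hp
    unfold wt
    exact Finset.prod_nonneg fun j _ => LBCount_pos (hprime j _ (hp j))
  refine h1.trans ?_
  have h2 : ∑ p ∈ Fintype.piFinset (fun j => if j = i then Qb else Qa), wt p =
      ∏ j : Fin nn, ∑ q ∈ (if j = i then Qb else Qa), 1 / ((q : ℝ) - 1) := by
    unfold wt
    rw [Finset.prod_univ_sum]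
  rw [h2, ← Finset.mul_prod_erase Finset.univ _ (Finset.mem_univ i), if_pos rfl]
  have h3 : ∑ q ∈ Qb, 1 / ((q : ℝ) - 1) ≤ Real.exp (-(σ ^ 65)) := by
    refine hnn Qb fun q hq => ?_
    rw [hQb, Finset.mem_filter, Finset.mem_range] at hq
    exact ⟨hq.2.1, Nat.lt_succ_iff.1 hq.1, hq.2.2.1, hq.2.2.2⟩
  have h4 : ∏ j ∈ Finset.univ.erase i, ∑ q ∈ (if j = i then Qb else Qa), 1 / ((q : ℝ) - 1) ≤
      (σ ^ 120 + C) ^ (nn - 1) := by
    have h5 : ∀ j ∈ Finset.univ.erase i, ∑ q ∈ (if j = i then Qb else Qa), 1 / ((q : ℝ) - 1) ≤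
        σ ^ 120 + C := by
      intro j hj
      rw [if_neg (Finset.ne_of_mem_erase hj)]
      refine hC (σ ^ 120) (by positivity) Qa fun q hq => ?_
      rw [hQa, Finset.mem_filter] at hq
      exact hq.2
    refine (Finset.prod_le_prod (fun j _ => ?_) h5).trans ?_
    · exact Finset.sum_nonneg fun q hq => LBCount_pos (hprime j q hq)
    · rw [Finset.prod_const, Finset.card_erase_of_mem (Finset.mem_univ i), Finset.card_univ,
        Fintype.card_fin]
  refine mul_le_mul h3 h4 ?_ (Real.exp_pos _).le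
  exact Finset.prod_nonneg fun j _ => Finset.sum_nonneg fun q hq => LBCount_pos (hprime j q hq)

open Classical in
private theorem LBCount_bad {ε : ℝ} (hε : 0 < ε) : ∀ᶠ σ : ℝ in Filter.atTop,
    ∑ w ∈ Wfin σ, (1 / (w : ℝ)) *
      ∑ p ∈ (SS σ w).filter (fun p => ∃ i, ¬ Normal σ (p i)), wt p ≤ ε := by
  obtain ⟨C, hC1, hC⟩ := mert_all
  filter_upwards [crude, nonnormal_sum, LBCount_num hε hC1,
    Filter.eventually_ge_atTop (2 : ℝ)] with σ hcr hnn hnum hσ
  have h1 : ∀ w ∈ Wfin σ, ∑ p ∈ (SS σ w).filter (fun p => ∃ i, ¬ Normal σ (p i)), wt p ≤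
      (nn : ℝ) * (Real.exp (-(σ ^ 65)) * (σ ^ 120 + C) ^ (nn - 1)) := by
    intro w _
    have h2 : ∑ p ∈ (SS σ w).filter (fun p => ∃ i, ¬ Normal σ (p i)), wt p ≤
        ∑ i : Fin nn, ∑ p ∈ (SS σ w).filter (fun p => ¬ Normal σ (p i)), wt p := by
      simp only [Finset.sum_filter]
      rw [Finset.sum_comm]
      refine Finset.sum_le_sum fun p hp => ?_
      have hwt : 0 ≤ wt p := regMain_wt_nonneg hp
      have h3 : ∀ i ∈ (Finset.univ : Finset (Fin nn)),
          0 ≤ (if ¬ Normal σ (p i) then wt p else 0) := by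
        intro i _
        split_ifs
        · exact le_refl _
        · exact hwt
      by_cases hb : ∃ i, ¬ Normal σ (p i)
      · rw [if_pos hb]
        obtain ⟨i, hi⟩ := hb
        have h4 := Finset.single_le_sum h3 (Finset.mem_univ i)
        rw [if_pos hi] at h4
        exact h4
      · rw [if_neg hb]
        exact Finset.sum_nonneg h3
    refine h2.trans ?_
    have h5 : ∑ i : Fin nn, ∑ p ∈ (SS σ w).filter (fun p => ¬ Normal σ (p i)), wt p ≤
        ∑ _i : Fin nn, Real.exp (-(σ ^ 65)) * (σ ^ 120 + C) ^ (nn - 1) :=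
      Finset.sum_le_sum fun i _ => LBCount_bad_i (by linarith) hC hnn hC1 hσ w i
    refine h5.trans (le_of_eq ?_)
    rw [Finset.sum_const, Finset.card_univ, Fintype.card_fin, nsmul_eq_mul]
  have h6 : ∑ w ∈ Wfin σ, 1 / (w : ℝ) ≤ Real.exp (σ ^ 61) := by
    refine hcr (Wfin σ) fun w hw => ?_
    unfold Wfin at hw
    obtain ⟨h7, h8⟩ := Finset.mem_filter.1 hw
    rw [Finset.mem_Icc] at h7
    exact ⟨by omega, by omega, h8.2.1, h8.1.2.1⟩
  calc ∑ w ∈ Wfin σ, (1 / (w : ℝ)) *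
        ∑ p ∈ (SS σ w).filter (fun p => ∃ i, ¬ Normal σ (p i)), wt p
      ≤ ∑ w ∈ Wfin σ, (1 / (w : ℝ)) *
        ((nn : ℝ) * (Real.exp (-(σ ^ 65)) * (σ ^ 120 + C) ^ (nn - 1))) :=
        Finset.sum_le_sum fun w hw => mul_le_mul_of_nonneg_left (h1 w hw) (by positivity)
    _ = (∑ w ∈ Wfin σ, 1 / (w : ℝ)) *
        ((nn : ℝ) * (Real.exp (-(σ ^ 65)) * (σ ^ 120 + C) ^ (nn - 1))) := by
        rw [Finset.sum_mul]
    _ ≤ Real.exp (σ ^ 61) *
        ((nn : ℝ) * (Real.exp (-(σ ^ 65)) * (σ ^ 120 + C) ^ (nn - 1))) :=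
        mul_le_mul_of_nonneg_right h6 (by positivity)
    _ ≤ ε := hnum

private theorem LBCount_TS : ∀ᶠ σ : ℝ in Filter.atTop, 1 ≤ TS σ := by
  obtain ⟨c, hc, h⟩ := TS_small
  filter_upwards [h, Filter.eventually_ge_atTop (1 : ℝ), Filter.eventually_ge_atTop (1 / c)]
    with σ h1 h2 h3
  have h4 : 1 ≤ c * σ ^ 120 := by
    have h5 : σ ≤ σ ^ 120 := le_self_pow₀ h2 (by norm_num)
    rw [div_le_iff₀ hc] at h3
    nlinarith only [h2, h3, h5]
  have h6 : 1 ≤ (c * σ ^ 120) ^ nn := one_le_pow₀ h4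
  have h7 : 1 * 1 ≤ (c * σ ^ 120) ^ nn * Wsm σ :=
    mul_le_mul h6 h1.2 (by norm_num) (by positivity)
  linarith [h1.1]

theorem LB_count : ∀ ε : ℝ, 0 < ε → ∀ᶠ σ : ℝ in Filter.atTop, ∀ X : ℝ,
    Real.exp (Real.exp (σ ^ 120)) ≤ X → X ≤ Real.exp (Real.exp (σ ^ 120 + 1 / 2)) →
    (1 - ε) * (X / Real.log X) * TS σ ≤ ((LBT σ X).card : ℝ) := by
  classical
  intro ε hε
  obtain ⟨e1, he1⟩ : ∃ e1 : ℝ, e1 = ε / 4 := ⟨_, rfl⟩
  have he1pos : 0 < e1 := by rw [he1]; positivity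
  filter_upwards [pi_lb e1 he1pos, log_vt, nonnormal_count, LBCount_bad he1pos,
    LBCount_num2 he1pos, LBCount_TS, Filter.eventually_ge_atTop (20000 : ℝ)] with
    σ hpi hlog hnc hbad hnum2 hTS hσ X hX hX2
  have hX0 : 0 < X := (Real.exp_pos _).trans_le hX
  have hlX : 0 < Real.log X := by
    have h1 : Real.exp (σ ^ 120) ≤ Real.log X := (Real.le_log_iff_exp_le hX0).mpr hX
    exact (Real.exp_pos _).trans_le h1
  obtain ⟨K, hK⟩ : ∃ K : ℝ, K = X / Real.log X := ⟨_, rfl⟩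
  have hK0 : 0 < K := by rw [hK]; positivity
  -- the good primes over `(w, p)`
  obtain ⟨G, hG⟩ : ∃ G : ℕ → (Fin nn → ℕ) → Finset ℕ, G = fun w p =>
      ((Finset.range (EE σ + 1)).filter Nat.Prime).filter (fun P : ℕ => (∀ i, Normal σ (p i)) ∧
        Normal σ P ∧ Real.sqrt X < (P : ℝ) ∧ (((P - 1) * vt w p nn : ℕ) : ℝ) ≤ X) := ⟨_, rfl⟩
  -- injection
  have hcard : ∑ w ∈ Wfin σ, ∑ p ∈ SS σ w, ((G w p).card : ℝ) ≤ ((LBT σ X).card : ℝ) := by
    have h1 : ((Wfin σ).sigma (fun w => (SS σ w).sigma (fun p => G w p))).card =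
        ∑ w ∈ Wfin σ, ∑ p ∈ SS σ w, (G w p).card := by
      rw [Finset.card_sigma]
      refine Finset.sum_congr rfl fun w _ => ?_
      rw [Finset.card_sigma]
    have h2 : ((Wfin σ).sigma (fun w => (SS σ w).sigma (fun p => G w p))).card ≤
        (LBT σ X).card := by
      refine Finset.card_le_card_of_injOn
        (fun x : (_ : ℕ) × ((_ : Fin nn → ℕ) × ℕ) => (x.1, x.2.1, x.2.2)) ?_ ?_
      · rintro ⟨w, p, P⟩ hx
        rw [Finset.mem_coe, Finset.mem_sigma] at hx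
        obtain ⟨hw, hx2⟩ := hx
        rw [Finset.mem_sigma] at hx2
        obtain ⟨hp, hP⟩ := hx2
        simp only at hw hp hP
        rw [hG] at hP
        simp only [Finset.mem_filter] at hP
        have hp' := hp
        unfold SS at hp'
        rw [Finset.mem_coe]
        unfold LBT
        simp only [Finset.mem_filter, Finset.mem_product]
        exact ⟨⟨hw, (Finset.mem_filter.1 hp').1, hP.1⟩, hp, hP.2.1, hP.2.2.1, hP.2.2.2.1,
          hP.2.2.2.2⟩
      · rintro ⟨w, p, P⟩ _ ⟨w', p', P'⟩ _ h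
        simp only [Prod.mk.injEq] at h
        obtain ⟨rfl, rfl, rfl⟩ := h
        rfl
    rw [h1] at h2
    exact_mod_cast h2
  refine le_trans ?_ hcard
  -- pointwise
  have hpt : ∀ w ∈ Wfin σ, ∀ p ∈ SS σ w, K * ((1 / (w : ℝ)) * wt p) *
      ((1 - e1 - 4 * Real.exp (-(2 * σ ^ 65))) - (if ∃ i, ¬ Normal σ (p i) then 1 else 0)) ≤
      ((G w p).card : ℝ) := by
    intro w hw p hp
    obtain ⟨hp1, hp2⟩ := LBCount_SS hp
    obtain ⟨hd, hd2⟩ := hlog w hw p fun i => ⟨(hp1 i).1, (hp2 i).1, (hp2 i).2.2⟩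
    have hinv := LBCount_inv w (p := p) fun i => (hp1 i).1.one_lt.le
    rw [← hinv]
    have hd0 : (0 : ℝ) < (vt w p nn : ℕ) := by exact_mod_cast hd
    have hKd : 0 ≤ K * (1 / ((vt w p nn : ℕ) : ℝ)) := by positivity
    by_cases hb : ∃ i, ¬ Normal σ (p i)
    · rw [if_pos hb]
      have h1 := Real.exp_pos (-(2 * σ ^ 65))
      have h2 : K * (1 / ((vt w p nn : ℕ) : ℝ)) *
          ((1 - e1 - 4 * Real.exp (-(2 * σ ^ 65))) - 1) ≤ 0 :=
        mul_nonpos_of_nonneg_of_nonpos hKd (by linarith)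
      exact h2.trans (Nat.cast_nonneg _)
    · rw [if_neg hb, sub_zero]
      have hb' : ∀ i, Normal σ (p i) := by
        intro i
        by_contra h
        exact hb ⟨i, h⟩
      obtain ⟨hZ1, hZ2, hZ3⟩ := LBCount_Z hσ hX hX2 hd hd2
      obtain ⟨U, hU⟩ : ∃ U : Finset ℕ, U = ((Finset.range (EE σ + 1)).filter Nat.Prime).filter
          (fun P : ℕ => Real.sqrt X < (P : ℝ) ∧ (((P - 1) * vt w p nn : ℕ) : ℝ) ≤ X) := ⟨_, rfl⟩
      have hUc : (1 - e1) * (X / (vt w p nn : ℕ)) / Real.log X ≤ (U.card : ℝ) := by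
        refine hpi X (vt w p nn) U hX hX2 hd hd2 fun P hP hP1 hP2 => ?_
        rw [hU]
        simp only [Finset.mem_filter, Finset.mem_range]
        refine ⟨⟨?_, hP⟩, hP1, hP2⟩
        have h1 := (PiB_cast hP hd).1 hP2
        have h2 : (P : ℝ) ≤ Real.exp (Real.exp (σ ^ 120 + 1)) := h1.trans hZ2
        have h3 : P ≤ EE σ := by
          unfold EE
          exact Nat.le_floor h2
        omega
      have hNc : ((U.filter (fun P => ¬ Normal σ P)).card : ℝ) ≤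
          4 * (X / (vt w p nn : ℕ) / Real.log X) * Real.exp (-(2 * σ ^ 65)) := by
        refine (hnc (X / (vt w p nn : ℕ) + 1) _ hZ1 hZ2 fun P hP => ?_).trans
          (mul_le_mul_of_nonneg_right hZ3 (Real.exp_pos _).le)
        rw [hU] at hP
        simp only [Finset.mem_filter, Finset.mem_range] at hP
        exact ⟨hP.1.1.2, (PiB_cast hP.1.1.2 hd).1 hP.1.2.2, hP.2⟩
      have hUG : (U.card : ℝ) ≤ ((G w p).card : ℝ) +
          ((U.filter (fun P => ¬ Normal σ P)).card : ℝ) := by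
        have h1 : U ⊆ G w p ∪ U.filter (fun P => ¬ Normal σ P) := by
          intro P hP
          rw [Finset.mem_union]
          by_cases hN : Normal σ P
          · left
            rw [hU] at hP
            rw [hG]
            simp only [Finset.mem_filter] at hP ⊢
            exact ⟨hP.1, hb', hN, hP.2.1, hP.2.2⟩
          · right
            exact Finset.mem_filter.2 ⟨hP, hN⟩
        have h2 := (Finset.card_le_card h1).trans (Finset.card_union_le _ _)
        exact_mod_cast h2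
      have e2 : (1 - e1) * (X / (vt w p nn : ℕ)) / Real.log X =
          K * (1 / ((vt w p nn : ℕ) : ℝ)) * (1 - e1) := by
        rw [hK]
        ring
      have e3 : 4 * (X / (vt w p nn : ℕ) / Real.log X) * Real.exp (-(2 * σ ^ 65)) =
          K * (1 / ((vt w p nn : ℕ) : ℝ)) * (4 * Real.exp (-(2 * σ ^ 65))) := by
        rw [hK]
        ring
      rw [e2] at hUc
      rw [e3] at hNc
      have e4 : K * (1 / ((vt w p nn : ℕ) : ℝ)) * (1 - e1 - 4 * Real.exp (-(2 * σ ^ 65))) =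
          K * (1 / ((vt w p nn : ℕ) : ℝ)) * (1 - e1) -
          K * (1 / ((vt w p nn : ℕ) : ℝ)) * (4 * Real.exp (-(2 * σ ^ 65))) := by ring
      rw [e4]
      linarith
  refine le_trans ?_ (Finset.sum_le_sum fun w hw => Finset.sum_le_sum fun p hp => hpt w hw p hp)
  -- evaluate the sum
  have hsum : ∑ w ∈ Wfin σ, ∑ p ∈ SS σ w, K * ((1 / (w : ℝ)) * wt p) *
      ((1 - e1 - 4 * Real.exp (-(2 * σ ^ 65))) - (if ∃ i, ¬ Normal σ (p i) then 1 else 0)) =
      K * (1 - e1 - 4 * Real.exp (-(2 * σ ^ 65))) * TS σ -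
      K * ∑ w ∈ Wfin σ, (1 / (w : ℝ)) *
        ∑ p ∈ (SS σ w).filter (fun p => ∃ i, ¬ Normal σ (p i)), wt p := by
    unfold TS
    rw [Finset.mul_sum, Finset.mul_sum, ← Finset.sum_sub_distrib]
    refine Finset.sum_congr rfl fun w _ => ?_
    rw [Finset.sum_filter, Finset.mul_sum, Finset.mul_sum, Finset.mul_sum, Finset.mul_sum,
      ← Finset.sum_sub_distrib]
    refine Finset.sum_congr rfl fun p _ => ?_
    split_ifs <;> ring
  rw [hsum, ← hK]
  have h1 : K * ∑ w ∈ Wfin σ, (1 / (w : ℝ)) *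
        ∑ p ∈ (SS σ w).filter (fun p => ∃ i, ¬ Normal σ (p i)), wt p ≤ K * e1 :=
    mul_le_mul_of_nonneg_left hbad hK0.le
  have h2 : K * e1 ≤ K * TS σ * e1 := by
    have : K * 1 ≤ K * TS σ := mul_le_mul_of_nonneg_left hTS hK0.le
    nlinarith only [he1pos, this]
  have h3 : K * TS σ * (4 * Real.exp (-(2 * σ ^ 65))) ≤ K * TS σ * e1 :=
    mul_le_mul_of_nonneg_left hnum2 (by positivity)
  have h4 : 0 ≤ K * TS σ * e1 := by positivity
  have h5 : (1 - ε) * K * TS σ = K * TS σ - 4 * (K * TS σ * e1) := by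
    rw [he1]
    ring
  rw [h5]
  have h6 : K * (1 - e1 - 4 * Real.exp (-(2 * σ ^ 65))) * TS σ =
      K * TS σ - K * TS σ * e1 - K * TS σ * (4 * Real.exp (-(2 * σ ^ 65))) := by ring
  rw [h6]
  linarith

end P031
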