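import Vale.Agent.Lib.P031.TDefs

/-!
# P031 LBDefs: the set of tuples counted in the lower bound.
-/

namespace P031

open Finset

open Classical in
/-- tuples `(w, p, P0)`: `w ∈ Wfin`, `p` a strict tuple of normal primes, `P0 > √X` a normal prime,
value `≤ X`. -/
noncomputable def LBT (σ X : ℝ) : Finset (ℕ × (Fin nn → ℕ) × ℕ) :=
  (Wfin σ ×ˢ (Fintype.piFinset (fun _ => (Finset.range (EE σ + 1)).filter Nat.Prime)) ×ˢ
    ((Finset.range (EE σ + 1)).filter Nat.Prime)).filter (fun τ =>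
      τ.2.1 ∈ SS σ τ.1 ∧ (∀ i, Normal σ (τ.2.1 i)) ∧ Normal σ τ.2.2 ∧ Real.sqrt X < τ.2.2 ∧
      (((τ.2.2 - 1) * vt τ.1 τ.2.1 nn : ℕ) : ℝ) ≤ X)

/-- the value of a tuple -/
def valT (τ : ℕ × (Fin nn → ℕ) × ℕ) : ℕ := (τ.2.2 - 1) * vt τ.1 τ.2.1 nn

end P031
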