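import Vale.Agent.Lib.P031.TDefs
import Vale.Agent.Lib.P031.Step

/-!
# P031 LinUB: the constraint functionals are bounded by `II` (iterating `step_CC`, `step_II`).

For `r ≥ 1`, `k ≤ nn`, `r + k ≤ nn + 2`, by induction on `k`
(`vt w p k = (p_{k-1} - 1) vt w p (k-1)`, prime factors of `vt w p (k-1)` are `< p_{k-1}`):
`CC σ r (vt w p k) ≥ ∑_{j<k} aa (r + k - 1 - j) xx p j + CC σ (r + k) w - k σ^104`.
Then `II σ ((p_k - 1) vt w p k) ≥ CC σ 1 (vt w p k) - σ^104 ≥ BB (CC w) (xx p) k - (k+1) σ^104`.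
`Om (vt w p k) ≤ 20 s + 121 · 200 s ≤ σ^121` by `normal_Om`.
-/

namespace P031

open Finset Real

private theorem LinUB_vt_zero (w : ℕ) (p : Fin nn → ℕ) : vt w p 0 = w := by
  simp [vt]

private theorem LinUB_vt_succ (w : ℕ) (p : Fin nn → ℕ) (k : ℕ) (hk : k < nn) :
    vt w p (k + 1) = (p ⟨k, hk⟩ - 1) * vt w p k := by
  unfold vt
  have h : (Finset.univ.filter (fun i : Fin nn => i.val < k + 1)) =
      insert ⟨k, hk⟩ (Finset.univ.filter (fun i : Fin nn => i.val < k)) := by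
    ext i
    simp only [mem_filter, mem_univ, true_and, mem_insert, Fin.ext_iff]
    omega
  rw [h, prod_insert (by simp)]
  ring

private theorem LinUB_vt_ne_zero {w : ℕ} (hw : w ≠ 0) {p : Fin nn → ℕ} (hp : ∀ i, (p i).Prime)
    (k : ℕ) : vt w p k ≠ 0 := by
  unfold vt
  refine mul_ne_zero hw (prod_ne_zero_iff.2 (fun i _ => ?_))
  have := (hp i).two_le
  omega

private theorem LinUB_Om {s : ℝ} (hs : 0 ≤ s) {w : ℕ} (hw : w ≠ 0) (hOw : (Om w : ℝ) ≤ 20 * s)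
    {p : Fin nn → ℕ} (hp : ∀ i, (p i).Prime) (hO : ∀ i, (Om (p i - 1) : ℝ) ≤ 200 * s)
    (k : ℕ) (hk : k ≤ nn) : (Om (vt w p k) : ℝ) ≤ (20 + 200 * k) * s := by
  induction k with
  | zero =>
    rw [LinUB_vt_zero]
    simpa using hOw
  | succ k ih =>
    have hk' : k < nn := hk
    have h1 : p ⟨k, hk'⟩ - 1 ≠ 0 := by
      have := (hp ⟨k, hk'⟩).two_le
      omega
    rw [LinUB_vt_succ w p k hk', Om_mul h1 (LinUB_vt_ne_zero hw hp k)]
    have h2 := ih (by omega)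
    have h3 := hO ⟨k, hk'⟩
    push_cast
    linarith

private theorem LinUB_factor {w : ℕ} {p : Fin nn → ℕ} (hp : ∀ i, (p i).Prime) (P : ℕ)
    (hPw : ∀ q ∈ w.primeFactors, q < P) (k : ℕ) (hP : ∀ i : Fin nn, i.val < k → p i ≤ P) :
    ∀ q ∈ (vt w p k).primeFactors, q < P := by
  intro q hq
  have hq1 := Nat.prime_of_mem_primeFactors hq
  have hq2 := Nat.dvd_of_mem_primeFactors hq
  have hq3 : vt w p k ≠ 0 := (Nat.mem_primeFactors.1 hq).2.2
  unfold vt at hq2 hq3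
  rcases hq1.dvd_mul.1 hq2 with h | h
  · exact hPw q (Nat.mem_primeFactors.2 ⟨hq1, h, fun h0 => hq3 (by rw [h0, zero_mul])⟩)
  · obtain ⟨i, hi, hqi⟩ := (Prime.dvd_finsetProd_iff hq1.prime _).1 h
    have h1 := hP i (mem_filter.1 hi).2
    have h2 := (hp i).two_le
    have h3 := Nat.le_of_dvd (by omega) hqi
    omega

private theorem LinUB_CC {σ : ℝ} {w : ℕ} {p : Fin nn → ℕ}
    (hstep : ∀ p n k : ℕ, p.Prime → Normal σ p →
      σ ^ 111 < ll p → ll p ≤ σ ^ 120 + 1 → n ≠ 0 → (Om n : ℝ) ≤ σ ^ 121 →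
      (∀ q ∈ n.primeFactors, q < p) → 1 ≤ k → k ≤ nn + 1 →
      CC σ (k + 1) n + aa k * ll p - σ ^ 104 ≤ CC σ k ((p - 1) * n))
    (hw : w ≠ 0) (hpw : ∀ i, ∀ q ∈ w.primeFactors, q < p i) (hmono : StrictMono p)
    (hp : ∀ i, (p i).Prime ∧ Normal σ (p i) ∧ σ ^ 111 < ll (p i) ∧ ll (p i) ≤ σ ^ 120 + 1)
    (hOm : ∀ k, k ≤ nn → (Om (vt w p k) : ℝ) ≤ σ ^ 121)
    (k : ℕ) (hk : k ≤ nn) (r : ℕ) (hr : 1 ≤ r) (hrk : r + k ≤ nn + 2) :
    (∑ j ∈ Finset.range k, aa (r + k - 1 - j) * xx p j) + CC σ (r + k) w - k * σ ^ 104 ≤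
      CC σ r (vt w p k) := by
  induction k generalizing r with
  | zero =>
    rw [LinUB_vt_zero]
    simp
  | succ k ih =>
    have hk' : k < nn := hk
    have h1 := ih (by omega) (r + 1) (by omega) (by omega)
    have h2 := hstep (p ⟨k, hk'⟩) (vt w p k) r (hp _).1 (hp _).2.1 (hp _).2.2.1 (hp _).2.2.2
      (LinUB_vt_ne_zero hw (fun i => (hp i).1) k) (hOm k (by omega))
      (LinUB_factor (fun i => (hp i).1) _ (hpw _) k
        (fun i hi => (hmono.monotone (show i ≤ ⟨k, hk'⟩ from hi.le)))) hr (by omega)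
    rw [LinUB_vt_succ w p k hk']
    have hx : xx p k = ll (p ⟨k, hk'⟩) := by
      unfold xx
      rw [dif_pos hk']
    rw [sum_range_succ, hx]
    have h3 : ∑ j ∈ Finset.range k, aa (r + 1 + k - 1 - j) * xx p j =
        ∑ j ∈ Finset.range k, aa (r + (k + 1) - 1 - j) * xx p j := by
      refine sum_congr rfl (fun j _ => ?_)
      rw [show r + 1 + k - 1 - j = r + (k + 1) - 1 - j by omega]
    have h4 : r + (k + 1) - 1 - k = r := by omega
    have h5 : r + 1 + k = r + (k + 1) := by omega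
    rw [h3, h5] at h1
    rw [h4]
    push_cast
    linarith

theorem lin_UB : ∀ᶠ σ : ℝ in Filter.atTop, ∀ (w : ℕ) (p : Fin nn → ℕ), w ≠ 0 →
    (Om w : ℝ) ≤ 20 * σ ^ 120 → (∀ i, ∀ q ∈ w.primeFactors, q < p i) → StrictMono p →
    (∀ i, (p i).Prime ∧ Normal σ (p i) ∧ σ ^ 111 < ll (p i) ∧ ll (p i) ≤ σ ^ 120 + 1) →
    (∀ k (hk : k < nn), BB (fun j => CC σ j w) (xx p) k - σ ^ 105 ≤
      II σ ((p ⟨k, hk⟩ - 1) * vt w p k)) ∧
    (∀ P0 : ℕ, P0.Prime → Normal σ P0 → ll P0 ≤ σ ^ 120 + 1 → (∀ i, p i < P0) →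
      BB (fun j => CC σ j w) (xx p) nn - σ ^ 105 ≤ II σ ((P0 - 1) * vt w p nn)) := by
  filter_upwards [step_CC, step_II, normal_Om, Filter.eventually_ge_atTop (30000 : ℝ)]
    with σ hCC hII hNO hσ w p hw hOw hpw hmono hp
  have hσ0 : 0 < σ := by linarith
  have hOm : ∀ k, k ≤ nn → (Om (vt w p k) : ℝ) ≤ σ ^ 121 := by
    intro k hk
    have h1 := LinUB_Om (s := σ ^ 120) (by positivity) hw hOw (fun i => (hp i).1)
      (fun i => (hNO (p i) (hp i).1 (hp i).2.1 (hp i).2.2.2).1) k hk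
    refine h1.trans ?_
    have h2 : (k : ℝ) ≤ 121 := by
      have : k ≤ 121 := hk
      exact_mod_cast this
    have h3 : (20 + 200 * (k : ℝ)) * σ ^ 120 ≤ σ * σ ^ 120 :=
      mul_le_mul_of_nonneg_right (by linarith) (by positivity)
    calc (20 + 200 * (k : ℝ)) * σ ^ 120 ≤ σ * σ ^ 120 := h3
      _ = σ ^ 121 := by ring
  have hmain : ∀ k, k ≤ nn → ∀ P : ℕ, P.Prime → Normal σ P → σ ^ 111 < ll P →
      ll P ≤ σ ^ 120 + 1 → (∀ q ∈ w.primeFactors, q < P) →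
      (∀ i : Fin nn, i.val < k → p i ≤ P) →
      BB (fun j => CC σ j w) (xx p) k - σ ^ 105 ≤ II σ ((P - 1) * vt w p k) := by
    intro k hk P hP hPN hP1 hP2 hPw hPi
    have h1 := hII P (vt w p k) hP hPN hP1 hP2 (LinUB_vt_ne_zero hw (fun i => (hp i).1) k)
      (hOm k hk) (LinUB_factor (fun i => (hp i).1) P hPw k hPi)
    have h2 := LinUB_CC hCC hw hpw hmono hp hOm k hk 1 le_rfl (by omega)
    unfold BB
    have h3 : ∑ j ∈ Finset.range k, aa (1 + k - 1 - j) * xx p j =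
        ∑ j ∈ Finset.range k, aa (k - j) * xx p j := by
      refine sum_congr rfl (fun j _ => ?_)
      rw [show 1 + k - 1 - j = k - j by omega]
    rw [h3, add_comm 1 k] at h2
    have h4 : ((k : ℝ) + 1) * σ ^ 104 ≤ σ ^ 105 := by
      have h5 : (k : ℝ) ≤ 121 := by
        have : k ≤ 121 := hk
        exact_mod_cast this
      calc ((k : ℝ) + 1) * σ ^ 104 ≤ σ * σ ^ 104 :=
            mul_le_mul_of_nonneg_right (by linarith) (by positivity)
        _ = σ ^ 105 := by ring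
    linarith
  refine ⟨fun k hk => ?_, fun P0 hP0 hN0 hP02 hlt => ?_⟩
  · exact hmain k hk.le (p ⟨k, hk⟩) (hp _).1 (hp _).2.1 (hp _).2.2.1 (hp _).2.2.2 (hpw _)
      (fun i hi => hmono.monotone (show i ≤ ⟨k, hk⟩ from hi.le))
  · have hn0 : 0 < nn := by unfold nn; norm_num
    have h1 : ll (p ⟨0, hn0⟩) < ll P0 := ll_strict (hp _).1.two_le (hlt _)
    have h2 := (hp ⟨0, hn0⟩).2.2.1
    exact hmain nn le_rfl P0 hP0 hN0 (by linarith) hP02
      (fun q hq => (hpw ⟨0, hn0⟩ q hq).trans (hlt _)) (fun i _ => (hlt i).le)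

end P031
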