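import Vale.Agent.Lib.P031.PDefs

/-!
# P031 MatDefs: matrices of positive integers with marked rows and columns.
-/

namespace P031

open Finset

/-- completely multiplicative extension of `z` -/
noncomputable def zm (z : ℕ → ℝ) (n : ℕ) : ℝ := (n.primeFactorsList.map z).prod

/-- row products -/
def rowP {ι κ : Type} [Fintype κ] (g : ι → κ → ℕ) (i : ι) : ℕ := ∏ y, g i y

/-- column products -/
def colP {ι κ : Type} [Fintype ι] (g : ι → κ → ℕ) (y : κ) : ℕ := ∏ i, g i y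

/-- total product -/
def totP {ι κ : Type} [Fintype ι] [Fintype κ] (g : ι → κ → ℕ) : ℕ := ∏ i, ∏ y, g i y

/-- matrices with marked rows `A` and marked columns `B` -/
structure Marked {ι κ : Type} [Fintype ι] [Fintype κ] (U : ℝ) (Q : ι → κ → Finset ℕ)
    (ρr : ι → ℝ) (ρc : κ → ℝ) (A : Finset ι) (B : Finset κ) (g : ι → κ → ℕ) : Prop where
  pos : ∀ i y, g i y ≠ 0
  sm : ∀ i y, ∀ q ∈ (g i y).primeFactors, q ∈ Q i y
  rb : ∀ i, (rowP g i : ℝ) ≤ Real.exp (Real.exp U)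
  cb : ∀ y, (colP g y : ℝ) ≤ Real.exp (Real.exp U)
  mr : ∀ i ∈ A, (rowP g i + 1).Prime ∧ ρr i ≤ ll (maxp (rowP g i))
  mc : ∀ y ∈ B, (colP g y + 1).Prime ∧ ρc y ≤ ll (maxp (colP g y))
  ne : ∀ i ∈ A, ∀ y ∈ B, rowP g i ≠ colP g y

/-- number of rows of height `≥ t` -/
def Rc {ι : Type} [Fintype ι] (h : ι → ℕ) (t : ℕ) : ℕ := (Finset.univ.filter (fun i => t ≤ h i)).card

/-- the Rankin weights -/
noncomputable def zz (σ : ℝ) {ι κ : Type} [Fintype ι] [Fintype κ] (hr : ι → ℕ) (_hc : κ → ℕ)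
    (q : ℕ) : ℝ :=
  if blk σ q = 0 then 1 / ((Fintype.card ι : ℝ) * (Fintype.card κ : ℝ))
  else 1 / ((max 1 (Rc hr (blk σ q)) : ℕ) : ℝ)

/-- the allowed primes of a cell -/
noncomputable def QC (σ : ℝ) {ι κ : Type} (hr : ι → ℕ) (hc : κ → ℕ) (i : ι) (y : κ) : Finset ℕ :=
  (Finset.range (EE σ + 1)).filter (fun q => q.Prime ∧ blk σ q ≤ hr i ∧ blk σ q ≤ hc y)

/-- the product of the Euler factors over all cells -/
noncomputable def W0 (z : ℕ → ℝ) {ι κ : Type} [Fintype ι] [Fintype κ] (Q : ι → κ → Finset ℕ) : ℝ :=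
  ∏ i, ∏ y, ∏ q ∈ Q i y, (1 - z q / (q : ℝ))⁻¹

/-- loss in the size of the largest prime factor -/
noncomputable def lam (σ : ℝ) : ℝ := Real.log (200 * σ ^ 120) + 1

/-- heights of the rows: blocks of the primes, and `⌊σ^9⌋` for the extra row -/
noncomputable def hts (σ : ℝ) {k : ℕ} (e : Fin k → ℕ) : Option (Fin k) → ℕ
  | none => ⌊σ ^ 9⌋₊
  | some i => blk σ (e i)

/-- lower bounds for the largest prime factors -/
noncomputable def rho (σ : ℝ) {k : ℕ} (h : Option (Fin k) → ℕ) : Option (Fin k) → ℝ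
  | none => 1
  | some i => σ ^ 102 * (h (some i) : ℝ) - lam σ

/-- the marked rows -/
def mk (k : ℕ) : Finset (Option (Fin k)) := Finset.univ.image some

/-- disjoint colliding pairs -/
def DH (σ : ℝ) (d : Finset ℕ × ℕ × Finset ℕ × ℕ) : Prop :=
  Adm σ d.1 d.2.1 ∧ Adm σ d.2.2.1 d.2.2.2 ∧ vv d.1 d.2.1 = vv d.2.2.1 d.2.2.2 ∧
  (vv d.1 d.2.1 : ℝ) ≤ Real.exp (Real.exp (σ ^ 120 + 1)) ∧ Disjoint d.1 d.2.2.1 ∧
  d.1.Nonempty ∧ σ ^ 119 ≤ ll (maxs d.1) ∧ AP σ d.1 ≤ (1 - (5 / 2) / σ ^ 4) * ll (maxs d.1)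

end P031
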