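import Vale.Agent.Lib.P031.SieveR2

/-!
# P031 SieveW2: weighted forms of `SieveR2` (dyadic decomposition).
`∑_{r} 1/r` over `2^j < r ≤ 2^(j+1)` is at most `2^(-j)` times the count; the `j` which occur have
`(j+1) log 2 ≥ exp ρ`; `∑_{j ≥ J} 1/j^2 ≤ C/J`, `∑_{j ≥ J} 1/j^3 ≤ C/J^2`.
-/

namespace P031

open Finset Real

/-- `log r ≥ exp ρ` if `ll r ≥ ρ` -/
private theorem sieveW2_log {r : ℕ} {ρ : ℝ} (hr : r.Prime) (h : ρ ≤ ll r) :
    Real.exp ρ ≤ Real.log r := by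
  have h1 : (1 : ℝ) < r := by exact_mod_cast hr.one_lt
  have h2 : 0 < Real.log r := Real.log_pos h1
  rw [← Real.exp_log h2]
  exact Real.exp_le_exp.mpr h

/-- one dyadic block -/
private theorem sieveW2_block {C0 : ℝ} (hC0 : 1 ≤ C0)
    (hsieve : ∀ (Z U : ℝ) (A : ℕ), 1 ≤ U → 2 ≤ Z →
      Z ≤ Real.exp (Real.exp U) → 1 ≤ A → (A : ℝ) ≤ Real.exp (Real.exp U) →
      (((Finset.range (⌊Z⌋₊ + 1)).filter (fun r => r.Prime ∧ (A * r + 1).Prime)).card : ℝ) ≤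
        C0 * Z * U ^ 6 / (Real.log Z) ^ 2)
    {U : ℝ} {A : ℕ} {S : Finset ℕ} (hU : 1 ≤ U) (hA : 1 ≤ A)
    (hAU : (A : ℝ) ≤ Real.exp (Real.exp U))
    (hS : ∀ r ∈ S, r.Prime ∧ (r : ℝ) ≤ Real.exp (Real.exp U) ∧ (A * r + 1).Prime)
    {j : ℕ} (hj : j ∈ S.image (Nat.log 2)) :
    ∑ r ∈ S with Nat.log 2 r = j, 1 / (r : ℝ) ≤ 5 * C0 * U ^ 6 * ((j : ℝ) ^ 2)⁻¹ := by
  obtain ⟨r0, hr0, hr0j⟩ := Finset.mem_image.mp hj
  obtain ⟨hp0, hE0, -⟩ := hS r0 hr0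
  have hj1 : 1 ≤ j := by
    rw [← hr0j]
    exact Nat.log_pos (by norm_num) hp0.two_le
  have hjr : (1 : ℝ) ≤ j := by exact_mod_cast hj1
  set Z : ℝ := min (2 ^ (j + 1)) (Real.exp (Real.exp U)) with hZ
  have hZ1 : Z ≤ 2 ^ (j + 1) := min_le_left _ _
  have hZ2 : Z ≤ Real.exp (Real.exp U) := min_le_right _ _
  have hmemZ : ∀ r ∈ S, Nat.log 2 r = j → (r : ℝ) ≤ Z := by
    intro r hr hrj
    apply le_min
    · have h1 : r < 2 ^ (Nat.log 2 r + 1) := Nat.lt_pow_succ_log_self (by norm_num) r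
      rw [hrj] at h1
      exact_mod_cast h1.le
    · exact (hS r hr).2.1
  have hlow : ∀ r ∈ S, Nat.log 2 r = j → (2 : ℝ) ^ j ≤ r := by
    intro r hr hrj
    have h1 : 2 ^ Nat.log 2 r ≤ r := Nat.pow_log_le_self 2 (hS r hr).1.ne_zero
    rw [hrj] at h1
    exact_mod_cast h1
  have h2Z : (2 : ℝ) ≤ Z :=
    le_trans (by exact_mod_cast hp0.two_le) (hmemZ r0 hr0 hr0j)
  have hcard := hsieve Z U A hU h2Z hZ2 hA hAU
  have hcard2 : ((S.filter (fun r => Nat.log 2 r = j)).card : ℝ) ≤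
      (((Finset.range (⌊Z⌋₊ + 1)).filter (fun r => r.Prime ∧ (A * r + 1).Prime)).card : ℝ) := by
    apply Nat.cast_le.mpr
    apply Finset.card_le_card
    intro r hr
    rw [Finset.mem_filter] at hr ⊢
    obtain ⟨h1, h2⟩ := hr
    refine ⟨?_, (hS r h1).1, (hS r h1).2.2⟩
    rw [Finset.mem_range, Nat.lt_succ_iff]
    exact Nat.le_floor (hmemZ r h1 h2)
  have hlog2 : (0.69 : ℝ) ≤ Real.log 2 := by
    have := Real.log_two_gt_d9
    linarith
  have hlogZ : (j : ℝ) * 0.69 ≤ Real.log Z := by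
    have h1 : (2 : ℝ) ^ j ≤ Z := (hlow r0 hr0 hr0j).trans (hmemZ r0 hr0 hr0j)
    have h2 := Real.log_le_log (by positivity) h1
    rw [Real.log_pow] at h2
    refine le_trans ?_ h2
    exact mul_le_mul_of_nonneg_left hlog2 (by positivity)
  have hlogZpos : 0 < Real.log Z := lt_of_lt_of_le (by positivity) hlogZ
  have hU6 : 0 ≤ C0 * U ^ 6 := by positivity
  calc ∑ r ∈ S with Nat.log 2 r = j, 1 / (r : ℝ)
      ≤ ∑ _r ∈ S with Nat.log 2 _r = j, 1 / (2 : ℝ) ^ j := by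
        apply Finset.sum_le_sum
        intro r hr
        rw [Finset.mem_filter] at hr
        exact one_div_le_one_div_of_le (by positivity) (hlow r hr.1 hr.2)
    _ = ((S.filter (fun r => Nat.log 2 r = j)).card : ℝ) * (1 / (2 : ℝ) ^ j) := by
        rw [Finset.sum_const, nsmul_eq_mul]
    _ ≤ (C0 * Z * U ^ 6 / (Real.log Z) ^ 2) * (1 / (2 : ℝ) ^ j) :=
        mul_le_mul_of_nonneg_right (hcard2.trans hcard) (by positivity)
    _ ≤ (C0 * 2 ^ (j + 1) * U ^ 6 / ((j : ℝ) * 0.69) ^ 2) * (1 / (2 : ℝ) ^ j) := by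
        apply mul_le_mul_of_nonneg_right _ (by positivity)
        apply div_le_div₀ (by positivity)
        · exact mul_le_mul_of_nonneg_right (mul_le_mul_of_nonneg_left hZ1 (by positivity))
            (by positivity)
        · positivity
        · exact pow_le_pow_left₀ (by positivity) hlogZ 2
    _ = (2 / 0.69 ^ 2) * (C0 * U ^ 6) * ((j : ℝ) ^ 2)⁻¹ := by
        rw [pow_succ]
        field_simp
    _ ≤ 5 * (C0 * U ^ 6) * ((j : ℝ) ^ 2)⁻¹ := by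
        apply mul_le_mul_of_nonneg_right _ (by positivity)
        apply mul_le_mul_of_nonneg_right _ hU6
        norm_num
    _ = 5 * C0 * U ^ 6 * ((j : ℝ) ^ 2)⁻¹ := by ring

theorem two_w : ∃ C : ℝ, 1 ≤ C ∧ ∀ (U ρ : ℝ) (A : ℕ) (S : Finset ℕ), 1 ≤ U → 0 ≤ ρ → 1 ≤ A →
    (A : ℝ) ≤ Real.exp (Real.exp U) →
    (∀ r ∈ S, r.Prime ∧ (r : ℝ) ≤ Real.exp (Real.exp U) ∧ ρ ≤ ll r ∧ (A * r + 1).Prime) →
    ∑ r ∈ S, 1 / (r : ℝ) ≤ C * U ^ 6 * Real.exp (-ρ) := by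
  obtain ⟨C0, hC0, hsieve⟩ := sieve_two
  refine ⟨20 * C0, by linarith, ?_⟩
  intro U ρ A S hU hρ hA hAU hS
  have hep : 0 < Real.exp ρ := Real.exp_pos ρ
  set J : ℕ := ⌈Real.exp ρ / 2⌉₊ with hJ
  have hJ1 : 1 ≤ J := Nat.one_le_ceil_iff.mpr (by positivity)
  have hJρ : Real.exp ρ / 2 ≤ J := Nat.le_ceil _
  have hmem : S.image (Nat.log 2) ⊆
      Finset.Ioo (J - 1) ((S.image (Nat.log 2)).sup id + 1) := by
    intro j hj
    rw [Finset.mem_Ioo]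
    refine ⟨?_, Nat.lt_succ_of_le (Finset.le_sup (f := id) hj)⟩
    obtain ⟨r, hr, hrj⟩ := Finset.mem_image.mp hj
    obtain ⟨hp, -, hρr, -⟩ := hS r hr
    have h1 := sieveW2_log hp hρr
    have hj1 : 1 ≤ j := by
      rw [← hrj]
      exact Nat.log_pos (by norm_num) hp.two_le
    have h2 : (r : ℝ) ≤ 2 ^ (j + 1) := by
      have h3 : r < 2 ^ (Nat.log 2 r + 1) := Nat.lt_pow_succ_log_self (by norm_num) r
      rw [hrj] at h3
      exact_mod_cast h3.le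
    have h4 : Real.log r ≤ (j + 1 : ℕ) * Real.log 2 := by
      rw [← Real.log_pow]
      exact Real.log_le_log (by exact_mod_cast hp.pos) h2
    have h5 : Real.log 2 ≤ 1 := by
      have := Real.log_two_lt_d9
      linarith
    have h6 : Real.exp ρ ≤ j + 1 := by
      refine h1.trans (h4.trans ?_)
      calc ((j + 1 : ℕ) : ℝ) * Real.log 2 ≤ ((j + 1 : ℕ) : ℝ) * 1 :=
            mul_le_mul_of_nonneg_left h5 (by positivity)
        _ = j + 1 := by push_cast; ring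
    have h7 : Real.exp ρ / 2 ≤ j := by
      have : (1 : ℝ) ≤ j := by exact_mod_cast hj1
      linarith
    have h8 : J ≤ j := Nat.ceil_le.mpr h7
    omega
  have hsum : ∑ j ∈ S.image (Nat.log 2), ((j : ℝ) ^ 2)⁻¹ ≤ 4 * Real.exp (-ρ) := by
    calc ∑ j ∈ S.image (Nat.log 2), ((j : ℝ) ^ 2)⁻¹
        ≤ ∑ j ∈ Finset.Ioo (J - 1) ((S.image (Nat.log 2)).sup id + 1), ((j : ℝ) ^ 2)⁻¹ :=
          Finset.sum_le_sum_of_subset_of_nonneg hmem fun _ _ _ => by positivity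
      _ ≤ 2 / (((J - 1 : ℕ) : ℝ) + 1) := sum_Ioo_inv_sq_le _ _
      _ = 2 / (J : ℝ) := by
          congr 1
          rw [Nat.cast_sub hJ1]
          push_cast
          ring
      _ ≤ 2 / (Real.exp ρ / 2) := div_le_div_of_nonneg_left (by norm_num) (by positivity) hJρ
      _ = 4 * Real.exp (-ρ) := by
          rw [Real.exp_neg]
          field_simp
          norm_num
  rw [← Finset.sum_fiberwise_of_maps_to (t := S.image (Nat.log 2)) (g := Nat.log 2)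
    (fun r hr => Finset.mem_image_of_mem _ hr)]
  calc ∑ j ∈ S.image (Nat.log 2), ∑ r ∈ S with Nat.log 2 r = j, 1 / (r : ℝ)
      ≤ ∑ j ∈ S.image (Nat.log 2), 5 * C0 * U ^ 6 * ((j : ℝ) ^ 2)⁻¹ :=
        Finset.sum_le_sum fun j hj => sieveW2_block hC0 hsieve hU hA hAU
          (fun r hr => ⟨(hS r hr).1, (hS r hr).2.1, (hS r hr).2.2.2⟩) hj
    _ = 5 * C0 * U ^ 6 * ∑ j ∈ S.image (Nat.log 2), ((j : ℝ) ^ 2)⁻¹ := by
        rw [Finset.mul_sum]
    _ ≤ 5 * C0 * U ^ 6 * (4 * Real.exp (-ρ)) :=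
        mul_le_mul_of_nonneg_left hsum (by positivity)
    _ = 20 * C0 * U ^ 6 * Real.exp (-ρ) := by ring

end P031
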