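import Vale.Agent.Lib.P031.SieveR3

/-!
# P031 SieveW3: weighted forms of `SieveR3` (dyadic decomposition).
`∑_{r} 1/r` over `2^j < r ≤ 2^(j+1)` is at most `2^(-j)` times the count; the `j` which occur have
`(j+1) log 2 ≥ exp ρ`; `∑_{j ≥ J} 1/j^2 ≤ C/J`, `∑_{j ≥ J} 1/j^3 ≤ C/J^2`.
-/

namespace P031

open Finset Real

/-- telescoping -/
theorem sieveW3_tele (a l : ℝ) (ha : 0 < a) (hl : 0 < l) (N : ℕ) :
    ∑ j ∈ Finset.range N, 1 / (a + ((j : ℝ) + 1) * l) ^ 3 ≤ 1 / (2 * l) * (1 / a ^ 2) := by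
  have key : ∀ N : ℕ, ∑ j ∈ Finset.range N, 1 / (a + ((j : ℝ) + 1) * l) ^ 3 ≤
      1 / (2 * l) * (1 / a ^ 2 - 1 / (a + (N : ℝ) * l) ^ 2) := by
    intro N
    induction N with
    | zero => simp
    | succ N ih =>
      rw [Finset.sum_range_succ]
      have hx : 0 < a + (N : ℝ) * l := by positivity
      have hy : 0 < a + ((N : ℝ) + 1) * l := by positivity
      have h1 : 1 / (a + ((N : ℝ) + 1) * l) ^ 3 ≤
          1 / (2 * l) * (1 / (a + (N : ℝ) * l) ^ 2 - 1 / (a + ((N : ℝ) + 1) * l) ^ 2) := by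
        set x := a + (N : ℝ) * l with hxd
        have hyx : a + ((N : ℝ) + 1) * l = x + l := by rw [hxd]; ring
        rw [hyx]
        have hxl : 0 < x + l := by linarith
        rw [div_sub_div _ _ (by positivity) (by positivity), div_mul_div_comm,
          div_le_div_iff₀ (by positivity) (by positivity)]
        have h2 : (1 * (1 * (x + l) ^ 2 - x ^ 2 * 1)) * (x + l) ^ 3 -
            1 * (2 * l * (x ^ 2 * (x + l) ^ 2)) =
            l * (x + l) ^ 2 * (l ^ 2 + 3 * x * l) := by ring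
        have h3 : 0 ≤ l * (x + l) ^ 2 * (l ^ 2 + 3 * x * l) := by positivity
        linarith
      have h2 : ((N + 1 : ℕ) : ℝ) = (N : ℝ) + 1 := by push_cast; ring
      rw [h2]
      have h3 : 1 / (2 * l) * (1 / a ^ 2 - 1 / (a + ((N : ℝ) + 1) * l) ^ 2) =
          1 / (2 * l) * (1 / a ^ 2 - 1 / (a + (N : ℝ) * l) ^ 2) +
          1 / (2 * l) * (1 / (a + (N : ℝ) * l) ^ 2 - 1 / (a + ((N : ℝ) + 1) * l) ^ 2) := by ring
      rw [h3]
      exact add_le_add ih h1
  refine (key N).trans ?_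
  apply mul_le_mul_of_nonneg_left _ (by positivity)
  have : 0 ≤ 1 / (a + (N : ℝ) * l) ^ 2 := by positivity
  linarith

theorem three_w : ∃ C : ℝ, 1 ≤ C ∧ ∀ (U ρ : ℝ) (A B : ℕ) (S : Finset ℕ), 1 ≤ U → 0 ≤ ρ → 1 ≤ A →
    (A : ℝ) ≤ Real.exp (Real.exp U) → 1 ≤ B → (B : ℝ) ≤ Real.exp (Real.exp U) → A ≠ B →
    (∀ r ∈ S, r.Prime ∧ (r : ℝ) ≤ Real.exp (Real.exp U) ∧ ρ ≤ ll r ∧ (A * r + 1).Prime ∧
      (B * r + 1).Prime) →
    ∑ r ∈ S, 1 / (r : ℝ) ≤ C * U ^ 9 * Real.exp (-(2 * ρ)) := by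
  obtain ⟨C, hC1, hC⟩ := sieve_three
  refine ⟨12 * C, by linarith, ?_⟩
  intro U ρ A B S hU hρ hA hAU hB hBU hAB hS
  set a : ℝ := Real.exp ρ with ha
  have ha0 : 0 < a := Real.exp_pos ρ
  set l : ℝ := Real.log 2 with hl
  have hl0 : 0 < l := Real.log_pos (by norm_num)
  have hl7 : 0.69 < l := by
    have := Real.log_two_gt_d9
    rw [hl]; linarith
  have hU0 : 0 < U := by linarith
  -- one block
  have hblock : ∀ j : ℕ, ∑ r ∈ S.filter (fun r => Nat.log 2 r = j + 1), 1 / (r : ℝ) ≤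
      16 * C * U ^ 9 * (1 / (a + ((j : ℝ) + 1) * l) ^ 3) := by
    intro j
    set Sj := S.filter (fun r => Nat.log 2 r = j + 1) with hSj
    have hD : 0 < a + ((j : ℝ) + 1) * l := by positivity
    rcases Sj.eq_empty_or_nonempty with he | ⟨r0, hr0⟩
    · rw [he]
      simp only [Finset.sum_empty]
      positivity
    · rw [hSj, Finset.mem_filter] at hr0
      obtain ⟨hr0S, hr0j⟩ := hr0
      obtain ⟨hp0, hr0U, hρ0, _, _⟩ := hS r0 hr0S
      have h2r0 : (2 : ℝ) ≤ r0 := by exact_mod_cast hp0.two_le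
      have hlog0 : 0 < Real.log r0 := Real.log_pos (by linarith)
      have hlr0 : a ≤ Real.log r0 := by
        rw [ha, ← Real.exp_log hlog0]
        exact Real.exp_le_exp.mpr hρ0
      have hpow : 2 ^ (j + 1) ≤ r0 := by
        rw [← hr0j]
        exact Nat.pow_log_le_self 2 hp0.ne_zero
      have hpow2 : r0 < 2 ^ (j + 1 + 1) := by
        rw [← hr0j]
        exact Nat.lt_pow_succ_log_self (by norm_num) r0
      have hpowR : (2 : ℝ) ^ (j + 1) ≤ r0 := by exact_mod_cast hpow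
      have hpow2R : (r0 : ℝ) ≤ (2 : ℝ) ^ (j + 1 + 1) := by exact_mod_cast hpow2.le
      have hlr0' : ((j : ℝ) + 1) * l ≤ Real.log r0 := by
        have h1 : Real.log ((2 : ℝ) ^ (j + 1)) ≤ Real.log r0 :=
          Real.log_le_log (by positivity) hpowR
        rw [Real.log_pow] at h1
        push_cast at h1
        exact h1
      set Z : ℝ := min ((2 : ℝ) ^ (j + 1 + 1)) (Real.exp (Real.exp U)) with hZ
      have hrZ : (r0 : ℝ) ≤ Z := le_min hpow2R hr0U
      have hZ2 : 2 ≤ Z := h2r0.trans hrZ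
      have hlogZ : Real.log r0 ≤ Real.log Z := Real.log_le_log (by linarith) hrZ
      have hcount := hC Z U A B hU hZ2 (min_le_right _ _) hA hAU hB hBU hAB
      have hsub : Sj ⊆ (Finset.range (⌊Z⌋₊ + 1)).filter
          (fun r => r.Prime ∧ (A * r + 1).Prime ∧ (B * r + 1).Prime) := by
        intro r hr
        rw [hSj, Finset.mem_filter] at hr
        obtain ⟨hrS, hrj⟩ := hr
        obtain ⟨hp, hrU, _, hpA, hpB⟩ := hS r hrS
        rw [Finset.mem_filter, Finset.mem_range]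
        refine ⟨?_, hp, hpA, hpB⟩
        have h1 : r < 2 ^ (j + 1 + 1) := by
          rw [← hrj]
          exact Nat.lt_pow_succ_log_self (by norm_num) r
        have h2 : (r : ℝ) ≤ (2 : ℝ) ^ (j + 1 + 1) := by exact_mod_cast h1.le
        have h3 : (r : ℝ) ≤ Z := le_min h2 hrU
        exact Nat.lt_succ_of_le (Nat.le_floor h3)
      have hcard : (Sj.card : ℝ) ≤ C * Z * U ^ 9 / (Real.log Z) ^ 3 :=
        le_trans (by exact_mod_cast Finset.card_le_card hsub) hcount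
      have hterm : ∀ r ∈ Sj, 1 / (r : ℝ) ≤ 1 / (2 : ℝ) ^ (j + 1) := by
        intro r hr
        rw [hSj, Finset.mem_filter] at hr
        obtain ⟨hrS, hrj⟩ := hr
        obtain ⟨hp, _⟩ := hS r hrS
        have h1 : 2 ^ (j + 1) ≤ r := by
          rw [← hrj]
          exact Nat.pow_log_le_self 2 hp.ne_zero
        have h2 : (2 : ℝ) ^ (j + 1) ≤ r := by exact_mod_cast h1
        exact one_div_le_one_div_of_le (by positivity) h2
      have hsum : ∑ r ∈ Sj, 1 / (r : ℝ) ≤ Sj.card * (1 / (2 : ℝ) ^ (j + 1)) := by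
        refine (Finset.sum_le_sum hterm).trans ?_
        rw [Finset.sum_const, nsmul_eq_mul]
      have hhalf : (a + ((j : ℝ) + 1) * l) / 2 ≤ Real.log Z := by linarith
      have hcube : ((a + ((j : ℝ) + 1) * l) / 2) ^ 3 ≤ (Real.log Z) ^ 3 :=
        pow_le_pow_left₀ (by positivity) hhalf 3
      have hZpow : Z ≤ (2 : ℝ) ^ (j + 1 + 1) := min_le_left _ _
      have hcard2 : (Sj.card : ℝ) ≤
          C * (2 : ℝ) ^ (j + 1 + 1) * U ^ 9 / ((a + ((j : ℝ) + 1) * l) / 2) ^ 3 := by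
        refine hcard.trans ?_
        apply div_le_div₀ (by positivity) _ (by positivity) hcube
        apply mul_le_mul_of_nonneg_right _ (by positivity)
        exact mul_le_mul_of_nonneg_left hZpow (by linarith)
      calc ∑ r ∈ Sj, 1 / (r : ℝ) ≤ Sj.card * (1 / (2 : ℝ) ^ (j + 1)) := hsum
        _ ≤ (C * (2 : ℝ) ^ (j + 1 + 1) * U ^ 9 / ((a + ((j : ℝ) + 1) * l) / 2) ^ 3) *
            (1 / (2 : ℝ) ^ (j + 1)) := by
            apply mul_le_mul_of_nonneg_right hcard2 (by positivity)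
        _ = 16 * C * U ^ 9 * (1 / (a + ((j : ℝ) + 1) * l) ^ 3) := by
            rw [pow_succ (2 : ℝ) (j + 1)]
            field_simp
            ring
  -- all blocks
  set N : ℕ := S.sup (fun r => Nat.log 2 r) with hN
  have hmap : ∀ r ∈ S, (Nat.log 2 r - 1) ∈ Finset.range (N + 1) := by
    intro r hr
    rw [Finset.mem_range]
    have : Nat.log 2 r ≤ N := Finset.le_sup (f := fun r => Nat.log 2 r) hr
    omega
  have hsplit : ∑ r ∈ S, 1 / (r : ℝ) =
      ∑ j ∈ Finset.range (N + 1), ∑ r ∈ S.filter (fun r => Nat.log 2 r = j + 1), 1 / (r : ℝ) := by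
    rw [← Finset.sum_fiberwise_of_maps_to hmap]
    refine Finset.sum_congr rfl fun j _ => ?_
    refine Finset.sum_congr ?_ fun _ _ => rfl
    refine Finset.filter_congr fun r hr => ?_
    have h2 : 2 ≤ r := (hS r hr).1.two_le
    have h1 : 1 ≤ Nat.log 2 r := (Nat.le_log_iff_pow_le (by norm_num) (by omega)).2 (by simpa using h2)
    omega
  rw [hsplit]
  refine (Finset.sum_le_sum fun j _ => hblock j).trans ?_
  rw [← Finset.mul_sum]
  have htele := sieveW3_tele a l ha0 hl0 (N + 1)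
  have h16 : 0 ≤ 16 * C * U ^ 9 := by positivity
  refine (mul_le_mul_of_nonneg_left htele h16).trans ?_
  have hea : Real.exp (-(2 * ρ)) = 1 / a ^ 2 := by
    rw [ha, Real.exp_neg, ← Real.exp_nat_mul]
    push_cast
    rw [one_div]
  rw [hea]
  have h8 : 16 * C * U ^ 9 * (1 / (2 * l) * (1 / a ^ 2)) = (8 / l) * (C * U ^ 9 * (1 / a ^ 2)) := by
    field_simp
    ring
  rw [h8]
  have h12 : 8 / l ≤ 12 := by
    rw [div_le_iff₀ hl0]
    linarith
  have hpos : 0 ≤ C * U ^ 9 * (1 / a ^ 2) := by positivity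
  linarith only [mul_le_mul_of_nonneg_right h12 hpos]

/-- counting form: use `sieve_three` with `min Z (exp exp U)`; if `S` is nonempty this is at least
`exp exp ρ`, so its logarithm is at least `exp ρ`. -/
theorem three_x : ∃ C : ℝ, 1 ≤ C ∧ ∀ (U ρ Z : ℝ) (A B : ℕ) (S : Finset ℕ), 1 ≤ U → 0 ≤ ρ → 0 ≤ Z →
    1 ≤ A → (A : ℝ) ≤ Real.exp (Real.exp U) → 1 ≤ B → (B : ℝ) ≤ Real.exp (Real.exp U) → A ≠ B →
    (∀ r ∈ S, r.Prime ∧ (r : ℝ) ≤ Real.exp (Real.exp U) ∧ (r : ℝ) ≤ Z ∧ ρ ≤ ll r ∧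
      (A * r + 1).Prime ∧ (B * r + 1).Prime) →
    (S.card : ℝ) ≤ C * U ^ 9 * Z * Real.exp (-(3 * ρ)) := by
  obtain ⟨C, hC1, hC⟩ := sieve_three
  refine ⟨C, hC1, ?_⟩
  intro U ρ Z A B S hU hρ hZ0 hA hAU hB hBU hAB hS
  set a : ℝ := Real.exp ρ with ha
  have ha0 : 0 < a := Real.exp_pos ρ
  have hU0 : 0 < U := by linarith
  have hea : Real.exp (-(3 * ρ)) = 1 / a ^ 3 := by
    rw [ha, Real.exp_neg, ← Real.exp_nat_mul]
    push_cast
    rw [one_div]
  rcases S.eq_empty_or_nonempty with he | ⟨r0, hr0S⟩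
  · rw [he]
    simp only [Finset.card_empty, Nat.cast_zero]
    positivity
  · obtain ⟨hp0, hr0U, hr0Z, hρ0, _, _⟩ := hS r0 hr0S
    have h2r0 : (2 : ℝ) ≤ r0 := by exact_mod_cast hp0.two_le
    have hlog0 : 0 < Real.log r0 := Real.log_pos (by linarith)
    have hlr0 : a ≤ Real.log r0 := by
      rw [ha, ← Real.exp_log hlog0]
      exact Real.exp_le_exp.mpr hρ0
    set W : ℝ := min Z (Real.exp (Real.exp U)) with hW
    have hrW : (r0 : ℝ) ≤ W := le_min hr0Z hr0U
    have hW2 : 2 ≤ W := h2r0.trans hrW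
    have hlogW : Real.log r0 ≤ Real.log W := Real.log_le_log (by linarith) hrW
    have hcount := hC W U A B hU hW2 (min_le_right _ _) hA hAU hB hBU hAB
    have hsub : S ⊆ (Finset.range (⌊W⌋₊ + 1)).filter
        (fun r => r.Prime ∧ (A * r + 1).Prime ∧ (B * r + 1).Prime) := by
      intro r hrS
      obtain ⟨hp, hrU, hrZ, _, hpA, hpB⟩ := hS r hrS
      rw [Finset.mem_filter, Finset.mem_range]
      refine ⟨?_, hp, hpA, hpB⟩
      have h3 : (r : ℝ) ≤ W := le_min hrZ hrU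
      exact Nat.lt_succ_of_le (Nat.le_floor h3)
    have hcard : (S.card : ℝ) ≤ C * W * U ^ 9 / (Real.log W) ^ 3 :=
      le_trans (by exact_mod_cast Finset.card_le_card hsub) hcount
    have hcube : a ^ 3 ≤ (Real.log W) ^ 3 := pow_le_pow_left₀ ha0.le (hlr0.trans hlogW) 3
    have hWZ : W ≤ Z := min_le_left _ _
    rw [hea]
    calc (S.card : ℝ) ≤ C * W * U ^ 9 / (Real.log W) ^ 3 := hcard
      _ ≤ C * Z * U ^ 9 / a ^ 3 := by
          apply div_le_div₀ (by positivity) _ (by positivity) hcube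
          apply mul_le_mul_of_nonneg_right _ (by positivity)
          exact mul_le_mul_of_nonneg_left hWZ (by linarith)
      _ = C * U ^ 9 * Z * (1 / a ^ 3) := by ring

end P031
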