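import Vale.Agent.Lib.P031.MatDefs
import Vale.Agent.Lib.P031.SieveW2
import Vale.Agent.Lib.P031.SieveW3
import Vale.Agent.Lib.P031.RankinW

/-!
# P031 MatInd: the matrix induction.

Strong induction on `|A| + |B|`. Put `ζ(n) = zm z n / n` (completely multiplicative), `N = 3 card ι card κ`,
`L = C U^9`.

Base `A = B = ∅`: `∑_{g ∈ G} ∏ ζ(g i y) ≤ ∏_{i,y} ∑_{n ∈ entries} ζ(n) ≤ W0` (`Finset.prod_univ_sum` for functions on `ι × κ`,
`rankin_w` with `g = z`, set of all entries at `(i, y)` of the `g ∈ G`).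

Step. Let `g ∈ G`. The numbers `maxp (rowP g i)`, `i ∈ A`, and `maxp (colP g y)`, `y ∈ B`, are primes (they are `0` or prime
and `ll > 0`; recall `ll 0 = 0`); let `r` be the largest of them. If `r = maxp (rowP g i)`, `r ∣ g i y` for some `y`; if `y ∈ B` then
`r ∣ colP g y`, so `maxp (colP g y) ≥ r`, hence `= r` by maximality: type 1 at `(i, y)`. If `y ∉ B`: type 2 at `(i, y)`
(`i ∈ A`, `y ∉ B`, `r = maxp (rowP g i)`, `r ∣ g i y`). Symmetrically, if `r = maxp (colP g y)`: type 1 or type 3 (`y ∈ B`, `i ∉ A`,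
`r = maxp (colP g y)`, `r ∣ g i y`). So `G` is covered by `N` classes (type, i, y).
For a class let `g'` be `g` with the entry `(i, y)` divided by `r`; `g ↦ (g', r)` is injective, and
`∏ ζ(g) = ∏ ζ(g') · z r / r`. `g'` is `Marked` for `(A \ i, B \ y)` (type 1), `(A \ i, B)` (type 2), `(A, B \ y)` (type 3): all
other row/column products which are still marked are unchanged.
For fixed `g'` the sum of `1/r` is at most `C U^9 exp(-2 max(ρr i, ρc y)) ≤ L exp(-ρr i - ρc y)` by `three_w` in type 1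
(`rowP g' i * r + 1`, `colP g' y * r + 1` prime, `rowP g' i ≠ colP g' y` since `rowP g i ≠ colP g y`), and at most
`C U^6 exp(-ρr i)`, resp. `exp(-ρc y)`, by `two_w` in the other types. Apply the induction hypothesis to the set of all `g'`
(and `1 ≤ N L` if there is a class), and add up the at most `N` classes. -/

namespace P031

open Finset Real

private theorem matInd_zm_nonneg {z : ℕ → ℝ} (hz : ∀ q, 0 ≤ z q ∧ z q ≤ 1) (n : ℕ) :
    0 ≤ zm z n := by
  unfold zm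
  refine List.prod_nonneg fun a ha => ?_
  obtain ⟨q, -, rfl⟩ := List.mem_map.1 ha
  exact (hz q).1

private theorem matInd_zm_mul (z : ℕ → ℝ) {a b : ℕ} (ha : a ≠ 0) (hb : b ≠ 0) :
    zm z (a * b) = zm z a * zm z b := by
  unfold zm
  rw [((Nat.perm_primeFactorsList_mul ha hb).map z).prod_eq, List.map_append, List.prod_append]

private theorem matInd_zm_prime (z : ℕ → ℝ) {p : ℕ} (hp : p.Prime) : zm z p = z p := by
  unfold zm
  rw [Nat.primeFactorsList_prime hp, List.map_singleton, List.prod_singleton]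

/-- the weight of a matrix -/
private noncomputable def matIndF (z : ℕ → ℝ) {ι κ : Type} [Fintype ι] [Fintype κ]
    (g : ι → κ → ℕ) : ℝ :=
  ∏ i, ∏ y, (zm z (g i y) / (g i y : ℝ))

private theorem matIndF_nonneg {z : ℕ → ℝ} (hz : ∀ q, 0 ≤ z q ∧ z q ≤ 1) {ι κ : Type} [Fintype ι]
    [Fintype κ] (g : ι → κ → ℕ) : 0 ≤ matIndF z g :=
  Finset.prod_nonneg fun _ _ => Finset.prod_nonneg fun _ _ =>
    div_nonneg (matInd_zm_nonneg hz _) (Nat.cast_nonneg _)

section

variable {ι κ : Type} [Fintype ι] [DecidableEq ι] [Fintype κ] [DecidableEq κ]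

/-- `g` is `g'` with the entry `(i, y)` multiplied by `r` -/
private def matIndRel (i : ι) (y : κ) (r : ℕ) (g g' : ι → κ → ℕ) : Prop :=
  ∀ a b, g a b = g' a b * (if a = i ∧ b = y then r else 1)

private theorem matInd_prod_row {M : Type} [CommMonoid M] (i a : ι) (y : κ) (c : M) :
    ∏ b, (if a = i ∧ b = y then c else 1) = if a = i then c else 1 := by
  by_cases h : a = i
  · simp [h]
  · simp [h]

private theorem matInd_prod_col {M : Type} [CommMonoid M] (i : ι) (b y : κ) (c : M) :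
    ∏ a, (if a = i ∧ b = y then c else 1) = if b = y then c else 1 := by
  by_cases h : b = y
  · simp [h]
  · simp [h]

private theorem matInd_row {i : ι} {y : κ} {r : ℕ} {g g' : ι → κ → ℕ}
    (h : matIndRel i y r g g') (a : ι) : rowP g a = rowP g' a * (if a = i then r else 1) := by
  unfold rowP
  rw [← matInd_prod_row i a y r, ← Finset.prod_mul_distrib]
  exact Finset.prod_congr rfl fun b _ => h a b

private theorem matInd_col {i : ι} {y : κ} {r : ℕ} {g g' : ι → κ → ℕ}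
    (h : matIndRel i y r g g') (b : κ) : colP g b = colP g' b * (if b = y then r else 1) := by
  unfold colP
  rw [← matInd_prod_col i b y r, ← Finset.prod_mul_distrib]
  exact Finset.prod_congr rfl fun a _ => h a b

private theorem matInd_F {z : ℕ → ℝ} (hz : ∀ q, 0 ≤ z q ∧ z q ≤ 1) {i : ι} {y : κ} {r : ℕ}
    (hr : r.Prime) {g g' : ι → κ → ℕ}
    (h : matIndRel i y r g g') (hpos : ∀ a b, g' a b ≠ 0) :
    matIndF z g ≤ matIndF z g' * (1 / (r : ℝ)) := by
  have h1 : matIndF z g = matIndF z g' * (z r / (r : ℝ)) := by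
    have h2 : (z r / (r : ℝ)) = ∏ a : ι, ∏ b : κ,
        (if a = i ∧ b = y then (z r / (r : ℝ)) else 1) := by
      rw [Finset.prod_congr rfl fun a _ => matInd_prod_row i a y (z r / (r : ℝ))]
      simp
    rw [h2]
    unfold matIndF
    rw [← Finset.prod_mul_distrib]
    refine Finset.prod_congr rfl fun a _ => ?_
    rw [← Finset.prod_mul_distrib]
    refine Finset.prod_congr rfl fun b _ => ?_
    rw [h a b]
    by_cases hab : a = i ∧ b = y
    · rw [if_pos hab, if_pos hab, matInd_zm_mul z (hpos a b) hr.ne_zero, matInd_zm_prime z hr,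
        Nat.cast_mul, mul_div_mul_comm]
    · rw [if_neg hab, if_neg hab, mul_one, mul_one]
  rw [h1]
  refine mul_le_mul_of_nonneg_left ?_ (matIndF_nonneg hz g')
  exact div_le_div_of_nonneg_right (hz r).2 (Nat.cast_nonneg r)

private theorem matInd_cls {z : ℕ → ℝ} (hz : ∀ q, 0 ≤ z q ∧ z q ≤ 1)
    (G : Finset (ι → κ → ℕ)) (i : ι) (y : κ) (R : (ι → κ → ℕ) → ℕ)
    (red : (ι → κ → ℕ) → (ι → κ → ℕ)) {K : ℝ}
    (hR : ∀ g ∈ G, (R g).Prime ∧ (∀ a b, red g a b ≠ 0) ∧ matIndRel i y (R g) g (red g))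
    (hK : ∀ g' ∈ G.image red,
      ∑ r ∈ (G.filter (fun g => red g = g')).image R, 1 / (r : ℝ) ≤ K) :
    ∑ g ∈ G, matIndF z g ≤ K * ∑ g' ∈ G.image red, matIndF z g' := by
  rw [← Finset.sum_fiberwise_of_maps_to (t := G.image red) (g := red)
    (fun g hg => Finset.mem_image_of_mem _ hg), Finset.mul_sum]
  refine Finset.sum_le_sum fun g' hg' => ?_
  have h1 : ∑ g ∈ G with red g = g', matIndF z g ≤
      ∑ g ∈ G with red g = g', matIndF z g' * (1 / (R g : ℝ)) := by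
    refine Finset.sum_le_sum fun g hg => ?_
    obtain ⟨hgG, hgr⟩ := Finset.mem_filter.1 hg
    obtain ⟨e1, e2, e3⟩ := hR g hgG
    rw [hgr] at e2 e3
    exact matInd_F hz e1 e3 e2
  refine h1.trans ?_
  rw [← Finset.mul_sum, mul_comm K]
  refine mul_le_mul_of_nonneg_left ?_ (matIndF_nonneg hz g')
  have h2 := hK g' hg'
  rw [Finset.sum_image] at h2
  · exact h2
  · intro g1 hg1 g2 hg2 h12
    obtain ⟨a1, a2⟩ := Finset.mem_filter.1 (Finset.mem_coe.1 hg1)
    obtain ⟨b1, b2⟩ := Finset.mem_filter.1 (Finset.mem_coe.1 hg2)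
    obtain ⟨-, -, e3⟩ := hR g1 a1
    obtain ⟨-, -, f3⟩ := hR g2 b1
    rw [a2] at e3
    rw [b2] at f3
    funext a b
    rw [e3 a b, f3 a b]
    have h12' : R g1 = R g2 := h12
    rw [h12']

private theorem matInd_marked {U : ℝ} {Q : ι → κ → Finset ℕ} {ρr : ι → ℝ} {ρc : κ → ℝ}
    {A A' : Finset ι} {B B' : Finset κ} {g g' : ι → κ → ℕ} (hg : Marked U Q ρr ρc A B g)
    {i : ι} {y : κ} {r : ℕ} (hr : r.Prime) (h : matIndRel i y r g g')
    (hA : A' ⊆ A) (hi : i ∉ A') (hB : B' ⊆ B) (hy : y ∉ B') : Marked U Q ρr ρc A' B' g' := by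
  have hpos : ∀ a b, g' a b ≠ 0 := by
    intro a b h0
    have h1 := h a b
    rw [h0, zero_mul] at h1
    exact hg.pos a b h1
  have hrow : ∀ a, rowP g' a ≤ rowP g a := by
    intro a
    rw [matInd_row h a]
    by_cases ha : a = i
    · rw [if_pos ha]
      exact Nat.le_mul_of_pos_right _ hr.pos
    · rw [if_neg ha, mul_one]
  have hcol : ∀ b, colP g' b ≤ colP g b := by
    intro b
    rw [matInd_col h b]
    by_cases hb : b = y
    · rw [if_pos hb]
      exact Nat.le_mul_of_pos_right _ hr.pos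
    · rw [if_neg hb, mul_one]
  have hrow' : ∀ a ∈ A', rowP g' a = rowP g a := by
    intro a ha
    have hai : a ≠ i := fun e => hi (e ▸ ha)
    rw [matInd_row h a, if_neg hai, mul_one]
  have hcol' : ∀ b ∈ B', colP g' b = colP g b := by
    intro b hb
    have hby : b ≠ y := fun e => hy (e ▸ hb)
    rw [matInd_col h b, if_neg hby, mul_one]
  refine ⟨hpos, ?_, ?_, ?_, ?_, ?_, ?_⟩
  · intro a b q hq
    refine hg.sm a b q ?_
    refine Nat.primeFactors_mono ?_ (hg.pos a b) hq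
    rw [h a b]
    exact Nat.dvd_mul_right _ _
  · intro a
    have : (rowP g' a : ℝ) ≤ rowP g a := by exact_mod_cast hrow a
    exact this.trans (hg.rb a)
  · intro b
    have : (colP g' b : ℝ) ≤ colP g b := by exact_mod_cast hcol b
    exact this.trans (hg.cb b)
  · intro a ha
    rw [hrow' a ha]
    exact hg.mr a (hA ha)
  · intro b hb
    rw [hcol' b hb]
    exact hg.mc b (hB hb)
  · intro a ha b hb
    rw [hrow' a ha, hcol' b hb]
    exact hg.ne a (hA ha) b (hB hb)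

omit [DecidableEq ι] [DecidableEq κ] in
private theorem matInd_rowP_ne {g : ι → κ → ℕ} (h : ∀ a b, g a b ≠ 0) (a : ι) : rowP g a ≠ 0 :=
  Finset.prod_ne_zero_iff.2 fun b _ => h a b

omit [DecidableEq ι] [DecidableEq κ] in
private theorem matInd_colP_ne {g : ι → κ → ℕ} (h : ∀ a b, g a b ≠ 0) (b : κ) : colP g b ≠ 0 :=
  Finset.prod_ne_zero_iff.2 fun a _ => h a b

/-- division of the entry `(i, y)` by `r` -/
private def matIndRed (i : ι) (y : κ) (r : ℕ) (g : ι → κ → ℕ) : ι → κ → ℕ :=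
  fun a b => if a = i ∧ b = y then g i y / r else g a b

omit [Fintype ι] [Fintype κ] in
private theorem matInd_red_rel {i : ι} {y : κ} {r : ℕ} {g : ι → κ → ℕ} (h : r ∣ g i y) :
    matIndRel i y r g (matIndRed i y r g) := by
  intro a b
  unfold matIndRed
  by_cases hab : a = i ∧ b = y
  · rw [if_pos hab, if_pos hab, hab.1, hab.2, Nat.div_mul_cancel h]
  · rw [if_neg hab, if_neg hab, mul_one]

/-- a class: the bound from the induction hypothesis -/
private theorem matInd_class {U : ℝ} {z : ℕ → ℝ} (hz : ∀ q, 0 ≤ z q ∧ z q ≤ 1)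
    {Q : ι → κ → Finset ℕ} {ρr : ι → ℝ} {ρc : κ → ℝ} {W X L : ℝ} (hX : 1 ≤ X) (hL : 0 ≤ L)
    (hW : 0 ≤ W) {m : ℕ}
    {A A' : Finset ι} {B B' : Finset κ}
    (hIH : ∀ G' : Finset (ι → κ → ℕ), (∀ g ∈ G', Marked U Q ρr ρc A' B' g) →
      ∑ g ∈ G', matIndF z g ≤ X ^ (A'.card + B'.card) *
        Real.exp (-(∑ i ∈ A', ρr i + ∑ y ∈ B', ρc y)) * W)
    (hcard : A'.card + B'.card ≤ m) {i : ι} {y : κ}
    (hA : A' ⊆ A) (hi : i ∉ A') (hB : B' ⊆ B) (hy : y ∉ B')
    {G : Finset (ι → κ → ℕ)} (hG : ∀ g ∈ G, Marked U Q ρr ρc A B g) (R : (ι → κ → ℕ) → ℕ)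
    (hR : ∀ g ∈ G, (R g).Prime ∧ R g ∣ g i y) {K : ℝ} (hK0 : 0 ≤ K)
    (hK : ∀ g' : ι → κ → ℕ, Marked U Q ρr ρc A' B' g' → ∀ S : Finset ℕ, S.Nonempty →
      (∀ r ∈ S, ∃ g ∈ G, r = R g ∧ matIndRel i y r g g') → ∑ r ∈ S, 1 / (r : ℝ) ≤ K)
    (hKL : K * Real.exp (-(∑ i ∈ A', ρr i + ∑ y ∈ B', ρc y)) ≤
      L * Real.exp (-(∑ i ∈ A, ρr i + ∑ y ∈ B, ρc y))) :
    ∑ g ∈ G, matIndF z g ≤
      L * X ^ m * Real.exp (-(∑ i ∈ A, ρr i + ∑ y ∈ B, ρc y)) * W := by
  obtain ⟨red, hred⟩ : ∃ red : (ι → κ → ℕ) → (ι → κ → ℕ), red = fun g =>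
    matIndRed i y (R g) g := ⟨_, rfl⟩
  have hrel : ∀ g ∈ G, matIndRel i y (R g) g (red g) := by
    intro g hg
    rw [hred]
    exact matInd_red_rel (hR g hg).2
  have hmk : ∀ g ∈ G, Marked U Q ρr ρc A' B' (red g) := fun g hg =>
    matInd_marked (hG g hg) (hR g hg).1 (hrel g hg) hA hi hB hy
  have h1 := matInd_cls hz G i y R red (K := K)
    (fun g hg => ⟨(hR g hg).1, (hmk g hg).pos, hrel g hg⟩) (by
      intro g' hg'
      obtain ⟨g0, hg0, hg0'⟩ := Finset.mem_image.1 hg'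
      refine hK g' (hg0' ▸ hmk g0 hg0) _ ?_ ?_
      · exact ⟨R g0, Finset.mem_image_of_mem _ (Finset.mem_filter.2 ⟨hg0, hg0'⟩)⟩
      · intro r hr
        obtain ⟨g, hg, hgr⟩ := Finset.mem_image.1 hr
        obtain ⟨hgG, hgg⟩ := Finset.mem_filter.1 hg
        refine ⟨g, hgG, hgr.symm, ?_⟩
        have h2 := hrel g hgG
        rw [hgg, hgr] at h2
        exact h2)
  have h2 := hIH (G.image red) (by
    intro g' hg'
    obtain ⟨g0, hg0, hg0'⟩ := Finset.mem_image.1 hg'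
    exact hg0' ▸ hmk g0 hg0)
  refine h1.trans ((mul_le_mul_of_nonneg_left h2 hK0).trans ?_)
  have h3 : X ^ (A'.card + B'.card) ≤ X ^ m := pow_le_pow_right₀ hX hcard
  have hXm : 0 ≤ X ^ m := by positivity
  calc K * (X ^ (A'.card + B'.card) * Real.exp (-(∑ i ∈ A', ρr i + ∑ y ∈ B', ρc y)) * W)
      = X ^ (A'.card + B'.card) *
        (K * Real.exp (-(∑ i ∈ A', ρr i + ∑ y ∈ B', ρc y)) * W) := by ring
    _ ≤ X ^ m * (K * Real.exp (-(∑ i ∈ A', ρr i + ∑ y ∈ B', ρc y)) * W) :=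
        mul_le_mul_of_nonneg_right h3 (by positivity)
    _ ≤ X ^ m * (L * Real.exp (-(∑ i ∈ A, ρr i + ∑ y ∈ B, ρc y)) * W) :=
        mul_le_mul_of_nonneg_left (mul_le_mul_of_nonneg_right hKL hW) hXm
    _ = _ := by ring

end

private theorem matInd_ll_zero : ll 0 = 0 := by
  unfold ll
  simp

private theorem matInd_maxp_mem {n : ℕ} (h : 0 < ll (maxp n)) : maxp n ∈ n.primeFactors := by
  rcases n.primeFactors.eq_empty_or_nonempty with h0 | h0
  · exfalso
    unfold maxp at h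
    rw [h0, Finset.sup_empty] at h
    have : ll (⊥ : ℕ) = 0 := matInd_ll_zero
    rw [this] at h
    exact lt_irrefl _ h
  · obtain ⟨q, hq, hq'⟩ := Finset.exists_mem_eq_sup n.primeFactors h0 id
    unfold maxp
    rw [hq']
    exact hq

private theorem matInd_le_maxp {n q : ℕ} (h : q ∈ n.primeFactors) : q ≤ maxp n :=
  Finset.le_sup (f := id) h

section

variable {ι κ : Type} [Fintype ι] [DecidableEq ι] [Fintype κ] [DecidableEq κ]

/-- the classes -/
private def matIndC (A : Finset ι) (B : Finset κ) (t : Fin 3) (i : ι) (y : κ)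
    (g : ι → κ → ℕ) : Prop :=
  match t with
  | 0 => i ∈ A ∧ y ∈ B ∧ (maxp (rowP g i)).Prime ∧ maxp (rowP g i) ∣ g i y ∧
      maxp (colP g y) = maxp (rowP g i)
  | 1 => i ∈ A ∧ y ∉ B ∧ (maxp (rowP g i)).Prime ∧ maxp (rowP g i) ∣ g i y
  | 2 => i ∉ A ∧ y ∈ B ∧ (maxp (colP g y)).Prime ∧ maxp (colP g y) ∣ g i y

omit [DecidableEq ι] [DecidableEq κ] in
private theorem matInd_exists {U : ℝ} {Q : ι → κ → Finset ℕ} {ρr : ι → ℝ} {ρc : κ → ℝ}
    (hρr : ∀ i, 0 < ρr i) (hρc : ∀ y, 0 < ρc y)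
    {A : Finset ι} {B : Finset κ} {g : ι → κ → ℕ} (hg : Marked U Q ρr ρc A B g)
    (h : 0 < A.card + B.card) : ∃ t i y, matIndC A B t i y g := by
  classical
  obtain ⟨T, hT⟩ : ∃ T : Finset ℕ, T = A.image (fun i => maxp (rowP g i)) ∪
    B.image (fun y => maxp (colP g y)) := ⟨_, rfl⟩
  have hTne : T.Nonempty := by
    rcases Nat.eq_zero_or_pos A.card with h0 | h0
    · obtain ⟨y, hy⟩ := Finset.card_pos.1 (by omega : 0 < B.card)
      exact ⟨maxp (colP g y), by
        rw [hT]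
        exact Finset.mem_union_right _ (Finset.mem_image_of_mem _ hy)⟩
    · obtain ⟨i, hi⟩ := Finset.card_pos.1 h0
      exact ⟨maxp (rowP g i), by
        rw [hT]
        exact Finset.mem_union_left _ (Finset.mem_image_of_mem (fun i => maxp (rowP g i)) hi)⟩
  have hrow : ∀ i ∈ A, maxp (rowP g i) ∈ (rowP g i).primeFactors := fun i hi =>
    matInd_maxp_mem ((hρr i).trans_le (hg.mr i hi).2)
  have hcol : ∀ y ∈ B, maxp (colP g y) ∈ (colP g y).primeFactors := fun y hy =>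
    matInd_maxp_mem ((hρc y).trans_le (hg.mc y hy).2)
  have hmaxr : ∀ i ∈ A, maxp (rowP g i) ≤ T.max' hTne := fun i hi =>
    Finset.le_max' _ _ (by
      rw [hT]
      exact Finset.mem_union_left _ (Finset.mem_image_of_mem (fun i => maxp (rowP g i)) hi))
  have hmaxc : ∀ y ∈ B, maxp (colP g y) ≤ T.max' hTne := fun y hy =>
    Finset.le_max' _ _ (by
      rw [hT]
      exact Finset.mem_union_right _ (Finset.mem_image_of_mem (fun y => maxp (colP g y)) hy))
  have hmem := Finset.max'_mem T hTne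
  obtain ⟨r, hr⟩ : ∃ r, r = T.max' hTne := ⟨_, rfl⟩
  rw [← hr] at hmem hmaxr hmaxc
  rw [hT] at hmem
  rcases Finset.mem_union.1 hmem with h1 | h1
  · obtain ⟨i, hi, hir⟩ := Finset.mem_image.1 h1
    have h2 := hrow i hi
    have hp := Nat.prime_of_mem_primeFactors h2
    have hd : maxp (rowP g i) ∣ ∏ y, g i y := Nat.dvd_of_mem_primeFactors h2
    obtain ⟨y, -, hy⟩ := (hp.prime.dvd_finset_prod_iff _).1 hd
    by_cases hyB : y ∈ B
    · refine ⟨0, i, y, hi, hyB, hp, hy, le_antisymm ?_ ?_⟩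
      · rw [hir]
        exact hmaxc y hyB
      · refine matInd_le_maxp (Nat.mem_primeFactors.2 ⟨hp, ?_, matInd_colP_ne hg.pos y⟩)
        exact hy.trans (Finset.dvd_prod_of_mem (fun i => g i y) (Finset.mem_univ i))
    · exact ⟨1, i, y, hi, hyB, hp, hy⟩
  · obtain ⟨y, hy, hyr⟩ := Finset.mem_image.1 h1
    have h2 := hcol y hy
    have hp := Nat.prime_of_mem_primeFactors h2
    have hd : maxp (colP g y) ∣ ∏ i, g i y := Nat.dvd_of_mem_primeFactors h2
    obtain ⟨i, -, hi⟩ := (hp.prime.dvd_finset_prod_iff _).1 hd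
    by_cases hiA : i ∈ A
    · have h3 : maxp (colP g y) = maxp (rowP g i) := by
        refine le_antisymm ?_ ?_
        · refine matInd_le_maxp (Nat.mem_primeFactors.2 ⟨hp, ?_, matInd_rowP_ne hg.pos i⟩)
          exact hi.trans (Finset.dvd_prod_of_mem (fun y => g i y) (Finset.mem_univ y))
        · rw [hyr]
          exact hmaxr i hiA
      refine ⟨0, i, y, hiA, hy, ?_, ?_, h3⟩
      · rw [← h3]
        exact hp
      · rw [← h3]
        exact hi
    · exact ⟨2, i, y, hiA, hy, hp, hi⟩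

end

section

variable {ι κ : Type} [Fintype ι] [DecidableEq ι] [Fintype κ] [DecidableEq κ]

private theorem matInd_euler_nonneg {z : ℕ → ℝ} (hz : ∀ q, 0 ≤ z q ∧ z q ≤ 1) {q : ℕ}
    (hq : q.Prime) : 0 ≤ (1 - z q / (q : ℝ))⁻¹ := by
  have h1 : (1 : ℝ) ≤ q := by exact_mod_cast hq.one_lt.le
  have h2 : z q / (q : ℝ) ≤ 1 := by
    rw [div_le_one (by linarith)]
    exact (hz q).2.trans h1
  exact inv_nonneg.2 (by linarith)

omit [DecidableEq ι] [DecidableEq κ] in
private theorem matInd_W0_nonneg {z : ℕ → ℝ} (hz : ∀ q, 0 ≤ z q ∧ z q ≤ 1)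
    {Q : ι → κ → Finset ℕ} (hQ : ∀ i y, ∀ q ∈ Q i y, q.Prime) : 0 ≤ W0 z Q :=
  Finset.prod_nonneg fun i _ => Finset.prod_nonneg fun y _ => Finset.prod_nonneg fun q hq =>
    matInd_euler_nonneg hz (hQ i y q hq)

private theorem matInd_base {z : ℕ → ℝ} (hz : ∀ q, 0 ≤ z q ∧ z q ≤ 1)
    {Q : ι → κ → Finset ℕ} (hQ : ∀ i y, ∀ q ∈ Q i y, q.Prime) (G : Finset (ι → κ → ℕ))
    (hG : ∀ g ∈ G, (∀ i y, g i y ≠ 0) ∧ ∀ i y, ∀ q ∈ (g i y).primeFactors, q ∈ Q i y) :
    ∑ g ∈ G, matIndF z g ≤ W0 z Q := by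
  have hsub : G ⊆ Fintype.piFinset (fun i => Fintype.piFinset
      (fun y => G.image (fun g => g i y))) := by
    intro g hg
    rw [Fintype.mem_piFinset]
    intro i
    rw [Fintype.mem_piFinset]
    intro y
    exact Finset.mem_image_of_mem (fun g => g i y) hg
  refine (Finset.sum_le_sum_of_subset_of_nonneg hsub fun g _ _ => matIndF_nonneg hz g).trans ?_
  have h1 : ∑ g ∈ Fintype.piFinset (fun i => Fintype.piFinset
      (fun y => G.image (fun g => g i y))), matIndF z g =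
      ∏ i, ∏ y, ∑ n ∈ G.image (fun g => g i y), (zm z n / (n : ℝ)) := by
    unfold matIndF
    rw [Finset.prod_congr rfl fun i _ => Finset.prod_univ_sum
      (fun y => G.image (fun g => g i y)) (fun _ n => zm z n / (n : ℝ)), Finset.prod_univ_sum]
  rw [h1]
  unfold W0
  have h0 : ∀ i y, 0 ≤ ∑ n ∈ G.image (fun g => g i y), (zm z n / (n : ℝ)) := fun i y =>
    Finset.sum_nonneg fun n _ => div_nonneg (matInd_zm_nonneg hz n) (Nat.cast_nonneg n)
  refine Finset.prod_le_prod (fun i _ => Finset.prod_nonneg fun y _ => h0 i y) fun i _ => ?_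
  refine Finset.prod_le_prod (fun y _ => h0 i y) fun y _ => ?_
  refine rankin_w (Q i y) z (G.image (fun g => g i y)) ?_ ?_
  · intro q hq
    have hp := hQ i y q hq
    refine ⟨hp, (hz q).1, (hz q).2.trans_lt ?_⟩
    exact_mod_cast hp.one_lt
  · intro n hn
    obtain ⟨g, hg, hgn⟩ := Finset.mem_image.1 hn
    rw [← hgn]
    exact ⟨(hG g hg).1 i y, (hG g hg).2 i y⟩

/-- the bound for one class -/
private theorem matInd_one {C2 C3 : ℝ} (hC2 : 1 ≤ C2) (hC3 : 1 ≤ C3)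
    (h2 : ∀ (U ρ : ℝ) (A : ℕ) (S : Finset ℕ), 1 ≤ U → 0 ≤ ρ → 1 ≤ A →
      (A : ℝ) ≤ Real.exp (Real.exp U) →
      (∀ r ∈ S, r.Prime ∧ (r : ℝ) ≤ Real.exp (Real.exp U) ∧ ρ ≤ ll r ∧ (A * r + 1).Prime) →
      ∑ r ∈ S, 1 / (r : ℝ) ≤ C2 * U ^ 6 * Real.exp (-ρ))
    (h3 : ∀ (U ρ : ℝ) (A B : ℕ) (S : Finset ℕ), 1 ≤ U → 0 ≤ ρ → 1 ≤ A →
      (A : ℝ) ≤ Real.exp (Real.exp U) → 1 ≤ B → (B : ℝ) ≤ Real.exp (Real.exp U) → A ≠ B →
      (∀ r ∈ S, r.Prime ∧ (r : ℝ) ≤ Real.exp (Real.exp U) ∧ ρ ≤ ll r ∧ (A * r + 1).Prime ∧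
        (B * r + 1).Prime) →
      ∑ r ∈ S, 1 / (r : ℝ) ≤ C3 * U ^ 9 * Real.exp (-(2 * ρ)))
    {U : ℝ} (hU : 1 ≤ U) {z : ℕ → ℝ} (hz : ∀ q, 0 ≤ z q ∧ z q ≤ 1)
    {Q : ι → κ → Finset ℕ} {ρr : ι → ℝ} {ρc : κ → ℝ} (hρr : ∀ i, 0 < ρr i) (hρc : ∀ y, 0 < ρc y)
    {W X L : ℝ} (hX : 1 ≤ X) (hL : L = (C2 + C3) * U ^ 9) (hW : 0 ≤ W) {m : ℕ}
    {A : Finset ι} {B : Finset κ}
    (hIH : ∀ (A' : Finset ι) (B' : Finset κ), A'.card + B'.card < m →
      ∀ G' : Finset (ι → κ → ℕ), (∀ g ∈ G', Marked U Q ρr ρc A' B' g) →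
      ∑ g ∈ G', matIndF z g ≤ X ^ (A'.card + B'.card) *
        Real.exp (-(∑ i ∈ A', ρr i + ∑ y ∈ B', ρc y)) * W)
    (hm : A.card + B.card = m)
    {G : Finset (ι → κ → ℕ)} (hG : ∀ g ∈ G, Marked U Q ρr ρc A B g) (t : Fin 3) (i : ι) (y : κ)
    (hC : ∀ g ∈ G, matIndC A B t i y g) :
    ∑ g ∈ G, matIndF z g ≤
      L * X ^ (m - 1) * Real.exp (-(∑ i ∈ A, ρr i + ∑ y ∈ B, ρc y)) * W := by
  have hL0 : 0 ≤ L := by
    rw [hL]
    positivity
  rcases G.eq_empty_or_nonempty with h0 | ⟨g0, hg0⟩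
  · rw [h0, Finset.sum_empty]
    positivity
  have hU69 : U ^ 6 ≤ U ^ 9 := pow_le_pow_right₀ hU (by norm_num)
  have hU6 : 0 ≤ U ^ 6 := by positivity
  have hK2 : C2 * U ^ 6 ≤ L := by
    rw [hL]
    calc C2 * U ^ 6 ≤ (C2 + C3) * U ^ 6 := mul_le_mul_of_nonneg_right (by linarith) hU6
      _ ≤ (C2 + C3) * U ^ 9 := mul_le_mul_of_nonneg_left hU69 (by linarith)
  have hK3 : C3 * U ^ 9 ≤ L := by
    rw [hL]
    exact mul_le_mul_of_nonneg_right (by linarith) (by positivity)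
  match t, hC with
  | 0, hC =>
    obtain ⟨hiA, hyB, -⟩ := hC g0 hg0
    have ca := Finset.card_erase_of_mem hiA
    have cb := Finset.card_erase_of_mem hyB
    have pa : 0 < A.card := Finset.card_pos.2 ⟨i, hiA⟩
    have pb : 0 < B.card := Finset.card_pos.2 ⟨y, hyB⟩
    have sa := Finset.add_sum_erase A ρr hiA
    have sb := Finset.add_sum_erase B ρc hyB
    obtain ⟨ρ, hρ⟩ : ∃ ρ, ρ = max (ρr i) (ρc y) := ⟨_, rfl⟩
    have hρ1 : ρr i ≤ ρ := hρ ▸ le_max_left _ _
    have hρ2 : ρc y ≤ ρ := hρ ▸ le_max_right _ _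
    refine matInd_class hz hX hL0 hW (A' := A.erase i) (B' := B.erase y)
      (hIH (A.erase i) (B.erase y) (by omega)) (by omega) (Finset.erase_subset _ _)
      (Finset.notMem_erase _ _) (Finset.erase_subset _ _) (Finset.notMem_erase _ _) hG
      (fun g => maxp (rowP g i)) (fun g hg => ⟨(hC g hg).2.2.1, (hC g hg).2.2.2.1⟩)
      (K := C3 * U ^ 9 * Real.exp (-(2 * ρ))) (by positivity) ?_ ?_
    · intro g' hg' S hS hSg
      have hne : rowP g' i ≠ colP g' y := by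
        obtain ⟨r, hr⟩ := hS
        obtain ⟨g, hg, -, hrel⟩ := hSg r hr
        intro e
        refine (hG g hg).ne i hiA y hyB ?_
        rw [matInd_row hrel i, matInd_col hrel y, if_pos rfl, if_pos rfl, e]
      refine h3 U ρ (rowP g' i) (colP g' y) S hU ((hρr i).le.trans hρ1)
        (Nat.one_le_iff_ne_zero.2 (matInd_rowP_ne hg'.pos i)) (hg'.rb i)
        (Nat.one_le_iff_ne_zero.2 (matInd_colP_ne hg'.pos y)) (hg'.cb y) hne ?_
      intro r hr
      obtain ⟨g, hg, hgr, hrel⟩ := hSg r hr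
      obtain ⟨-, -, hp, -, hcr⟩ := hC g hg
      have er := matInd_row hrel i
      have ec := matInd_col hrel y
      rw [if_pos rfl] at er ec
      have hgr' : r = maxp (rowP g i) := hgr
      have hm1 := (hG g hg).mr i hiA
      have hm2 := (hG g hg).mc y hyB
      rw [hcr, ← hgr', ec] at hm2
      rw [← hgr', er] at hm1
      rw [← hgr'] at hp
      refine ⟨hp, ?_, ?_, hm1.1, hm2.1⟩
      · have h5 : r ≤ rowP g i := by
          rw [er]
          exact Nat.le_mul_of_pos_left _ (Nat.pos_of_ne_zero (matInd_rowP_ne hg'.pos i))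
        have h6 : (r : ℝ) ≤ rowP g i := by exact_mod_cast h5
        exact h6.trans ((hG g hg).rb i)
      · rw [hρ]
        exact max_le hm1.2 hm2.2
    · have e1 : Real.exp (-(2 * ρ)) * Real.exp (-(∑ i ∈ A.erase i, ρr i +
          ∑ y ∈ B.erase y, ρc y)) ≤ Real.exp (-(∑ i ∈ A, ρr i + ∑ y ∈ B, ρc y)) := by
        rw [← Real.exp_add]
        exact Real.exp_le_exp.2 (by linarith)
      calc C3 * U ^ 9 * Real.exp (-(2 * ρ)) * Real.exp (-(∑ i ∈ A.erase i, ρr i +
            ∑ y ∈ B.erase y, ρc y)) = C3 * U ^ 9 * (Real.exp (-(2 * ρ)) *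
              Real.exp (-(∑ i ∈ A.erase i, ρr i + ∑ y ∈ B.erase y, ρc y))) := by ring
        _ ≤ C3 * U ^ 9 * Real.exp (-(∑ i ∈ A, ρr i + ∑ y ∈ B, ρc y)) :=
            mul_le_mul_of_nonneg_left e1 (by positivity)
        _ ≤ _ := mul_le_mul_of_nonneg_right hK3 (Real.exp_pos _).le
  | 1, hC =>
    obtain ⟨hiA, hyB, -⟩ := hC g0 hg0
    have ca := Finset.card_erase_of_mem hiA
    have pa : 0 < A.card := Finset.card_pos.2 ⟨i, hiA⟩
    have sa := Finset.add_sum_erase A ρr hiA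
    refine matInd_class hz hX hL0 hW (A' := A.erase i) (B' := B)
      (hIH (A.erase i) B (by omega)) (by omega) (Finset.erase_subset _ _)
      (Finset.notMem_erase _ _) (Finset.Subset.refl _) hyB hG
      (fun g => maxp (rowP g i)) (fun g hg => ⟨(hC g hg).2.2.1, (hC g hg).2.2.2⟩)
      (K := C2 * U ^ 6 * Real.exp (-(ρr i))) (by positivity) ?_ ?_
    · intro g' hg' S hS hSg
      refine h2 U (ρr i) (rowP g' i) S hU (hρr i).le
        (Nat.one_le_iff_ne_zero.2 (matInd_rowP_ne hg'.pos i)) (hg'.rb i) ?_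
      intro r hr
      obtain ⟨g, hg, hgr, hrel⟩ := hSg r hr
      obtain ⟨-, -, hp, -⟩ := hC g hg
      have er := matInd_row hrel i
      rw [if_pos rfl] at er
      have hgr' : r = maxp (rowP g i) := hgr
      have hm1 := (hG g hg).mr i hiA
      rw [← hgr', er] at hm1
      rw [← hgr'] at hp
      refine ⟨hp, ?_, hm1.2, hm1.1⟩
      have h5 : r ≤ rowP g i := by
        rw [er]
        exact Nat.le_mul_of_pos_left _ (Nat.pos_of_ne_zero (matInd_rowP_ne hg'.pos i))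
      have h6 : (r : ℝ) ≤ rowP g i := by exact_mod_cast h5
      exact h6.trans ((hG g hg).rb i)
    · have e1 : Real.exp (-(ρr i)) * Real.exp (-(∑ i ∈ A.erase i, ρr i +
          ∑ y ∈ B, ρc y)) = Real.exp (-(∑ i ∈ A, ρr i + ∑ y ∈ B, ρc y)) := by
        rw [← Real.exp_add]
        congr 1
        linarith
      rw [mul_assoc, e1]
      exact mul_le_mul_of_nonneg_right hK2 (Real.exp_pos _).le
  | 2, hC =>
    obtain ⟨hiA, hyB, -⟩ := hC g0 hg0
    have cb := Finset.card_erase_of_mem hyB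
    have pb : 0 < B.card := Finset.card_pos.2 ⟨y, hyB⟩
    have sb := Finset.add_sum_erase B ρc hyB
    refine matInd_class hz hX hL0 hW (A' := A) (B' := B.erase y)
      (hIH A (B.erase y) (by omega)) (by omega) (Finset.Subset.refl _) hiA
      (Finset.erase_subset _ _) (Finset.notMem_erase _ _) hG
      (fun g => maxp (colP g y)) (fun g hg => ⟨(hC g hg).2.2.1, (hC g hg).2.2.2⟩)
      (K := C2 * U ^ 6 * Real.exp (-(ρc y))) (by positivity) ?_ ?_
    · intro g' hg' S hS hSg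
      refine h2 U (ρc y) (colP g' y) S hU (hρc y).le
        (Nat.one_le_iff_ne_zero.2 (matInd_colP_ne hg'.pos y)) (hg'.cb y) ?_
      intro r hr
      obtain ⟨g, hg, hgr, hrel⟩ := hSg r hr
      obtain ⟨-, -, hp, -⟩ := hC g hg
      have ec := matInd_col hrel y
      rw [if_pos rfl] at ec
      have hgr' : r = maxp (colP g y) := hgr
      have hm2 := (hG g hg).mc y hyB
      rw [← hgr', ec] at hm2
      rw [← hgr'] at hp
      refine ⟨hp, ?_, hm2.2, hm2.1⟩
      have h5 : r ≤ colP g y := by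
        rw [ec]
        exact Nat.le_mul_of_pos_left _ (Nat.pos_of_ne_zero (matInd_colP_ne hg'.pos y))
      have h6 : (r : ℝ) ≤ colP g y := by exact_mod_cast h5
      exact h6.trans ((hG g hg).cb y)
    · have e1 : Real.exp (-(ρc y)) * Real.exp (-(∑ i ∈ A, ρr i +
          ∑ y ∈ B.erase y, ρc y)) = Real.exp (-(∑ i ∈ A, ρr i + ∑ y ∈ B, ρc y)) := by
        rw [← Real.exp_add]
        congr 1
        linarith
      rw [mul_assoc, e1]
      exact mul_le_mul_of_nonneg_right hK2 (Real.exp_pos _).le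

end

theorem mat_ind : ∃ C : ℝ, 1 ≤ C ∧ ∀ (ι κ : Type) [Fintype ι] [DecidableEq ι] [Fintype κ]
    [DecidableEq κ] (U : ℝ) (z : ℕ → ℝ) (Q : ι → κ → Finset ℕ) (ρr : ι → ℝ) (ρc : κ → ℝ)
    (A : Finset ι) (B : Finset κ) (G : Finset (ι → κ → ℕ)), 1 ≤ U → (∀ q, 0 ≤ z q ∧ z q ≤ 1) →
    (∀ i y, ∀ q ∈ Q i y, q.Prime) →
    (∀ i, 0 < ρr i) → (∀ y, 0 < ρc y) → (∀ g ∈ G, Marked U Q ρr ρc A B g) →
    ∑ g ∈ G, ∏ i, ∏ y, (zm z (g i y) / (g i y : ℝ)) ≤
      (3 * (Fintype.card ι : ℝ) * (Fintype.card κ : ℝ) * (C * U ^ 9)) ^ (A.card + B.card) *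
      Real.exp (-(∑ i ∈ A, ρr i + ∑ y ∈ B, ρc y)) * W0 z Q := by
  obtain ⟨C2, hC2, h2⟩ := two_w
  obtain ⟨C3, hC3, h3⟩ := three_w
  refine ⟨C2 + C3, by linarith, ?_⟩
  intro ι κ _ _ _ _ U z Q ρr ρc A B G hU hz hQ hρr hρc hG
  have hW : 0 ≤ W0 z Q := matInd_W0_nonneg hz hQ
  obtain ⟨L, hL⟩ : ∃ L : ℝ, L = (C2 + C3) * U ^ 9 := ⟨_, rfl⟩
  have hL1 : 1 ≤ L := by
    rw [hL]
    have h4 : 1 ≤ U ^ 9 := one_le_pow₀ hU
    nlinarith only [hC2, hC3, h4]
  rw [← hL]
  obtain ⟨X, hX⟩ : ∃ X : ℝ, X = 3 * (Fintype.card ι : ℝ) * (Fintype.card κ : ℝ) * L := ⟨_, rfl⟩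
  rw [← hX]
  have H : ∀ m : ℕ, ∀ (A : Finset ι) (B : Finset κ), A.card + B.card = m →
      ∀ G : Finset (ι → κ → ℕ), (∀ g ∈ G, Marked U Q ρr ρc A B g) →
      ∑ g ∈ G, matIndF z g ≤ X ^ (A.card + B.card) *
        Real.exp (-(∑ i ∈ A, ρr i + ∑ y ∈ B, ρc y)) * W0 z Q := by
    intro m
    induction m using Nat.strong_induction_on with
    | _ m ih =>
      intro A B hAB G hG
      rcases Nat.eq_zero_or_pos m with hm | hm
      · have hA : A = ∅ := Finset.card_eq_zero.1 (by omega)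
        have hB : B = ∅ := Finset.card_eq_zero.1 (by omega)
        have h4 := matInd_base hz hQ G fun g hg => ⟨(hG g hg).pos, (hG g hg).sm⟩
        rw [hA, hB]
        simpa using h4
      · classical
        have hX1 : ∀ (_ : ι) (_ : κ), 1 ≤ X := by
          intro i y
          have e1 : (1 : ℝ) ≤ Fintype.card ι := by
            exact_mod_cast Fintype.card_pos_iff.2 ⟨i⟩
          have e2 : (1 : ℝ) ≤ Fintype.card κ := by
            exact_mod_cast Fintype.card_pos_iff.2 ⟨y⟩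
          have e3 : (1 : ℝ) ≤ (Fintype.card ι : ℝ) * (Fintype.card κ : ℝ) :=
            one_le_mul_of_one_le_of_one_le e1 e2
          have e4 : (1 : ℝ) ≤ (Fintype.card ι : ℝ) * (Fintype.card κ : ℝ) * L :=
            one_le_mul_of_one_le_of_one_le e3 hL1
          rw [hX]
          linarith only [e4]
        obtain ⟨Y, hY⟩ : ∃ Y : ℝ, Y = L * X ^ (m - 1) *
          Real.exp (-(∑ i ∈ A, ρr i + ∑ y ∈ B, ρc y)) * W0 z Q := ⟨_, rfl⟩
        have hcls : ∀ (c : Fin 3 × ι × κ),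
            ∑ g ∈ G.filter (fun g => matIndC A B c.1 c.2.1 c.2.2 g), matIndF z g ≤ Y := by
          intro c
          rw [hY]
          exact matInd_one hC2 hC3 h2 h3 hU hz hρr hρc (hX1 c.2.1 c.2.2) hL hW
            (fun A' B' h G' hG' => ih _ h A' B' rfl G' hG') hAB
            (fun g hg => hG g (Finset.mem_filter.1 hg).1) c.1 c.2.1 c.2.2
            (fun g hg => (Finset.mem_filter.1 hg).2)
        have h5 : ∑ g ∈ G, matIndF z g ≤ ∑ g ∈ G, ∑ c : Fin 3 × ι × κ,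
            (if matIndC A B c.1 c.2.1 c.2.2 g then matIndF z g else 0) := by
          refine Finset.sum_le_sum fun g hg => ?_
          obtain ⟨t, i, y, h6⟩ := matInd_exists hρr hρc (hG g hg) (by omega)
          have h7 : (if matIndC A B (t, i, y).1 (t, i, y).2.1 (t, i, y).2.2 g then matIndF z g
              else 0) ≤ ∑ c : Fin 3 × ι × κ,
              (if matIndC A B c.1 c.2.1 c.2.2 g then matIndF z g else 0) :=
            Finset.single_le_sum (f := fun c : Fin 3 × ι × κ =>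
              (if matIndC A B c.1 c.2.1 c.2.2 g then matIndF z g else 0))
              (fun c _ => by
                show 0 ≤ (if matIndC A B c.1 c.2.1 c.2.2 g then matIndF z g else 0)
                split_ifs
                · exact matIndF_nonneg hz g
                · exact le_refl _) (Finset.mem_univ (t, i, y))
          rw [if_pos h6] at h7
          exact h7
        refine h5.trans ?_
        rw [Finset.sum_comm]
        have h8 : ∑ c : Fin 3 × ι × κ, ∑ g ∈ G,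
            (if matIndC A B c.1 c.2.1 c.2.2 g then matIndF z g else 0) ≤
            ∑ _c : Fin 3 × ι × κ, Y := by
          refine Finset.sum_le_sum fun c _ => ?_
          rw [← Finset.sum_filter]
          exact hcls c
        refine h8.trans (le_of_eq ?_)
        rw [Finset.sum_const, Finset.card_univ, Fintype.card_prod, Fintype.card_prod,
          Fintype.card_fin, nsmul_eq_mul, hY, hAB]
        obtain ⟨k, hk⟩ : ∃ k, m = k + 1 := ⟨m - 1, by omega⟩
        have e5 : X ^ m = X ^ (m - 1) * X := by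
          rw [hk, Nat.add_sub_cancel, pow_succ]
        rw [e5]
        push_cast
        rw [hX]
        ring
  exact H _ A B rfl G hG

end P031
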