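import Vale.Agent.Lib.P031.MatRef
import Vale.Agent.Lib.P031.Step
import Vale.Agent.Lib.P031.LL
import Vale.Agent.Lib.P031.Tot

/-!
# P031 MatPair: the matrix of a colliding pair.

Let `d = (P, f, P', f')`, `P = {e i}`, `P' = {e' y}`. `mat_ref` with `a (some i) = e i - 1`, `a none = f`, `b (some y) = e' y - 1`,
`b none = f'` gives `g`. `Marked` with `U = σ^120 + 2`:
* `sm`: `q ∣ g i y` divides the row and the column product; `q ∣ e i - 1` implies `q < e i`, `blk q ≤ blk (e i)`; `q ∣ f` implies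
  `ll q ≤ σ^111`, `blk q ≤ ⌊σ^9⌋`; `q ≤ vv ≤ exp exp (σ^120 + 1)` so `q ≤ EE σ`.
* `rb`, `cb`: all products divide `vv`.
* `mr`: `rowP g (some i) + 1 = e i`; `ll (e i - 1) ≤ ll (maxp (e i - 1)) + log (Om (e i - 1))` (`ll_le_maxp`), `Om ≤ 200 σ^120`
  (`normal_Om`), `ll (e i) ≤ ll (e i - 1) + 1/2`, `σ^102 blk (e i) ≤ ll (e i)`.
* `ne`: `e i ≠ e' y` (disjoint).
The last statement: let `r = maxp (vv)`. `ll r ≥ ll (maxp (maxs P - 1)) ≥ ll (maxs P) - lam σ > σ^111`, so `r` does not divide `f`, `f'`;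
`r ∣ g i y` for some `i, y`, which are not `none`; `maxp (rowP g i) = r = maxp (colP g y)` since both products divide `vv`.
-/

namespace P031

open Finset Real

/-- size of `lam` -/
theorem MatPair_lam : ∀ᶠ σ : ℝ in Filter.atTop, 300 ≤ σ ∧ lam σ ≤ σ ^ 2 := by
  filter_upwards [Filter.eventually_ge_atTop 300] with σ hσ
  refine ⟨hσ, ?_⟩
  have h0 : (0:ℝ) < σ := by linarith
  unfold lam
  rw [Real.log_mul (by norm_num) (by positivity), Real.log_pow]
  have h1 : Real.log 200 ≤ 200 - 1 := Real.log_le_sub_one_of_pos (by norm_num)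
  have h2 : Real.log σ ≤ σ - 1 := Real.log_le_sub_one_of_pos h0
  push_cast
  nlinarith only [hσ, h1, h2]

/-- `ll n` is large, so `n` is large -/
theorem MatPair_large {n : ℕ} (h : 2 ≤ ll n) : 6 ≤ n := by
  by_contra hn
  push Not at hn
  have h1 : Real.log (n : ℝ) ≤ 4 := by
    rcases Nat.eq_zero_or_pos n with h0 | h0
    · subst h0
      simp
    · have h2 : Real.log (n : ℝ) ≤ (n : ℝ) - 1 :=
        Real.log_le_sub_one_of_pos (by exact_mod_cast h0)
      have h3 : (n : ℝ) ≤ 5 := by exact_mod_cast (by omega : n ≤ 5)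
      linarith
  have h1' : 0 ≤ Real.log (n : ℝ) := Real.log_natCast_nonneg n
  unfold ll at h
  have h4 : Real.log (Real.log (n : ℝ)) ≤ Real.log 4 := by
    rcases h1'.eq_or_lt with h0 | h0
    · rw [← h0, Real.log_zero]
      exact Real.log_nonneg (by norm_num)
    · exact Real.log_le_log h0 h1
  have h5 : Real.log 4 = 2 * Real.log 2 := by
    rw [show (4:ℝ) = 2 ^ 2 by norm_num, Real.log_pow]
    push_cast
    ring
  have h6 : Real.log 2 < 1 := by
    have := Real.log_two_lt_d9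
    linarith
  linarith

/-- comparison of `n` and `n - 1` -/
theorem MatPair_pred {n : ℕ} (h : 6 ≤ n) : ll n ≤ ll (n - 1) + 1 / 2 := by
  have hn : (6 : ℝ) ≤ n := by exact_mod_cast h
  have hc : ((n - 1 : ℕ) : ℝ) = n - 1 := by
    rw [Nat.cast_sub (by omega)]
    norm_num
  have h1 : Real.log (n : ℝ) ≤ Real.log ((n : ℝ) - 1) + Real.log 2 := by
    rw [← Real.log_mul (by linarith) (by norm_num)]
    exact Real.log_le_log (by linarith) (by linarith)
  have h2 : 2 * Real.log 2 ≤ Real.log ((n : ℝ) - 1) := by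
    have h3 : 2 * Real.log 2 = Real.log 4 := by
      rw [show (4:ℝ) = 2 ^ 2 by norm_num, Real.log_pow]
      push_cast
      ring
    rw [h3]
    exact Real.log_le_log (by norm_num) (by linarith)
  have hl2 : 0 < Real.log 2 := Real.log_pos (by norm_num)
  have hp : 0 < Real.log ((n : ℝ) - 1) := by linarith
  unfold ll
  rw [hc]
  have h4 : Real.log (n : ℝ) ≤ Real.log ((n : ℝ) - 1) * (3 / 2) := by linarith
  have h5 : 0 < Real.log (n : ℝ) := Real.log_pos (by linarith)
  calc Real.log (Real.log (n : ℝ)) ≤ Real.log (Real.log ((n : ℝ) - 1) * (3 / 2)) :=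
        Real.log_le_log h5 h4
    _ = Real.log (Real.log ((n : ℝ) - 1)) + Real.log (3 / 2) :=
        Real.log_mul hp.ne' (by norm_num)
    _ ≤ Real.log (Real.log ((n : ℝ) - 1)) + 1 / 2 := by
        have := Real.log_le_sub_one_of_pos (show (0:ℝ) < 3 / 2 by norm_num)
        linarith

/-- the largest prime factor of `p - 1` is large -/
theorem MatPair_maxp : ∀ᶠ σ : ℝ in Filter.atTop, ∀ p : ℕ, p.Prime → Normal σ p →
    σ ^ 111 < ll p → p ≤ EE σ → ll p - lam σ ≤ ll (maxp (p - 1)) := by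
  filter_upwards [normal_Om, MatPair_lam] with σ hσ hlam p hp hN h1 h2
  have hσ1 : (1:ℝ) ≤ σ := by linarith [hlam.1]
  have h3 : ll p ≤ σ ^ 120 + 1 := (le_EE_iff hp.two_le).1 h2
  have h4 := (hσ p hp hN h3).1
  have h5 : 2 ≤ ll p := by
    have h6 : σ ≤ σ ^ 111 := by
      calc σ = σ ^ 1 := (pow_one σ).symm
        _ ≤ σ ^ 111 := pow_le_pow_right₀ hσ1 (by norm_num)
    linarith [hlam.1]
  have h6 := MatPair_large h5
  have h7 := MatPair_pred h6
  have h8 := ll_le_maxp (show 2 ≤ p - 1 by omega)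
  have h9 : 1 ≤ Om (p - 1) := tot_Om_pos (by omega)
  have h10 : Real.log (Om (p - 1) : ℝ) ≤ Real.log (200 * σ ^ 120) :=
    Real.log_le_log (by exact_mod_cast h9) h4
  unfold lam
  linarith

theorem mat_pair : ∀ᶠ σ : ℝ in Filter.atTop, ∀ (k l : ℕ) (e : Fin k → ℕ) (e' : Fin l → ℕ)
    (f f' : ℕ), StrictMono e → StrictMono e' →
    DH σ (Finset.univ.image e, f, Finset.univ.image e', f') →
    ∃ g : Option (Fin k) → Option (Fin l) → ℕ,
      Marked (σ ^ 120 + 2) (QC σ (hts σ e) (hts σ e')) (rho σ (hts σ e)) (rho σ (hts σ e'))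
        (mk k) (mk l) g ∧
      (∀ i, rowP g (some i) = e i - 1) ∧ rowP g none = f ∧
      (∀ y, colP g (some y) = e' y - 1) ∧ colP g none = f' ∧
      totP g = vv (Finset.univ.image e) f ∧
      (∃ i ∈ mk k, ∃ y ∈ mk l, ∃ r : ℕ, r.Prime ∧ r ∣ g i y ∧ maxp (rowP g i) = r ∧
        maxp (colP g y) = r ∧ ll (maxs (Finset.univ.image e)) - lam σ ≤ ll r) := by
  filter_upwards [MatPair_maxp, MatPair_lam] with σ hmax hlam k l e e' f f' he he' hD
  obtain ⟨hσ3, hlam2⟩ := hlam
  have hσ1 : (1:ℝ) ≤ σ := by linarith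
  obtain ⟨hA, hA', hv, hvb, hdis, hne, hmaxs, -⟩ := hD
  simp only at hA hA' hv hvb hdis hne hmaxs
  set P := Finset.univ.image e with hP
  set P' := Finset.univ.image e' with hP'
  have heP : ∀ i, e i ∈ P := fun i => Finset.mem_image_of_mem e (Finset.mem_univ i)
  have heP' : ∀ y, e' y ∈ P' := fun y => Finset.mem_image_of_mem e' (Finset.mem_univ y)
  have hpr : ∀ i, (e i).Prime := fun i => (hA.pr _ (heP i)).1
  have hpr' : ∀ y, (e' y).Prime := fun y => (hA'.pr _ (heP' y)).1
  -- the two products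
  have hvP : vv P f = f * ∏ i, (e i - 1) := by
    unfold vv
    rw [hP, Finset.prod_image fun a _ b _ h => he.injective h]
  have hvP' : vv P' f' = f' * ∏ y, (e' y - 1) := by
    unfold vv
    rw [hP', Finset.prod_image fun a _ b _ h => he'.injective h]
  have hv0 : vv P f ≠ 0 := by
    rw [hvP]
    refine mul_ne_zero hA.fpos.ne' (Finset.prod_ne_zero_iff.2 fun i _ => ?_)
    have := (hpr i).two_le
    omega
  obtain ⟨g, hg1, hg2⟩ := mat_ref
    (fun i : Option (Fin k) => i.elim f fun i => e i - 1)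
    (fun y : Option (Fin l) => y.elim f' fun y => e' y - 1)
    (by
      intro i
      cases i with
      | none => exact hA.fpos.ne'
      | some i =>
        have := (hpr i).two_le
        show e i - 1 ≠ 0
        omega)
    (by
      intro y
      cases y with
      | none => exact hA'.fpos.ne'
      | some y =>
        have := (hpr' y).two_le
        show e' y - 1 ≠ 0
        omega)
    (by
      rw [Fintype.prod_option, Fintype.prod_option]
      show f * ∏ i, (e i - 1) = f' * ∏ y, (e' y - 1)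
      rw [← hvP, ← hvP', hv])
  have hr1 : ∀ i, rowP g (some i) = e i - 1 := fun i => hg1 (some i)
  have hr2 : rowP g none = f := hg1 none
  have hc1 : ∀ y, colP g (some y) = e' y - 1 := fun y => hg2 (some y)
  have hc2 : colP g none = f' := hg2 none
  have htot : totP g = vv P f := by
    have h1 : totP g = ∏ i, rowP g i := rfl
    rw [h1, Fintype.prod_option, hr2, hvP]
    simp only [hr1]
  have hrow_dvd : ∀ i, rowP g i ∣ vv P f := by
    intro i
    rw [← htot]
    exact Finset.dvd_prod_of_mem (fun i => rowP g i) (Finset.mem_univ i)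
  have hcol_dvd : ∀ y, colP g y ∣ vv P f := by
    intro y
    rw [← htot]
    have h1 : totP g = ∏ y, colP g y := Finset.prod_comm
    rw [h1]
    exact Finset.dvd_prod_of_mem (fun y => colP g y) (Finset.mem_univ y)
  have hdr : ∀ i y, g i y ∣ rowP g i := fun i y =>
    Finset.dvd_prod_of_mem (fun y => g i y) (Finset.mem_univ y)
  have hdc : ∀ i y, g i y ∣ colP g y := fun i y =>
    Finset.dvd_prod_of_mem (fun i => g i y) (Finset.mem_univ i)
  have hrow0 : ∀ i, rowP g i ≠ 0 := fun i h => hv0 (by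
    have := hrow_dvd i
    rw [h] at this
    exact Nat.eq_zero_of_zero_dvd this)
  have hcol0 : ∀ y, colP g y ≠ 0 := fun y h => hv0 (by
    have := hcol_dvd y
    rw [h] at this
    exact Nat.eq_zero_of_zero_dvd this)
  have hexp : Real.exp (Real.exp (σ ^ 120 + 1)) ≤ Real.exp (Real.exp (σ ^ 120 + 2)) :=
    Real.exp_le_exp.2 (Real.exp_le_exp.2 (by linarith))
  have hvE : vv P f ≤ EE σ := Nat.le_floor hvb
  have h102 : (0:ℝ) < σ ^ 102 := by positivity
  -- blocks of the small primes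
  have hblk : ∀ q : ℕ, ll q ≤ σ ^ 111 → blk σ q ≤ ⌊σ ^ 9⌋₊ := by
    intro q hq
    unfold blk
    apply Nat.floor_le_floor
    rw [div_le_iff₀ h102]
    calc ll q ≤ σ ^ 111 := hq
      _ = σ ^ 9 * σ ^ 102 := by ring
  have hrowblk : ∀ i y, ∀ q ∈ (g i y).primeFactors, blk σ q ≤ hts σ e i := by
    intro i y q hq
    have hqp := Nat.prime_of_mem_primeFactors hq
    have hqd : q ∣ rowP g i := (Nat.dvd_of_mem_primeFactors hq).trans (hdr i y)
    cases i with
    | none =>
      rw [hr2] at hqd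
      exact hblk q (hA.fsm q (Nat.mem_primeFactors.2 ⟨hqp, hqd, hA.fpos.ne'⟩))
    | some i =>
      rw [hr1] at hqd
      have h2 := (hpr i).two_le
      have h3 := Nat.le_of_dvd (by omega) hqd
      exact blk_mono hσ1 hqp.two_le (by omega)
  have hcolblk : ∀ i y, ∀ q ∈ (g i y).primeFactors, blk σ q ≤ hts σ e' y := by
    intro i y q hq
    have hqp := Nat.prime_of_mem_primeFactors hq
    have hqd : q ∣ colP g y := (Nat.dvd_of_mem_primeFactors hq).trans (hdc i y)
    cases y with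
    | none =>
      rw [hc2] at hqd
      exact hblk q (hA'.fsm q (Nat.mem_primeFactors.2 ⟨hqp, hqd, hA'.fpos.ne'⟩))
    | some y =>
      rw [hc1] at hqd
      have h2 := (hpr' y).two_le
      have h3 := Nat.le_of_dvd (by omega) hqd
      exact blk_mono hσ1 hqp.two_le (by omega)
  have hrho : ∀ (m : ℕ) (ε : Fin m → ℕ) (R : Finset ℕ) (φ : ℕ), Adm σ R φ → (∀ i, ε i ∈ R) →
      ∀ i, rho σ (hts σ ε) (some i) ≤ ll (maxp (ε i - 1)) := by
    intro m ε R φ hR hε i
    obtain ⟨h1, h2, h3, h4⟩ := hR.pr _ (hε i)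
    have h5 := hmax _ h1 h3 h2 h4
    have h6 : 0 ≤ ll (ε i) := le_trans (by positivity) h2.le
    have h7 := blk_mul_le hσ1 h6
    show σ ^ 102 * (blk σ (ε i) : ℝ) - lam σ ≤ _
    linarith
  refine ⟨g, ⟨?_, ?_, ?_, ?_, ?_, ?_, ?_⟩, hr1, hr2, hc1, hc2, htot, ?_⟩
  · -- pos
    intro i y h0
    have h1 := hdr i y
    rw [h0] at h1
    exact hrow0 i (Nat.eq_zero_of_zero_dvd h1)
  · -- sm
    intro i y q hq
    unfold QC
    rw [Finset.mem_filter, Finset.mem_range]
    have h1 : q ∣ vv P f :=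
      ((Nat.dvd_of_mem_primeFactors hq).trans (hdr i y)).trans (hrow_dvd i)
    have h2 := Nat.le_of_dvd (Nat.pos_of_ne_zero hv0) h1
    exact ⟨by omega, Nat.prime_of_mem_primeFactors hq, hrowblk i y q hq, hcolblk i y q hq⟩
  · -- rb
    intro i
    have h1 := Nat.le_of_dvd (Nat.pos_of_ne_zero hv0) (hrow_dvd i)
    have h2 : (rowP g i : ℝ) ≤ (vv P f : ℝ) := by exact_mod_cast h1
    exact (h2.trans hvb).trans hexp
  · -- cb
    intro y
    have h1 := Nat.le_of_dvd (Nat.pos_of_ne_zero hv0) (hcol_dvd y)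
    have h2 : (colP g y : ℝ) ≤ (vv P f : ℝ) := by exact_mod_cast h1
    exact (h2.trans hvb).trans hexp
  · -- mr
    intro i hi
    unfold mk at hi
    rw [Finset.mem_image] at hi
    obtain ⟨i, -, rfl⟩ := hi
    rw [hr1]
    have h1 := (hpr i).two_le
    have h2 : e i - 1 + 1 = e i := by omega
    rw [h2]
    exact ⟨hpr i, hrho k e P f hA heP i⟩
  · -- mc
    intro y hy
    unfold mk at hy
    rw [Finset.mem_image] at hy
    obtain ⟨y, -, rfl⟩ := hy
    rw [hc1]
    have h1 := (hpr' y).two_le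
    have h2 : e' y - 1 + 1 = e' y := by omega
    rw [h2]
    exact ⟨hpr' y, hrho l e' P' f' hA' heP' y⟩
  · -- ne
    intro i hi y hy
    unfold mk at hi hy
    rw [Finset.mem_image] at hi hy
    obtain ⟨i, -, rfl⟩ := hi
    obtain ⟨y, -, rfl⟩ := hy
    rw [hr1, hc1]
    have h1 := (hpr i).two_le
    have h2 := (hpr' y).two_le
    have h3 : e i ≠ e' y := fun h => Finset.disjoint_left.1 hdis (heP i) (h ▸ heP' y)
    omega
  · -- the largest prime
    have hmem : maxs P ∈ P := by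
      obtain ⟨m, hm, h⟩ := Finset.exists_mem_eq_sup P hne id
      have h' : maxs P = m := h
      rw [h']
      exact hm
    obtain ⟨i0, -, hi0⟩ := Finset.mem_image.1 hmem
    obtain ⟨m1, m2, m3, m4⟩ := hA.pr _ hmem
    have hb1 := hmax _ m1 m3 m2 m4
    have hll : σ ^ 111 + σ ^ 2 < σ ^ 119 := by
      have e1 : σ ^ 2 ≤ σ ^ 111 := pow_le_pow_right₀ hσ1 (by norm_num)
      have e2 : σ ^ 119 = σ ^ 8 * σ ^ 111 := by ring
      have e3 : (300:ℝ) ≤ σ ^ 8 := by
        calc (300:ℝ) ≤ σ := hσ3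
          _ = σ ^ 1 := (pow_one σ).symm
          _ ≤ σ ^ 8 := pow_le_pow_right₀ hσ1 (by norm_num)
      have e4 : (0:ℝ) < σ ^ 111 := by positivity
      rw [e2]
      nlinarith only [e1, e3, e4]
    have hdvd : maxs P - 1 ∣ vv P f := by
      have h1 := hrow_dvd (some i0)
      rw [hr1, hi0] at h1
      exact h1
    have hbig : 2 ≤ ll (maxs P) := by
      have h6 : σ ≤ σ ^ 111 := by
        calc σ = σ ^ 1 := (pow_one σ).symm
          _ ≤ σ ^ 111 := pow_le_pow_right₀ hσ1 (by norm_num)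
      linarith
    have hsix := MatPair_large hbig
    have hp1 : (maxp (maxs P - 1)).Prime := maxp_prime (by omega)
    have hvv1 : 1 < vv P f := by
      have := Nat.le_of_dvd (Nat.pos_of_ne_zero hv0) hdvd
      omega
    have hrp : (maxp (vv P f)).Prime := maxp_prime hvv1
    have hle : maxp (maxs P - 1) ≤ maxp (vv P f) := maxp_le_of_dvd hdvd hv0
    have hllr : ll (maxs P) - lam σ ≤ ll (maxp (vv P f)) :=
      hb1.trans (ll_mono hp1.two_le hle)
    have hr111 : σ ^ 111 < ll (maxp (vv P f)) := by linarith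
    have hrtot : maxp (vv P f) ∣ ∏ i, ∏ y, g i y := by
      have h1 : (∏ i, ∏ y, g i y) = vv P f := htot
      rw [h1]
      exact maxp_dvd hvv1
    obtain ⟨i, -, hi⟩ := (Prime.dvd_finsetProd_iff hrp.prime _).1 hrtot
    obtain ⟨y, -, hy⟩ := (Prime.dvd_finsetProd_iff hrp.prime _).1 hi
    have hri : maxp (vv P f) ∣ rowP g i := hy.trans (hdr i y)
    have hrc : maxp (vv P f) ∣ colP g y := hy.trans (hdc i y)
    have hmi : maxp (rowP g i) = maxp (vv P f) :=
      le_antisymm (maxp_le_of_dvd (hrow_dvd i) hv0)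
        (le_maxp (Nat.mem_primeFactors.2 ⟨hrp, hri, hrow0 i⟩))
    have hmc : maxp (colP g y) = maxp (vv P f) :=
      le_antisymm (maxp_le_of_dvd (hcol_dvd y) hv0)
        (le_maxp (Nat.mem_primeFactors.2 ⟨hrp, hrc, hcol0 y⟩))
    refine ⟨i, ?_, y, ?_, maxp (vv P f), hrp, hy, hmi, hmc, hllr⟩
    · cases i with
      | none =>
        exfalso
        rw [hr2] at hri
        have := hA.fsm _ (Nat.mem_primeFactors.2 ⟨hrp, hri, hA.fpos.ne'⟩)
        linarith
      | some i => exact Finset.mem_image_of_mem some (Finset.mem_univ i)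
    · cases y with
      | none =>
        exfalso
        rw [hc2] at hrc
        have := hA'.fsm _ (Nat.mem_primeFactors.2 ⟨hrp, hrc, hA'.fpos.ne'⟩)
        linarith
      | some y => exact Finset.mem_image_of_mem some (Finset.mem_univ y)

/-- positivity of the lower bounds: `blk (e i) ≥ σ^9 - 1` as `ll (e i) > σ^111` -/
theorem rho_pos : ∀ᶠ σ : ℝ in Filter.atTop, ∀ (k : ℕ) (e : Fin k → ℕ),
    (∀ i, σ ^ 111 < ll (e i)) → ∀ i, 0 < rho σ (hts σ e) i := by
  filter_upwards [MatPair_lam] with σ hlam k e he i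
  obtain ⟨hσ3, hlam2⟩ := hlam
  have hσ1 : (1:ℝ) ≤ σ := by linarith
  cases i with
  | none =>
    show (0:ℝ) < 1
    exact one_pos
  | some i =>
    show 0 < σ ^ 102 * (blk σ (e i) : ℝ) - lam σ
    have h1 := lt_blk_succ hσ1 (e i)
    have h2 := he i
    have e1 : σ ^ 2 ≤ σ ^ 102 := pow_le_pow_right₀ hσ1 (by norm_num)
    have e2 : σ ^ 111 = σ ^ 9 * σ ^ 102 := by ring
    have e3 : (300:ℝ) ≤ σ ^ 9 := by
      calc (300:ℝ) ≤ σ := hσ3
        _ = σ ^ 1 := (pow_one σ).symm
        _ ≤ σ ^ 9 := pow_le_pow_right₀ hσ1 (by norm_num)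
    have e4 : (0:ℝ) < σ ^ 102 := by positivity
    nlinarith only [hlam2, h1, h2, e1, e3]

end P031
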