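import Vale.Agent.Lib.P031.MatDefs

/-!
# P031 MatRef: refinement matrix.
Proof by strong induction on `∏ a i`: if it is `1` take all entries `1`. Otherwise take a prime `q ∣ ∏ a i = ∏ b y`; `q ∣ a i`,
`q ∣ b y` for some `i`, `y`; apply the induction hypothesis to `a` with `a i / q`, `b` with `b y / q`, and multiply the
entry `(i, y)` by `q`.
-/

namespace P031

open Finset

theorem mat_ref {ι κ : Type} [Fintype ι] [DecidableEq ι] [Fintype κ] [DecidableEq κ] (a : ι → ℕ)
    (b : κ → ℕ) (ha : ∀ i, a i ≠ 0) (hb : ∀ y, b y ≠ 0) (h : ∏ i, a i = ∏ y, b y) :
    ∃ g : ι → κ → ℕ, (∀ i, rowP g i = a i) ∧ (∀ y, colP g y = b y) := by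
  obtain ⟨N, hN⟩ : ∃ N, N = ∏ i, a i := ⟨_, rfl⟩
  induction N using Nat.strong_induction_on generalizing a b with
  | _ N ih =>
    by_cases h1 : N = 1
    · refine ⟨fun _ _ => 1, fun i => ?_, fun y => ?_⟩
      · have h2 : a i ∣ 1 := by
          rw [← h1, hN]
          exact Finset.dvd_prod_of_mem _ (mem_univ i)
        rw [Nat.dvd_one.1 h2]
        simp [rowP]
      · have h2 : b y ∣ 1 := by
          rw [← h1, hN, h]
          exact Finset.dvd_prod_of_mem _ (mem_univ y)
        rw [Nat.dvd_one.1 h2]
        simp [colP]
    · set q := N.minFac with hq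
      have hqp : q.Prime := Nat.minFac_prime h1
      have hqN : q ∣ N := Nat.minFac_dvd N
      have hqa : q ∣ ∏ i, a i := hN ▸ hqN
      have hqb : q ∣ ∏ y, b y := h ▸ hqa
      obtain ⟨i, _, hi⟩ := (Prime.dvd_finsetProd_iff hqp.prime _).1 hqa
      obtain ⟨y, _, hy⟩ := (Prime.dvd_finsetProd_iff hqp.prime _).1 hqb
      obtain ⟨c, hc⟩ := hi
      obtain ⟨d, hd⟩ := hy
      have hc0 : c ≠ 0 := by
        rintro rfl
        exact ha i (by rw [hc, mul_zero])
      have hd0 : d ≠ 0 := by
        rintro rfl
        exact hb y (by rw [hd, mul_zero])
      have hpa : q * ∏ j, Function.update a i c j = ∏ j, a j := by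
        rw [Finset.prod_update_of_mem (mem_univ i), ← mul_assoc, ← hc, Finset.sdiff_singleton_eq_erase,
          Finset.mul_prod_erase _ _ (mem_univ i)]
      have hpb : q * ∏ j, Function.update b y d j = ∏ j, b j := by
        rw [Finset.prod_update_of_mem (mem_univ y), ← mul_assoc, ← hd, Finset.sdiff_singleton_eq_erase,
          Finset.mul_prod_erase _ _ (mem_univ y)]
      have hpab : ∏ j, Function.update a i c j = ∏ j, Function.update b y d j := by
        apply Nat.eq_of_mul_eq_mul_left hqp.pos
        rw [hpa, hpb, h]
      have hN0 : ∏ j, a j ≠ 0 := Finset.prod_ne_zero_iff.2 fun j _ => ha j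
      have hlt : ∏ j, Function.update a i c j < N := by
        rw [hN, ← hpa]
        have h2 := hqp.two_le
        have h3 : 0 < ∏ j, Function.update a i c j := by
          rcases Nat.eq_zero_or_pos (∏ j, Function.update a i c j) with h4 | h4
          · rw [h4, mul_zero] at hpa
            exact absurd hpa.symm hN0
          · exact h4
        nlinarith
      obtain ⟨g, hg1, hg2⟩ := ih _ hlt (Function.update a i c) (Function.update b y d)
        (fun j => by
          by_cases hj : j = i
          · subst hj
            simpa using hc0
          · rw [Function.update_of_ne hj]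
            exact ha j)
        (fun j => by
          by_cases hj : j = y
          · subst hj
            simpa using hd0
          · rw [Function.update_of_ne hj]
            exact hb j) hpab rfl
      refine ⟨fun i' y' => (if i' = i ∧ y' = y then q else 1) * g i' y', fun i' => ?_,
        fun y' => ?_⟩
      · unfold rowP
        rw [Finset.prod_mul_distrib]
        have h5 : ∏ y', g i' y' = Function.update a i c i' := hg1 i'
        rw [h5]
        by_cases hj : i' = i
        · subst hj
          simp only [true_and, Finset.prod_ite_eq', mem_univ, if_true, Function.update_self]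
          exact hc.symm
        · simp only [hj, false_and, if_false, Finset.prod_const_one, one_mul]
          rw [Function.update_of_ne hj]
      · unfold colP
        rw [Finset.prod_mul_distrib]
        have h5 : ∏ i', g i' y' = Function.update b y d y' := hg2 y'
        rw [h5]
        by_cases hj : y' = y
        · subst hj
          simp only [and_true, Finset.prod_ite_eq', mem_univ, if_true, Function.update_self]
          exact hd.symm
        · simp only [hj, and_false, if_false, Finset.prod_const_one, one_mul]
          rw [Function.update_of_ne hj]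

end P031
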