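import Vale.Agent.Lib.P031.MatDefs
import Vale.Agent.Lib.P031.Mert
import Vale.Agent.Lib.P031.LL

/-!
# P031 MatW0: bound for the product of the Euler factors.

`(1 - z/q)⁻¹ ≤ exp(z/(q-1))` for `0 ≤ z ≤ 1`. So `log W0 ≤ ∑_{i,y} ∑_{q ∈ QC i y} zz q/(q-1)`. Block `0`:
at most `card ι card κ · (1/(card ι card κ)) (b + C)` (`mert_all`, `ll q ≤ b`). Block `t ≥ 1`: the number of cells with
`t ≤ hr i`, `t ≤ hc y` is `Rc hr t · Rc hc t`, the weight is `1/max 1 (Rc hr t)`, the sum of `1/(q-1)` over the block is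
`≤ b + C` (`mert_int`), in total `≤ Rc hc t (b + C)`; and `∑_{t ≥ 1} Rc hc t = ∑_y hc y`.
-/

namespace P031

open Finset Real

private theorem matw0_factor {z : ℝ} {q : ℕ} (hz0 : 0 ≤ z) (hz1 : z ≤ 1) (hq : 2 ≤ q) :
    (1 - z / (q : ℝ))⁻¹ ≤ Real.exp (z * (1 / ((q : ℝ) - 1))) := by
  have hq2 : (2 : ℝ) ≤ q := by exact_mod_cast hq
  have hqz : 0 < (q : ℝ) - z := by linarith
  have e1 : (1 - z / (q : ℝ))⁻¹ = z / ((q : ℝ) - z) + 1 := by
    have : 1 - z / (q : ℝ) = ((q : ℝ) - z) / q := by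
      field_simp
    rw [this, inv_div]
    field_simp
    ring
  rw [e1]
  refine (Real.add_one_le_exp _).trans (Real.exp_le_exp.mpr ?_)
  rw [mul_one_div]
  exact div_le_div_of_nonneg_left hz0 (by linarith) (by linarith)

private theorem matw0_factor_nonneg {z : ℝ} {q : ℕ} (hz1 : z ≤ 1) (hq : 2 ≤ q) :
    0 ≤ (1 - z / (q : ℝ))⁻¹ := by
  have hq2 : (2 : ℝ) ≤ q := by exact_mod_cast hq
  have : z / (q : ℝ) ≤ 1 := by
    rw [div_le_one (by linarith)]
    linarith
  exact inv_nonneg.mpr (by linarith)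

private theorem matw0_Rc_sum {κ : Type} [Fintype κ] (hc : κ → ℕ) (M : ℕ) :
    ∑ t ∈ Finset.range M, (Rc hc (t + 1) : ℝ) ≤ ∑ y, (hc y : ℝ) := by
  have h1 : ∀ t, (Rc hc (t + 1) : ℝ) = ∑ y, (if t + 1 ≤ hc y then (1 : ℝ) else 0) := by
    intro t
    unfold Rc
    rw [Finset.sum_boole]
  rw [Finset.sum_congr rfl fun t _ => h1 t, Finset.sum_comm]
  apply Finset.sum_le_sum
  intro y _
  rw [Finset.sum_boole]
  have h2 : (Finset.range M).filter (fun t => t + 1 ≤ hc y) ⊆ Finset.range (hc y) := by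
    intro t ht
    have := (Finset.mem_filter.mp ht).2
    rw [Finset.mem_range]
    omega
  have h3 := Finset.card_le_card h2
  rw [Finset.card_range] at h3
  exact_mod_cast h3

private theorem matw0_zz {σ : ℝ} {ι κ : Type} [Fintype ι] [Fintype κ] [Nonempty ι] [Nonempty κ]
    (hr : ι → ℕ) (hc : κ → ℕ) (q : ℕ) : 0 ≤ zz σ hr hc q ∧ zz σ hr hc q ≤ 1 ∧
    zz σ hr hc q * ((Rc hr (blk σ q) : ℝ) * (Rc hc (blk σ q) : ℝ)) ≤
      (if blk σ q = 0 then (1 : ℝ) else (Rc hc (blk σ q) : ℝ)) := by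
  have hι : (1 : ℝ) ≤ Fintype.card ι := by exact_mod_cast Fintype.card_pos
  have hκ : (1 : ℝ) ≤ Fintype.card κ := by exact_mod_cast Fintype.card_pos
  unfold zz
  by_cases h : blk σ q = 0
  · rw [if_pos h, if_pos h, h]
    have hprod : (1 : ℝ) ≤ (Fintype.card ι : ℝ) * (Fintype.card κ : ℝ) := by nlinarith only [hι, hκ]
    refine ⟨by positivity, ?_, ?_⟩
    · rw [div_le_one (by linarith)]
      exact hprod
    · have h1 : (Rc hr 0 : ℝ) = Fintype.card ι := by
        unfold Rc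
        simp
      have h2 : (Rc hc 0 : ℝ) = Fintype.card κ := by
        unfold Rc
        simp
      rw [h1, h2, one_div, inv_mul_cancel₀ (by linarith)]
  · rw [if_neg h, if_neg h]
    have hm : (1 : ℝ) ≤ ((max 1 (Rc hr (blk σ q)) : ℕ) : ℝ) := by
      exact_mod_cast le_max_left 1 _
    have hm2 : (Rc hr (blk σ q) : ℝ) ≤ ((max 1 (Rc hr (blk σ q)) : ℕ) : ℝ) := by
      exact_mod_cast le_max_right 1 _
    refine ⟨by positivity, ?_, ?_⟩
    · rw [div_le_one (by linarith)]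
      exact hm
    · have h1 : 1 / ((max 1 (Rc hr (blk σ q)) : ℕ) : ℝ) * (Rc hr (blk σ q) : ℝ) ≤ 1 := by
        rw [one_div, inv_mul_le_one₀ (by linarith)]
        exact hm2
      calc 1 / ((max 1 (Rc hr (blk σ q)) : ℕ) : ℝ) *
            ((Rc hr (blk σ q) : ℝ) * (Rc hc (blk σ q) : ℝ))
          = (1 / ((max 1 (Rc hr (blk σ q)) : ℕ) : ℝ) * (Rc hr (blk σ q) : ℝ)) *
            (Rc hc (blk σ q) : ℝ) := by ring
        _ ≤ 1 * (Rc hc (blk σ q) : ℝ) := mul_le_mul_of_nonneg_right h1 (by positivity)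
        _ = (Rc hc (blk σ q) : ℝ) := one_mul _

theorem W0_le : ∃ C : ℝ, 1 ≤ C ∧ ∀ᶠ σ : ℝ in Filter.atTop, ∀ (ι κ : Type) [Fintype ι] [Fintype κ]
    [Nonempty ι] [Nonempty κ] (hr : ι → ℕ) (hc : κ → ℕ),
    W0 (zz σ hr hc) (QC σ hr hc) ≤
      Real.exp ((σ ^ 102 + C) * (1 + ∑ y, (hc y : ℝ))) := by
  obtain ⟨C1, hC1, hall⟩ := mert_all
  obtain ⟨C2, hC2, hint⟩ := mert_int
  refine ⟨max C1 C2, le_max_of_le_left hC1, ?_⟩
  filter_upwards [Filter.eventually_ge_atTop (1 : ℝ)] with σ hσ ι κ _ _ _ _ hr hc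
  set C := max C1 C2 with hC
  have hσ0 : 0 < σ := by linarith
  have hb : 0 < σ ^ 102 := by positivity
  set P : Finset ℕ := (Finset.range (EE σ + 1)).filter Nat.Prime with hP
  have hPp : ∀ q ∈ P, q.Prime := fun q hq => (Finset.mem_filter.mp hq).2
  have hQC : ∀ i y, QC σ hr hc i y =
      P.filter (fun q => blk σ q ≤ hr i ∧ blk σ q ≤ hc y) := by
    intro i y
    unfold QC
    rw [hP, Finset.filter_filter]
  -- first bound
  have h1 : W0 (zz σ hr hc) (QC σ hr hc) ≤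
      ∏ i, ∏ y, ∏ q ∈ QC σ hr hc i y, Real.exp (zz σ hr hc q * (1 / ((q : ℝ) - 1))) := by
    unfold W0
    have hq2 : ∀ i y, ∀ q ∈ QC σ hr hc i y, 2 ≤ q := by
      intro i y q hq
      rw [hQC] at hq
      exact (hPp q (Finset.mem_filter.mp hq).1).two_le
    have hn : ∀ i y, 0 ≤ ∏ q ∈ QC σ hr hc i y, (1 - zz σ hr hc q / (q : ℝ))⁻¹ := by
      intro i y
      exact Finset.prod_nonneg fun q hq =>
        matw0_factor_nonneg (matw0_zz hr hc q).2.1 (hq2 i y q hq)
    apply Finset.prod_le_prod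
    · intro i _
      exact Finset.prod_nonneg fun y _ => hn i y
    · intro i _
      apply Finset.prod_le_prod
      · intro y _
        exact hn i y
      · intro y _
        apply Finset.prod_le_prod
        · intro q hq
          exact matw0_factor_nonneg (matw0_zz hr hc q).2.1 (hq2 i y q hq)
        · intro q hq
          exact matw0_factor (matw0_zz hr hc q).1 (matw0_zz hr hc q).2.1 (hq2 i y q hq)
  refine h1.trans ?_
  have h2 : ∏ i, ∏ y, ∏ q ∈ QC σ hr hc i y, Real.exp (zz σ hr hc q * (1 / ((q : ℝ) - 1))) =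
      Real.exp (∑ i, ∑ y, ∑ q ∈ QC σ hr hc i y, zz σ hr hc q * (1 / ((q : ℝ) - 1))) := by
    rw [Real.exp_sum]
    apply Finset.prod_congr rfl
    intro i _
    rw [Real.exp_sum]
    apply Finset.prod_congr rfl
    intro y _
    rw [Real.exp_sum]
  rw [h2]
  apply Real.exp_le_exp.mpr
  -- exchange the sums
  have h3 : ∑ i, ∑ y, ∑ q ∈ QC σ hr hc i y, zz σ hr hc q * (1 / ((q : ℝ) - 1)) =
      ∑ q ∈ P, zz σ hr hc q * (1 / ((q : ℝ) - 1)) *
        ((Rc hr (blk σ q) : ℝ) * (Rc hc (blk σ q) : ℝ)) := by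
    have e1 : ∀ i y, ∑ q ∈ QC σ hr hc i y, zz σ hr hc q * (1 / ((q : ℝ) - 1)) =
        ∑ q ∈ P, (zz σ hr hc q * (1 / ((q : ℝ) - 1))) *
          ((if blk σ q ≤ hr i then (1 : ℝ) else 0) * (if blk σ q ≤ hc y then (1 : ℝ) else 0)) := by
      intro i y
      rw [hQC, Finset.sum_filter]
      apply Finset.sum_congr rfl
      intro q _
      by_cases h1 : blk σ q ≤ hr i <;> by_cases h2 : blk σ q ≤ hc y <;> simp [h1, h2]
    rw [Finset.sum_congr rfl fun i _ => Finset.sum_congr rfl fun y _ => e1 i y]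
    rw [Finset.sum_congr rfl fun i _ => Finset.sum_comm, Finset.sum_comm]
    apply Finset.sum_congr rfl
    intro q _
    have e2 : (Rc hr (blk σ q) : ℝ) = ∑ i, (if blk σ q ≤ hr i then (1 : ℝ) else 0) := by
      unfold Rc
      rw [Finset.sum_boole]
    have e3 : (Rc hc (blk σ q) : ℝ) = ∑ y, (if blk σ q ≤ hc y then (1 : ℝ) else 0) := by
      unfold Rc
      rw [Finset.sum_boole]
    rw [e2, e3, Finset.sum_mul_sum, Finset.mul_sum]
    apply Finset.sum_congr rfl
    intro i _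
    rw [Finset.mul_sum]
  rw [h3]
  set w : ℕ → ℝ := fun t => if t = 0 then (1 : ℝ) else (Rc hc t : ℝ) with hw
  have hw0 : ∀ t, 0 ≤ w t := by
    intro t
    rw [hw]
    simp only
    split_ifs
    · exact zero_le_one
    · positivity
  have h4 : ∑ q ∈ P, zz σ hr hc q * (1 / ((q : ℝ) - 1)) *
        ((Rc hr (blk σ q) : ℝ) * (Rc hc (blk σ q) : ℝ)) ≤
      ∑ q ∈ P, w (blk σ q) * (1 / ((q : ℝ) - 1)) := by
    apply Finset.sum_le_sum
    intro q hq
    have hq2 : (2 : ℝ) ≤ q := by exact_mod_cast (hPp q hq).two_le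
    have h5 := (matw0_zz (σ := σ) hr hc q).2.2
    have h6 : 0 ≤ 1 / ((q : ℝ) - 1) := by
      apply one_div_nonneg.mpr
      linarith
    calc zz σ hr hc q * (1 / ((q : ℝ) - 1)) * ((Rc hr (blk σ q) : ℝ) * (Rc hc (blk σ q) : ℝ))
        = (zz σ hr hc q * ((Rc hr (blk σ q) : ℝ) * (Rc hc (blk σ q) : ℝ))) *
          (1 / ((q : ℝ) - 1)) := by ring
      _ ≤ w (blk σ q) * (1 / ((q : ℝ) - 1)) := mul_le_mul_of_nonneg_right h5 h6
  refine h4.trans ?_
  -- sum over the blocks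
  obtain ⟨M, hM⟩ : ∃ M : ℕ, ∀ q ∈ P, blk σ q ∈ Finset.range (M + 1) := by
    refine ⟨P.sup (fun q => blk σ q), fun q hq => ?_⟩
    rw [Finset.mem_range]
    exact Nat.lt_succ_of_le (Finset.le_sup (f := fun q => blk σ q) hq)
  rw [← Finset.sum_fiberwise_of_maps_to hM]
  have h5 : ∀ t ∈ Finset.range (M + 1),
      ∑ q ∈ P.filter (fun q => blk σ q = t), w (blk σ q) * (1 / ((q : ℝ) - 1)) ≤
        w t * (σ ^ 102 + C) := by
    intro t _
    have e1 : ∑ q ∈ P.filter (fun q => blk σ q = t), w (blk σ q) * (1 / ((q : ℝ) - 1)) =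
        w t * ∑ q ∈ P.filter (fun q => blk σ q = t), 1 / ((q : ℝ) - 1) := by
      rw [Finset.mul_sum]
      apply Finset.sum_congr rfl
      intro q hq
      rw [(Finset.mem_filter.mp hq).2]
    rw [e1]
    apply mul_le_mul_of_nonneg_left _ (hw0 t)
    rcases Nat.eq_zero_or_pos t with rfl | ht
    · have h6 := hall (σ ^ 102) hb.le (P.filter (fun q => blk σ q = 0)) (by
        intro q hq
        obtain ⟨hq1, hq2⟩ := Finset.mem_filter.mp hq
        refine ⟨hPp q hq1, ?_⟩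
        have h7 := lt_blk_succ hσ q
        rw [hq2] at h7
        simp only [Nat.cast_zero, zero_add, one_mul] at h7
        exact h7.le)
      have := le_max_left C1 C2
      linarith
    · have h6 := hint (t * σ ^ 102) (((t : ℝ) + 1) * σ ^ 102) (by positivity) (by linarith only [hb])
        (P.filter (fun q => blk σ q = t)) (by
        intro q hq
        obtain ⟨hq1, hq2⟩ := Finset.mem_filter.mp hq
        refine ⟨hPp q hq1, ?_, ?_⟩
        · have h7 : t ≤ blk σ q := hq2.ge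
          unfold blk at h7
          have h8 := (Nat.le_floor_iff' (by omega : t ≠ 0)).mp h7
          exact (le_div_iff₀ hb).mp h8
        · have h7 := lt_blk_succ hσ q
          rw [hq2] at h7
          exact h7.le)
      have h8 : ((t : ℝ) + 1) * σ ^ 102 - t * σ ^ 102 = σ ^ 102 := by ring
      rw [h8] at h6
      have := le_max_right C1 C2
      linarith
  refine (Finset.sum_le_sum h5).trans ?_
  rw [← Finset.sum_mul, mul_comm]
  have hbC : 0 ≤ σ ^ 102 + C := by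
    have : C1 ≤ C := le_max_left C1 C2
    linarith
  apply mul_le_mul_of_nonneg_left _ hbC
  rw [Finset.sum_range_succ']
  have h9 : ∑ t ∈ Finset.range M, w (t + 1) ≤ ∑ y, (hc y : ℝ) := by
    have h10 : ∀ t ∈ Finset.range M, w (t + 1) = (Rc hc (t + 1) : ℝ) := by
      intro t _
      rw [hw]
      simp
    rw [Finset.sum_congr rfl h10]
    exact matw0_Rc_sum hc M
  have h11 : w 0 = 1 := by
    rw [hw]
    simp
  rw [h11]
  linarith

end P031
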