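import Vale.Agent.Lib.P031.MatInd

/-!
# P031 MatX: counting version of the matrix bound (total product `≤ X`).

Split `G` into the classes `(i, y)`, `i ∈ A`, `y ∈ B` of the hypothesis. For a class let `g'` be `g` with the entry `(i, y)`
divided by `r`; `g ↦ (g', r)` is injective; `totP g = r totP g' ≤ X`; `∏ zm z (g) = ∏ zm z (g') · z r ≤ ∏ zm z (g')`.
For fixed `g'` the number of `r` is at most `C U^9 (X/totP g') exp(-3 ρ)`, `ρ = max (ρ0, ρr i, ρc y)` (`three_x`,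
`Z = X/totP g'`), so at most `C U^9 (X/totP g') exp(-ρ0 - ρr i - ρc y)`. Then `mat_ind` for the set of the `g'`, marked for
`(A \ i, B \ y)`. There are at most `card ι · card κ` classes. -/

namespace P031

open Finset Real

private theorem matX_prod {α M : Type} [Fintype α] [DecidableEq α] [CommMonoid M] {f f' : α → M}
    {a : α} {c : M} (h : ∀ b, b ≠ a → f b = f' b) (h0 : f a = c * f' a) :
    ∏ b, f b = c * ∏ b, f' b := by
  rw [← Finset.mul_prod_erase Finset.univ f (Finset.mem_univ a),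
    ← Finset.mul_prod_erase Finset.univ f' (Finset.mem_univ a), h0, mul_assoc]
  congr 2
  exact Finset.prod_congr rfl fun b hb => h b (Finset.ne_of_mem_erase hb)

private theorem matX_biUnion {α β : Type} [DecidableEq α] [DecidableEq β] (s : Finset α)
    (T : α → Finset β) (F : β → ℝ) (hF : ∀ b, 0 ≤ F b) :
    ∑ b ∈ s.biUnion T, F b ≤ ∑ a ∈ s, ∑ b ∈ T a, F b := by
  induction s using Finset.induction_on with
  | empty => simp
  | insert a s ha ih =>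
    rw [Finset.biUnion_insert, Finset.sum_insert ha]
    have h1 := Finset.sum_union_inter (s₁ := T a) (s₂ := s.biUnion T) (f := F)
    have h2 : 0 ≤ ∑ b ∈ T a ∩ s.biUnion T, F b := Finset.sum_nonneg fun b _ => hF b
    linarith

/-- `g'` is `g` with the entry `(i, y)` divided by `r` -/
private structure matXR {ι κ : Type} (r : ℕ) (i : ι) (y : κ) (g g' : ι → κ → ℕ) : Prop where
  out : ∀ i' y', (i' ≠ i ∨ y' ≠ y) → g i' y' = g' i' y'
  ent : g i y = r * g' i y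

section

variable {ι κ : Type} [Fintype ι] [DecidableEq ι] [Fintype κ] [DecidableEq κ]
  {r : ℕ} {i : ι} {y : κ} {g g' : ι → κ → ℕ}

private theorem matXR.row (h : matXR r i y g g') : rowP g i = r * rowP g' i :=
  matX_prod (fun b hb => h.out i b (Or.inr hb)) h.ent

omit [Fintype ι] [DecidableEq ι] [DecidableEq κ] in
private theorem matXR.row' (h : matXR r i y g g') {i' : ι} (hi : i' ≠ i) :
    rowP g i' = rowP g' i' :=
  Finset.prod_congr rfl fun b _ => h.out i' b (Or.inl hi)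

private theorem matXR.col (h : matXR r i y g g') : colP g y = r * colP g' y :=
  matX_prod (fun b hb => h.out b y (Or.inl hb)) h.ent

omit [DecidableEq ι] [Fintype κ] [DecidableEq κ] in
private theorem matXR.col' (h : matXR r i y g g') {y' : κ} (hy : y' ≠ y) :
    colP g y' = colP g' y' :=
  Finset.prod_congr rfl fun b _ => h.out b y' (Or.inr hy)

private theorem matXR.tot (h : matXR r i y g g') : totP g = r * totP g' :=
  matX_prod (fun b hb => h.row' hb) h.row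

omit [Fintype ι] [DecidableEq ι] [Fintype κ] [DecidableEq κ] in
private theorem matX_zm (z : ℕ → ℝ) {r n : ℕ} (hr : r.Prime) (hn : n ≠ 0) :
    zm z (r * n) = z r * zm z n := by
  unfold zm
  have h := (Nat.perm_primeFactorsList_mul hr.ne_zero hn).map z
  rw [h.prod_eq, Nat.primeFactorsList_prime hr]
  simp

private theorem matX_zm_nonneg {z : ℕ → ℝ} (hz : ∀ q, 0 ≤ z q) (n : ℕ) : 0 ≤ zm z n := by
  unfold zm
  apply List.prod_nonneg
  intro a ha
  obtain ⟨q, _, rfl⟩ := List.mem_map.1 ha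
  exact hz q

private theorem matXR.F (h : matXR r i y g g') (z : ℕ → ℝ) (hr : r.Prime) (hne : g' i y ≠ 0) :
    ∏ i, ∏ y, zm z (g i y) = z r * ∏ i, ∏ y, zm z (g' i y) := by
  refine matX_prod (f := fun i => ∏ y, zm z (g i y)) (f' := fun i => ∏ y, zm z (g' i y)) (a := i)
    (fun b hb => ?_) ?_
  · exact Finset.prod_congr rfl fun c _ => by rw [h.out b c (Or.inl hb)]
  · refine matX_prod (f := fun y => zm z (g i y)) (f' := fun y => zm z (g' i y)) (a := y)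
      (fun c hc => ?_) ?_
    · show zm z (g i c) = zm z (g' i c)
      rw [h.out i c (Or.inr hc)]
    · show zm z (g i y) = z r * zm z (g' i y)
      rw [h.ent, matX_zm z hr hne]

private theorem matXR.le (h : matXR r i y g g') (hr : r ≠ 0) (i' : ι) (y' : κ) :
    g' i' y' ≤ g i' y' := by
  by_cases hh : i' ≠ i ∨ y' ≠ y
  · exact (h.out i' y' hh).ge
  · push Not at hh
    obtain ⟨rfl, rfl⟩ := hh
    rw [h.ent]
    exact Nat.le_mul_of_pos_left _ (Nat.pos_of_ne_zero hr)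

private theorem matXR.marked (h : matXR r i y g g') (hr : r ≠ 0) {U : ℝ} {Q : ι → κ → Finset ℕ}
    {ρr : ι → ℝ} {ρc : κ → ℝ} {A : Finset ι} {B : Finset κ} (hM : Marked U Q ρr ρc A B g) :
    Marked U Q ρr ρc (A.erase i) (B.erase y) g' := by
  have hne : ∀ i' y', g' i' y' ≠ 0 := by
    intro i' y'
    by_cases hh : i' ≠ i ∨ y' ≠ y
    · rw [← h.out i' y' hh]
      exact hM.pos i' y'
    · push Not at hh
      obtain ⟨rfl, rfl⟩ := hh
      intro h0
      have := h.ent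
      rw [h0, mul_zero] at this
      exact hM.pos _ _ this
  refine ⟨hne, fun i' y' q hq => ?_, fun i' => ?_, fun y' => ?_, fun i' hi' => ?_,
    fun y' hy' => ?_, fun i' hi' y' hy' => ?_⟩
  · refine hM.sm i' y' q ?_
    by_cases hh : i' ≠ i ∨ y' ≠ y
    · rw [h.out i' y' hh]
      exact hq
    · push Not at hh
      obtain ⟨rfl, rfl⟩ := hh
      exact Nat.primeFactors_mono (Dvd.intro_left r h.ent.symm) (hM.pos _ _) hq
  · refine le_trans ?_ (hM.rb i')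
    exact_mod_cast Finset.prod_le_prod (fun _ _ => Nat.zero_le _) fun b _ => h.le hr i' b
  · refine le_trans ?_ (hM.cb y')
    exact_mod_cast Finset.prod_le_prod (fun _ _ => Nat.zero_le _) fun b _ => h.le hr b y'
  · rw [← h.row' (Finset.ne_of_mem_erase hi')]
    exact hM.mr i' (Finset.mem_of_mem_erase hi')
  · rw [← h.col' (Finset.ne_of_mem_erase hy')]
    exact hM.mc y' (Finset.mem_of_mem_erase hy')
  · rw [← h.row' (Finset.ne_of_mem_erase hi'), ← h.col' (Finset.ne_of_mem_erase hy')]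
    exact hM.ne i' (Finset.mem_of_mem_erase hi') y' (Finset.mem_of_mem_erase hy')

/-- divide the entry `(i, y)` by `r` -/
private def matXD (i : ι) (y : κ) (g : ι → κ → ℕ) : ι → κ → ℕ := fun i' y' =>
  if i' = i ∧ y' = y then g i' y' / maxp (rowP g i) else g i' y'

private theorem matXD_R (hr : maxp (rowP g i) ∣ g i y) :
    matXR (maxp (rowP g i)) i y g (matXD i y g) := by
  refine ⟨fun i' y' hh => ?_, ?_⟩
  · unfold matXD
    rw [if_neg (by rintro ⟨h1, h2⟩; rcases hh with h | h; exacts [h h1, h h2])]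
  · unfold matXD
    rw [if_pos ⟨rfl, rfl⟩, Nat.mul_div_cancel' hr]

private theorem matX_totP_pos (h : ∀ i y, g i y ≠ 0) : 0 < totP g :=
  Finset.prod_pos fun _ _ => Finset.prod_pos fun _ _ => Nat.pos_of_ne_zero (h _ _)

/-- one fibre -/
private theorem matX_fibre {C2 : ℝ} (hC2 : ∀ (U ρ Z : ℝ) (A B : ℕ) (S : Finset ℕ), 1 ≤ U →
      0 ≤ ρ → 0 ≤ Z →
      1 ≤ A → (A : ℝ) ≤ Real.exp (Real.exp U) → 1 ≤ B → (B : ℝ) ≤ Real.exp (Real.exp U) → A ≠ B →
      (∀ r ∈ S, r.Prime ∧ (r : ℝ) ≤ Real.exp (Real.exp U) ∧ (r : ℝ) ≤ Z ∧ ρ ≤ ll r ∧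
        (A * r + 1).Prime ∧ (B * r + 1).Prime) →
      (S.card : ℝ) ≤ C2 * U ^ 9 * Z * Real.exp (-(3 * ρ)))
    (hC0 : 1 ≤ C2)
    {U : ℝ} {z : ℕ → ℝ} {Q : ι → κ → Finset ℕ} {ρr : ι → ℝ} {ρc : κ → ℝ}
    {A : Finset ι} {B : Finset κ} {ρ0 X : ℝ} (hU : 1 ≤ U) (hz : ∀ q, 0 ≤ z q ∧ z q ≤ 1)
    (hρr : ∀ i, 0 < ρr i) (hρc : ∀ y, 0 < ρc y) (h0 : 0 < ρ0) (hX : 0 ≤ X)
    (hi : i ∈ A) (hy : y ∈ B) (T : Finset (ι → κ → ℕ)) (hne : ∀ i y, g' i y ≠ 0)
    (hT : ∀ g ∈ T, Marked U Q ρr ρc A B g ∧ (totP g : ℝ) ≤ X ∧ (maxp (rowP g i)).Prime ∧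
      maxp (rowP g i) ∣ g i y ∧ maxp (colP g y) = maxp (rowP g i) ∧
      ρ0 ≤ ll (maxp (rowP g i)) ∧ matXD i y g = g') :
    ∑ g ∈ T, ∏ i, ∏ y, zm z (g i y) ≤
      X * Real.exp (-ρ0) * (C2 * U ^ 9 * Real.exp (-(ρr i + ρc y))) *
        ∏ i, ∏ y, (zm z (g' i y) / (g' i y : ℝ)) := by
  have hRHS : 0 ≤ X * Real.exp (-ρ0) * (C2 * U ^ 9 * Real.exp (-(ρr i + ρc y))) *
        ∏ i, ∏ y, (zm z (g' i y) / (g' i y : ℝ)) := by
    have h1 : 0 ≤ ∏ i, ∏ y, (zm z (g' i y) / (g' i y : ℝ)) :=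
      Finset.prod_nonneg fun _ _ => Finset.prod_nonneg fun _ _ =>
        div_nonneg (matX_zm_nonneg (fun q => (hz q).1) _) (Nat.cast_nonneg _)
    positivity
  rcases T.eq_empty_or_nonempty with rfl | ⟨g1, hg1⟩
  · simpa using hRHS
  have hR : ∀ g ∈ T, matXR (maxp (rowP g i)) i y g g' := by
    intro g hg
    obtain ⟨_, _, _, hd, _, _, hD⟩ := hT g hg
    rw [← hD]
    exact matXD_R hd
  have hinj : ∀ a ∈ T, ∀ b ∈ T, maxp (rowP a i) = maxp (rowP b i) → a = b := by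
    intro a ha b hb hab
    have ra := hR a ha
    have rb := hR b hb
    funext i' y'
    by_cases hh : i' ≠ i ∨ y' ≠ y
    · rw [ra.out i' y' hh, rb.out i' y' hh]
    · push Not at hh
      obtain ⟨rfl, rfl⟩ := hh
      rw [ra.ent, rb.ent, hab]
  have htp : 0 < totP g' := matX_totP_pos hne
  have htp' : (0 : ℝ) < totP g' := by exact_mod_cast htp
  set ρ : ℝ := (ρ0 + ρr i + ρc y) / 3 with hρ
  have hρpos : 0 ≤ ρ := by
    have := hρr i
    have := hρc y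
    rw [hρ]
    positivity
  have hM1 := (hT g1 hg1).1
  have hR1 := hR g1 hg1
  have hr1 : maxp (rowP g1 i) ≠ 0 := (hT g1 hg1).2.2.1.ne_zero
  have hM' := hR1.marked hr1 hM1
  have hcard := hC2 U ρ (X / totP g') (rowP g' i) (colP g' y)
    (T.image fun g => maxp (rowP g i)) hU hρpos (div_nonneg hX htp'.le)
    (Nat.one_le_iff_ne_zero.2 (Finset.prod_ne_zero_iff.2 fun b _ => hne i b)) (hM'.rb i)
    (Nat.one_le_iff_ne_zero.2 (Finset.prod_ne_zero_iff.2 fun b _ => hne b y)) (hM'.cb y)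
    (by
      intro h
      have h2 := hM1.ne i hi y hy
      rw [hR1.row, hR1.col, h] at h2
      exact h2 rfl)
    (by
      intro r hr
      obtain ⟨g, hg, rfl⟩ := Finset.mem_image.1 hr
      obtain ⟨hM, htot, hp, hd, hcol, hl0, hD⟩ := hT g hg
      have hRg := hR g hg
      refine ⟨hp, ?_, ?_, ?_, ?_, ?_⟩
      · refine le_trans ?_ (hM.rb i)
        have h1 : maxp (rowP g i) ∣ rowP g i := Dvd.intro _ hRg.row.symm
        have h2 : rowP g i ≠ 0 := Finset.prod_ne_zero_iff.2 fun b _ => hM.pos i b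
        exact_mod_cast Nat.le_of_dvd (Nat.pos_of_ne_zero h2) h1
      · rw [le_div_iff₀ htp']
        have h1 := hRg.tot
        rw [h1] at htot
        push_cast at htot
        exact htot
      · have h1 := (hM.mr i hi).2
        have h2 := (hM.mc y hy).2
        rw [hcol] at h2
        rw [hρ]
        linarith
      · have h1 := (hM.mr i hi).1
        rw [hRg.row, mul_comm] at h1
        exact h1
      · have h1 := (hM.mc y hy).1
        rw [hRg.col, mul_comm] at h1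
        exact h1)
  rw [Finset.card_image_of_injOn (fun a ha b hb hab => hinj a ha b hb hab)] at hcard
  have hF' : 0 ≤ ∏ i, ∏ y, zm z (g' i y) :=
    Finset.prod_nonneg fun _ _ => Finset.prod_nonneg fun _ _ =>
      matX_zm_nonneg (fun q => (hz q).1) _
  have hterm : ∀ g ∈ T, ∏ i, ∏ y, zm z (g i y) ≤ ∏ i, ∏ y, zm z (g' i y) := by
    intro g hg
    rw [(hR g hg).F z (hT g hg).2.2.1 (hne i y)]
    exact mul_le_of_le_one_left hF' (hz _).2
  have hdiv : ∏ i, ∏ y, (zm z (g' i y) / (g' i y : ℝ))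
      = (∏ i, ∏ y, zm z (g' i y)) / (totP g' : ℝ) := by
    unfold totP
    push_cast
    simp only [Finset.prod_div_distrib]
  have hexp : Real.exp (-(3 * ρ)) = Real.exp (-ρ0) * Real.exp (-(ρr i + ρc y)) := by
    rw [← Real.exp_add, hρ]
    congr 1
    ring
  calc ∑ g ∈ T, ∏ i, ∏ y, zm z (g i y)
      ≤ ∑ _g ∈ T, ∏ i, ∏ y, zm z (g' i y) := Finset.sum_le_sum hterm
    _ = (T.card : ℝ) * ∏ i, ∏ y, zm z (g' i y) := by rw [Finset.sum_const, nsmul_eq_mul]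
    _ ≤ (C2 * U ^ 9 * (X / totP g') * Real.exp (-(3 * ρ))) * ∏ i, ∏ y, zm z (g' i y) :=
        mul_le_mul_of_nonneg_right hcard hF'
    _ = _ := by
        rw [hdiv, hexp]
        ring

/-- one class -/
private theorem matX_class {C2 C1 : ℝ} (hC2 : ∀ (U ρ Z : ℝ) (A B : ℕ) (S : Finset ℕ), 1 ≤ U →
      0 ≤ ρ → 0 ≤ Z →
      1 ≤ A → (A : ℝ) ≤ Real.exp (Real.exp U) → 1 ≤ B → (B : ℝ) ≤ Real.exp (Real.exp U) → A ≠ B →
      (∀ r ∈ S, r.Prime ∧ (r : ℝ) ≤ Real.exp (Real.exp U) ∧ (r : ℝ) ≤ Z ∧ ρ ≤ ll r ∧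
        (A * r + 1).Prime ∧ (B * r + 1).Prime) →
      (S.card : ℝ) ≤ C2 * U ^ 9 * Z * Real.exp (-(3 * ρ)))
    (hC0 : 1 ≤ C2)
    (hI : ∀ (ι κ : Type) [Fintype ι] [DecidableEq ι] [Fintype κ]
      [DecidableEq κ] (U : ℝ) (z : ℕ → ℝ) (Q : ι → κ → Finset ℕ) (ρr : ι → ℝ) (ρc : κ → ℝ)
      (A : Finset ι) (B : Finset κ) (G : Finset (ι → κ → ℕ)), 1 ≤ U → (∀ q, 0 ≤ z q ∧ z q ≤ 1) →
      (∀ i y, ∀ q ∈ Q i y, q.Prime) →
      (∀ i, 0 < ρr i) → (∀ y, 0 < ρc y) → (∀ g ∈ G, Marked U Q ρr ρc A B g) →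
      ∑ g ∈ G, ∏ i, ∏ y, (zm z (g i y) / (g i y : ℝ)) ≤
        (3 * (Fintype.card ι : ℝ) * (Fintype.card κ : ℝ) * (C1 * U ^ 9)) ^ (A.card + B.card) *
        Real.exp (-(∑ i ∈ A, ρr i + ∑ y ∈ B, ρc y)) * W0 z Q)
    {U : ℝ} {z : ℕ → ℝ} {Q : ι → κ → Finset ℕ} {ρr : ι → ℝ} {ρc : κ → ℝ}
    {A : Finset ι} {B : Finset κ} {ρ0 X : ℝ} (hU : 1 ≤ U) (hz : ∀ q, 0 ≤ z q ∧ z q ≤ 1)
    (hQ : ∀ i y, ∀ q ∈ Q i y, q.Prime)
    (hρr : ∀ i, 0 < ρr i) (hρc : ∀ y, 0 < ρc y) (h0 : 0 < ρ0) (hX : 0 ≤ X)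
    (hi : i ∈ A) (hy : y ∈ B) (T : Finset (ι → κ → ℕ))
    (hT : ∀ g ∈ T, Marked U Q ρr ρc A B g ∧ (totP g : ℝ) ≤ X ∧ (maxp (rowP g i)).Prime ∧
      maxp (rowP g i) ∣ g i y ∧ maxp (colP g y) = maxp (rowP g i) ∧
      ρ0 ≤ ll (maxp (rowP g i))) :
    ∑ g ∈ T, ∏ i, ∏ y, zm z (g i y) ≤
      X * Real.exp (-ρ0) * ((C2 * U ^ 9) *
        ((3 * (Fintype.card ι : ℝ) * (Fintype.card κ : ℝ) * (C1 * U ^ 9)) ^
          ((A.erase i).card + (B.erase y).card) *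
        Real.exp (-(∑ i ∈ A, ρr i + ∑ y ∈ B, ρc y)) * W0 z Q)) := by
  classical
  have hR : ∀ g ∈ T, Marked U Q ρr ρc (A.erase i) (B.erase y) (matXD i y g) := by
    intro g hg
    obtain ⟨hM, _, hp, hd, _, _⟩ := hT g hg
    exact (matXD_R hd).marked hp.ne_zero hM
  rw [← Finset.sum_fiberwise_of_maps_to (t := T.image (matXD i y)) (g := matXD i y)
    (fun g hg => Finset.mem_image_of_mem _ hg)]
  have h1 : ∀ g' ∈ T.image (matXD i y), ∑ g ∈ T with matXD i y g = g', ∏ i, ∏ y, zm z (g i y) ≤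
      X * Real.exp (-ρ0) * (C2 * U ^ 9 * Real.exp (-(ρr i + ρc y))) *
        ∏ i, ∏ y, (zm z (g' i y) / (g' i y : ℝ)) := by
    intro g' hg'
    obtain ⟨g1, hg1, rfl⟩ := Finset.mem_image.1 hg'
    refine matX_fibre (Q := Q) hC2 hC0 hU hz hρr hρc h0 hX hi hy _ (hR g1 hg1).pos fun g hg => ?_
    obtain ⟨hgT, hgD⟩ := Finset.mem_filter.1 hg
    obtain ⟨a1, a2, a3, a4, a5, a6⟩ := hT g hgT
    exact ⟨a1, a2, a3, a4, a5, a6, hgD⟩
  refine (Finset.sum_le_sum h1).trans ?_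
  rw [← Finset.mul_sum]
  have h2 := hI ι κ U z Q ρr ρc (A.erase i) (B.erase y) (T.image (matXD i y)) hU hz hQ hρr hρc
    (by
      intro g' hg'
      obtain ⟨g1, hg1, rfl⟩ := Finset.mem_image.1 hg'
      exact hR g1 hg1)
  have h3 : 0 ≤ X * Real.exp (-ρ0) * (C2 * U ^ 9 * Real.exp (-(ρr i + ρc y))) := by positivity
  refine (mul_le_mul_of_nonneg_left h2 h3).trans (le_of_eq ?_)
  have h4 : Real.exp (-(ρr i + ρc y)) *
      Real.exp (-(∑ i ∈ A.erase i, ρr i + ∑ y ∈ B.erase y, ρc y))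
      = Real.exp (-(∑ i ∈ A, ρr i + ∑ y ∈ B, ρc y)) := by
    rw [← Real.exp_add, ← Finset.add_sum_erase A ρr hi, ← Finset.add_sum_erase B ρc hy]
    congr 1
    ring
  rw [← h4]
  ring

end

theorem mat_x : ∃ C : ℝ, 1 ≤ C ∧ ∀ (ι κ : Type) [Fintype ι] [DecidableEq ι] [Fintype κ]
    [DecidableEq κ] (U : ℝ) (z : ℕ → ℝ) (Q : ι → κ → Finset ℕ) (ρr : ι → ℝ) (ρc : κ → ℝ)
    (A : Finset ι) (B : Finset κ) (G : Finset (ι → κ → ℕ)) (ρ0 X : ℝ), 1 ≤ U →
    (∀ q, 0 ≤ z q ∧ z q ≤ 1) → (∀ i y, ∀ q ∈ Q i y, q.Prime) →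
    (∀ i, 0 < ρr i) → (∀ y, 0 < ρc y) → 0 < ρ0 → 0 ≤ X →
    (∀ g ∈ G, Marked U Q ρr ρc A B g ∧ (totP g : ℝ) ≤ X ∧
      ∃ i ∈ A, ∃ y ∈ B, ∃ r : ℕ, r.Prime ∧ r ∣ g i y ∧ maxp (rowP g i) = r ∧
        maxp (colP g y) = r ∧ ρ0 ≤ ll r) →
    ∑ g ∈ G, ∏ i, ∏ y, zm z (g i y) ≤
      X * Real.exp (-ρ0) *
      ((3 * (Fintype.card ι : ℝ) * (Fintype.card κ : ℝ) * (C * U ^ 9)) ^ (A.card + B.card) *
      Real.exp (-(∑ i ∈ A, ρr i + ∑ y ∈ B, ρc y)) * W0 z Q) := by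
  classical
  obtain ⟨C1, hC1, hI⟩ := mat_ind
  obtain ⟨C2, hC2, h3x⟩ := three_x
  refine ⟨max C1 C2, le_trans hC1 (le_max_left _ _), ?_⟩
  intro ι κ _ _ _ _ U z Q ρr ρc A B G ρ0 X hU hz hQ hρr hρc h0 hX hG
  have hW0 : 0 ≤ W0 z Q := by
    unfold W0
    refine Finset.prod_nonneg fun i _ => Finset.prod_nonneg fun y _ =>
      Finset.prod_nonneg fun q hq => inv_nonneg.2 ?_
    have h1 : (1 : ℝ) ≤ q := by exact_mod_cast (hQ i y q hq).one_lt.le
    have h2 : z q / q ≤ 1 := by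
      rw [div_le_one (by linarith)]
      exact (hz q).2.trans h1
    linarith
  have hF : ∀ g : ι → κ → ℕ, 0 ≤ ∏ i, ∏ y, zm z (g i y) := fun g =>
    Finset.prod_nonneg fun _ _ => Finset.prod_nonneg fun _ _ =>
      matX_zm_nonneg (fun q => (hz q).1) _
  set T : ι × κ → Finset (ι → κ → ℕ) := fun w => G.filter fun g =>
    (maxp (rowP g w.1)).Prime ∧ maxp (rowP g w.1) ∣ g w.1 w.2 ∧
      maxp (colP g w.2) = maxp (rowP g w.1) ∧ ρ0 ≤ ll (maxp (rowP g w.1)) with hTd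
  have hcover : G ⊆ (A ×ˢ B).biUnion T := by
    intro g hg
    obtain ⟨_, _, i, hi, y, hy, r, hr, hd, h1, h2, h3⟩ := hG g hg
    rw [Finset.mem_biUnion]
    refine ⟨(i, y), Finset.mem_product.2 ⟨hi, hy⟩, ?_⟩
    rw [hTd, Finset.mem_filter]
    refine ⟨hg, ?_, ?_, ?_, ?_⟩
    · rw [h1]; exact hr
    · rw [h1]; exact hd
    · rw [h1, h2]
    · rw [h1]; exact h3
  have hUp : 0 < U ^ 9 := by positivity
  set K : ℝ := 3 * (Fintype.card ι : ℝ) * (Fintype.card κ : ℝ) * (max C1 C2 * U ^ 9) with hK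
  set E : ℝ := Real.exp (-(∑ i ∈ A, ρr i + ∑ y ∈ B, ρc y)) with hE
  have hE0 : 0 ≤ E := (Real.exp_pos _).le
  have hK0 : 0 ≤ K := by
    have : 0 ≤ max C1 C2 := le_trans (by linarith) (le_max_left C1 C2)
    positivity
  have hcls : ∀ w ∈ A ×ˢ B, ∑ g ∈ T w, ∏ i, ∏ y, zm z (g i y) ≤
      X * Real.exp (-ρ0) * ((max C1 C2 * U ^ 9) * (K ^ (A.card + B.card - 1) * E * W0 z Q)) := by
    rintro ⟨i, y⟩ hw
    obtain ⟨hi, hy⟩ := Finset.mem_product.1 hw
    have h1 := matX_class h3x hC2 hI hU hz hQ hρr hρc h0 hX hi hy (T (i, y)) (by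
      intro g hg
      obtain ⟨hgG, a3, a4, a5, a6⟩ := Finset.mem_filter.1 hg
      exact ⟨(hG g hgG).1, (hG g hgG).2.1, a3, a4, a5, a6⟩)
    refine h1.trans ?_
    refine mul_le_mul_of_nonneg_left ?_ (by positivity)
    have hcι : (1 : ℝ) ≤ Fintype.card ι := by
      exact_mod_cast Fintype.card_pos_iff.2 ⟨i⟩
    have hcκ : (1 : ℝ) ≤ Fintype.card κ := by
      exact_mod_cast Fintype.card_pos_iff.2 ⟨y⟩
    have hb0 : 0 ≤ 3 * (Fintype.card ι : ℝ) * (Fintype.card κ : ℝ) * (C1 * U ^ 9) := by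
      positivity
    have hb1 : 3 * (Fintype.card ι : ℝ) * (Fintype.card κ : ℝ) * (C1 * U ^ 9) ≤ K := by
      rw [hK]
      gcongr
      exact le_max_left _ _
    have hK1 : 1 ≤ K := by
      have hm : 1 ≤ max C1 C2 := le_trans hC1 (le_max_left _ _)
      have hU9 : 1 ≤ U ^ 9 := one_le_pow₀ hU
      have h5 : (1 : ℝ) ≤ (Fintype.card ι : ℝ) * (Fintype.card κ : ℝ) := one_le_mul_of_one_le_of_one_le hcι hcκ
      have h6 : (1 : ℝ) ≤ max C1 C2 * U ^ 9 := one_le_mul_of_one_le_of_one_le hm hU9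
      have h7 : (1 : ℝ) ≤ ((Fintype.card ι : ℝ) * (Fintype.card κ : ℝ)) * (max C1 C2 * U ^ 9) :=
        one_le_mul_of_one_le_of_one_le h5 h6
      rw [hK]
      linarith only [h7]
    have hpow : (3 * (Fintype.card ι : ℝ) * (Fintype.card κ : ℝ) * (C1 * U ^ 9)) ^
        ((A.erase i).card + (B.erase y).card) ≤ K ^ (A.card + B.card - 1) := by
      refine (pow_le_pow_left₀ hb0 hb1 _).trans (pow_le_pow_right₀ hK1 ?_)
      rw [Finset.card_erase_of_mem hi, Finset.card_erase_of_mem hy]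
      have := Finset.card_pos.2 ⟨i, hi⟩
      have := Finset.card_pos.2 ⟨y, hy⟩
      omega
    have hCC : C2 * U ^ 9 ≤ max C1 C2 * U ^ 9 :=
      mul_le_mul_of_nonneg_right (le_max_right _ _) hUp.le
    refine mul_le_mul hCC ?_ ?_ ?_
    · exact mul_le_mul_of_nonneg_right (mul_le_mul_of_nonneg_right hpow hE0) hW0
    · exact mul_nonneg (mul_nonneg (pow_nonneg hb0 _) hE0) hW0
    · exact mul_nonneg (le_trans (by linarith) (le_max_left C1 C2)) hUp.le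
  have hsum : ∑ g ∈ G, ∏ i, ∏ y, zm z (g i y) ≤
      ∑ w ∈ A ×ˢ B, ∑ g ∈ T w, ∏ i, ∏ y, zm z (g i y) :=
    (Finset.sum_le_sum_of_subset_of_nonneg hcover fun g _ _ => hF g).trans
      (matX_biUnion _ T _ hF)
  refine hsum.trans ((Finset.sum_le_sum hcls).trans ?_)
  rw [Finset.sum_const, nsmul_eq_mul, Finset.card_product]
  rcases Nat.eq_zero_or_pos (A.card * B.card) with hc | hc
  · rw [hc, Nat.cast_zero, zero_mul]
    positivity
  · have hA : 0 < A.card := Nat.pos_of_mul_pos_right hc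
    have hcard : ((A.card * B.card : ℕ) : ℝ) ≤ (Fintype.card ι : ℝ) * (Fintype.card κ : ℝ) := by
      exact_mod_cast Nat.mul_le_mul (Finset.card_le_univ A) (Finset.card_le_univ B)
    have hKs : K ^ (A.card + B.card) = K * K ^ (A.card + B.card - 1) := by
      rw [← pow_succ']
      congr 1
      omega
    have hR0 : 0 ≤ X * Real.exp (-ρ0) * (K ^ (A.card + B.card - 1) * E * W0 z Q) := by positivity
    have hm0 : 0 ≤ max C1 C2 * U ^ 9 :=
      mul_nonneg (le_trans (by linarith) (le_max_left C1 C2)) hUp.le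
    have h8 : ((A.card * B.card : ℕ) : ℝ) * (max C1 C2 * U ^ 9) ≤ K := by
      have h9 := mul_le_mul_of_nonneg_right hcard hm0
      have h10 : 0 ≤ (Fintype.card ι : ℝ) * (Fintype.card κ : ℝ) * (max C1 C2 * U ^ 9) :=
        mul_nonneg (by positivity) hm0
      rw [hK]
      linarith only [h9, h10]
    have h11 := mul_le_mul_of_nonneg_right h8 hR0
    rw [hKs]
    calc ((A.card * B.card : ℕ) : ℝ) * (X * Real.exp (-ρ0) * (max C1 C2 * U ^ 9 *
          (K ^ (A.card + B.card - 1) * E * W0 z Q)))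
        = ((A.card * B.card : ℕ) : ℝ) * (max C1 C2 * U ^ 9) *
          (X * Real.exp (-ρ0) * (K ^ (A.card + B.card - 1) * E * W0 z Q)) := by ring
      _ ≤ K * (X * Real.exp (-ρ0) * (K ^ (A.card + B.card - 1) * E * W0 z Q)) := h11
      _ = _ := by ring

end P031
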