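import Vale.Agent.Lib.P031.MatDefs
import Vale.Agent.Lib.P031.Step
import Vale.Agent.Lib.P031.LL

/-!
# P031 MatXi: cost of the Rankin weights.

`P = {e i : i < k}`, `hr = hts σ e`, `R_t = Rc hr t = Rt σ P t + 1[t ≤ σ^9]`, `b = σ^102`. With `v = vv P f`,
`log (1/zm z v) = ∑_{t ≥ 1} cnt σ t v log (max 1 R_t) + cnt σ 0 v log ((k+1)(l+1))`,
`cnt σ t v = ∑_i cnt σ t (e i - 1) + cnt σ t f`.
* `cnt σ 0 v ≤ 30 b k + σ^113 ≤ 2 σ^113`, `log((k+1)(l+1)) ≤ 2 log(σ^10 + 1)`: total `≤ σ^114/20`.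
* `∑_t cnt σ t f log(..) ≤ σ^113 log(σ^10 + 1)`.
* `cnt σ t (e i - 1)` is `0` if `t > blk (e i)` (a prime factor is `< e i`), `≤ b + σ^84` if `t + 2 ≤ blk (e i)` (normality,
  `(t + 2) b ≤ blk (e i) b ≤ ll (e i)`), `≤ 30 b` for the at most two other `t`. So
  `∑_{t ≥ 1} ∑_i cnt σ t (e i - 1) log R_t ≤ ∑_{t=1}^{Tm} (b + σ^84) Rt_t log R_t + 60 b k log(σ^10+1)`, and
  `Rt log (Rt + 1) ≤ Rt log Rt + 1`, `∑_{t ≤ σ^9} b ≤ σ^111`, `σ^84 · Tm · σ^10 log(..) ≤ 5 σ^112 log(..)`.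
-/

namespace P031

open Finset Real

/-- total weight -/
private noncomputable def matXiG (σ : ℝ) (W : ℕ → ℝ) (n : ℕ) : ℝ :=
  (n.primeFactorsList.map (fun q => W (blk σ q))).sum

private theorem matXiG_mul (σ : ℝ) (W : ℕ → ℝ) {m n : ℕ} (hm : m ≠ 0) (hn : n ≠ 0) :
    matXiG σ W (m * n) = matXiG σ W m + matXiG σ W n := by
  unfold matXiG
  rw [((Nat.perm_primeFactorsList_mul hm hn).map _).sum_eq, List.map_append, List.sum_append]

private theorem matXiG_prod (σ : ℝ) (W : ℕ → ℝ) (P : Finset ℕ) (h : ∀ p ∈ P, p - 1 ≠ 0) :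
    matXiG σ W (∏ p ∈ P, (p - 1)) = ∑ p ∈ P, matXiG σ W (p - 1) := by
  classical
  induction P using Finset.induction_on with
  | empty => simp [matXiG]
  | insert a P ha ih =>
    rw [Finset.prod_insert ha, Finset.sum_insert ha,
      matXiG_mul σ W (h a (Finset.mem_insert_self a P))
        (Finset.prod_ne_zero_iff.2 fun p hp => h p (Finset.mem_insert_of_mem hp)),
      ih fun p hp => h p (Finset.mem_insert_of_mem hp)]

private theorem matXi_zm {z : ℕ → ℝ} {σ : ℝ} {W : ℕ → ℝ}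
    (hz : ∀ q, z q = Real.exp (-(W (blk σ q)))) (n : ℕ) :
    zm z n = Real.exp (-(matXiG σ W n)) := by
  unfold zm matXiG
  induction n.primeFactorsList with
  | nil => simp
  | cons a L ih =>
    rw [List.map_cons, List.prod_cons, ih, List.map_cons, List.sum_cons, hz, ← Real.exp_add]
    congr 1
    ring

private theorem matXiG_le {σ : ℝ} {W : ℕ → ℝ} {B : ℝ} (h : ∀ t, W t ≤ B) (n : ℕ) :
    matXiG σ W n ≤ Om n * B := by
  unfold matXiG Om
  induction n.primeFactorsList with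
  | nil => simp
  | cons a L ih =>
    rw [List.map_cons, List.sum_cons, List.length_cons]
    push_cast
    have := h (blk σ a)
    linarith

private theorem matXi_sum (f : ℕ → ℕ) (W : ℕ → ℝ) (T : Finset ℕ) (L : List ℕ)
    (h : ∀ q ∈ L, f q ∈ T) :
    (L.map (fun q => W (f q))).sum =
      ∑ t ∈ T, ((L.filter (fun q => f q = t)).length : ℝ) * W t := by
  induction L with
  | nil => simp
  | cons a L ih =>
    have h1 : ∀ t ∈ T, (((a :: L).filter (fun q => f q = t)).length : ℝ) * W t =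
        (if f a = t then W t else 0) + ((L.filter (fun q => f q = t)).length : ℝ) * W t := by
      intro t _
      by_cases hft : f a = t
      · simp [hft]
        ring
      · simp [hft]
    rw [Finset.sum_congr rfl h1, Finset.sum_add_distrib, Finset.sum_ite_eq,
      if_pos (h a List.mem_cons_self), List.map_cons, List.sum_cons,
      ih fun q hq => h q (List.mem_cons_of_mem _ hq)]

private theorem matXiG_prime {σ : ℝ} (hσ : 1 ≤ σ) {W : ℕ → ℝ} {Λ : ℝ} (hΛ : 0 ≤ Λ)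
    (hW0 : W 0 ≤ 2 * Λ) (hW : ∀ t, 1 ≤ t → W t ≤ Λ) (hWn : ∀ t, 0 ≤ W t) {p : ℕ}
    (hp : p.Prime) (hN : Normal σ p) (hl : 0 ≤ ll p) (hB : blk σ p + 2 ≤ Tm σ) :
    matXiG σ W (p - 1) ≤
      ∑ t ∈ Finset.Icc 1 (Tm σ), (if t ≤ blk σ p then (σ ^ 102 + σ ^ 84) * W t else 0)
        + 120 * σ ^ 102 * Λ := by
  have hb : (0:ℝ) < σ ^ 102 := by positivity
  have h84 : (0:ℝ) < σ ^ 84 := by positivity
  have hp2 := hp.two_le
  have hlt : ∀ q ∈ (p - 1).primeFactors, q < p := by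
    intro q hq
    have h1 := Nat.le_of_dvd (by omega) (Nat.dvd_of_mem_primeFactors hq)
    omega
  have h0 : matXiG σ W (p - 1) = ∑ t ∈ insert 0 (Finset.Icc 1 (Tm σ)),
      (cnt σ t (p - 1) : ℝ) * W t := by
    refine matXi_sum (blk σ) W _ _ fun q hq => ?_
    have hq1 := Nat.prime_of_mem_primeFactorsList hq
    have hq2 : q ∈ (p - 1).primeFactors := List.mem_toFinset.2 hq
    have := blk_mono hσ hq1.two_le (hlt q hq2).le
    rw [Finset.mem_insert, Finset.mem_Icc]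
    omega
  rw [h0, Finset.sum_insert (by simp)]
  have h1 : (cnt σ 0 (p - 1) : ℝ) * W 0 ≤ 60 * σ ^ 102 * Λ := by
    calc (cnt σ 0 (p - 1) : ℝ) * W 0 ≤ (30 * σ ^ 102) * (2 * Λ) :=
          mul_le_mul (hN.2 0) hW0 (hWn 0) (by positivity)
      _ = 60 * σ ^ 102 * Λ := by ring
  have h2 : ∀ t ∈ Finset.Icc 1 (Tm σ), (cnt σ t (p - 1) : ℝ) * W t ≤
      (if t ≤ blk σ p then (σ ^ 102 + σ ^ 84) * W t else 0) +
      (if blk σ p < t + 2 ∧ t ≤ blk σ p then 30 * σ ^ 102 * Λ else 0) := by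
    intro t ht
    rw [Finset.mem_Icc] at ht
    rcases le_or_gt t (blk σ p) with h | h
    · rw [if_pos h]
      by_cases hf : t + 2 ≤ blk σ p
      · rw [if_neg (by omega), add_zero]
        refine mul_le_mul_of_nonneg_right ?_ (hWn t)
        have h3 : ((t : ℝ) + 2) * σ ^ 102 ≤ ll p := by
          refine le_trans ?_ (blk_mul_le hσ hl)
          refine mul_le_mul_of_nonneg_right ?_ hb.le
          exact_mod_cast hf
        have h4 := (abs_le.mp (hN.1 t ht.1 h3)).2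
        linarith
      · rw [if_pos (by omega)]
        have h5 : (cnt σ t (p - 1) : ℝ) * W t ≤ 30 * σ ^ 102 * Λ :=
          mul_le_mul (hN.2 t) (hW t ht.1) (hWn t) (by positivity)
        have h6 : 0 ≤ (σ ^ 102 + σ ^ 84) * W t := mul_nonneg (by positivity) (hWn t)
        linarith
    · rw [if_neg (by omega), if_neg (by omega), step_cnt_zero hσ hlt h]
      simp
  have h3 := Finset.sum_le_sum h2
  rw [Finset.sum_add_distrib, ← Finset.sum_filter (fun t => blk σ p < t + 2 ∧ t ≤ blk σ p),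
    Finset.sum_const, nsmul_eq_mul] at h3
  have h4 := mul_le_mul_of_nonneg_right (step_card' (B := blk σ p) (T := Tm σ))
    (show 0 ≤ 30 * σ ^ 102 * Λ by positivity)
  linarith

private theorem matXi_Rt {σ : ℝ} {k : ℕ} {e : Fin k → ℕ} (he : StrictMono e) (t : ℕ) :
    Rt σ (Finset.univ.image e) t = (Finset.univ.filter (fun i => t ≤ blk σ (e i))).card := by
  unfold Rt
  rw [Finset.filter_image, Finset.card_image_of_injective _ he.injective]

private theorem matXi_Rc {σ : ℝ} {k : ℕ} {e : Fin k → ℕ} (he : StrictMono e) (t : ℕ) :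
    Rc (hts σ e) t = (if t ≤ ⌊σ ^ 9⌋₊ then 1 else 0) + Rt σ (Finset.univ.image e) t := by
  rw [matXi_Rt he]
  unfold Rc
  rw [Finset.card_filter, Finset.card_filter, Fintype.sum_option]
  rfl

private theorem matXi_log {n : ℕ} : (n : ℝ) * Real.log ((n : ℝ) + 1) ≤
    (n : ℝ) * Real.log (n : ℝ) + 1 := by
  rcases Nat.eq_zero_or_pos n with h | h
  · subst h
    simp
  · have h0 : (0:ℝ) < n := by exact_mod_cast h
    have h1 : Real.log ((n : ℝ) + 1) = Real.log (n : ℝ) + Real.log (1 + 1 / (n : ℝ)) := by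
      rw [← Real.log_mul h0.ne' (by positivity)]
      congr 1
      field_simp
    have h2 : Real.log (1 + 1 / (n : ℝ)) ≤ 1 / (n : ℝ) := by
      have := Real.log_le_sub_one_of_pos (show 0 < 1 + 1 / (n : ℝ) by positivity)
      linarith
    rw [h1, mul_add]
    have h3 := mul_le_mul_of_nonneg_left h2 h0.le
    have h4 : (n : ℝ) * (1 / (n : ℝ)) = 1 := by field_simp
    linarith

private theorem matXi_ev : ∀ᶠ σ : ℝ in Filter.atTop, 1000 ≤ σ ∧
    Real.log (σ ^ 10 + 1) ≤ σ / 20 := by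
  have h1 : ∀ᶠ σ : ℝ in Filter.atTop, (1000000 : ℝ) ≤ σ := Filter.eventually_ge_atTop 1000000
  filter_upwards [h1] with σ hσ
  refine ⟨by linarith, ?_⟩
  have h0 : (0:ℝ) < σ := by linarith
  have h19 : (1:ℝ) ≤ σ ^ 10 := one_le_pow₀ (by linarith)
  have h2 : σ ^ 10 + 1 ≤ σ ^ 11 := by
    calc σ ^ 10 + 1 ≤ 2 * σ ^ 10 := by linarith
      _ ≤ σ * σ ^ 10 := mul_le_mul_of_nonneg_right (by linarith) (by linarith)
      _ = σ ^ 11 := by ring
  refine (Real.log_le_log (by linarith) h2).trans ?_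
  rw [Real.log_pow]
  have h3 : Real.log (√σ) ≤ √σ - 1 := Real.log_le_sub_one_of_pos (Real.sqrt_pos.mpr h0)
  rw [Real.log_sqrt h0.le] at h3
  have h4 : √σ * √σ = σ := Real.mul_self_sqrt h0.le
  have h5 : (1000:ℝ) ≤ √σ := by
    rw [show (1000:ℝ) = √(1000 ^ 2) by rw [Real.sqrt_sq (by norm_num)]]
    exact Real.sqrt_le_sqrt (by linarith)
  have h6 : 1000 * √σ ≤ √σ * √σ := mul_le_mul_of_nonneg_right h5 (by linarith)
  push_cast
  linarith

theorem xi_le : ∀ᶠ σ : ℝ in Filter.atTop, ∀ (k l : ℕ) (e : Fin k → ℕ) (hc : Option (Fin l) → ℕ)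
    (f : ℕ), StrictMono e → (l : ℝ) ≤ σ ^ 10 → Adm σ (Finset.univ.image e) f →
    0 < zm (zz σ (hts σ e) hc) (vv (Finset.univ.image e) f) ∧
    (zm (zz σ (hts σ e) hc) (vv (Finset.univ.image e) f))⁻¹ ≤
      Real.exp (∑ t ∈ Finset.Icc 1 (Tm σ), σ ^ 102 *
        ((Rt σ (Finset.univ.image e) t : ℝ) * Real.log (Rt σ (Finset.univ.image e) t : ℝ)) +
        σ ^ 114 / 4) := by
  filter_upwards [matXi_ev] with σ hσ0 k l e hc f he hl hA
  obtain ⟨hσ2, hΛσ⟩ := hσ0
  have hσ : 1 ≤ σ := by linarith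
  have hb : (0:ℝ) < σ ^ 102 := by positivity
  set Λ : ℝ := Real.log (σ ^ 10 + 1) with hΛdef
  have hΛ : 0 ≤ Λ := Real.log_nonneg (by have : (0:ℝ) ≤ σ ^ 10 := by positivity
                                         linarith)
  set P : Finset ℕ := Finset.univ.image e with hP
  have hcard : P.card = k := by
    rw [hP, Finset.card_image_of_injective _ he.injective, Finset.card_univ, Fintype.card_fin]
  have hk : (k : ℝ) ≤ σ ^ 10 := by
    rw [← hcard]
    exact hA.cardP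
  -- the weights
  set W : ℕ → ℝ := fun t => if t = 0 then Real.log (((k : ℝ) + 1) * ((l : ℝ) + 1))
    else Real.log ((max 1 (Rc (hts σ e) t) : ℕ) : ℝ) with hWdef
  have hRc : ∀ t, (Rc (hts σ e) t : ℝ) ≤ (k : ℝ) + 1 := by
    intro t
    have h1 : Rc (hts σ e) t ≤ k + 1 := by
      unfold Rc
      refine (Finset.card_filter_le _ _).trans ?_
      rw [Finset.card_univ, Fintype.card_option, Fintype.card_fin]
    exact_mod_cast h1
  have hW0 : W 0 ≤ 2 * Λ := by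
    simp only [hWdef, if_true]
    have h1 : ((k : ℝ) + 1) * ((l : ℝ) + 1) ≤ (σ ^ 10 + 1) ^ 2 := by
      rw [sq]
      exact mul_le_mul (by linarith) (by linarith) (by positivity) (by positivity)
    refine (Real.log_le_log (by positivity) h1).trans ?_
    rw [Real.log_pow]
    push_cast
    linarith
  have hW : ∀ t, 1 ≤ t → W t ≤ Λ := by
    intro t ht
    simp only [hWdef]
    rw [if_neg (by omega)]
    have h1 : (1:ℝ) ≤ ((max 1 (Rc (hts σ e) t) : ℕ) : ℝ) := by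
      exact_mod_cast le_max_left _ _
    refine Real.log_le_log (by linarith) ?_
    have h2 : ((max 1 (Rc (hts σ e) t) : ℕ) : ℝ) = max 1 (Rc (hts σ e) t : ℝ) := by
      push_cast
      rfl
    rw [h2]
    refine max_le ?_ ((hRc t).trans (by linarith))
    have : (0:ℝ) ≤ σ ^ 10 := by positivity
    linarith
  have hWn : ∀ t, 0 ≤ W t := by
    intro t
    simp only [hWdef]
    split_ifs with h
    · refine Real.log_nonneg ?_
      have h1 : (0:ℝ) ≤ k := Nat.cast_nonneg k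
      have h2 : (0:ℝ) ≤ l := Nat.cast_nonneg l
      nlinarith only []
    · refine Real.log_nonneg ?_
      exact_mod_cast le_max_left _ _
  have hWall : ∀ t, W t ≤ 2 * Λ := by
    intro t
    rcases Nat.eq_zero_or_pos t with h | h
    · rw [h]
      exact hW0
    · have := hW t h
      linarith
  have hz : ∀ q, zz σ (hts σ e) hc q = Real.exp (-(W (blk σ q))) := by
    intro q
    simp only [zz, hWdef]
    split_ifs with h
    · rw [Real.exp_neg, Real.exp_log (by positivity), Fintype.card_option, Fintype.card_option,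
        Fintype.card_fin, Fintype.card_fin, one_div]
      push_cast
      rfl
    · rw [Real.exp_neg, Real.exp_log, one_div]
      have h1 : (1:ℝ) ≤ ((max 1 (Rc (hts σ e) (blk σ q)) : ℕ) : ℝ) := by
        exact_mod_cast le_max_left _ _
      linarith
  rw [matXi_zm hz]
  refine ⟨Real.exp_pos _, ?_⟩
  rw [Real.exp_neg, inv_inv]
  refine Real.exp_le_exp.2 ?_
  -- decomposition
  have hp1 : ∀ p ∈ P, p - 1 ≠ 0 := by
    intro p hp
    have := (hA.pr p hp).1.two_le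
    omega
  unfold vv
  rw [matXiG_mul σ W hA.fpos.ne' (Finset.prod_ne_zero_iff.2 hp1), matXiG_prod σ W P hp1]
  have hf : matXiG σ W f ≤ σ ^ 113 * (2 * Λ) := by
    refine (matXiG_le hWall f).trans ?_
    exact mul_le_mul_of_nonneg_right hA.fOm (by linarith)
  have hps : ∀ p ∈ P, matXiG σ W (p - 1) ≤
      ∑ t ∈ Finset.Icc 1 (Tm σ), (if t ≤ blk σ p then (σ ^ 102 + σ ^ 84) * W t else 0)
        + 120 * σ ^ 102 * Λ := by
    intro p hp
    obtain ⟨a1, a2, a3, a4⟩ := hA.pr p hp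
    refine matXiG_prime hσ hΛ hW0 hW hWn a1 a3 (le_trans (by positivity) a2.le) ?_
    exact blk_lt_Tm hσ ((le_EE_iff a1.two_le).1 a4)
  have hsum := Finset.sum_le_sum hps
  rw [Finset.sum_add_distrib, Finset.sum_const, nsmul_eq_mul, Finset.sum_comm] at hsum
  have hinner : ∀ t ∈ Finset.Icc 1 (Tm σ),
      ∑ p ∈ P, (if t ≤ blk σ p then (σ ^ 102 + σ ^ 84) * W t else 0)
        = (σ ^ 102 + σ ^ 84) * ((Rt σ P t : ℝ) * W t) := by
    intro t _
    rw [← Finset.sum_filter, Finset.sum_const, nsmul_eq_mul]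
    unfold Rt
    ring
  rw [Finset.sum_congr rfl hinner, ← Finset.mul_sum] at hsum
  -- bounds for the main sum
  have hRk : ∀ t, (Rt σ P t : ℝ) ≤ σ ^ 10 := by
    intro t
    refine le_trans ?_ hA.cardP
    exact_mod_cast Finset.card_filter_le _ _
  have hS1 : ∑ t ∈ Finset.Icc 1 (Tm σ), (Rt σ P t : ℝ) * W t ≤ 5 * σ ^ 28 * Λ := by
    have h1 : ∀ t ∈ Finset.Icc 1 (Tm σ), (Rt σ P t : ℝ) * W t ≤ σ ^ 10 * Λ := by
      intro t ht
      rw [Finset.mem_Icc] at ht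
      exact mul_le_mul (hRk t) (hW t ht.1) (hWn t) (by positivity)
    refine (Finset.sum_le_sum h1).trans ?_
    rw [Finset.sum_const, nsmul_eq_mul, Nat.card_Icc, Nat.add_sub_cancel]
    calc (Tm σ : ℝ) * (σ ^ 10 * Λ) ≤ 5 * σ ^ 18 * (σ ^ 10 * Λ) :=
          mul_le_mul_of_nonneg_right (Tm_le hσ) (by positivity)
      _ = 5 * σ ^ 28 * Λ := by ring
  have hS2 : ∑ t ∈ Finset.Icc 1 (Tm σ), (Rt σ P t : ℝ) * W t ≤
      ∑ t ∈ Finset.Icc 1 (Tm σ), (Rt σ P t : ℝ) * Real.log (Rt σ P t : ℝ) + σ ^ 9 := by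
    have h1 : ∀ t ∈ Finset.Icc 1 (Tm σ), (Rt σ P t : ℝ) * W t ≤
        (Rt σ P t : ℝ) * Real.log (Rt σ P t : ℝ) + (if t ≤ ⌊σ ^ 9⌋₊ then 1 else 0) := by
      intro t ht
      rw [Finset.mem_Icc] at ht
      simp only [hWdef]
      rw [if_neg (by omega), matXi_Rc he]
      by_cases h : t ≤ ⌊σ ^ 9⌋₊
      · rw [if_pos h, if_pos h, max_eq_right (Nat.le_add_right _ _)]
        have h2 := matXi_log (n := Rt σ P t)
        push_cast
        rw [add_comm (1:ℝ)]
        exact h2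
      · rw [if_neg h, if_neg h, zero_add, add_zero]
        rcases Nat.eq_zero_or_pos (Rt σ P t) with h2 | h2
        · rw [← hP, h2]
          simp
        · rw [← hP, max_eq_right h2]
    refine (Finset.sum_le_sum h1).trans ?_
    rw [Finset.sum_add_distrib, ← Finset.sum_filter, Finset.sum_const, nsmul_eq_mul, mul_one]
    have h3 : ((Finset.Icc 1 (Tm σ)).filter (fun t => t ≤ ⌊σ ^ 9⌋₊)).card ≤ ⌊σ ^ 9⌋₊ := by
      have h4 : (Finset.Icc 1 (Tm σ)).filter (fun t => t ≤ ⌊σ ^ 9⌋₊) ⊆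
          Finset.Icc 1 ⌊σ ^ 9⌋₊ := by
        intro t ht
        rw [Finset.mem_filter, Finset.mem_Icc] at ht
        rw [Finset.mem_Icc]
        exact ⟨ht.1.1, ht.2⟩
      refine (Finset.card_le_card h4).trans ?_
      rw [Nat.card_Icc, Nat.add_sub_cancel]
    have h5 : (((Finset.Icc 1 (Tm σ)).filter (fun t => t ≤ ⌊σ ^ 9⌋₊)).card : ℝ) ≤ σ ^ 9 :=
      le_trans (by exact_mod_cast h3) (Nat.floor_le (by positivity))
    linarith
  have hS3 : (σ ^ 102 + σ ^ 84) * ∑ t ∈ Finset.Icc 1 (Tm σ), (Rt σ P t : ℝ) * W t ≤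
      σ ^ 102 * (∑ t ∈ Finset.Icc 1 (Tm σ), (Rt σ P t : ℝ) * Real.log (Rt σ P t : ℝ) + σ ^ 9)
        + σ ^ 84 * (5 * σ ^ 28 * Λ) := by
    rw [add_mul]
    exact add_le_add (mul_le_mul_of_nonneg_left hS2 hb.le)
      (mul_le_mul_of_nonneg_left hS1 (by positivity))
  have hS4 : (P.card : ℝ) * (120 * σ ^ 102 * Λ) ≤ σ ^ 10 * (120 * σ ^ 102 * Λ) :=
    mul_le_mul_of_nonneg_right hA.cardP (by positivity)
  rw [← Finset.mul_sum]
  -- final numerics
  have n1 : σ ^ 113 * (2 * Λ) ≤ σ ^ 114 / 10 := by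
    calc σ ^ 113 * (2 * Λ) ≤ σ ^ 113 * (2 * (σ / 20)) :=
          mul_le_mul_of_nonneg_left (by linarith) (by positivity)
      _ = σ ^ 114 / 10 := by ring
  have n2 : σ ^ 112 * Λ ≤ σ ^ 113 / 20 := by
    calc σ ^ 112 * Λ ≤ σ ^ 112 * (σ / 20) :=
          mul_le_mul_of_nonneg_left hΛσ (by positivity)
      _ = σ ^ 113 / 20 := by ring
  have n3 : 1000 * σ ^ 113 ≤ σ ^ 114 := by
    calc 1000 * σ ^ 113 ≤ σ * σ ^ 113 := mul_le_mul_of_nonneg_right hσ2 (by positivity)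
      _ = σ ^ 114 := by ring
  have n4 : σ ^ 111 ≤ σ ^ 113 := pow_le_pow_right₀ hσ (by norm_num)
  have n5 : (0:ℝ) < σ ^ 113 := by positivity
  have e1 : σ ^ 102 * (∑ t ∈ Finset.Icc 1 (Tm σ),
      (Rt σ P t : ℝ) * Real.log (Rt σ P t : ℝ) + σ ^ 9)
      = σ ^ 102 * ∑ t ∈ Finset.Icc 1 (Tm σ), (Rt σ P t : ℝ) * Real.log (Rt σ P t : ℝ)
        + σ ^ 111 := by ring
  have e2 : σ ^ 84 * (5 * σ ^ 28 * Λ) = 5 * (σ ^ 112 * Λ) := by ring
  have e3 : σ ^ 10 * (120 * σ ^ 102 * Λ) = 120 * (σ ^ 112 * Λ) := by ring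
  rw [e1, e2] at hS3
  rw [e3] at hS4
  linarith

/-- exponent identity: `b (R log R - R) = b (Qp R - 1)` if `R ≥ 1` and `0` if `R = 0`;
`∑_{t=1}^{Tm} Rt_t = ∑_i blk (e i)` (all `blk ≤ Tm`), `#{t ≥ 1 : Rt_t ≥ 1} = blk (maxs P)`. -/
theorem xi_expo : ∀ᶠ σ : ℝ in Filter.atTop, ∀ (k : ℕ) (e : Fin k → ℕ), StrictMono e → 0 < k →
    (∀ i, (e i).Prime ∧ e i ≤ EE σ) →
    ∑ t ∈ Finset.Icc 1 (Tm σ), σ ^ 102 *
        ((Rt σ (Finset.univ.image e) t : ℝ) * Real.log (Rt σ (Finset.univ.image e) t : ℝ)) -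
      ∑ i, σ ^ 102 * (blk σ (e i) : ℝ) =
    AP σ (Finset.univ.image e) - σ ^ 102 * (blk σ (maxs (Finset.univ.image e)) : ℝ) := by
  filter_upwards [matXi_ev] with σ hσ0 k e he hk hpr
  have hσ : 1 ≤ σ := by linarith [hσ0.1]
  have hB : ∀ i, blk σ (e i) ≤ Tm σ := by
    intro i
    have := blk_lt_Tm hσ ((le_EE_iff (hpr i).1.two_le).1 (hpr i).2)
    omega
  set P : Finset ℕ := Finset.univ.image e with hP
  have hne : P.Nonempty := ⟨e ⟨0, hk⟩, Finset.mem_image_of_mem _ (Finset.mem_univ _)⟩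
  have hmax : maxs P ∈ P := by
    obtain ⟨p, hp, hpe⟩ := Finset.exists_mem_eq_sup P hne id
    unfold maxs
    rw [hpe]
    exact hp
  obtain ⟨i0, -, hi0⟩ := Finset.mem_image.1 hmax
  have hle : ∀ p ∈ P, p ≤ maxs P := fun p hp => Finset.le_sup (f := id) hp
  -- Qp at natural numbers
  have hQ : ∀ n : ℕ, Qp (n : ℝ) = (n : ℝ) * Real.log (n : ℝ) - (n : ℝ)
      + (if 1 ≤ n then 1 else 0) := by
    intro n
    unfold Qp
    rcases Nat.lt_or_ge 1 n with h | h
    · have h1 : (1:ℝ) < n := by exact_mod_cast h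
      rw [if_neg (by linarith), if_pos h.le]
      unfold QQ
      ring
    · have h1 : (n : ℝ) ≤ 1 := by exact_mod_cast h
      rw [if_pos h1]
      interval_cases n
      · simp
      · simp
  have hsumR : ∑ t ∈ Finset.Icc 1 (Tm σ), (Rt σ P t : ℝ) = ∑ i, (blk σ (e i) : ℝ) := by
    have h1 : ∀ t ∈ Finset.Icc 1 (Tm σ), (Rt σ P t : ℝ)
        = ∑ i : Fin k, (if t ≤ blk σ (e i) then (1:ℝ) else 0) := by
      intro t _
      rw [hP, matXi_Rt he, Finset.card_filter]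
      push_cast
      rfl
    rw [Finset.sum_congr rfl h1, Finset.sum_comm]
    refine Finset.sum_congr rfl fun i _ => ?_
    rw [← Finset.sum_filter, Finset.sum_const, nsmul_eq_mul, mul_one]
    have h2 : (Finset.Icc 1 (Tm σ)).filter (fun t => t ≤ blk σ (e i))
        = Finset.Icc 1 (blk σ (e i)) := by
      ext t
      rw [Finset.mem_filter, Finset.mem_Icc, Finset.mem_Icc]
      have := hB i
      omega
    rw [h2, Nat.card_Icc, Nat.add_sub_cancel]
  have hcount : ∑ t ∈ Finset.Icc 1 (Tm σ), (if 1 ≤ Rt σ P t then (1:ℝ) else 0)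
      = (blk σ (maxs P) : ℝ) := by
    rw [← Finset.sum_filter, Finset.sum_const, nsmul_eq_mul, mul_one]
    have h2 : (Finset.Icc 1 (Tm σ)).filter (fun t => 1 ≤ Rt σ P t)
        = Finset.Icc 1 (blk σ (maxs P)) := by
      ext t
      rw [Finset.mem_filter, Finset.mem_Icc, Finset.mem_Icc]
      constructor
      · rintro ⟨⟨h3, h4⟩, h5⟩
        refine ⟨h3, ?_⟩
        obtain ⟨p, hp⟩ := Finset.card_pos.1 (show 0 < Rt σ P t by omega)
        rw [Finset.mem_filter] at hp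
        have hp2 : 2 ≤ p := by
          obtain ⟨i, -, rfl⟩ := Finset.mem_image.1 hp.1
          exact (hpr i).1.two_le
        exact hp.2.trans (blk_mono hσ hp2 (hle p hp.1))
      · rintro ⟨h3, h4⟩
        refine ⟨⟨h3, h4.trans ?_⟩, ?_⟩
        · rw [← hi0]
          exact hB i0
        · exact Finset.card_pos.2 ⟨maxs P, Finset.mem_filter.2 ⟨hmax, h4⟩⟩
    rw [h2, Nat.card_Icc, Nat.add_sub_cancel]
  unfold AP
  have e1 : ∀ t ∈ Finset.Icc 1 (Tm σ), σ ^ 102 * Qp (Rt σ P t : ℝ)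
      = σ ^ 102 * ((Rt σ P t : ℝ) * Real.log (Rt σ P t : ℝ)) - σ ^ 102 * (Rt σ P t : ℝ)
        + σ ^ 102 * (if 1 ≤ Rt σ P t then (1:ℝ) else 0) := by
    intro t _
    rw [hQ]
    ring
  rw [Finset.sum_congr rfl e1, Finset.sum_add_distrib, Finset.sum_sub_distrib, ← Finset.mul_sum,
    ← Finset.mul_sum, ← Finset.mul_sum, ← Finset.mul_sum, hsumR, hcount]
  ring

end P031
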