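import Vale.Agent.Lib.P031.Basic
import Vale.Agent.Lib.P031.SieveP
import Vale.Agent.Lib.P031.RankinW

/-!
# P031 NNBig: primes which are not normal are rare.
`b = σ^102`, `D = σ^84`, `s = σ^120`.
-/

namespace P031

open Finset Real

private theorem nnbig_list {σ : ℝ} {t : ℕ} {l : List ℕ} (hl : ∀ q ∈ l, q.Prime ∧ blk σ q = t) :
    l.prod ≠ 0 ∧ Om l.prod = l.length ∧ ∀ q ∈ l.prod.primeFactors, blk σ q = t := by
  have hperm := Nat.primeFactorsList_unique (n := l.prod) (l := l) rfl (fun p hp => (hl p hp).1)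
  refine ⟨?_, ?_, ?_⟩
  · intro h0
    rw [List.prod_eq_zero_iff] at h0
    exact (hl 0 h0).1.ne_zero rfl
  · unfold Om
    exact hperm.length_eq.symm
  · intro q hq
    rw [Nat.mem_primeFactors_iff_mem_primeFactorsList] at hq
    exact (hl q (hperm.mem_iff.2 hq)).2

private theorem nnbig_split (σ : ℝ) (t k n : ℕ) (hn : n ≠ 0) (hk : 2 * k ≤ cnt σ t n) :
    ∃ a : ℕ, a ≠ 0 ∧ a ∣ n ∧ a * a ≤ n ∧ Om a = k ∧ ∀ q ∈ a.primeFactors, blk σ q = t := by
  set L := n.primeFactorsList.filter (fun q => blk σ q = t) with hL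
  have hlen : L.length = cnt σ t n := rfl
  have hmem : ∀ q ∈ L, q.Prime ∧ blk σ q = t := by
    intro q hq
    rw [hL, List.mem_filter] at hq
    exact ⟨Nat.prime_of_mem_primeFactorsList hq.1, by simpa using hq.2⟩
  have hdvd : L.prod ∣ n := by
    have h1 : L.prod ∣ n.primeFactorsList.prod := List.filter_sublist.prod_dvd_prod
    rwa [Nat.prod_primeFactorsList hn] at h1
  have h1 : (L.take k).prod * ((L.drop k).take k).prod ∣ n := by
    rw [← List.prod_append, ← List.take_add]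
    exact ((List.take_sublist _ _).prod_dvd_prod).trans hdvd
  have hm1 : ∀ q ∈ L.take k, q.Prime ∧ blk σ q = t := fun q hq => hmem q (List.mem_of_mem_take hq)
  have hm2 : ∀ q ∈ (L.drop k).take k, q.Prime ∧ blk σ q = t := fun q hq =>
    hmem q (List.mem_of_mem_drop (List.mem_of_mem_take hq))
  have hl1 : (L.take k).length = k := by
    rw [List.length_take]
    omega
  have hl2 : ((L.drop k).take k).length = k := by
    rw [List.length_take, List.length_drop]
    omega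
  obtain ⟨a1, a2, a3⟩ := nnbig_list hm1
  obtain ⟨b1, b2, b3⟩ := nnbig_list hm2
  rw [hl1] at a2
  rw [hl2] at b2
  have hle := Nat.le_of_dvd (Nat.pos_of_ne_zero hn) h1
  rcases le_total (L.take k).prod ((L.drop k).take k).prod with h | h
  · exact ⟨_, a1, (Dvd.intro _ rfl).trans h1, (Nat.mul_le_mul_left _ h).trans hle, a2, a3⟩
  · exact ⟨_, b1, (Dvd.intro_left _ rfl).trans h1, (Nat.mul_le_mul_right _ h).trans hle, b2, b3⟩

private theorem nnbig_log : (2 : ℝ) / 5 ≤ Real.log (3 / 2) := by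
  rw [Real.le_log_iff_exp_le (by norm_num)]
  have h1 := Real.exp_one_lt_d9
  have h2 : (Real.exp (2 / 5)) ^ 5 = Real.exp 1 ^ 2 := by
    rw [← Real.exp_nat_mul, ← Real.exp_nat_mul]
    norm_num
  have h3 : Real.exp 1 ^ 2 ≤ (3 / 2 : ℝ) ^ 5 := by
    have h4 : Real.exp 1 ^ 2 ≤ (2.7182818286 : ℝ) ^ 2 :=
      pow_le_pow_left₀ (Real.exp_pos _).le h1.le 2
    refine h4.trans ?_
    norm_num
  rw [← h2] at h3
  exact le_of_pow_le_pow_left₀ (by norm_num) (by norm_num) h3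

private theorem nnbig_factor {q : ℕ} (hq : q.Prime) :
    (1 - (3 / 2 : ℝ) / q)⁻¹ ≤ Real.exp (2 * (1 / ((q : ℝ) - 1)) + if q = 2 then 1 else 0) := by
  have h2 : (2 : ℝ) ≤ q := by exact_mod_cast hq.two_le
  have h3 : (0 : ℝ) < q - 3 / 2 := by linarith
  have h4 : (0 : ℝ) < q := by linarith
  have h5 : (0 : ℝ) < q - 1 := by linarith
  have h1 : (1 - (3 / 2 : ℝ) / q)⁻¹ = (3 / 2) / (q - 3 / 2) + 1 := by
    have e1 : 1 - (3 / 2 : ℝ) / q = (q - 3 / 2) / q := by
      field_simp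
    rw [e1, inv_div, div_add_one h3.ne']
    congr 1
    ring
  rw [h1]
  refine (Real.add_one_le_exp _).trans ?_
  apply Real.exp_le_exp.2
  split_ifs with hh
  · subst hh
    norm_num
  · have h6 : (3 : ℝ) ≤ q := by
      have : 3 ≤ q := by
        have := hq.two_le
        omega
      exact_mod_cast this
    rw [add_zero, mul_one_div, div_le_div_iff₀ h3 h5]
    linarith

private theorem nnbig_blocksum : ∃ C : ℝ, 1 ≤ C ∧ ∀ (σ : ℝ) (t : ℕ) (Q : Finset ℕ), 1 ≤ σ →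
    (∀ q ∈ Q, q.Prime ∧ blk σ q = t) → ∑ q ∈ Q, 1 / ((q : ℝ) - 1) ≤ σ ^ 102 + C := by
  obtain ⟨C1, hC1, h1⟩ := mert_int
  obtain ⟨C2, hC2, h2⟩ := mert_all
  refine ⟨C1 + C2, by linarith, ?_⟩
  intro σ t Q hσ hQ
  have hb : 0 < σ ^ 102 := by positivity
  rcases Nat.eq_zero_or_pos t with ht | ht
  · have h3 := h2 (σ ^ 102) hb.le Q (fun q hq => by
      refine ⟨(hQ q hq).1, ?_⟩
      have h4 := (hQ q hq).2
      rw [ht] at h4
      unfold blk at h4
      rw [Nat.floor_eq_zero, div_lt_one hb] at h4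
      exact h4.le)
    linarith
  · have h3 := h1 (t * σ ^ 102) ((t + 1) * σ ^ 102) (by positivity) (by linarith only [hb]) Q
      (fun q hq => by
        refine ⟨(hQ q hq).1, ?_⟩
        have h4 := (hQ q hq).2
        unfold blk at h4
        have h5 : (t : ℝ) ≤ ll q / σ ^ 102 := by
          rw [← h4]
          apply Nat.floor_le
          by_contra hneg
          push Not at hneg
          rw [Nat.floor_of_nonpos hneg.le] at h4
          omega
        have h6 : ll q / σ ^ 102 < t + 1 := by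
          rw [← h4]
          exact Nat.lt_floor_add_one _
        rw [le_div_iff₀ hb] at h5
        rw [div_lt_iff₀ hb] at h6
        exact ⟨h5, h6.le⟩)
    have h4 : ((t : ℝ) + 1) * σ ^ 102 - t * σ ^ 102 = σ ^ 102 := by ring
    rw [h4] at h3
    linarith

private theorem nnbig_sum : ∃ C : ℝ, 1 ≤ C ∧ ∀ (σ : ℝ) (t k : ℕ) (A : Finset ℕ), 1 ≤ σ →
    (∀ a ∈ A, a ≠ 0 ∧ Om a = k ∧ ∀ q ∈ a.primeFactors, blk σ q = t) →
    ∑ a ∈ A, 1 / (a : ℝ) ≤ Real.exp (-(2 / 5 * k)) * Real.exp (2 * (σ ^ 102 + C) + 1) := by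
  obtain ⟨C, hC, hbl⟩ := nnbig_blocksum
  refine ⟨C, hC, ?_⟩
  intro σ t k A hσ hA
  set Q := A.biUnion Nat.primeFactors with hQ
  have hQ' : ∀ q ∈ Q, q.Prime ∧ blk σ q = t := by
    intro q hq
    rw [hQ, Finset.mem_biUnion] at hq
    obtain ⟨a, ha, hq⟩ := hq
    exact ⟨Nat.prime_of_mem_primeFactors hq, (hA a ha).2.2 q hq⟩
  have h1 := rankin_w Q (fun _ => 3 / 2) A (fun q hq => by
      refine ⟨(hQ' q hq).1, by norm_num, ?_⟩
      have : (2 : ℝ) ≤ q := by exact_mod_cast (hQ' q hq).1.two_le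
      linarith)
    (fun a ha => ⟨(hA a ha).1, fun q hq => Finset.mem_biUnion.2 ⟨a, ha, hq⟩⟩)
  have h2 : ∑ a ∈ A, (a.primeFactorsList.map (fun _ => (3 / 2 : ℝ))).prod / (a : ℝ) =
      (3 / 2) ^ k * ∑ a ∈ A, 1 / (a : ℝ) := by
    rw [Finset.mul_sum]
    apply Finset.sum_congr rfl
    intro a ha
    rw [List.map_const', List.prod_replicate, mul_one_div]
    have h3 : a.primeFactorsList.length = k := (hA a ha).2.1
    rw [h3]
  rw [h2] at h1
  have h3 : ∏ q ∈ Q, (1 - (3 / 2 : ℝ) / q)⁻¹ ≤ Real.exp (2 * (σ ^ 102 + C) + 1) := by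
    calc ∏ q ∈ Q, (1 - (3 / 2 : ℝ) / q)⁻¹ ≤
        ∏ q ∈ Q, Real.exp (2 * (1 / ((q : ℝ) - 1)) + if q = 2 then 1 else 0) := by
          apply Finset.prod_le_prod
          · intro q hq
            have : (2 : ℝ) ≤ q := by exact_mod_cast (hQ' q hq).1.two_le
            rw [inv_nonneg, sub_nonneg, div_le_one (by linarith)]
            linarith
          · intro q hq
            exact nnbig_factor (hQ' q hq).1
      _ = Real.exp (∑ q ∈ Q, (2 * (1 / ((q : ℝ) - 1)) + if q = 2 then 1 else 0)) :=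
          (Real.exp_sum _ _).symm
      _ ≤ Real.exp (2 * (σ ^ 102 + C) + 1) := by
          apply Real.exp_le_exp.2
          rw [Finset.sum_add_distrib, ← Finset.mul_sum]
          have e1 := hbl σ t Q hσ hQ'
          have e2 : ∑ q ∈ Q, (if q = 2 then (1 : ℝ) else 0) ≤ 1 := by
            rw [Finset.sum_ite_eq' Q 2]
            split_ifs <;> norm_num
          linarith
  have h4 : Real.exp (2 / 5 * k) ≤ (3 / 2 : ℝ) ^ k := by
    have h5 : (3 / 2 : ℝ) ^ k = Real.exp (Real.log (3 / 2) * k) := by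
      rw [mul_comm, Real.exp_nat_mul, Real.exp_log (by norm_num)]
    rw [h5]
    apply Real.exp_le_exp.2
    exact mul_le_mul_of_nonneg_right nnbig_log (Nat.cast_nonneg _)
  have h5 : 0 ≤ ∑ a ∈ A, 1 / (a : ℝ) := Finset.sum_nonneg fun a _ => by positivity
  have h6 : Real.exp (2 / 5 * k) * ∑ a ∈ A, 1 / (a : ℝ) ≤ Real.exp (2 * (σ ^ 102 + C) + 1) :=
    (mul_le_mul_of_nonneg_right h4 h5).trans (h1.trans h3)
  rw [Real.exp_neg, inv_mul_eq_div, le_div_iff₀ (Real.exp_pos _)]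
  linarith

private theorem nnbig_growth (K : ℝ) : ∀ᶠ σ : ℝ in Filter.atTop,
    K * (σ ^ 120 + 1) ^ 3 ≤ Real.exp (σ ^ 102) := by
  filter_upwards [Filter.eventually_ge_atTop (max 1 (960 * K))] with σ hσ
  have h1 : 1 ≤ σ := (le_max_left _ _).trans hσ
  have h2 : 960 * K ≤ σ := (le_max_right _ _).trans hσ
  have h3 : σ ≤ σ ^ 102 := le_self_pow₀ h1 (by norm_num)
  have h4 := Real.pow_div_factorial_le_exp (σ ^ 102) (by positivity) 5
  refine le_trans ?_ h4
  have h5 : (σ ^ 120 + 1) ^ 3 ≤ 8 * (σ ^ 102) ^ 4 := by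
    have e1 : (1 : ℝ) ≤ σ ^ 120 := one_le_pow₀ h1
    have e2 : (σ ^ 120 + 1) ^ 3 ≤ (2 * σ ^ 120) ^ 3 := by
      apply pow_le_pow_left₀ (by positivity)
      linarith
    have e3 : (2 * σ ^ 120) ^ 3 = 8 * σ ^ 360 := by ring
    have e4 : σ ^ 360 ≤ (σ ^ 102) ^ 4 := by
      rw [← pow_mul]
      exact pow_le_pow_right₀ h1 (by norm_num)
    linarith
  rcases le_or_gt K 0 with hK | hK
  · have e1 : K * (σ ^ 120 + 1) ^ 3 ≤ 0 := mul_nonpos_of_nonpos_of_nonneg hK (by positivity)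
    refine e1.trans (by positivity)
  · have e1 : K * (σ ^ 120 + 1) ^ 3 ≤ K * (8 * (σ ^ 102) ^ 4) := mul_le_mul_of_nonneg_left h5 hK.le
    refine e1.trans ?_
    rw [le_div_iff₀ (by positivity)]
    have e2 : ((Nat.factorial 5 : ℕ) : ℝ) = 120 := by norm_num [Nat.factorial]
    rw [e2]
    have e3 : K * (8 * (σ ^ 102) ^ 4) * 120 = (960 * K) * (σ ^ 102) ^ 4 := by ring
    have e4 : (σ ^ 102) ^ 5 = σ ^ 102 * (σ ^ 102) ^ 4 := by ring
    rw [e3, e4]
    exact mul_le_mul_of_nonneg_right (h2.trans h3) (by positivity)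

/-- If `n = p - 1 ≤ Z` has more than `30 b` prime factors in block `t`, let `k = ⌊15 b⌋` and let `a` be the product of
the `k` smallest of these prime factors (list `primeFactorsList` filtered, sorted, `take k`); as `2k ≤ 30 b`,
`a · a ≤ n`, so `a ≤ √Z`, `a ∣ p - 1`, all prime factors of `a` are in block `t` and `Om a = k`. By `sieve_primes`
(`Q = ∅`) the number is at most `∑_a C (Z/a) (s+1)^3/log Z`, and by `rankin_w` with `g = 3/2`
`∑_a 1/a ≤ (3/2)^(-k) ∏_{q in block t} (1 - 3/(2q))⁻¹ ≤ exp(-0.405 (15 b - 1) + 1.5 (b + C) + C) ≤ exp(-4 b)`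
(`∑ 1/q` over a block is at most `b + C`; block `0` contains `2`, `3`, … fine). -/
theorem nn_big : ∀ᶠ σ : ℝ in Filter.atTop, ∀ (Z : ℝ) (t : ℕ) (S : Finset ℕ),
    Real.exp (Real.exp (σ ^ 110)) ≤ Z → Z ≤ Real.exp (Real.exp (σ ^ 120 + 1)) →
    (∀ p ∈ S, p.Prime ∧ (p : ℝ) ≤ Z ∧ 30 * σ ^ 102 < (cnt σ t (p - 1) : ℝ)) →
    (S.card : ℝ) ≤ Z / Real.log Z * Real.exp (-(3 * σ ^ 102)) := by
  classical
  obtain ⟨C1, hC1, hsieve⟩ := sieve_primes
  obtain ⟨C2, hC2, hsum⟩ := nnbig_sum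
  filter_upwards [Filter.eventually_ge_atTop (max 1 C1),
    nnbig_growth (C1 * Real.exp (7 / 5 + 2 * C2))] with σ hσ hgrow
  intro Z t S hZ1 hZ2 hS
  have h1 : 1 ≤ σ := (le_max_left _ _).trans hσ
  have hσC : C1 ≤ σ := (le_max_right _ _).trans hσ
  have hZC : C1 ≤ Z := by
    refine le_trans ?_ hZ1
    have e1 : σ ≤ σ ^ 110 := le_self_pow₀ h1 (by norm_num)
    have e2 := Real.add_one_le_exp (σ ^ 110)
    have e3 := Real.add_one_le_exp (Real.exp (σ ^ 110))
    linarith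
  have hZ0 : 0 < Z := by linarith
  have hlogZ : 0 < Real.log Z := by
    have : Real.exp (σ ^ 110) ≤ Real.log Z := by
      rw [Real.le_log_iff_exp_le hZ0]
      exact hZ1
    exact lt_of_lt_of_le (Real.exp_pos _) this
  have hllZ : Real.log (Real.log Z) ≤ σ ^ 120 + 1 := by
    rw [Real.log_le_iff_le_exp hlogZ, Real.log_le_iff_le_exp hZ0]
    exact hZ2
  have hllZ0 : 0 ≤ Real.log (Real.log Z) := by
    apply Real.log_nonneg
    have e1 : Real.exp (σ ^ 110) ≤ Real.log Z := by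
      rw [Real.le_log_iff_exp_le hZ0]
      exact hZ1
    have e2 : (1 : ℝ) ≤ Real.exp (σ ^ 110) := Real.one_le_exp (by positivity)
    linarith
  set b : ℝ := σ ^ 102 with hb
  have hb0 : 0 < b := by positivity
  set k := ⌊15 * b⌋₊ with hk
  have hk1 : (k : ℝ) ≤ 15 * b := Nat.floor_le (by positivity)
  have hk2 : 15 * b < k + 1 := Nat.lt_floor_add_one _
  set A : Finset ℕ := (range (⌊Z⌋₊ + 1)).filter (fun a => a ≠ 0 ∧ a * a ≤ ⌊Z⌋₊ ∧ Om a = k ∧
    ∀ q ∈ a.primeFactors, blk σ q = t) with hA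
  set P : ℕ → Finset ℕ := fun a => (Finset.range (⌊Z⌋₊ + 1)).filter
      (fun p => p.Prime ∧ a ∣ p - 1 ∧ ∀ q ∈ (∅ : Finset ℕ), ¬ q ∣ (p - 1) / a) with hP
  have hsub : S ⊆ A.biUnion P := by
    intro p hp
    obtain ⟨hp1, hp2, hp3⟩ := hS p hp
    have hpn : p - 1 ≠ 0 := by
      have := hp1.two_le
      omega
    have hpZ : p ≤ ⌊Z⌋₊ := Nat.le_floor hp2
    have h2k : 2 * k ≤ cnt σ t (p - 1) := by
      have : ((2 * k : ℕ) : ℝ) ≤ (cnt σ t (p - 1) : ℝ) := by
        push_cast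
        linarith
      exact_mod_cast this
    obtain ⟨a, ha0, hadvd, haa, haOm, hablk⟩ := nnbig_split σ t k (p - 1) hpn h2k
    rw [Finset.mem_biUnion]
    refine ⟨a, ?_, ?_⟩
    · rw [hA, Finset.mem_filter, Finset.mem_range]
      have haa' : a ≤ a * a := Nat.le_mul_self a
      refine ⟨by omega, ha0, by omega, haOm, hablk⟩
    · simp only [hP, Finset.mem_filter, Finset.mem_range]
      refine ⟨by omega, hp1, hadvd, ?_⟩
      intro q hq
      exact absurd hq (Finset.notMem_empty q)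
  have hcard : (S.card : ℝ) ≤ ∑ a ∈ A, ((P a).card : ℝ) := by
    have e1 := (Finset.card_le_card hsub).trans Finset.card_biUnion_le
    exact_mod_cast e1
  have hPa : ∀ a ∈ A, ((P a).card : ℝ) ≤
      C1 * (Z / Real.log Z) * (σ ^ 120 + 1) ^ 3 * (1 / (a : ℝ)) := by
    intro a ha
    rw [hA, Finset.mem_filter] at ha
    obtain ⟨-, ha0, haa, -, -⟩ := ha
    have ha1 : 1 ≤ a := Nat.pos_of_ne_zero ha0
    have e1 := hsieve Z a ∅ hZC ha1 (by
      apply Real.le_sqrt_of_sq_le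
      have e2 : ((a * a : ℕ) : ℝ) ≤ Z := (Nat.le_floor_iff hZ0.le).1 haa
      push_cast at e2
      linarith only [e2]) (fun q hq => absurd hq (Finset.notMem_empty q))
    rw [Finset.sum_empty, neg_zero, Real.exp_zero, mul_one] at e1
    refine e1.trans ?_
    have ha' : (0 : ℝ) < a := by exact_mod_cast ha1
    have e3 : (Real.log (Real.log Z)) ^ 3 ≤ (σ ^ 120 + 1) ^ 3 :=
      pow_le_pow_left₀ hllZ0 hllZ 3
    calc C1 * (Z / a) * (Real.log (Real.log Z)) ^ 3 / Real.log Z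
        = C1 * (Z / Real.log Z) * (1 / (a : ℝ)) * (Real.log (Real.log Z)) ^ 3 := by
          field_simp
      _ ≤ C1 * (Z / Real.log Z) * (1 / (a : ℝ)) * (σ ^ 120 + 1) ^ 3 := by
          apply mul_le_mul_of_nonneg_left e3
          positivity
      _ = _ := by ring
  have hsumA := hsum σ t k A h1 (fun a ha => by
    rw [hA, Finset.mem_filter] at ha
    exact ⟨ha.2.1, ha.2.2.2.1, ha.2.2.2.2⟩)
  have hmain : (S.card : ℝ) ≤ C1 * (Z / Real.log Z) * (σ ^ 120 + 1) ^ 3 *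
      (Real.exp (-(2 / 5 * k)) * Real.exp (2 * (b + C2) + 1)) := by
    refine hcard.trans ((Finset.sum_le_sum hPa).trans ?_)
    rw [← Finset.mul_sum]
    apply mul_le_mul_of_nonneg_left hsumA
    positivity
  refine hmain.trans ?_
  have hexp : Real.exp (-(2 / 5 * k)) * Real.exp (2 * (b + C2) + 1) ≤
      Real.exp (7 / 5 + 2 * C2) * Real.exp (-(4 * b)) := by
    rw [← Real.exp_add, ← Real.exp_add]
    apply Real.exp_le_exp.2
    linarith
  have hZl : 0 < Z / Real.log Z := div_pos hZ0 hlogZ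
  calc C1 * (Z / Real.log Z) * (σ ^ 120 + 1) ^ 3 *
      (Real.exp (-(2 / 5 * k)) * Real.exp (2 * (b + C2) + 1))
      ≤ C1 * (Z / Real.log Z) * (σ ^ 120 + 1) ^ 3 *
        (Real.exp (7 / 5 + 2 * C2) * Real.exp (-(4 * b))) :=
        mul_le_mul_of_nonneg_left hexp (by positivity)
    _ = Z / Real.log Z * ((C1 * Real.exp (7 / 5 + 2 * C2) * (σ ^ 120 + 1) ^ 3) *
        Real.exp (-(4 * b))) := by ring
    _ ≤ Z / Real.log Z * (Real.exp b * Real.exp (-(4 * b))) := by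
        apply mul_le_mul_of_nonneg_left _ hZl.le
        exact mul_le_mul_of_nonneg_right hgrow (Real.exp_pos _).le
    _ = Z / Real.log Z * Real.exp (-(3 * b)) := by
        rw [← Real.exp_add]
        congr 2
        ring

end P031
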