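import Vale.Agent.Lib.P031.Defs

/-!
# P031 PDefs: definitions for the pair lemma.
-/

namespace P031

open Finset

/-- number of rows of `P` active in block `t` -/
noncomputable def Rt (σ : ℝ) (P : Finset ℕ) (t : ℕ) : ℕ := (P.filter (fun p => t ≤ blk σ p)).card

/-- the cost functional of a set of primes -/
noncomputable def AP (σ : ℝ) (P : Finset ℕ) : ℝ :=
  ∑ t ∈ Finset.Icc 1 (Tm σ), σ ^ 102 * Qp (Rt σ P t : ℝ)

/-- admissible pairs (set of normal primes above `y1`, smooth tail) -/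
structure Adm (σ : ℝ) (P : Finset ℕ) (f : ℕ) : Prop where
  pr : ∀ p ∈ P, p.Prime ∧ σ ^ 111 < ll p ∧ Normal σ p ∧ p ≤ EE σ
  cardP : (P.card : ℝ) ≤ σ ^ 10
  fpos : 0 < f
  fsm : ∀ q ∈ f.primeFactors, ll q ≤ σ ^ 111
  fOm : (Om f : ℝ) ≤ σ ^ 113

/-- the value of an admissible pair -/
def vv (P : Finset ℕ) (f : ℕ) : ℕ := f * ∏ p ∈ P, (p - 1)

/-- largest element of a finite set of naturals -/
def maxs (P : Finset ℕ) : ℕ := P.sup id

end P031
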