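import Vale.Agent.Lib.P031.MatX
import Vale.Agent.Lib.P031.MatW0
import Vale.Agent.Lib.P031.MatXi
import Vale.Agent.Lib.P031.MatPair

/-!
# P031 PairClass: the pairs with given heights.

Fix `k`, `l`, `hr`, `hc`. Every `d ∈ D` is `(image e, f, image e', f')` with `StrictMono e, e'`, `hts σ e = hr`, `hts σ e' = hc`.
Choose the matrix `g_d` of `mat_pair`; `d ↦ g_d` is injective (row products give `e` and `f`, column products `e'`, `f'`).
With `z = zz σ hr hc` (completely multiplicative `zm z`, `0 ≤ z ≤ 1`): `1/vv d = ∏ 1/g_d = (zm z (vv d))⁻¹ ∏ (zm z (g_d)/g_d)`, so by `xi_le`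
(`Ξ = ∑_t b Rt log Rt + σ^114/4`, which depends only on `hr`), `mat_ind` (`U = σ^120 + 2`), `W0_le`:
`∑_{d ∈ D} 1/vv ≤ exp(Ξ) (3 (k+1)(l+1) C U^9)^(k+l) exp(-∑_i (b hr i - lam σ) - ∑_y (b hc y - lam σ)) exp((b + C)(1 + ⌊σ^9⌋ + ∑_y hc y))`.
By `xi_expo` the exponent is at most
`AP P - b blk (maxs P) + σ^114/4 + (k + l)(log(3 (k+1)(l+1) C U^9) + lam σ) + (b + C)(1 + σ^9) + C l Tm
 ≤ AP P - ll (maxs P) + b + σ^114/2 ≤ -(5/2) σ^115 + σ^114` (`k, l ≤ σ^10`, `hc y ≤ Tm ≤ 5 σ^18`, `AP P ≤ (1 - (5/2)/σ^4) ll (maxs P)`,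
`ll (maxs P) ≥ σ^119`). (If `D` is empty there is nothing to prove; `AP`, `blk (maxs P)` depend only on `hr`, take any `d ∈ D`.)
`class_x`: the same with `mat_x`, `ρ0 = σ^120 - 1 - lam σ`: `#D = ∑ 1 ≤ exp(Ξ) ∑_d ∏ zm z (g_d)`, extra factor
`X exp(-ρ0) = X exp(-σ^120) exp(1 + lam σ)`.
-/

namespace P031

open Finset Real

private theorem pairclass_zm_mul (z : ℕ → ℝ) {m n : ℕ} (hm : m ≠ 0) (hn : n ≠ 0) :
    zm z (m * n) = zm z m * zm z n := by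
  unfold zm
  rw [((Nat.perm_primeFactorsList_mul hm hn).map z).prod_eq, List.map_append, List.prod_append]

private theorem pairclass_zm_prod (z : ℕ → ℝ) {ι : Type} (s : Finset ι) (g : ι → ℕ)
    (hg : ∀ i ∈ s, g i ≠ 0) : zm z (∏ i ∈ s, g i) = ∏ i ∈ s, zm z (g i) := by
  classical
  induction s using Finset.induction_on with
  | empty => simp [zm]
  | insert a s ha ih =>
    rw [Finset.prod_insert ha, Finset.prod_insert ha, pairclass_zm_mul z (hg a (mem_insert_self a s))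
      (Finset.prod_ne_zero_iff.2 fun i hi => hg i (mem_insert_of_mem hi)),
      ih fun i hi => hg i (mem_insert_of_mem hi)]

private theorem pairclass_zm_tot (z : ℕ → ℝ) {ι κ : Type} [Fintype ι] [Fintype κ]
    (g : ι → κ → ℕ) (hg : ∀ i y, g i y ≠ 0) :
    ∏ i, ∏ y, zm z (g i y) = zm z (totP g) := by
  unfold totP
  rw [pairclass_zm_prod z _ _ (fun i _ => Finset.prod_ne_zero_iff.2 fun y _ => hg i y)]
  refine Finset.prod_congr rfl fun i _ => ?_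
  rw [pairclass_zm_prod z _ _ (fun y _ => hg i y)]

private theorem pairclass_zm_tot_div (z : ℕ → ℝ) {ι κ : Type} [Fintype ι] [Fintype κ]
    (g : ι → κ → ℕ) (hg : ∀ i y, g i y ≠ 0) :
    ∏ i, ∏ y, (zm z (g i y) / (g i y : ℝ)) = zm z (totP g) / (totP g : ℝ) := by
  rw [← pairclass_zm_tot z g hg]
  unfold totP
  push_cast
  rw [← Finset.prod_div_distrib]
  refine Finset.prod_congr rfl fun i _ => ?_
  rw [Finset.prod_div_distrib]

/-- the number of rows of height at least `t` -/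
private noncomputable def pairclassR {k : ℕ} (h : Option (Fin k) → ℕ) (t : ℕ) : ℕ :=
  (Finset.univ.filter (fun i : Fin k => t ≤ h (some i))).card

private theorem pairclass_Rt (σ : ℝ) {k : ℕ} {e : Fin k → ℕ} (he : StrictMono e) (t : ℕ) :
    Rt σ (Finset.univ.image e) t = pairclassR (hts σ e) t := by
  unfold Rt pairclassR
  rw [Finset.filter_image, Finset.card_image_of_injective _ he.injective]
  rfl

/-- the exponent of the Rankin weights -/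
private noncomputable def pairclassXi (σ : ℝ) {k : ℕ} (h : Option (Fin k) → ℕ) : ℝ :=
  ∑ t ∈ Finset.Icc 1 (Tm σ), σ ^ 102 *
    ((pairclassR h t : ℝ) * Real.log (pairclassR h t : ℝ)) + σ ^ 114 / 4

private theorem pairclass_Xi (σ : ℝ) {k : ℕ} {e : Fin k → ℕ} (he : StrictMono e) :
    ∑ t ∈ Finset.Icc 1 (Tm σ), σ ^ 102 *
        ((Rt σ (Finset.univ.image e) t : ℝ) * Real.log (Rt σ (Finset.univ.image e) t : ℝ)) +
        σ ^ 114 / 4 = pairclassXi σ (hts σ e) := by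
  unfold pairclassXi
  congr 1
  refine Finset.sum_congr rfl fun t _ => ?_
  rw [pairclass_Rt σ he]

private theorem pairclass_mk_card (k : ℕ) : (mk k).card = k := by
  unfold mk
  rw [Finset.card_image_of_injective _ (Option.some_injective _), Finset.card_univ,
    Fintype.card_fin]

private theorem pairclass_mk_sum (σ : ℝ) {k : ℕ} (e : Fin k → ℕ) :
    ∑ i ∈ mk k, rho σ (hts σ e) i =
      ∑ i, σ ^ 102 * (blk σ (e i) : ℝ) - k * lam σ := by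
  unfold mk
  rw [Finset.sum_image fun a _ b _ h => Option.some_injective _ h]
  have h1 : ∀ i : Fin k, rho σ (hts σ e) (some i) = σ ^ 102 * (blk σ (e i) : ℝ) - lam σ :=
    fun i => rfl
  rw [Finset.sum_congr rfl fun i _ => h1 i, Finset.sum_sub_distrib]
  simp

private theorem pairclass_zz (σ : ℝ) {k l : ℕ} (hr : Option (Fin k) → ℕ)
    (hc : Option (Fin l) → ℕ) (q : ℕ) : 0 ≤ zz σ hr hc q ∧ zz σ hr hc q ≤ 1 := by
  unfold zz
  split_ifs
  · rw [Fintype.card_option, Fintype.card_option]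
    push_cast
    have h1 : (0 : ℝ) ≤ (Fintype.card (Fin k) : ℝ) := Nat.cast_nonneg _
    have h2 : (0 : ℝ) ≤ (Fintype.card (Fin l) : ℝ) := Nat.cast_nonneg _
    refine ⟨by positivity, ?_⟩
    rw [div_le_one (by positivity)]
    nlinarith only []
  · have h1 : (1 : ℝ) ≤ ((max 1 (Rc hr (blk σ q)) : ℕ) : ℝ) := by
      exact_mod_cast le_max_left _ _
    refine ⟨by positivity, ?_⟩
    rw [div_le_one (by linarith)]
    exact h1

/-- the matrices of the pairs -/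
private theorem pairclass_mat : ∀ᶠ σ : ℝ in Filter.atTop, ∀ (k l : ℕ)
    (hr : Option (Fin k) → ℕ) (hc : Option (Fin l) → ℕ)
    (D : Finset (Finset ℕ × ℕ × Finset ℕ × ℕ)),
    (∀ d ∈ D, DH σ d ∧ ∃ (e : Fin k → ℕ) (e' : Fin l → ℕ), StrictMono e ∧ StrictMono e' ∧
      d.1 = Finset.univ.image e ∧ d.2.2.1 = Finset.univ.image e' ∧ hts σ e = hr ∧
      hts σ e' = hc) →
    ∃ gm : (Finset ℕ × ℕ × Finset ℕ × ℕ) → (Option (Fin k) → Option (Fin l) → ℕ),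
      Set.InjOn gm D ∧ ∀ d ∈ D,
        Marked (σ ^ 120 + 2) (QC σ hr hc) (rho σ hr) (rho σ hc) (mk k) (mk l) (gm d) ∧
        totP (gm d) = vv d.1 d.2.1 ∧
        (∃ i ∈ mk k, ∃ y ∈ mk l, ∃ r : ℕ, r.Prime ∧ r ∣ gm d i y ∧ maxp (rowP (gm d) i) = r ∧
          maxp (colP (gm d) y) = r ∧ ll (maxs d.1) - lam σ ≤ ll r) ∧
        0 < zm (zz σ hr hc) (vv d.1 d.2.1) ∧
        (zm (zz σ hr hc) (vv d.1 d.2.1))⁻¹ ≤ Real.exp (pairclassXi σ hr) := by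
  filter_upwards [mat_pair, xi_le] with σ hmat hxi k l hr hc D hD
  have key : ∀ d, d ∈ D → ∃ g : Option (Fin k) → Option (Fin l) → ℕ,
      ((∃ (e : Fin k → ℕ) (e' : Fin l → ℕ), d.1 = Finset.univ.image e ∧
        d.2.2.1 = Finset.univ.image e' ∧ (∀ i, 1 ≤ e i) ∧ (∀ y, 1 ≤ e' y) ∧
        (∀ i, rowP g (some i) = e i - 1) ∧ rowP g none = d.2.1 ∧
        (∀ y, colP g (some y) = e' y - 1) ∧ colP g none = d.2.2.2)) ∧
      Marked (σ ^ 120 + 2) (QC σ hr hc) (rho σ hr) (rho σ hc) (mk k) (mk l) g ∧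
        totP g = vv d.1 d.2.1 ∧
        (∃ i ∈ mk k, ∃ y ∈ mk l, ∃ r : ℕ, r.Prime ∧ r ∣ g i y ∧ maxp (rowP g i) = r ∧
          maxp (colP g y) = r ∧ ll (maxs d.1) - lam σ ≤ ll r) ∧
        0 < zm (zz σ hr hc) (vv d.1 d.2.1) ∧
        (zm (zz σ hr hc) (vv d.1 d.2.1))⁻¹ ≤ Real.exp (pairclassXi σ hr) := by
    intro d hd
    obtain ⟨hDH, e, e', he, he', hd1, hd2, hre, hce⟩ := hD d hd
    have hdeq : d = (Finset.univ.image e, d.2.1, Finset.univ.image e', d.2.2.2) := by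
      rw [← hd1, ← hd2]
    have hA1 := hDH.1
    have hA2 := hDH.2.1
    rw [hdeq] at hDH
    obtain ⟨g, g1, g2, g3, g4, g5, g6, g7⟩ := hmat k l e e' d.2.1 d.2.2.2 he he' hDH
    rw [hre, hce] at g1
    rw [← hd1] at g6 g7
    have hl : (l : ℝ) ≤ σ ^ 10 := by
      have h1 := hA2.cardP
      rw [hd2, Finset.card_image_of_injective _ he'.injective, Finset.card_univ,
        Fintype.card_fin] at h1
      exact h1
    rw [hd1] at hA1
    have h2 := hxi k l e hc d.2.1 he hl hA1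
    rw [pairclass_Xi σ he, hre, ← hd1] at h2
    refine ⟨g, ⟨e, e', hd1, hd2, ?_, ?_, g2, g3, g4, g5⟩, g1, g6, g7, h2⟩
    · intro i
      exact (hA1.pr (e i) (Finset.mem_image_of_mem _ (Finset.mem_univ i))).1.one_lt.le
    · intro y
      rw [hd2] at hA2
      exact (hA2.pr (e' y) (Finset.mem_image_of_mem _ (Finset.mem_univ y))).1.one_lt.le
  choose! gm hgm using key
  refine ⟨gm, ?_, fun d hd => (hgm d hd).2⟩
  intro d hd d' hd' heq
  obtain ⟨⟨e, e', a1, a2, a3, a4, a5, a6, a7, a8⟩, -⟩ := hgm d hd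
  obtain ⟨⟨f, f', b1, b2, b3, b4, b5, b6, b7, b8⟩, -⟩ := hgm d' hd'
  rw [heq] at a5 a6 a7 a8
  have h1 : e = f := by
    funext i
    have e1 := a5 i
    have e2 := b5 i
    have e3 := a3 i
    have e4 := b3 i
    omega
  have h2 : e' = f' := by
    funext i
    have e1 := a7 i
    have e2 := b7 i
    have e3 := a4 i
    have e4 := b4 i
    omega
  have h3 : d.2.1 = d'.2.1 := by rw [← a6, ← b6]
  have h4 : d.2.2.2 = d'.2.2.2 := by rw [← a8, ← b8]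
  have h5 : d.1 = d'.1 := by rw [a1, b1, h1]
  have h6 : d.2.2.1 = d'.2.2.1 := by rw [a2, b2, h2]
  exact Prod.ext h5 (Prod.ext h3 (Prod.ext h6 h4))

/-- the shift is small -/
private theorem pairclass_lam {σ : ℝ} (hσ : 2000 ≤ σ) : 0 ≤ lam σ ∧ lam σ ≤ σ ^ 2 := by
  have hσ1 : (1 : ℝ) ≤ σ := by linarith
  have hσ0 : (0 : ℝ) < σ := by linarith
  constructor
  · unfold lam
    have h1 : (1 : ℝ) ≤ σ ^ 120 := one_le_pow₀ hσ1
    have := Real.log_nonneg (show (1 : ℝ) ≤ 200 * σ ^ 120 by linarith)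
    linarith
  · unfold lam
    rw [Real.log_mul (by norm_num) (by positivity), Real.log_pow]
    have h1 := Real.log_le_sub_one_of_pos (show (0 : ℝ) < 200 by norm_num)
    have h2 := Real.log_le_sub_one_of_pos hσ0
    push_cast
    nlinarith only [hσ, h1, h2]

/-- the logarithm of the base is small -/
private theorem pairclass_logK {σ C : ℝ} (hC : 1 ≤ C) (hσ : 6144 * C + 2000 ≤ σ) (k l : ℕ)
    (hkσ : (k : ℝ) ≤ σ ^ 10) (hlσ : (l : ℝ) ≤ σ ^ 10) :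
    0 < 3 * ((k : ℝ) + 1) * ((l : ℝ) + 1) * (C * (σ ^ 120 + 2) ^ 9) ∧
    Real.log (3 * ((k : ℝ) + 1) * ((l : ℝ) + 1) * (C * (σ ^ 120 + 2) ^ 9)) ≤ σ ^ 2 := by
  have hσ1 : (1 : ℝ) ≤ σ := by linarith
  have hσ0 : (0 : ℝ) < σ := by linarith
  have hk0 : (0 : ℝ) ≤ k := Nat.cast_nonneg _
  have hl0 : (0 : ℝ) ≤ l := Nat.cast_nonneg _
  have hK0 : 0 < 3 * ((k : ℝ) + 1) * ((l : ℝ) + 1) * (C * (σ ^ 120 + 2) ^ 9) := by positivity
  refine ⟨hK0, ?_⟩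
  have hKle : 3 * ((k : ℝ) + 1) * ((l : ℝ) + 1) * (C * (σ ^ 120 + 2) ^ 9) ≤
      6144 * C * σ ^ 1100 := by
    have h1 : (1 : ℝ) ≤ σ ^ 10 := one_le_pow₀ hσ1
    have h2 : (2 : ℝ) ≤ σ ^ 120 := by
      have : σ ≤ σ ^ 120 := le_self_pow₀ hσ1 (by norm_num)
      linarith
    calc 3 * ((k : ℝ) + 1) * ((l : ℝ) + 1) * (C * (σ ^ 120 + 2) ^ 9)
        ≤ 3 * (2 * σ ^ 10) * (2 * σ ^ 10) * (C * (2 * σ ^ 120) ^ 9) := by
          gcongr <;> linarith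
      _ = 6144 * C * σ ^ 1100 := by ring
  have h1 := Real.log_le_log hK0 hKle
  refine h1.trans ?_
  rw [Real.log_mul (by positivity) (by positivity), Real.log_pow]
  have h2 := Real.log_le_sub_one_of_pos (show (0 : ℝ) < 6144 * C by positivity)
  have h3 := Real.log_le_sub_one_of_pos hσ0
  push_cast
  generalize Real.log (6144 * C) = a at h2 ⊢
  generalize Real.log σ = b at h3 ⊢
  have h4 : (6144 * C + 1100) * σ ≤ σ * σ := by
    apply mul_le_mul_of_nonneg_right _ hσ0.le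
    linarith
  have h5 : 6144 * C * 1 ≤ 6144 * C * σ :=
    mul_le_mul_of_nonneg_left hσ1 (by positivity)
  have h6 : σ ^ 2 = σ * σ := sq σ
  rw [h6]
  linarith

/-- the total height of the columns -/
private theorem pairclass_hblk {σ : ℝ} (hσ1 : 1 ≤ σ) (l : ℕ) (e' : Fin l → ℕ)
    (hpe' : ∀ y, (e' y).Prime ∧ e' y ≤ EE σ) (hlσ : (l : ℝ) ≤ σ ^ 10) :
    0 ≤ ∑ y, (blk σ (e' y) : ℝ) ∧ ∑ y, (blk σ (e' y) : ℝ) ≤ 5 * σ ^ 28 := by
  refine ⟨Finset.sum_nonneg fun y _ => Nat.cast_nonneg _, ?_⟩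
  have h1 : ∀ y : Fin l, (blk σ (e' y) : ℝ) ≤ 5 * σ ^ 18 := by
    intro y
    have h2 := blk_lt_Tm hσ1 ((le_EE_iff (hpe' y).1.two_le).1 (hpe' y).2)
    have h3 := Tm_le hσ1
    have h4 : (blk σ (e' y) : ℝ) ≤ (Tm σ : ℝ) := by
      exact_mod_cast (by omega : blk σ (e' y) ≤ Tm σ)
    linarith
  calc ∑ y, (blk σ (e' y) : ℝ) ≤ ∑ _y : Fin l, 5 * σ ^ 18 := Finset.sum_le_sum fun y _ => h1 y
    _ = l * (5 * σ ^ 18) := by simp
    _ ≤ σ ^ 10 * (5 * σ ^ 18) := mul_le_mul_of_nonneg_right hlσ (by positivity)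
    _ = 5 * σ ^ 28 := by ring

/-- the main term -/
private theorem pairclass_main {σ : ℝ} (hσ1 : 1 ≤ σ) {A : ℝ} {m : ℕ} (hmax : σ ^ 119 ≤ ll m)
    (hAP : A ≤ (1 - (5 / 2) / σ ^ 4) * ll m) :
    A - σ ^ 102 * (blk σ m : ℝ) ≤ σ ^ 102 - 5 / 2 * σ ^ 115 := by
  have hσ0 : (0 : ℝ) < σ := by linarith
  have h1 := lt_blk_succ hσ1 m
  have h2 : 5 / 2 * σ ^ 115 ≤ (5 / 2) / σ ^ 4 * ll m := by
    have h3 : 5 / 2 * σ ^ 115 = (5 / 2) / σ ^ 4 * σ ^ 119 := by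
      field_simp
    rw [h3]
    exact mul_le_mul_of_nonneg_left hmax (by positivity)
  generalize (5 / 2) / σ ^ 4 = c at h2 hAP
  generalize ll m = L at h1 h2 hAP
  have h4 : (1 - c) * L = L - c * L := by ring
  have h5 : ((blk σ m : ℝ) + 1) * σ ^ 102 = σ ^ 102 * (blk σ m : ℝ) + σ ^ 102 := by ring
  rw [h4] at hAP
  rw [h5] at h1
  linarith

/-- the small terms -/
private theorem pairclass_small {σ k l K L C2 h S : ℝ} (hσ1 : 1 ≤ σ) (hk0 : 0 ≤ k) (hl0 : 0 ≤ l)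
    (hkσ : k ≤ σ ^ 10) (hlσ : l ≤ σ ^ 10) (hK : K ≤ σ ^ 2) (hL : L ≤ σ ^ 2) (hC2 : 1 ≤ C2)
    (hσC2 : C2 ≤ σ) (hh0 : 0 ≤ h) (hh : h ≤ σ ^ 9) (hS0 : 0 ≤ S) (hS : S ≤ 5 * σ ^ 28) :
    (k + l) * (K + L) ≤ 4 * σ ^ 12 ∧ (σ ^ 102 + C2) * (1 + h) ≤ 4 * σ ^ 111 ∧
      C2 * S ≤ 5 * σ ^ 29 := by
  have hσ0 : (0 : ℝ) < σ := by linarith
  refine ⟨?_, ?_, ?_⟩
  · have h1 : k + l ≤ 2 * σ ^ 10 := by linarith
    have h2 : K + L ≤ 2 * σ ^ 2 := by linarith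
    calc (k + l) * (K + L) ≤ (k + l) * (2 * σ ^ 2) :=
          mul_le_mul_of_nonneg_left h2 (by positivity)
      _ ≤ (2 * σ ^ 10) * (2 * σ ^ 2) := mul_le_mul_of_nonneg_right h1 (by positivity)
      _ = 4 * σ ^ 12 := by ring
  · have h1 : C2 ≤ σ ^ 102 := hσC2.trans (le_self_pow₀ hσ1 (by norm_num))
    have h2 : (1 : ℝ) ≤ σ ^ 9 := one_le_pow₀ hσ1
    calc (σ ^ 102 + C2) * (1 + h) ≤ (2 * σ ^ 102) * (1 + h) :=
          mul_le_mul_of_nonneg_right (by linarith) (by positivity)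
      _ ≤ (2 * σ ^ 102) * (2 * σ ^ 9) := mul_le_mul_of_nonneg_left (by linarith) (by positivity)
      _ = 4 * σ ^ 111 := by ring
  · calc C2 * S ≤ σ * (5 * σ ^ 28) := mul_le_mul hσC2 hS hS0 hσ0.le
      _ = 5 * σ ^ 29 := by ring

/-- the final inequality -/
private theorem pairclass_fin {σ k l K L C2 h S X M b12 b111 b29 b2 b102 b114 b115 : ℝ}
    (e0 : X ≤ b102 - 5 / 2 * b115)
    (e1 : (k + l) * (K + L) ≤ 4 * b12) (e2 : (b102 + C2) * (1 + h) ≤ 4 * b111)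
    (e3 : C2 * S ≤ 5 * b29) (eL : L ≤ b2)
    (p1 : b102 ≤ σ) (p2 : b12 ≤ σ) (p3 : b111 ≤ σ) (p4 : b29 ≤ σ) (p5 : b2 ≤ σ)
    (p6 : 1 ≤ σ) (p7 : 2000 * σ ≤ b114) (p8 : 2000 * b114 ≤ b115) :
    X + M + b114 / 4 + ((k + l) * K + (-(M - k * L + (b102 * S - l * L)) +
      (b102 + C2) * (1 + (h + S)))) + (1 + L) ≤ -(9 / 4 * b115) := by
  have q1 : (k + l) * (K + L) = (k + l) * K + k * L + l * L := by ring
  have q2 : (b102 + C2) * (1 + (h + S)) = (b102 + C2) * (1 + h) + b102 * S + C2 * S := by ring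
  rw [q2]
  rw [q1] at e1
  linarith

/-- the exponent -/
private theorem pairclass_expo (C C2 : ℝ) (hC : 1 ≤ C) (hC2 : 1 ≤ C2) :
    ∀ᶠ σ : ℝ in Filter.atTop, ∀ (k l : ℕ) (e : Fin k → ℕ) (e' : Fin l → ℕ),
      StrictMono e → 0 < k → (∀ i, (e i).Prime ∧ e i ≤ EE σ) →
      (∀ y, (e' y).Prime ∧ e' y ≤ EE σ) → (k : ℝ) ≤ σ ^ 10 → (l : ℝ) ≤ σ ^ 10 →
      σ ^ 119 ≤ ll (maxs (Finset.univ.image e)) →
      AP σ (Finset.univ.image e) ≤ (1 - (5 / 2) / σ ^ 4) * ll (maxs (Finset.univ.image e)) →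
      Real.exp (pairclassXi σ (hts σ e)) *
        ((3 * ((k : ℝ) + 1) * ((l : ℝ) + 1) * (C * (σ ^ 120 + 2) ^ 9)) ^ (k + l) *
        Real.exp (-(∑ i ∈ mk k, rho σ (hts σ e) i + ∑ y ∈ mk l, rho σ (hts σ e') y)) *
        Real.exp ((σ ^ 102 + C2) * (1 + ∑ y, (hts σ e' y : ℝ)))) * Real.exp (1 + lam σ) ≤
      Real.exp (-(9 / 4 * σ ^ 115)) := by
  filter_upwards [xi_expo, Filter.eventually_ge_atTop (6144 * C + C2 + 2000)] with σ hxi hσ
  intro k l e e' he hk hpe hpe' hkσ hlσ hmax hAP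
  have hσ1 : (1 : ℝ) ≤ σ := by linarith
  have hσ0 : (0 : ℝ) < σ := by linarith
  have hσC2 : C2 ≤ σ := by linarith
  have hσbig : (2000 : ℝ) ≤ σ := by linarith
  obtain ⟨hlam0, hlam⟩ := pairclass_lam hσbig
  obtain ⟨hK0, hlogK⟩ := pairclass_logK hC (by linarith) k l hkσ hlσ
  obtain ⟨hblk0, hblk'⟩ := pairclass_hblk hσ1 l e' hpe' hlσ
  have hmain := pairclass_main hσ1 hmax hAP
  have hnone : ((hts σ e' none : ℕ) : ℝ) ≤ σ ^ 9 := Nat.floor_le (by positivity)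
  have hnone0 : (0 : ℝ) ≤ ((hts σ e' none : ℕ) : ℝ) := Nat.cast_nonneg _
  obtain ⟨e1, e2, e3⟩ := pairclass_small hσ1 (Nat.cast_nonneg k) (Nat.cast_nonneg l) hkσ hlσ
    hlogK hlam hC2 hσC2 hnone0 hnone hblk0 hblk'
  have hKpow : (3 * ((k : ℝ) + 1) * ((l : ℝ) + 1) * (C * (σ ^ 120 + 2) ^ 9)) ^ (k + l) =
      Real.exp (((k : ℝ) + l) *
        Real.log (3 * ((k : ℝ) + 1) * ((l : ℝ) + 1) * (C * (σ ^ 120 + 2) ^ 9))) := by
    rw [← Real.exp_log (pow_pos hK0 (k + l)), Real.log_pow]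
    push_cast
    rfl
  rw [hKpow, ← Real.exp_add, ← Real.exp_add, ← Real.exp_add, ← Real.exp_add]
  apply Real.exp_le_exp.2
  rw [pairclass_mk_sum, pairclass_mk_sum, Fintype.sum_option, ← pairclass_Xi σ he]
  have hx := hxi k e he hk hpe
  have hsum' : ∑ y, ((hts σ e' (some y) : ℕ) : ℝ) = ∑ y, (blk σ (e' y) : ℝ) := rfl
  rw [hsum']
  have hmul' : ∑ y, σ ^ 102 * (blk σ (e' y) : ℝ) = σ ^ 102 * ∑ y, (blk σ (e' y) : ℝ) := by
    rw [Finset.mul_sum]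
  rw [hmul']
  have hpow : ∀ j : ℕ, j ≤ 113 → σ ^ j ≤ σ ^ 113 := fun j hj => pow_le_pow_right₀ hσ1 hj
  have p7 : 2000 * σ ^ 113 ≤ σ ^ 114 := by
    have : σ ^ 114 = σ * σ ^ 113 := by ring
    rw [this]
    exact mul_le_mul_of_nonneg_right hσbig (by positivity)
  have p8 : 2000 * σ ^ 114 ≤ σ ^ 115 := by
    have : σ ^ 115 = σ * σ ^ 114 := by ring
    rw [this]
    exact mul_le_mul_of_nonneg_right hσbig (by positivity)
  have hfin := pairclass_fin (M := ∑ i, σ ^ 102 * (blk σ (e i) : ℝ)) hmain e1 e2 e3 hlam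
    (hpow 102 (by norm_num)) (hpow 12 (by norm_num))
    (hpow 111 (by norm_num)) (hpow 29 (by norm_num)) (hpow 2 (by norm_num))
    (one_le_pow₀ hσ1) p7 p8
  rw [← hx, sub_add_cancel] at hfin
  exact le_trans (le_of_eq (by ring)) hfin

/-- data of one pair -/
private theorem pairclass_data {σ : ℝ} {k l : ℕ} {hr : Option (Fin k) → ℕ}
    {hc : Option (Fin l) → ℕ} {d : Finset ℕ × ℕ × Finset ℕ × ℕ} (hDH : DH σ d)
    {e : Fin k → ℕ} {e' : Fin l → ℕ} (he : StrictMono e) (he' : StrictMono e')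
    (hd1 : d.1 = Finset.univ.image e) (hd2 : d.2.2.1 = Finset.univ.image e') :
    0 < k ∧ (∀ i, (e i).Prime ∧ e i ≤ EE σ) ∧ (∀ y, (e' y).Prime ∧ e' y ≤ EE σ) ∧
      (k : ℝ) ≤ σ ^ 10 ∧ (l : ℝ) ≤ σ ^ 10 ∧ σ ^ 119 ≤ ll (maxs (Finset.univ.image e)) ∧
      AP σ (Finset.univ.image e) ≤ (1 - (5 / 2) / σ ^ 4) * ll (maxs (Finset.univ.image e)) ∧
      (∀ i, σ ^ 111 < ll (e i)) ∧ (∀ y, σ ^ 111 < ll (e' y)) := by
  obtain ⟨hA1, hA2, -, -, -, hne, hmax, hAP⟩ := hDH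
  rw [hd1] at hA1 hne hmax hAP
  rw [hd2] at hA2
  have hm1 : ∀ i, e i ∈ Finset.univ.image e := fun i =>
    Finset.mem_image_of_mem _ (Finset.mem_univ i)
  have hm2 : ∀ i, e' i ∈ Finset.univ.image e' := fun i =>
    Finset.mem_image_of_mem _ (Finset.mem_univ i)
  refine ⟨?_, fun i => ⟨(hA1.pr _ (hm1 i)).1, (hA1.pr _ (hm1 i)).2.2.2⟩,
    fun y => ⟨(hA2.pr _ (hm2 y)).1, (hA2.pr _ (hm2 y)).2.2.2⟩, ?_, ?_, hmax, hAP,
    fun i => (hA1.pr _ (hm1 i)).2.1, fun y => (hA2.pr _ (hm2 y)).2.1⟩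
  · obtain ⟨x, hx⟩ := hne
    rw [Finset.mem_image] at hx
    obtain ⟨i, -, -⟩ := hx
    exact lt_of_le_of_lt (Nat.zero_le _) i.2
  · have h1 := hA1.cardP
    rw [Finset.card_image_of_injective _ he.injective, Finset.card_univ,
      Fintype.card_fin] at h1
    exact h1
  · have h1 := hA2.cardP
    rw [Finset.card_image_of_injective _ he'.injective, Finset.card_univ,
      Fintype.card_fin] at h1
    exact h1

theorem class_w : ∀ᶠ σ : ℝ in Filter.atTop, ∀ (k l : ℕ) (hr : Option (Fin k) → ℕ)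
    (hc : Option (Fin l) → ℕ) (D : Finset (Finset ℕ × ℕ × Finset ℕ × ℕ)),
    (∀ d ∈ D, DH σ d ∧ ∃ (e : Fin k → ℕ) (e' : Fin l → ℕ), StrictMono e ∧ StrictMono e' ∧
      d.1 = Finset.univ.image e ∧ d.2.2.1 = Finset.univ.image e' ∧ hts σ e = hr ∧
      hts σ e' = hc) →
    ∑ d ∈ D, 1 / (vv d.1 d.2.1 : ℝ) ≤ Real.exp (-(9 / 4 * σ ^ 115)) := by
  classical
  obtain ⟨C, hC, hmat⟩ := mat_ind
  obtain ⟨C2, hC2, hW0⟩ := W0_le
  filter_upwards [pairclass_mat, pairclass_expo C C2 hC hC2, hW0, rho_pos,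
    Filter.eventually_ge_atTop (1 : ℝ)] with σ hgm hexpo hW hrho hσ1 k l hr hc D hD
  rcases D.eq_empty_or_nonempty with hDe | ⟨d0, hd0⟩
  · rw [hDe, Finset.sum_empty]
    exact (Real.exp_pos _).le
  obtain ⟨hDH, e, e', he, he', hd1, hd2, hre, hce⟩ := hD d0 hd0
  obtain ⟨hk, hpe, hpe', hkσ, hlσ, hmax, hAP, hle, hle'⟩ :=
    pairclass_data (hr := hr) (hc := hc) hDH he he' hd1 hd2
  obtain ⟨gm, hinj, hg⟩ := hgm k l hr hc D hD
  have hexp := hexpo k l e e' he hk hpe hpe' hkσ hlσ hmax hAP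
  rw [hre, hce] at hexp
  have hz := pairclass_zz σ hr hc
  have hprime : ∀ i y, ∀ q ∈ QC σ hr hc i y, q.Prime := by
    intro i y q hq
    unfold QC at hq
    exact (Finset.mem_filter.1 hq).2.1
  have hρr : ∀ i, 0 < rho σ hr i := by
    rw [← hre]
    exact hrho k e hle
  have hρc : ∀ i, 0 < rho σ hc i := by
    rw [← hce]
    exact hrho l e' hle'
  have hU : (1 : ℝ) ≤ σ ^ 120 + 2 := by
    have : (0 : ℝ) ≤ σ ^ 120 := by positivity
    linarith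
  have hm := hmat (Option (Fin k)) (Option (Fin l)) (σ ^ 120 + 2) (zz σ hr hc) (QC σ hr hc)
    (rho σ hr) (rho σ hc) (mk k) (mk l) (D.image gm) hU hz hprime hρr hρc (by
      intro g hg'
      rw [Finset.mem_image] at hg'
      obtain ⟨d, hd, rfl⟩ := hg'
      exact (hg d hd).1)
  rw [Finset.sum_image hinj, pairclass_mk_card, pairclass_mk_card, Fintype.card_option,
    Fintype.card_option, Fintype.card_fin, Fintype.card_fin] at hm
  push_cast at hm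
  have hWle := hW (Option (Fin k)) (Option (Fin l)) hr hc
  have h1 : ∑ d ∈ D, 1 / (vv d.1 d.2.1 : ℝ) ≤ Real.exp (pairclassXi σ hr) *
      ∑ d ∈ D, ∏ i, ∏ y, (zm (zz σ hr hc) (gm d i y) / (gm d i y : ℝ)) := by
    rw [Finset.mul_sum]
    apply Finset.sum_le_sum
    intro d hd
    obtain ⟨g1, g2, -, g3, g4⟩ := hg d hd
    rw [pairclass_zm_tot_div _ _ g1.pos, g2]
    have h2 : (1 : ℝ) ≤ Real.exp (pairclassXi σ hr) * zm (zz σ hr hc) (vv d.1 d.2.1) := by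
      rw [inv_le_iff_one_le_mul₀ g3] at g4
      exact g4
    have h3 : (0 : ℝ) ≤ 1 / (vv d.1 d.2.1 : ℝ) := by positivity
    calc 1 / (vv d.1 d.2.1 : ℝ) = 1 / (vv d.1 d.2.1 : ℝ) * 1 := by ring
      _ ≤ 1 / (vv d.1 d.2.1 : ℝ) *
          (Real.exp (pairclassXi σ hr) * zm (zz σ hr hc) (vv d.1 d.2.1)) :=
          mul_le_mul_of_nonneg_left h2 h3
      _ = _ := by ring
  have hKpos : 0 ≤ (3 * ((k : ℝ) + 1) * ((l : ℝ) + 1) * (C * (σ ^ 120 + 2) ^ 9)) ^ (k + l) := by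
    positivity
  have h2 : ∑ d ∈ D, ∏ i, ∏ y, (zm (zz σ hr hc) (gm d i y) / (gm d i y : ℝ)) ≤
      (3 * ((k : ℝ) + 1) * ((l : ℝ) + 1) * (C * (σ ^ 120 + 2) ^ 9)) ^ (k + l) *
        Real.exp (-(∑ i ∈ mk k, rho σ hr i + ∑ y ∈ mk l, rho σ hc y)) *
        Real.exp ((σ ^ 102 + C2) * (1 + ∑ y, (hc y : ℝ))) := by
    refine hm.trans ?_
    exact mul_le_mul_of_nonneg_left hWle (mul_nonneg hKpos (Real.exp_pos _).le)
  have hlam : (1 : ℝ) ≤ Real.exp (1 + lam σ) := by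
    apply Real.one_le_exp
    unfold lam
    have h1 : (1 : ℝ) ≤ σ ^ 120 := one_le_pow₀ hσ1
    have := Real.log_nonneg (show (1 : ℝ) ≤ 200 * σ ^ 120 by linarith)
    linarith
  refine h1.trans ((mul_le_mul_of_nonneg_left h2 (Real.exp_pos _).le).trans
    (le_trans ?_ hexp))
  apply le_mul_of_one_le_right _ hlam
  exact mul_nonneg (Real.exp_pos _).le (mul_nonneg (mul_nonneg hKpos (Real.exp_pos _).le)
    (Real.exp_pos _).le)

theorem class_x : ∀ᶠ σ : ℝ in Filter.atTop, ∀ (k l : ℕ) (hr : Option (Fin k) → ℕ)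
    (hc : Option (Fin l) → ℕ) (X : ℝ) (D : Finset (Finset ℕ × ℕ × Finset ℕ × ℕ)), 0 ≤ X →
    (∀ d ∈ D, DH σ d ∧ (vv d.1 d.2.1 : ℝ) ≤ X ∧ σ ^ 120 - 1 ≤ ll (maxs d.1) ∧
      ∃ (e : Fin k → ℕ) (e' : Fin l → ℕ), StrictMono e ∧ StrictMono e' ∧
      d.1 = Finset.univ.image e ∧ d.2.2.1 = Finset.univ.image e' ∧ hts σ e = hr ∧
      hts σ e' = hc) →
    (D.card : ℝ) ≤ X * Real.exp (-(σ ^ 120)) * Real.exp (-(9 / 4 * σ ^ 115)) := by
  classical
  obtain ⟨C, hC, hmat⟩ := mat_x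
  obtain ⟨C2, hC2, hW0⟩ := W0_le
  have hev : ∀ᶠ σ : ℝ in Filter.atTop, 0 < σ ^ 120 - 1 - lam σ := by
    filter_upwards [Filter.eventually_ge_atTop (1000 : ℝ)] with σ hσ
    have hσ1 : (1 : ℝ) ≤ σ := by linarith
    have hσ0 : (0 : ℝ) < σ := by linarith
    unfold lam
    rw [Real.log_mul (by norm_num) (by positivity), Real.log_pow]
    have h1 := Real.log_le_sub_one_of_pos (show (0 : ℝ) < 200 by norm_num)
    have h2 := Real.log_le_sub_one_of_pos hσ0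
    have h3 : σ ^ 2 ≤ σ ^ 120 := pow_le_pow_right₀ hσ1 (by norm_num)
    push_cast
    nlinarith only [hσ, h1, h2, h3]
  filter_upwards [pairclass_mat, pairclass_expo C C2 hC hC2, hW0, rho_pos, hev,
    Filter.eventually_ge_atTop (1 : ℝ)] with σ hgm hexpo hW hrho hρ0 hσ1 k l hr hc X D hX hD
  rcases D.eq_empty_or_nonempty with hDe | ⟨d0, hd0⟩
  · rw [hDe, Finset.card_empty, Nat.cast_zero]
    positivity
  obtain ⟨hDH, -, -, e, e', he, he', hd1, hd2, hre, hce⟩ := hD d0 hd0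
  obtain ⟨hk, hpe, hpe', hkσ, hlσ, hmax, hAP, hle, hle'⟩ :=
    pairclass_data (hr := hr) (hc := hc) hDH he he' hd1 hd2
  obtain ⟨gm, hinj, hg⟩ := hgm k l hr hc D (fun d hd => by
    obtain ⟨a1, -, -, a2⟩ := hD d hd
    exact ⟨a1, a2⟩)
  have hexp := hexpo k l e e' he hk hpe hpe' hkσ hlσ hmax hAP
  rw [hre, hce] at hexp
  have hz := pairclass_zz σ hr hc
  have hprime : ∀ i y, ∀ q ∈ QC σ hr hc i y, q.Prime := by
    intro i y q hq
    unfold QC at hq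
    exact (Finset.mem_filter.1 hq).2.1
  have hρr : ∀ i, 0 < rho σ hr i := by
    rw [← hre]
    exact hrho k e hle
  have hρc : ∀ i, 0 < rho σ hc i := by
    rw [← hce]
    exact hrho l e' hle'
  have hU : (1 : ℝ) ≤ σ ^ 120 + 2 := by
    have : (0 : ℝ) ≤ σ ^ 120 := by positivity
    linarith
  have hm := hmat (Option (Fin k)) (Option (Fin l)) (σ ^ 120 + 2) (zz σ hr hc) (QC σ hr hc)
    (rho σ hr) (rho σ hc) (mk k) (mk l) (D.image gm) (σ ^ 120 - 1 - lam σ) X hU hz hprime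
    hρr hρc hρ0 hX (by
      intro g hg'
      rw [Finset.mem_image] at hg'
      obtain ⟨d, hd, rfl⟩ := hg'
      obtain ⟨g1, g2, ⟨i, hi, y, hy, r, r1, r2, r3, r4, r5⟩, -, -⟩ := hg d hd
      obtain ⟨-, a2, a3, -⟩ := hD d hd
      refine ⟨g1, by rw [g2]; exact a2, i, hi, y, hy, r, r1, r2, r3, r4, by linarith⟩)
  rw [Finset.sum_image hinj, pairclass_mk_card, pairclass_mk_card, Fintype.card_option,
    Fintype.card_option, Fintype.card_fin, Fintype.card_fin] at hm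
  push_cast at hm
  have hWle := hW (Option (Fin k)) (Option (Fin l)) hr hc
  have h1 : (D.card : ℝ) ≤ Real.exp (pairclassXi σ hr) *
      ∑ d ∈ D, ∏ i, ∏ y, zm (zz σ hr hc) (gm d i y) := by
    rw [Finset.mul_sum]
    have h0 : (D.card : ℝ) = ∑ d ∈ D, (1 : ℝ) := by simp
    rw [h0]
    apply Finset.sum_le_sum
    intro d hd
    obtain ⟨g1, g2, -, g3, g4⟩ := hg d hd
    rw [pairclass_zm_tot _ _ g1.pos, g2]
    rw [inv_le_iff_one_le_mul₀ g3] at g4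
    exact g4
  have hKpos : 0 ≤ (3 * ((k : ℝ) + 1) * ((l : ℝ) + 1) * (C * (σ ^ 120 + 2) ^ 9)) ^ (k + l) := by
    positivity
  have h2 : ∑ d ∈ D, ∏ i, ∏ y, zm (zz σ hr hc) (gm d i y) ≤
      X * Real.exp (-(σ ^ 120 - 1 - lam σ)) *
      ((3 * ((k : ℝ) + 1) * ((l : ℝ) + 1) * (C * (σ ^ 120 + 2) ^ 9)) ^ (k + l) *
        Real.exp (-(∑ i ∈ mk k, rho σ hr i + ∑ y ∈ mk l, rho σ hc y)) *
        Real.exp ((σ ^ 102 + C2) * (1 + ∑ y, (hc y : ℝ)))) := by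
    refine hm.trans ?_
    apply mul_le_mul_of_nonneg_left _ (mul_nonneg hX (Real.exp_pos _).le)
    exact mul_le_mul_of_nonneg_left hWle (mul_nonneg hKpos (Real.exp_pos _).le)
  have h3 : Real.exp (-(σ ^ 120 - 1 - lam σ)) = Real.exp (-(σ ^ 120)) * Real.exp (1 + lam σ) := by
    rw [← Real.exp_add]
    congr 1
    ring
  refine h1.trans ((mul_le_mul_of_nonneg_left h2 (Real.exp_pos _).le).trans ?_)
  rw [h3]
  have h4 := mul_le_mul_of_nonneg_left hexp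
    (mul_nonneg hX (Real.exp_pos (-(σ ^ 120))).le)
  refine le_trans (le_of_eq ?_) h4
  ring

end P031
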