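import Vale.Agent.Lib.P031.PairClass

/-!
# P031 PairDisj: sum over the height profiles.

Every `d` with `DH σ d` is in the class `(k, l, hr, hc)`, `k = |P|`, `l = |P'|`, `e = P.orderEmbOfFin`, `hr = hts σ e` etc. (`k, l ≤ σ^10`,
heights `≤ Tm σ ≤ 5 σ^18` by `blk_lt_Tm`, `hts none = ⌊σ^9⌋₊`). The number of classes is at most
`(σ^10 + 1)^2 (5 σ^18 + 1)^(2 σ^10) ≤ exp(σ^11)`.
-/

namespace P031

open Finset Real

/-- block of the `i`-th element of `P`, extended by zero -/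
private noncomputable def pairDisjH (σ : ℝ) (P : Finset ℕ) (i : ℕ) : ℕ :=
  if h : i < P.card then blk σ (P.orderEmbOfFin rfl ⟨i, h⟩) else 0

private theorem pairDisjH_eq {σ : ℝ} {P : Finset ℕ} {k : ℕ} (h : P.card = k) (i : Fin k) :
    pairDisjH σ P i = blk σ (P.orderEmbOfFin h i) := by
  subst h
  unfold pairDisjH
  rw [dif_pos i.2]

/-- the profile of a pair -/
private noncomputable def pairDisjG (σ : ℝ) (N : ℕ) (d : Finset ℕ × ℕ × Finset ℕ × ℕ) :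
    (ℕ × ℕ) × (Fin N → ℕ) × (Fin N → ℕ) :=
  ((d.1.card, d.2.2.1.card), (fun i => pairDisjH σ d.1 i), (fun i => pairDisjH σ d.2.2.1 i))

private theorem pairDisj_hts {σ : ℝ} {N k : ℕ} {P P₀ : Finset ℕ} (hk : k ≤ N) (h : P.card = k)
    (h₀ : P₀.card = k) (hH : ∀ i : Fin N, pairDisjH σ P i = pairDisjH σ P₀ i) :
    hts σ (P.orderEmbOfFin h) = hts σ (P₀.orderEmbOfFin h₀) := by
  funext i
  cases i with
  | none => rfl
  | some i =>
    change blk σ (P.orderEmbOfFin h i) = blk σ (P₀.orderEmbOfFin h₀ i)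
    have h1 := hH ⟨i, lt_of_lt_of_le i.2 hk⟩
    rwa [pairDisjH_eq h i, pairDisjH_eq h₀ i] at h1

private theorem pairDisj_blk {σ : ℝ} (hσ : 1 ≤ σ) {P : Finset ℕ} {f : ℕ} (hA : Adm σ P f) (i : ℕ) :
    pairDisjH σ P i ≤ Tm σ := by
  unfold pairDisjH
  split_ifs with h
  · have hm : P.orderEmbOfFin rfl ⟨i, h⟩ ∈ P := P.orderEmbOfFin_mem rfl ⟨i, h⟩
    obtain ⟨hp, -, -, hE⟩ := hA.pr _ hm
    have h1 := (le_EE_iff hp.two_le).mp hE
    have h2 := blk_lt_Tm hσ h1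
    omega
  · exact Nat.zero_le _

private theorem pairDisj_sum {σ : ℝ} (hσ : 2 ≤ σ) (w : Finset ℕ × ℕ × Finset ℕ × ℕ → ℝ)
    (D : Finset (Finset ℕ × ℕ × Finset ℕ × ℕ)) {B : ℝ} (hB : 0 ≤ B) (hD : ∀ d ∈ D, DH σ d)
    (hclass : ∀ (k l : ℕ) (hr : Option (Fin k) → ℕ) (hc : Option (Fin l) → ℕ)
      (D' : Finset (Finset ℕ × ℕ × Finset ℕ × ℕ)), D' ⊆ D →
      (∀ d ∈ D', ∃ (e : Fin k → ℕ) (e' : Fin l → ℕ), StrictMono e ∧ StrictMono e' ∧
      d.1 = Finset.univ.image e ∧ d.2.2.1 = Finset.univ.image e' ∧ hts σ e = hr ∧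
      hts σ e' = hc) → ∑ d ∈ D', w d ≤ B) :
    ∑ d ∈ D, w d ≤ Real.exp (σ ^ 115 / 4) * B := by
  classical
  have h1σ : 1 ≤ σ := by linarith
  set N := ⌊σ ^ 10⌋₊ with hN
  have hNle : (N : ℝ) ≤ σ ^ 10 := Nat.floor_le (by positivity)
  set T : Finset ((ℕ × ℕ) × (Fin N → ℕ) × (Fin N → ℕ)) :=
    ((Finset.range (N + 1)) ×ˢ (Finset.range (N + 1))) ×ˢ
      ((Fintype.piFinset fun _ => Finset.range (Tm σ + 1)) ×ˢ
        (Fintype.piFinset fun _ => Finset.range (Tm σ + 1))) with hT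
  have hcardle : ∀ (P : Finset ℕ) (f : ℕ), Adm σ P f → P.card ≤ N := by
    intro P f hA
    rw [hN]
    exact Nat.le_floor hA.cardP
  have hmaps : ∀ d ∈ D, pairDisjG σ N d ∈ T := by
    intro d hd
    obtain ⟨hA, hA', -⟩ := hD d hd
    simp only [hT, Finset.mem_product, Finset.mem_range, Fintype.mem_piFinset, pairDisjG]
    refine ⟨⟨?_, ?_⟩, fun i => ?_, fun i => ?_⟩
    · have := hcardle _ _ hA
      omega
    · have := hcardle _ _ hA'
      omega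
    · have := pairDisj_blk h1σ hA i
      omega
    · have := pairDisj_blk h1σ hA' i
      omega
  rw [← Finset.sum_fiberwise_of_maps_to hmaps]
  have hfib : ∀ y ∈ T, ∑ d ∈ D with pairDisjG σ N d = y, w d ≤ B := by
    intro y _
    rcases (D.filter (fun d => pairDisjG σ N d = y)).eq_empty_or_nonempty with h | ⟨d₀, hd₀⟩
    · rw [h, Finset.sum_empty]
      exact hB
    · have hd₀' := Finset.mem_filter.mp hd₀
      obtain ⟨hA₀, hA₀', -⟩ := hD d₀ hd₀'.1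
      refine hclass d₀.1.card d₀.2.2.1.card (hts σ (d₀.1.orderEmbOfFin rfl))
        (hts σ (d₀.2.2.1.orderEmbOfFin rfl)) _ (Finset.filter_subset _ _) fun d hd => ?_
      have hd' := Finset.mem_filter.mp hd
      have heq : pairDisjG σ N d = pairDisjG σ N d₀ := hd'.2.trans hd₀'.2.symm
      have hk : d.1.card = d₀.1.card := congrArg (fun z => z.1.1) heq
      have hl : d.2.2.1.card = d₀.2.2.1.card := congrArg (fun z => z.1.2) heq
      have hH1 : ∀ i : Fin N, pairDisjH σ d.1 i = pairDisjH σ d₀.1 i := fun i =>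
        congrFun (congrArg (fun z => z.2.1) heq) i
      have hH2 : ∀ i : Fin N, pairDisjH σ d.2.2.1 i = pairDisjH σ d₀.2.2.1 i := fun i =>
        congrFun (congrArg (fun z => z.2.2) heq) i
      refine ⟨d.1.orderEmbOfFin hk, d.2.2.1.orderEmbOfFin hl, (d.1.orderEmbOfFin hk).strictMono,
        (d.2.2.1.orderEmbOfFin hl).strictMono, ?_, ?_, ?_, ?_⟩
      · exact (Finset.image_orderEmbOfFin_univ _ hk).symm
      · exact (Finset.image_orderEmbOfFin_univ _ hl).symm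
      · exact pairDisj_hts (hcardle _ _ hA₀) hk rfl hH1
      · exact pairDisj_hts (hcardle _ _ hA₀') hl rfl hH2
  refine (Finset.sum_le_sum hfib).trans ?_
  rw [Finset.sum_const, nsmul_eq_mul]
  refine mul_le_mul_of_nonneg_right ?_ hB
  have hcard : T.card = (N + 1) * (N + 1) * ((Tm σ + 1) ^ N * (Tm σ + 1) ^ N) := by
    simp [hT, Finset.card_product]
  have hexpN : ((N + 1 : ℕ) : ℝ) ≤ Real.exp N := by
    push_cast
    exact Real.add_one_le_exp _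
  have hexpT : ((Tm σ + 1 : ℕ) : ℝ) ≤ Real.exp (Tm σ) := by
    push_cast
    exact Real.add_one_le_exp _
  have hexpT' : ((Tm σ + 1 : ℕ) : ℝ) ^ N ≤ Real.exp (N * Tm σ) := by
    refine (pow_le_pow_left₀ (Nat.cast_nonneg _) hexpT N).trans ?_
    rw [← Real.exp_nat_mul]
  rw [hcard]
  push_cast at hexpN hexpT' ⊢
  calc ((N : ℝ) + 1) * (N + 1) * (((Tm σ : ℝ) + 1) ^ N * ((Tm σ : ℝ) + 1) ^ N)
      ≤ Real.exp N * Real.exp N * (Real.exp (N * Tm σ) * Real.exp (N * Tm σ)) := by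
        gcongr
    _ = Real.exp (N + N + (N * Tm σ + N * Tm σ)) := by
        rw [← Real.exp_add, ← Real.exp_add, ← Real.exp_add]
    _ ≤ Real.exp (σ ^ 115 / 4) := by
        refine Real.exp_le_exp.mpr ?_
        have hTm := Tm_le h1σ
        have h2 : (N : ℝ) * Tm σ ≤ σ ^ 10 * (5 * σ ^ 18) := by gcongr
        have h3 : σ ^ 10 * (5 * σ ^ 18) = 5 * σ ^ 28 := by ring
        have h4 : σ ^ 10 ≤ σ ^ 28 := pow_le_pow_right₀ h1σ (by norm_num)
        have h5 : 48 * σ ^ 28 ≤ σ ^ 115 := by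
          have h6 : σ ^ 115 = σ ^ 87 * σ ^ 28 := by ring
          have h7 : (48 : ℝ) ≤ σ ^ 87 := by
            calc (48 : ℝ) ≤ 2 ^ 87 := by norm_num
              _ ≤ σ ^ 87 := pow_le_pow_left₀ (by norm_num) hσ 87
          rw [h6]
          exact mul_le_mul_of_nonneg_right h7 (by positivity)
        linarith

theorem disj_w : ∀ᶠ σ : ℝ in Filter.atTop, ∀ D : Finset (Finset ℕ × ℕ × Finset ℕ × ℕ),
    (∀ d ∈ D, DH σ d) → ∑ d ∈ D, 1 / (vv d.1 d.2.1 : ℝ) ≤ Real.exp (-(2 * σ ^ 115)) := by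
  filter_upwards [class_w, Filter.eventually_ge_atTop (2 : ℝ)] with σ hcl hσ D hD
  have h := pairDisj_sum hσ (fun d => 1 / (vv d.1 d.2.1 : ℝ)) D (B := Real.exp (-(9 / 4 * σ ^ 115)))
    (Real.exp_pos _).le hD (fun k l hr hc D' hsub hD' =>
      hcl k l hr hc D' fun d hd => ⟨hD d (hsub hd), hD' d hd⟩)
  refine h.trans (le_of_eq ?_)
  rw [← Real.exp_add]
  congr 1
  ring

theorem disj_x : ∀ᶠ σ : ℝ in Filter.atTop, ∀ (X : ℝ) (D : Finset (Finset ℕ × ℕ × Finset ℕ × ℕ)),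
    0 ≤ X → (∀ d ∈ D, DH σ d ∧ (vv d.1 d.2.1 : ℝ) ≤ X ∧ σ ^ 120 - 1 ≤ ll (maxs d.1)) →
    (D.card : ℝ) ≤ X * Real.exp (-(σ ^ 120)) * Real.exp (-(2 * σ ^ 115)) := by
  filter_upwards [class_x, Filter.eventually_ge_atTop (2 : ℝ)] with σ hcl hσ X D hX hD
  have h := pairDisj_sum hσ (fun _ => (1 : ℝ)) D
    (B := X * Real.exp (-(σ ^ 120)) * Real.exp (-(9 / 4 * σ ^ 115)))
    (by positivity) (fun d hd => (hD d hd).1) (fun k l hr hc D' hsub hD' => by
      have h1 := hcl k l hr hc X D' hX fun d hd =>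
        ⟨(hD d (hsub hd)).1, (hD d (hsub hd)).2.1, (hD d (hsub hd)).2.2, hD' d hd⟩
      simpa using h1)
  have h2 : ∑ _d ∈ D, (1 : ℝ) = D.card := by simp
  rw [h2] at h
  refine h.trans (le_of_eq ?_)
  have h3 : Real.exp (-(2 * σ ^ 115)) = Real.exp (σ ^ 115 / 4) * Real.exp (-(9 / 4 * σ ^ 115)) := by
    rw [← Real.exp_add]
    congr 1
    ring
  rw [h3]
  ring

end P031
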