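import Vale.Agent.Lib.P031.Imp
import Mathlib.NumberTheory.LSeries.SumCoeff
import Mathlib.NumberTheory.LSeries.PrimesInAP
import Mathlib.Analysis.Fourier.RiemannLebesgueLemma

/-! The Fejer kernel `K x = sinc (x/2) ^ 2`. -/

open MeasureTheory Filter Topology Set

namespace Vale.Agent.Lib.P031.PNT

/-- The (unnormalised) Fejer kernel. -/
noncomputable def K (x : ℝ) : ℝ := Real.sinc (x / 2) ^ 2

lemma K_continuous : Continuous K := by
  unfold K
  fun_prop

lemma K_nonneg (x : ℝ) : 0 ≤ K x := sq_nonneg _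

lemma K_le_one (x : ℝ) : K x ≤ 1 := by
  unfold K
  have h := Real.abs_sinc_le_one (x / 2)
  rw [← sq_abs]
  nlinarith [abs_nonneg (Real.sinc (x / 2))]

lemma K_of_ne_zero {x : ℝ} (hx : x ≠ 0) : K x = 2 * (1 - Real.cos x) / x ^ 2 := by
  unfold K
  rw [Real.sinc_of_ne_zero (by positivity)]
  have h : Real.sin (x / 2) ^ 2 = (1 - Real.cos x) / 2 := by
    rw [Real.sin_sq_eq_half_sub]
    ring_nf
  rw [div_pow, h]
  field_simp

lemma K_mul_sq_le (x : ℝ) : K x * x ^ 2 ≤ 4 := by
  by_cases hx : x = 0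
  · subst hx; norm_num
  · rw [K_of_ne_zero hx]
    have := Real.neg_one_le_cos x
    field_simp
    linarith

lemma K_le (x : ℝ) : K x ≤ 5 * (1 + x ^ 2)⁻¹ := by
  rw [← div_eq_mul_inv, le_div_iff₀ (by positivity)]
  nlinarith [K_le_one x, K_mul_sq_le x]

lemma K_integrable : Integrable K := by
  refine Integrable.mono' (g := fun x => 5 * (1 + x ^ 2)⁻¹) ?_ K_continuous.aestronglyMeasurable ?_
  · exact integrable_inv_one_add_sq.const_mul 5
  · refine Eventually.of_forall fun x => ?_
    rw [Real.norm_of_nonneg (K_nonneg x)]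
    exact K_le x

lemma K_zero : K 0 = 1 := by simp [K]

lemma K_int_pos : 0 < ∫ x, K x := by
  rw [integral_pos_iff_support_of_nonneg K_nonneg K_integrable]
  have h1 : IsOpen (Function.support K) := K_continuous.isOpen_support
  exact h1.measure_pos _ ⟨0, by simp [K_zero]⟩

/-- The integral of the tent function against `cos`. -/
lemma tent_cos {x : ℝ} (hx : x ≠ 0) :
    ∫ u in (0:ℝ)..1, (1 - u) * Real.cos (u * x) = (1 - Real.cos x) / x ^ 2 := by
  have h : ∀ u ∈ Set.uIcc (0:ℝ) 1,
      HasDerivAt (fun u => (1 - u) * (Real.sin (u * x) / x) - Real.cos (u * x) / x ^ 2)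
        ((1 - u) * Real.cos (u * x)) u := by
    intro u _
    have h1 : HasDerivAt (fun u : ℝ => u * x) x u := by
      simpa using (hasDerivAt_id u).mul_const x
    have h2 : HasDerivAt (fun u : ℝ => (1 - u)) (-1) u := by
      simpa using (hasDerivAt_id u).const_sub 1
    have h3 : HasDerivAt (fun u : ℝ => Real.sin (u * x) / x) (Real.cos (u * x) * x / x) u :=
      (h1.sin).div_const x
    have h4 : HasDerivAt (fun u : ℝ => Real.cos (u * x) / x ^ 2) (-Real.sin (u * x) * x / x ^ 2) u :=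
      (h1.cos).div_const (x ^ 2)
    have h5 := (h2.mul h3).sub h4
    refine h5.congr_deriv ?_
    field_simp
    ring
  rw [intervalIntegral.integral_eq_sub_of_hasDerivAt h]
  · simp
    field_simp
    ring
  · apply Continuous.intervalIntegrable
    fun_prop

lemma tent_fourier_ne {x : ℝ} (hx : x ≠ 0) :
    ∫ u in (-1:ℝ)..1, ((1 - |u| : ℝ) : ℂ) * Complex.exp (Complex.I * (u * x : ℝ)) = (K x : ℂ) := by
  have hcont : Continuous fun u : ℝ => ((1 - |u| : ℝ) : ℂ) * Complex.exp (Complex.I * (u * x : ℝ)) := by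
    fun_prop
  have h0 : ∫ u in (-1:ℝ)..0, ((1 - |u| : ℝ) : ℂ) * Complex.exp (Complex.I * (u * x : ℝ))
      = ∫ u in (0:ℝ)..1, ((1 - |u| : ℝ) : ℂ) * Complex.exp (-(Complex.I * (u * x : ℝ))) := by
    have := intervalIntegral.integral_comp_neg (a := (0:ℝ)) (b := 1)
      (fun u : ℝ => ((1 - |u| : ℝ) : ℂ) * Complex.exp (Complex.I * (u * x : ℝ)))
    simp only [neg_zero] at this
    rw [← this]
    refine intervalIntegral.integral_congr fun u _ => ?_
    simp [abs_neg]
  rw [← intervalIntegral.integral_add_adjacent_intervals (b := 0) (hcont.intervalIntegrable _ _)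
    (hcont.intervalIntegrable _ _), h0, ← intervalIntegral.integral_add]
  · have : ∀ u ∈ Set.uIcc (0:ℝ) 1,
        ((1 - |u| : ℝ) : ℂ) * Complex.exp (-(Complex.I * (u * x : ℝ))) +
        ((1 - |u| : ℝ) : ℂ) * Complex.exp (Complex.I * (u * x : ℝ))
        = ((2 * ((1 - u) * Real.cos (u * x)) : ℝ) : ℂ) := by
      intro u hu
      rw [Set.uIcc_of_le zero_le_one] at hu
      rw [abs_of_nonneg hu.1]
      have : Complex.cos ((u * x : ℝ) : ℂ) =
        (Complex.exp (Complex.I * (u * x : ℝ)) + Complex.exp (-(Complex.I * (u * x : ℝ)))) / 2 := by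
        rw [Complex.cos]
        ring_nf
      push_cast at this ⊢
      rw [this]
      ring
    rw [intervalIntegral.integral_congr this, intervalIntegral.integral_ofReal,
      intervalIntegral.integral_const_mul, tent_cos hx, K_of_ne_zero hx]
    congr 1
    ring
  · apply Continuous.intervalIntegrable
    fun_prop
  · apply Continuous.intervalIntegrable
    fun_prop

lemma tent_fourier_ae (c d : ℝ) (hc : c ≠ 0) : ∀ᵐ t : ℝ,
    ∫ u in (-1:ℝ)..1, ((1 - |u| : ℝ) : ℂ) * Complex.exp (Complex.I * (u * (c * (d - t)) : ℝ))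
      = (K (c * (d - t)) : ℂ) := by
  have : ∀ᵐ t : ℝ, t ≠ d := by
    rw [ae_iff]
    simp
  filter_upwards [this] with t ht
  exact tent_fourier_ne (mul_ne_zero hc (sub_ne_zero.2 (Ne.symm ht)))

end Vale.Agent.Lib.P031.PNT
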