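import Vale.Agent.Lib.P031.PntA

/-! Wiener-Ikehara: the analytic part. -/

open MeasureTheory Filter Topology Set

namespace Vale.Agent.Lib.P031.PNT

/-- Fubini plus the Fejer kernel, for `0 < ε`. -/
lemma fubini_step {h : ℝ → ℝ} (hm : Measurable h) {M : ℝ} (hM : ∀ t, |h t| ≤ M)
    {G : ℂ → ℂ}
    (hG : ∀ z : ℂ, 0 < z.re → G z = ∫ t in Ioi (0:ℝ), (h t : ℂ) * Complex.exp (-(z * t)))
    {l : ℝ} (hl : 0 < l) (y : ℝ) {ε : ℝ} (hε : 0 < ε) :
    ∫ u in (-1:ℝ)..1, ((1 - |u| : ℝ) : ℂ) * Complex.exp (Complex.I * (u * (l * y) : ℝ))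
        * G (ε + Complex.I * (l * u : ℝ))
      = ∫ t in Ioi (0:ℝ), (h t : ℂ) * (Real.exp (-(ε * t)) : ℂ) * (K (l * (y - t)) : ℂ) := by
  have hM0 : 0 ≤ M := (abs_nonneg _).trans (hM 0)
  set F : ℝ → ℝ → ℂ := fun u t =>
    ((1 - |u| : ℝ) : ℂ) * Complex.exp (Complex.I * (u * (l * y) : ℝ)) *
      ((h t : ℂ) * Complex.exp (-((ε + Complex.I * (l * u : ℝ)) * t))) with hF
  have hswap : ∫ u in Ioc (-1:ℝ) 1, ∫ t in Ioi (0:ℝ), F u t
      = ∫ t in Ioi (0:ℝ), ∫ u in Ioc (-1:ℝ) 1, F u t := by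
    apply integral_integral_swap
    refine Integrable.mono' (g := fun p : ℝ × ℝ => (fun _ : ℝ => (1:ℝ)) p.1 *
      (fun t : ℝ => M * Real.exp (-ε * t)) p.2) ?_ ?_ ?_
    · refine Integrable.mul_prod (f := fun _ : ℝ => (1:ℝ)) (g := fun t : ℝ => M * Real.exp (-ε * t)) ?_ ?_
      · exact integrable_const _
      · exact (integrableOn_exp_mul_Ioi (by linarith) 0).const_mul M
    · apply Measurable.aestronglyMeasurable
      have hm2 : Measurable fun p : ℝ × ℝ => (h p.2 : ℂ) :=
        Complex.measurable_ofReal.comp (hm.comp measurable_snd)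
      simp only [hF, Function.uncurry_def]
      refine Measurable.mul (Continuous.measurable (by fun_prop)) (hm2.mul ?_)
      exact Continuous.measurable (by fun_prop)
    · have hae : ∀ᵐ p : ℝ × ℝ ∂((volume.restrict (Ioc (-1:ℝ) 1)).prod (volume.restrict (Ioi (0:ℝ)))),
          p ∈ Ioc (-1:ℝ) 1 ×ˢ Ioi (0:ℝ) := by
        rw [Measure.prod_restrict]
        exact ae_restrict_mem (measurableSet_Ioc.prod measurableSet_Ioi)
      filter_upwards [hae] with p hp
      obtain ⟨hp1, hp2⟩ := hp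
      simp only [hF, Function.uncurry_def]
      rw [norm_mul, norm_mul, norm_mul, Complex.norm_real, Complex.norm_real, Complex.norm_exp,
        Complex.norm_exp]
      have h1 : ‖(1 - |p.1| : ℝ)‖ ≤ 1 := by
        rw [Real.norm_eq_abs, abs_le]
        have := abs_le.2 ⟨hp1.1.le, hp1.2⟩
        constructor <;> linarith [abs_nonneg p.1]
      have h2 : (Complex.I * ((p.1 * (l * y) : ℝ) : ℂ)).re = 0 := by simp
      have h3 : (-(((ε : ℂ) + Complex.I * ((l * p.1 : ℝ) : ℂ)) * (p.2 : ℂ))).re = -ε * p.2 := by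
        simp
      rw [h2, h3, Real.exp_zero, mul_one]
      have h4 : ‖h p.2‖ ≤ M := hM _
      gcongr
  rw [intervalIntegral.integral_of_le (by norm_num)]
  calc ∫ u in Ioc (-1:ℝ) 1, ((1 - |u| : ℝ) : ℂ) * Complex.exp (Complex.I * (u * (l * y) : ℝ))
        * G (ε + Complex.I * (l * u : ℝ))
      = ∫ u in Ioc (-1:ℝ) 1, ∫ t in Ioi (0:ℝ), F u t := by
        refine integral_congr_ae (Eventually.of_forall fun u => ?_)
        simp only [hF]
        rw [hG _ (by simp [hε]), integral_const_mul]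
    _ = ∫ t in Ioi (0:ℝ), ∫ u in Ioc (-1:ℝ) 1, F u t := hswap
    _ = _ := by
        have hae := ae_restrict_of_ae (s := Ioi (0:ℝ)) (tent_fourier_ae l y hl.ne')
        refine integral_congr_ae ?_
        filter_upwards [hae] with t ht
        rw [← ht, intervalIntegral.integral_of_le (by norm_num), ← integral_const_mul]
        refine integral_congr_ae (Eventually.of_forall fun u => ?_)
        simp only [hF]
        have : Complex.exp (Complex.I * ((u * (l * (y - t)) : ℝ) : ℂ)) * (Real.exp (-(ε * t)) : ℂ)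
          = Complex.exp (Complex.I * (u * (l * y) : ℝ)) *
            Complex.exp (-((ε + Complex.I * (l * u : ℝ)) * t)) := by
          rw [Complex.ofReal_exp, ← Complex.exp_add, ← Complex.exp_add]
          congr 1
          push_cast
          ring
        calc _ = ((1 - |u| : ℝ) : ℂ) * (h t : ℂ) * (Complex.exp (Complex.I * (u * (l * y) : ℝ)) *
            Complex.exp (-((ε + Complex.I * (l * u : ℝ)) * t))) := by ring
          _ = _ := by rw [← this]; ring

/-- The limit `ε → 0` of `fubini_step`. -/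
lemma limit_step {h : ℝ → ℝ} (hm : Measurable h) {M : ℝ} (hM : ∀ t, |h t| ≤ M)
    {G : ℂ → ℂ} (hGc : ContinuousOn G {z | 0 ≤ z.re})
    (hG : ∀ z : ℂ, 0 < z.re → G z = ∫ t in Ioi (0:ℝ), (h t : ℂ) * Complex.exp (-(z * t)))
    {l : ℝ} (hl : 0 < l) (y : ℝ) :
    ∫ u in (-1:ℝ)..1, ((1 - |u| : ℝ) : ℂ) * Complex.exp (Complex.I * (u * (l * y) : ℝ))
        * G (Complex.I * (l * u : ℝ))
      = ∫ t in Ioi (0:ℝ), (h t : ℂ) * (K (l * (y - t)) : ℂ) := by
  have hM0 : 0 ≤ M := (abs_nonneg _).trans (hM 0)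
  -- the map (ε, u) ↦ ε + I l u
  have hcont : ContinuousOn (fun p : ℝ × ℝ => G (p.1 + Complex.I * (l * p.2 : ℝ)))
      (Ici (0:ℝ) ×ˢ univ) := by
    refine hGc.comp (Continuous.continuousOn (by fun_prop)) ?_
    intro p hp
    simpa using hp.1
  have hcontu : ∀ ε : ℝ, 0 ≤ ε → Continuous fun u : ℝ => G (ε + Complex.I * (l * u : ℝ)) := by
    intro ε hε
    have : ContinuousOn (fun u : ℝ => G (ε + Complex.I * (l * u : ℝ))) univ := by
      refine hcont.comp (f := fun u : ℝ => ((ε, u) : ℝ × ℝ)) (Continuous.continuousOn (by fun_prop)) ?_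
      intro u _
      exact ⟨hε, mem_univ _⟩
    exact continuousOn_univ.1 this
  obtain ⟨Cb, hCb⟩ : ∃ Cb, ∀ p ∈ Icc (0:ℝ) 1 ×ˢ Icc (-1:ℝ) 1,
      ‖G (p.1 + Complex.I * (l * p.2 : ℝ))‖ ≤ Cb := by
    have hc : IsCompact (Icc (0:ℝ) 1 ×ˢ Icc (-1:ℝ) 1) := isCompact_Icc.prod isCompact_Icc
    exact hc.exists_bound_of_continuousOn (hcont.mono (prod_mono Icc_subset_Ici_self (subset_univ _)))
  have hCb0 : 0 ≤ Cb := (norm_nonneg _).trans (hCb (0, 0) (by simp))
  -- left side
  have hL : Tendsto (fun ε : ℝ => ∫ u in (-1:ℝ)..1, ((1 - |u| : ℝ) : ℂ) *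
        Complex.exp (Complex.I * (u * (l * y) : ℝ)) * G (ε + Complex.I * (l * u : ℝ)))
      (𝓝[>] (0:ℝ)) (𝓝 (∫ u in (-1:ℝ)..1, ((1 - |u| : ℝ) : ℂ) *
        Complex.exp (Complex.I * (u * (l * y) : ℝ)) * G (Complex.I * (l * u : ℝ)))) := by
    refine intervalIntegral.tendsto_integral_filter_of_dominated_convergence (fun _ => Cb) ?_ ?_ ?_ ?_
    · filter_upwards [self_mem_nhdsWithin] with ε hε
      have h1 := hcontu ε (le_of_lt hε)
      have h2 : Continuous fun u : ℝ => ((1 - |u| : ℝ) : ℂ) *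
        Complex.exp (Complex.I * (u * (l * y) : ℝ)) := by fun_prop
      exact (h2.mul h1).aestronglyMeasurable
    · have : ∀ᶠ ε : ℝ in 𝓝[>] (0:ℝ), ε ∈ Icc (0:ℝ) 1 := by
        filter_upwards [Ioc_mem_nhdsGT (show (0:ℝ) < 1 by norm_num)] with ε hε
        exact ⟨hε.1.le, hε.2⟩
      filter_upwards [this] with ε hε
      refine Eventually.of_forall fun u hu => ?_
      rw [uIoc_of_le (by norm_num)] at hu
      rw [norm_mul, norm_mul, Complex.norm_real, Complex.norm_exp]
      have h1 : ‖(1 - |u| : ℝ)‖ ≤ 1 := by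
        rw [Real.norm_eq_abs, abs_le]
        have := abs_le.2 ⟨hu.1.le, hu.2⟩
        constructor <;> linarith [abs_nonneg u]
      have h2 : (Complex.I * ((u * (l * y) : ℝ) : ℂ)).re = 0 := by simp
      rw [h2, Real.exp_zero, mul_one]
      have h3 := hCb (ε, u) ⟨hε, ⟨hu.1.le, hu.2⟩⟩
      calc _ ≤ 1 * Cb := by gcongr
        _ = Cb := one_mul _
    · exact intervalIntegrable_const
    · refine Eventually.of_forall fun u _ => ?_
      refine Tendsto.const_mul _ ?_
      have h1 := hcont (0, u) ⟨mem_Ici.2 le_rfl, mem_univ _⟩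
      have h2 : Tendsto (fun ε : ℝ => ((ε, u) : ℝ × ℝ)) (𝓝[>] (0:ℝ)) (𝓝[Ici (0:ℝ) ×ˢ univ] (0, u)) := by
        refine tendsto_nhdsWithin_iff.2 ⟨?_, ?_⟩
        · exact (Continuous.tendsto (by fun_prop) (0:ℝ)).mono_left nhdsWithin_le_nhds
        · filter_upwards [self_mem_nhdsWithin] with ε hε
          exact ⟨mem_Ici.2 (le_of_lt (mem_Ioi.1 hε)), mem_univ _⟩
      have h3 := h1.tendsto.comp h2
      simpa using! h3
  have hKint : Integrable (fun t : ℝ => K (l * (y - t))) := by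
    have h1 : Integrable (fun t : ℝ => K (l * t)) := K_integrable.comp_mul_left' hl.ne'
    exact h1.comp_sub_left y
  have hR : Tendsto (fun ε : ℝ => ∫ t in Ioi (0:ℝ), (h t : ℂ) * (Real.exp (-(ε * t)) : ℂ) *
        (K (l * (y - t)) : ℂ)) (𝓝[>] (0:ℝ))
      (𝓝 (∫ t in Ioi (0:ℝ), (h t : ℂ) * (K (l * (y - t)) : ℂ))) := by
    refine MeasureTheory.tendsto_integral_filter_of_dominated_convergence
      (fun t => M * K (l * (y - t))) ?_ ?_ ?_ ?_
    · refine Eventually.of_forall fun ε => ?_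
      apply Measurable.aestronglyMeasurable
      have hm2 : Measurable fun t : ℝ => (h t : ℂ) := Complex.measurable_ofReal.comp hm
      have hK := K_continuous
      refine (hm2.mul ?_).mul ?_ <;> exact Continuous.measurable (by fun_prop)
    · filter_upwards [self_mem_nhdsWithin] with ε hε
      filter_upwards [ae_restrict_mem measurableSet_Ioi] with t ht
      rw [norm_mul, norm_mul, Complex.norm_real, Complex.norm_real, Complex.norm_real]
      have h1 : ‖h t‖ ≤ M := hM t
      have h2 : ‖Real.exp (-(ε * t))‖ ≤ 1 := by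
        rw [Real.norm_of_nonneg (Real.exp_pos _).le, Real.exp_le_one_iff]
        have := mul_pos (mem_Ioi.1 hε) (mem_Ioi.1 ht)
        linarith
      have h3 : ‖K (l * (y - t))‖ = K (l * (y - t)) := Real.norm_of_nonneg (K_nonneg _)
      rw [h3]
      have := K_nonneg (l * (y - t))
      calc _ ≤ M * 1 * K (l * (y - t)) := by gcongr
        _ = _ := by ring
    · exact (hKint.const_mul M).integrableOn
    · refine Eventually.of_forall fun t => ?_
      have : Tendsto (fun ε : ℝ => (h t : ℂ) * (Real.exp (-(ε * t)) : ℂ) *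
        (K (l * (y - t)) : ℂ)) (𝓝 (0:ℝ)) (𝓝 ((h t : ℂ) * (Real.exp (-(0 * t)) : ℂ) *
        (K (l * (y - t)) : ℂ))) := Continuous.tendsto (by fun_prop) _
      simpa using this.mono_left nhdsWithin_le_nhds
  refine tendsto_nhds_unique hL (hR.congr' ?_)
  filter_upwards [self_mem_nhdsWithin] with ε hε
  exact (fubini_step hm hM hG hl y hε).symm

/-- Riemann-Lebesgue for the boundary integral. -/
lemma riemann_lebesgue_step {G : ℂ → ℂ} {l : ℝ} (hl : 0 < l) :
    Tendsto (fun y : ℝ => ∫ u in (-1:ℝ)..1, ((1 - |u| : ℝ) : ℂ) *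
        Complex.exp (Complex.I * (u * (l * y) : ℝ)) * G (Complex.I * (l * u : ℝ))) atTop (𝓝 0) := by
  have h1 := Real.tendsto_integral_exp_smul_cocompact
    (fun u : ℝ => (Ioc (-1:ℝ) 1).indicator (fun u => ((1 - |u| : ℝ) : ℂ) * G (Complex.I * (l * u : ℝ))) u)
  have h2 : Tendsto (fun y : ℝ => -(l * y / (2 * Real.pi))) atTop (cocompact ℝ) := by
    refine Tendsto.mono_right ?_ atBot_le_cocompact
    refine tendsto_neg_atTop_atBot.comp ?_
    have : (fun y : ℝ => l * y / (2 * Real.pi)) = fun y => (l / (2 * Real.pi)) * y := by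
      ext y; ring
    rw [this]
    exact tendsto_id.const_mul_atTop (by positivity)
  refine (h1.comp h2).congr fun y => ?_
  simp only [Function.comp]
  rw [intervalIntegral.integral_of_le (by norm_num), ← integral_indicator measurableSet_Ioc]
  refine integral_congr_ae (Eventually.of_forall fun u => ?_)
  simp only
  by_cases hu : u ∈ Ioc (-1:ℝ) 1
  · rw [indicator_of_mem hu, indicator_of_mem hu, Circle.smul_def, Real.fourierChar_apply, smul_eq_mul]
    have : Complex.exp (((2 * Real.pi * -(u * -(l * y / (2 * Real.pi))) : ℝ) : ℂ) * Complex.I)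
        = Complex.exp (Complex.I * (u * (l * y) : ℝ)) := by
      congr 1
      rw [mul_comm]
      congr 2
      field_simp
    rw [this]
    ring
  · rw [indicator_of_notMem hu, indicator_of_notMem hu, smul_zero]

/-- **Analytic Tauberian step**: weighted averages of `h` tend to zero. -/
lemma average_tendsto_zero {h : ℝ → ℝ} (hm : Measurable h) {M : ℝ} (hM : ∀ t, |h t| ≤ M)
    {G : ℂ → ℂ} (hGc : ContinuousOn G {z | 0 ≤ z.re})
    (hG : ∀ z : ℂ, 0 < z.re → G z = ∫ t in Ioi (0:ℝ), (h t : ℂ) * Complex.exp (-(z * t)))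
    {l : ℝ} (hl : 0 < l) :
    Tendsto (fun y : ℝ => ∫ t in Ioi (0:ℝ), h t * K (l * (y - t))) atTop (𝓝 0) := by
  have h1 := riemann_lebesgue_step (G := G) hl
  have h2 : Tendsto (fun y : ℝ => (((∫ t in Ioi (0:ℝ), h t * K (l * (y - t)) : ℝ)) : ℂ)) atTop (𝓝 0) := by
    refine h1.congr fun y => ?_
    rw [limit_step hm hM hGc hG hl y, ← integral_complex_ofReal]
    refine integral_congr_ae (Eventually.of_forall fun t => ?_)
    push_cast
    rfl
  have h3 := (Complex.continuous_re.tendsto 0).comp h2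
  simpa using! h3

end Vale.Agent.Lib.P031.PNT
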