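import Vale.Agent.Lib.P031.Zeta

/-!
# P031 ZetaDeep: deep case, contraction towards the minimal sequence.
-/

namespace P031

open Finset Real

/-- Deep case. `z = zt C m0 τ`, `BB C z nn ≤ s - τ`; `y` is `h`-close to the relaxed sequence `x` and
`x' = (1 - μ) y + μ z`. Then `x'` is strict. Proof: `BB_affine`, `BB_lip`:
`BB C x' k ≤ (1-μ)((1+ε) x k + K h) + μ (z k - τ) ≤ x' k + ε s + K h + h - μ τ`;
order: `x' (k+1) - x' k ≥ -2h + μ τ > 0`; `x' 0 ≥ m0 - h + μ τ > m0`;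
`x' k ≤ (1-μ)(s1 + h) + μ z k` with `z k ≤ z (nn-1) ≤ 0.86 s` (`zt_top`, `τ ≤ s/10`). -/
theorem deep_map : ∃ K : ℝ, 1 ≤ K ∧ ∀ (C : ℕ → ℝ) (m0 ε s s1 τ h μ : ℝ) (x y : ℕ → ℝ),
    0 ≤ ε → ε ≤ 1 → 0 < s → 0 ≤ τ → τ ≤ s / 10 → 0 ≤ h → 0 < μ → μ ≤ 1 → 0.9 * s ≤ s1 → s1 ≤ s →
    K * (ε * s + h) ≤ μ * τ → 0 < μ * τ → 0 ≤ m0 → (∀ j, 1 ≤ j → 0 ≤ C j) →
    (∀ j, 1 ≤ j → C j ≤ C (j + 1)) →
    m0 ≤ x 0 → (∀ k, k + 1 < nn → x k ≤ x (k + 1)) →
    (∀ k, k < nn → x k ≤ s1) → (∀ k, k < nn → BB C x k ≤ (1 + ε) * x k) →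
    BB C x nn ≤ (1 + ε) * s → BB C (zt C m0 τ) nn ≤ s - τ →
    (∀ k, k < nn → |y k - x k| ≤ h) →
    ∀ x' : ℕ → ℝ, (∀ k, k < nn → x' k = (1 - μ) * y k + μ * zt C m0 τ k) →
    (∀ k, k < nn → BB C x' k ≤ (1 - ε) * x' k) ∧ BB C x' nn ≤ (1 - ε) * s ∧
    (∀ k, k + 1 < nn → x' k < x' (k + 1)) ∧ (∀ k, k < nn → m0 < x' k ∧ x' k ≤ s1) := by
  obtain ⟨K0, hK0, hlip⟩ := BB_lip
  refine ⟨K0 + 3, by linarith, ?_⟩
  intro C m0 ε s s1 τ h μ x y hε0 _hε1 hs hτ0 hτs hh hμ hμ1 hs1 hs1' hK hμτ hm0 hC hCm hx0 hxm hxs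
    hBx hBxn hBz hyx x' hx'
  set z := zt C m0 τ with hz
  have hεs : 0 ≤ ε * s := mul_nonneg hε0 hs.le
  have h1μ : 0 ≤ 1 - μ := by linarith
  have hzge := fun k => zt_ge C m0 τ hτ0 k
  -- consequences of the main inequality
  have hmain1 : 3 * (ε * s) ≤ μ * τ := by nlinarith only [hK0, hh, hK, hμτ]
  have hmain2 : 3 * h ≤ μ * τ := by nlinarith only [hK0, hK, hεs, hmain1]
  have hmain3 : 2 * (ε * s) + (K0 + 1) * h ≤ μ * τ := by nlinarith only [hK0, hh, hK, hεs]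
  -- lower bound for x
  have hxlow : ∀ k, k < nn → m0 ≤ x k := by
    intro k
    induction k with
    | zero => exact fun _ => hx0
    | succ k ih => exact fun hk => (ih (by omega)).trans (hxm k hk)
  -- upper bound for z
  have hzmono : Monotone z := monotone_nat_of_le_succ fun k => by
    have := (hzge k).2.2
    linarith
  have hztop := zt_top C m0 τ hτ0 hm0 hC hCm
  have hzup : ∀ k, k < nn → 1.29 * z k ≤ 1.1 * s := by
    intro k hk
    have h1 : z k ≤ z (nn - 1) := hzmono (by omega)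
    have h2 : 1.29 * z (nn - 1) ≤ s - τ + 2 * τ := hztop.trans (by linarith)
    linarith
  -- the bound for x'
  have hx'up : ∀ k, k < nn → x' k ≤ s1 := by
    intro k hk
    rw [hx' k hk]
    have h1 := (abs_le.1 (hyx k hk)).2
    have h2 := hxs k hk
    have h3 := hzup k hk
    have h4 : (1 - μ) * y k ≤ (1 - μ) * (s1 + h) := mul_le_mul_of_nonneg_left (by linarith) h1μ
    have h5 : μ * (1.29 * z k) ≤ μ * (1.1 * s) := mul_le_mul_of_nonneg_left h3 hμ.le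
    have h6 : μ * (0.9 * s) ≤ μ * s1 := mul_le_mul_of_nonneg_left hs1 hμ.le
    have h7 : μ * τ ≤ μ * (s / 10) := mul_le_mul_of_nonneg_left hτs hμ.le
    have h8 : 0 ≤ μ * h := mul_nonneg hμ.le hh
    have h9 : 0 < μ * s := mul_pos hμ hs
    linarith only [hmain2, h4, h5, h6, h7, h8, h9]
  have hx'low : ∀ k, k < nn → m0 < x' k := by
    intro k hk
    rw [hx' k hk]
    have h1 := (abs_le.1 (hyx k hk)).1
    have h2 := hxlow k hk
    have h3 := (hzge k).1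
    have h4 : (1 - μ) * (m0 - h) ≤ (1 - μ) * y k := mul_le_mul_of_nonneg_left (by linarith) h1μ
    have h5 : μ * (m0 + τ) ≤ μ * z k := mul_le_mul_of_nonneg_left h3 hμ.le
    have h8 : 0 ≤ μ * h := mul_nonneg hμ.le hh
    linarith only [hμτ, hmain2, h4, h5, h8]
  have hBB : ∀ k, k ≤ nn → BB C x' k ≤ (1 - μ) * (BB C x k + K0 * h) + μ * BB C z k := by
    intro k hk
    have h1 : BB C x' k ≤ BB C (fun j => (1 - μ) * y j + μ * z j) k :=
      BB_mono C fun j hj => (hx' j (by omega)).le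
    have h2 : BB C y k ≤ BB C x k + K0 * h := hlip C x y h k hk hh fun j hj => by
      have := (abs_le.1 (hyx j (by omega))).2
      linarith
    have h3 : (1 - μ) * BB C y k ≤ (1 - μ) * (BB C x k + K0 * h) :=
      mul_le_mul_of_nonneg_left h2 h1μ
    rw [BB_affine] at h1
    linarith
  have hK0h : 0 ≤ K0 * h := mul_nonneg (by linarith) hh
  refine ⟨?_, ?_, ?_, fun k hk => ⟨hx'low k hk, hx'up k hk⟩⟩
  · intro k hk
    have h1 := hBB k hk.le
    have h2 := hBx k hk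
    have h3 := (hzge k).2.1
    have h4 := hx'up k hk
    have h5 := (abs_le.1 (hyx k hk)).1
    have h6 := hxs k hk
    have h7 := hxlow k hk
    have h8 : (1 - μ) * (BB C x k + K0 * h) ≤ (1 - μ) * ((1 + ε) * x k + K0 * h) :=
      mul_le_mul_of_nonneg_left (by linarith) h1μ
    have h9 : μ * BB C z k ≤ μ * (z k - τ) := mul_le_mul_of_nonneg_left (by linarith) hμ.le
    have h10 : (1 - μ) * (x k - h) ≤ (1 - μ) * y k :=
      mul_le_mul_of_nonneg_left (by linarith) h1μ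
    have h11 : x' k = (1 - μ) * y k + μ * z k := hx' k hk
    have h12 : ε * x' k ≤ ε * s := mul_le_mul_of_nonneg_left (by linarith) hε0
    have h13 : (1 - μ) * (ε * x k + K0 * h + h) ≤ 1 * (ε * s + K0 * h + h) := by
      have h14 : ε * x k ≤ ε * s := mul_le_mul_of_nonneg_left (by linarith) hε0
      have h15 : 0 ≤ ε * x k := mul_nonneg hε0 (by linarith)
      apply mul_le_mul (by linarith) (by linarith) (by linarith) (by norm_num)
    linarith only [hmain3, h1, h8, h9, h10, h11, h12, h13]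
  · have h1 := hBB nn le_rfl
    have h8 : (1 - μ) * (BB C x nn + K0 * h) ≤ (1 - μ) * ((1 + ε) * s + K0 * h) :=
      mul_le_mul_of_nonneg_left (by linarith) h1μ
    have h9 : μ * BB C z nn ≤ μ * (s - τ) := mul_le_mul_of_nonneg_left hBz hμ.le
    have h13 : (1 - μ) * (ε * s + K0 * h) ≤ 1 * (ε * s + K0 * h) :=
      mul_le_mul_of_nonneg_right (by linarith) (by linarith)
    linarith only [hh, hmain3, h1, h8, h9, h13]
  · intro k hk
    have h1 : x' k = (1 - μ) * y k + μ * z k := hx' k (by omega)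
    have h2 : x' (k + 1) = (1 - μ) * y (k + 1) + μ * z (k + 1) := hx' (k + 1) hk
    have h3 := (abs_le.1 (hyx k (by omega))).2
    have h4 := (abs_le.1 (hyx (k + 1) hk)).1
    have h5 := hxm k hk
    have h6 := (hzge k).2.2
    have h7 : (1 - μ) * (-(2 * h)) ≤ (1 - μ) * (y (k + 1) - y k) :=
      mul_le_mul_of_nonneg_left (by linarith) h1μ
    have h8 : μ * τ ≤ μ * (z (k + 1) - z k) :=
      mul_le_mul_of_nonneg_left (by linarith) hμ.le
    have h9 : 0 ≤ μ * h := mul_nonneg hμ.le hh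
    linarith only [hμτ, hmain2, h1, h2, h7, h8, h9]

end P031
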