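import Vale.Agent.Lib.P031.Zeta

/-!
# P031 ZetaGrow: effect of removing the top prime of `w`.
-/

namespace P031

open Finset Real

/-- the hypotheses of `growth_shift` -/
structure ZetaGrowHyp (C C2 : ℕ → ℝ) (m0 m2 u ε e : ℝ) : Prop where
  hε0 : 0 ≤ ε
  hε1 : ε ≤ 1
  he : 0 ≤ e
  hu : 0 ≤ u
  hum : u ≤ m0
  hm2u : m2 ≤ u
  hC2 : ∀ j, 1 ≤ j → 0 ≤ C2 j
  hC21 : C2 1 ≤ (1 + ε) * u
  hcost : ∀ k, 1 ≤ k → k ≤ nn → C2 (k + 1) + aa k * u - e ≤ C k

theorem ZetaGrow_A_nonneg (k : ℕ) : 0 ≤ ∑ j ∈ range k, aa (k - j) :=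
  Finset.sum_nonneg fun j hj => (aa_pos (by have := Finset.mem_range.1 hj; omega)).le

/-- splitting off the first coordinate -/
theorem ZetaGrow_BB_succ (C x : ℕ → ℝ) (k : ℕ) :
    BB C x (k + 1) = (∑ j ∈ range k, aa (k - j) * x (j + 1)) + aa (k + 1) * x 0 + C (k + 2) := by
  unfold BB
  rw [Finset.sum_range_succ']
  simp only [Nat.add_sub_add_right, Nat.sub_zero]

theorem ZetaGrow_zero {C C2 : ℕ → ℝ} {m0 m2 u ε e : ℝ} (H : ZetaGrowHyp C C2 m0 m2 u ε e) :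
    zt C2 m2 0 0 ≤ (1 + ε) * u := by
  rw [zt_zero, add_zero]
  refine max_le ?_ H.hC21
  have h1 : 0 ≤ ε * u := mul_nonneg H.hε0 H.hu
  linarith [H.hm2u]

theorem ZetaGrow_step {C C2 : ℕ → ℝ} {m0 m2 u ε e : ℝ} (H : ZetaGrowHyp C C2 m0 m2 u ε e)
    {K : ℝ} (k : ℕ) (hk : k + 1 ≤ nn)
    (ih : ∀ j, j < k → zt C2 m2 0 (j + 1) ≤ (1 + ε) * zt C m0 0 j + K * e) :
    BB C2 (zt C2 m2 0) (k + 1) ≤ (1 + ε) * BB C (zt C m0 0) k +
      (2 + (∑ j ∈ range k, aa (k - j)) * K) * e := by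
  rw [ZetaGrow_BB_succ]
  unfold BB
  have h1 : ∑ j ∈ range k, aa (k - j) * zt C2 m2 0 (j + 1) ≤
      (1 + ε) * (∑ j ∈ range k, aa (k - j) * zt C m0 0 j) +
        (∑ j ∈ range k, aa (k - j)) * K * e := by
    have h2 : (1 + ε) * (∑ j ∈ range k, aa (k - j) * zt C m0 0 j) +
        (∑ j ∈ range k, aa (k - j)) * K * e =
        ∑ j ∈ range k, aa (k - j) * ((1 + ε) * zt C m0 0 j + K * e) := by
      rw [Finset.mul_sum, mul_assoc, Finset.sum_mul, ← Finset.sum_add_distrib]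
      refine Finset.sum_congr rfl fun j _ => ?_
      ring
    rw [h2]
    refine Finset.sum_le_sum fun j hj => ?_
    have hjk := Finset.mem_range.1 hj
    exact mul_le_mul_of_nonneg_left (ih j hjk) (aa_pos (by omega)).le
  have h3 : aa (k + 1) * zt C2 m2 0 0 ≤ aa (k + 1) * ((1 + ε) * u) :=
    mul_le_mul_of_nonneg_left (ZetaGrow_zero H) (aa_pos (by omega)).le
  have h4 := H.hcost (k + 1) (by omega) hk
  have h5 : (1 + ε) * (C2 (k + 1 + 1) + aa (k + 1) * u - e) ≤ (1 + ε) * C (k + 1) :=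
    mul_le_mul_of_nonneg_left h4 (by linarith [H.hε0])
  have h6 : 0 ≤ ε * C2 (k + 1 + 1) := mul_nonneg H.hε0 (H.hC2 _ (by omega))
  have h7 : 0 ≤ (1 - ε) * e := mul_nonneg (by linarith [H.hε1]) H.he
  have h8 : k + 1 + 1 = k + 2 := rfl
  rw [h8] at h5 h6
  linarith

theorem ZetaGrow_main (N : ℕ) : ∃ K : ℝ, 1 ≤ K ∧ ∀ (C C2 : ℕ → ℝ) (m0 m2 u ε e : ℝ),
    ZetaGrowHyp C C2 m0 m2 u ε e → ∀ k, k < N → k + 1 ≤ nn →
      zt C2 m2 0 (k + 1) ≤ (1 + ε) * zt C m0 0 k + K * e ∧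
      BB C2 (zt C2 m2 0) (k + 1) ≤ (1 + ε) * BB C (zt C m0 0) k + K * e := by
  induction N with
  | zero => exact ⟨1, le_rfl, fun _ _ _ _ _ _ _ _ k hk => absurd hk (Nat.not_lt_zero k)⟩
  | succ N ih =>
    obtain ⟨K, hK, hih⟩ := ih
    have hA := ZetaGrow_A_nonneg N
    obtain ⟨A, hAdef⟩ : ∃ A, A = ∑ j ∈ range N, aa (N - j) := ⟨_, rfl⟩
    rw [← hAdef] at hA
    have hAK : 0 ≤ A * K := mul_nonneg hA (by linarith)
    refine ⟨K + 2 + A * K, by linarith, fun C C2 m0 m2 u ε e H k hk hkn => ?_⟩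
    have he := H.he
    rcases Nat.lt_or_ge k N with hkN | hkN
    · obtain ⟨g1, g2⟩ := hih C C2 m0 m2 u ε e H k hkN hkn
      have g3 : 0 ≤ (2 + A * K) * e := mul_nonneg (by linarith) he
      constructor <;> linarith
    · obtain rfl : k = N := by omega
      have hstep := ZetaGrow_step H (K := K) k hkn fun j hj =>
        (hih C C2 m0 m2 u ε e H j hj (by omega)).1
      rw [← hAdef] at hstep
      have hKe : 0 ≤ K * e := mul_nonneg (by linarith) he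
      have h2 : BB C2 (zt C2 m2 0) (k + 1) ≤
          (1 + ε) * BB C (zt C m0 0) k + (K + 2 + A * K) * e := by linarith
      refine ⟨?_, h2⟩
      have hge := zt_ge C m0 0 le_rfl k
      simp only [add_zero] at hge
      have hε : 0 ≤ 1 + ε := by linarith [H.hε0]
      rw [zt_succ, add_zero]
      refine max_le ?_ (h2.trans ?_)
      · rcases Nat.eq_zero_or_pos k with hk0 | hk0
        · subst hk0
          have h3 := ZetaGrow_zero H
          have h4 : (1 + ε) * u ≤ (1 + ε) * zt C m0 0 0 :=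
            mul_le_mul_of_nonneg_left (H.hum.trans hge.1) hε
          have h5 : 0 ≤ (K + 2 + A * K) * e := mul_nonneg (by linarith) he
          linarith
        · obtain ⟨M, rfl⟩ : ∃ M, k = M + 1 := ⟨k - 1, by omega⟩
          have h3 := (hih C C2 m0 m2 u ε e H M (by omega) (by omega)).1
          have hge2 := (zt_ge C m0 0 le_rfl M).2.2
          rw [add_zero] at hge2
          have h4 : (1 + ε) * zt C m0 0 M ≤ (1 + ε) * zt C m0 0 (M + 1) :=
            mul_le_mul_of_nonneg_left hge2 hε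
          have h5 : 0 ≤ (2 + A * K) * e := mul_nonneg (by linarith) he
          linarith
      · have h6 : (1 + ε) * BB C (zt C m0 0) k ≤ (1 + ε) * zt C m0 0 k :=
          mul_le_mul_of_nonneg_left hge.2.1 hε
        linarith

/-- Growth. Removing the top prime (log log = `u`) of `w` divides the minimal cost by `1.29`.
Let `z = zt C m0 0`, `z2 = zt C2 m2 0`. By induction `z2 0 ≤ (1 + ε) u`,
`z2 (k+1) ≤ (1 + ε) z k + K_k e`: `BB C2 z2 (k+1) ≤ (1+ε)(aa (k+1) u + ∑_{j<k} aa (k-j) z j) + K e + C2 (k+2) ≤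
(1+ε) BB C z k + K' e`. Then `BB C2 z2 nn ≤ (1+ε) BB C z (nn-1) + K e ≤ (1+ε) z (nn-1) + K e` and `zt_top` with `τ = 0`. -/
theorem growth_shift : ∃ K : ℝ, 1 ≤ K ∧ ∀ (C C2 : ℕ → ℝ) (m0 m2 u ε e : ℝ),
    0 ≤ ε → ε ≤ 1 → 0 ≤ e → 0 ≤ u → u ≤ m0 → m2 ≤ u → 0 ≤ m2 →
    (∀ j, 1 ≤ j → 0 ≤ C j) → (∀ j, 1 ≤ j → C j ≤ C (j + 1)) → (∀ j, 1 ≤ j → 0 ≤ C2 j) →
    C2 1 ≤ (1 + ε) * u →
    (∀ k, 1 ≤ k → k ≤ nn → C2 (k + 1) + aa k * u - e ≤ C k) →
    1.29 * BB C2 (zt C2 m2 0) nn ≤ (1 + ε) * BB C (zt C m0 0) nn + K * e := by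
  obtain ⟨K, hK, hmain⟩ := ZetaGrow_main nn
  refine ⟨1.29 * K, by norm_num; linarith, ?_⟩
  intro C C2 m0 m2 u ε e hε0 hε1 he hu hum hm2u _ hC hCm hC2 hC21 hcost
  have H : ZetaGrowHyp C C2 m0 m2 u ε e := ⟨hε0, hε1, he, hu, hum, hm2u, hC2, hC21, hcost⟩
  have hnn : nn - 1 + 1 = nn := by
    unfold nn
    rfl
  have h1 := (hmain C C2 m0 m2 u ε e H (nn - 1) (by omega) (by omega)).2
  rw [hnn] at h1
  have h2 := zt_top C m0 0 le_rfl (by linarith) hC hCm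
  have h3 := (zt_ge C m0 0 le_rfl (nn - 1)).2.1
  rw [add_zero] at h3
  rw [mul_zero, add_zero] at h2
  have h4 : 1.29 * BB C (zt C m0 0) (nn - 1) ≤ BB C (zt C m0 0) nn := by
    refine le_trans ?_ h2
    exact mul_le_mul_of_nonneg_left h3 (by norm_num)
  have h5 : (1 + ε) * (1.29 * BB C (zt C m0 0) (nn - 1)) ≤ (1 + ε) * BB C (zt C m0 0) nn :=
    mul_le_mul_of_nonneg_left h4 (by linarith)
  have h6 : 1.29 * BB C2 (zt C2 m2 0) nn ≤
      1.29 * ((1 + ε) * BB C (zt C m0 0) (nn - 1) + K * e) :=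
    mul_le_mul_of_nonneg_left h1 (by norm_num)
  linarith

theorem ZetaGrow_small (N : ℕ) : ∃ K : ℝ, 1 ≤ K ∧ ∀ (C : ℕ → ℝ) (m0 y : ℝ), 0 ≤ y → m0 ≤ y →
    (∀ j, 1 ≤ j → j ≤ nn + 1 → C j ≤ y) → ∀ k, k ≤ N → k ≤ nn →
      zt C m0 0 k ≤ K * y ∧ BB C (zt C m0 0) k ≤ K * y := by
  induction N with
  | zero =>
    refine ⟨1, le_rfl, fun C m0 y _ hm hC k hk _ => ?_⟩
    obtain rfl : k = 0 := by omega
    have h1 := hC 1 le_rfl (by omega)
    rw [zt_zero, add_zero, one_mul]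
    refine ⟨max_le hm h1, ?_⟩
    unfold BB
    rw [Finset.sum_range_zero, zero_add]
    exact h1
  | succ N ih =>
    obtain ⟨K, hK, hih⟩ := ih
    have hA := ZetaGrow_A_nonneg (N + 1)
    obtain ⟨A, hAdef⟩ : ∃ A, A = ∑ j ∈ range (N + 1), aa (N + 1 - j) := ⟨_, rfl⟩
    rw [← hAdef] at hA
    have hAK : 0 ≤ A * K := mul_nonneg hA (by linarith)
    refine ⟨K + 1 + A * K, by linarith, fun C m0 y hy hm hC k hk hkn => ?_⟩
    have hKy : 0 ≤ K * y := mul_nonneg (by linarith) hy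
    have hAKy : 0 ≤ (1 + A * K) * y := mul_nonneg (by linarith) hy
    rcases Nat.lt_or_ge N k with hkN | hkN
    · obtain rfl : k = N + 1 := by omega
      have hBB : BB C (zt C m0 0) (N + 1) ≤ (K + 1 + A * K) * y := by
        unfold BB
        have h1 : ∑ j ∈ range (N + 1), aa (N + 1 - j) * zt C m0 0 j ≤
            ∑ j ∈ range (N + 1), aa (N + 1 - j) * (K * y) := by
          refine Finset.sum_le_sum fun j hj => ?_
          have hjk := Finset.mem_range.1 hj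
          exact mul_le_mul_of_nonneg_left (hih C m0 y hy hm hC j (by omega) (by omega)).1
            (aa_pos (by omega)).le
        rw [← Finset.sum_mul, ← hAdef] at h1
        have h2 := hC (N + 1 + 1) (by omega) (by omega)
        linarith
      refine ⟨?_, hBB⟩
      rw [zt_succ, add_zero]
      refine max_le ?_ hBB
      have h3 := (hih C m0 y hy hm hC N le_rfl (by omega)).1
      linarith
    · obtain ⟨g1, g2⟩ := hih C m0 y hy hm hC k hkN hkn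
      constructor <;> linarith

/-- If all costs and `m0` are at most `y`, so is `BB C (zt C m0 0) nn` up to a constant. -/
theorem zt_small : ∃ K : ℝ, 1 ≤ K ∧ ∀ (C : ℕ → ℝ) (m0 y : ℝ), 0 ≤ y → m0 ≤ y →
    (∀ j, 1 ≤ j → j ≤ nn + 1 → C j ≤ y) → BB C (zt C m0 0) nn ≤ K * y := by
  obtain ⟨K, hK, h⟩ := ZetaGrow_small nn
  exact ⟨K, hK, fun C m0 y hy hm hC => (h C m0 y hy hm hC nn le_rfl le_rfl).2⟩

end P031
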