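import Vale.Agent.Lib.P031.Zeta

/-!
# P031 ZetaNice: nice case, a whole box is strict.
-/

namespace P031

open Finset Real

theorem zetaNice_mono (C : ℕ → ℝ) (m0 τ : ℝ) (hτ : 0 ≤ τ) : Monotone (zt C m0 τ) := by
  apply monotone_nat_of_le_succ
  intro k
  have := (zt_ge C m0 τ hτ k).2.2
  linarith

/-- Nice case. If `BB C (zt C m0 0) nn ≤ 0.8 s`, the whole box above `z = zt C m0 (c s)` is strict.
Choose first `c` small (`(K + 2) c ≤ 0.05`), then `κ` with `(K + 1) κ ≤ c/2`. -/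
theorem nice_box : ∃ c κ : ℝ, 0 < c ∧ 0 < κ ∧ ∀ (C : ℕ → ℝ) (m0 ε s : ℝ) (x : ℕ → ℝ),
    0 ≤ ε → ε ≤ κ → 0 < s → 0 ≤ m0 → (∀ j, 1 ≤ j → 0 ≤ C j) → (∀ j, 1 ≤ j → C j ≤ C (j + 1)) →
    BB C (zt C m0 0) nn ≤ 0.8 * s →
    (∀ k, k < nn → zt C m0 (c * s) k ≤ x k ∧ x k ≤ zt C m0 (c * s) k + κ * s) →
    (∀ k, k < nn → BB C x k ≤ (1 - ε) * x k) ∧ BB C x nn ≤ (1 - ε) * s ∧
    (∀ k, k + 1 < nn → x k < x (k + 1)) ∧ (∀ k, k < nn → m0 < x k ∧ x k ≤ 0.95 * s) := by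
  obtain ⟨K1, hK1, hlip⟩ := BB_lip
  obtain ⟨K2, hK2, hzt⟩ := zt_tau
  obtain ⟨c, hc⟩ : ∃ c : ℝ, c = 0.05 / (K2 + 2) := ⟨_, rfl⟩
  have hc0 : 0 < c := by
    rw [hc]
    positivity
  have hcK : K2 * c + 2 * c = 0.05 := by
    rw [hc]
    field_simp
  have hc2 : K2 * c ≥ c := by nlinarith only [hK2, hcK]
  obtain ⟨κ, hκ⟩ : ∃ κ : ℝ, κ = c / (2 * (K1 + 1)) := ⟨_, rfl⟩
  have hκ0 : 0 < κ := by
    rw [hκ]
    positivity
  have hκK : K1 * κ + κ = c / 2 := by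
    rw [hκ]
    field_simp
  have hκ1 : K1 * κ ≥ κ := by nlinarith only [hK1, hκ0]
  refine ⟨c, κ, hc0, hκ0, ?_⟩
  intro C m0 ε s x hε hεκ hs hm0 hC hCm hBB hx
  obtain ⟨z, hz⟩ : ∃ z : ℕ → ℝ, z = zt C m0 (c * s) := ⟨_, rfl⟩
  rw [← hz] at hx
  have hcs : 0 < c * s := by positivity
  have hge := fun k => zt_ge C m0 (c * s) hcs.le k
  rw [← hz] at hge
  have hmono := zetaNice_mono C m0 (c * s) hcs.le
  rw [← hz] at hmono
  have hκs : 0 < κ * s := by positivity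
  have hK1s : K1 * (κ * s) + κ * s = c * s / 2 := by
    have : K1 * (κ * s) + κ * s = (K1 * κ + κ) * s := by ring
    rw [this, hκK]
    ring
  have hK2s : K2 * (c * s) + 2 * (c * s) = 0.05 * s := by
    have : K2 * (c * s) + 2 * (c * s) = (K2 * c + 2 * c) * s := by ring
    rw [this, hcK]
  have hc2s : c * s ≤ K2 * (c * s) := by
    have := mul_le_mul_of_nonneg_right hc2 hs.le
    linarith
  have hκ1s : κ * s ≤ K1 * (κ * s) := by
    have := mul_le_mul_of_nonneg_right hκ1 hs.le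
    linarith
  have hBz : BB C z nn ≤ 0.8 * s + K2 * (c * s) := by
    have h1 := (hzt C m0 (c * s) hcs.le nn le_rfl).2.2.2
    rw [← hz] at h1
    linarith
  have hBx : ∀ k, k ≤ nn → BB C x k ≤ BB C z k + K1 * (κ * s) := by
    intro k hk
    exact hlip C z x (κ * s) k hk hκs.le (fun j hj => (hx j (lt_of_lt_of_le hj hk)).2)
  have htop : 1.29 * z (nn - 1) ≤ BB C z nn + 2 * (c * s) := by
    have h1 := zt_top C m0 (c * s) hcs.le hm0 hC hCm
    rw [← hz] at h1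
    exact h1
  have hxs : ∀ k, k < nn → m0 < x k ∧ x k ≤ 0.95 * s := by
    intro k hk
    obtain ⟨h1, h2⟩ := hx k hk
    obtain ⟨h3, _, _⟩ := hge k
    constructor
    · linarith
    · have h4 : z k ≤ z (nn - 1) := hmono (by omega)
      linarith
  refine ⟨?_, ?_, ?_, hxs⟩
  · intro k hk
    obtain ⟨h1, h2⟩ := hx k hk
    obtain ⟨_, h3, _⟩ := hge k
    obtain ⟨h4, h5⟩ := hxs k hk
    have h6 := hBx k hk.le
    have h7 : ε * x k ≤ κ * s := by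
      calc ε * x k ≤ κ * x k := mul_le_mul_of_nonneg_right hεκ (by linarith)
        _ ≤ κ * s := mul_le_mul_of_nonneg_left (by linarith) hκ0.le
    linarith
  · have h6 := hBx nn le_rfl
    have h7 : ε * s ≤ κ * s := mul_le_mul_of_nonneg_right hεκ hs.le
    linarith
  · intro k hk
    obtain ⟨h1, h2⟩ := hx k (by omega)
    obtain ⟨h3, h4⟩ := hx (k + 1) hk
    obtain ⟨_, _, h5⟩ := hge k
    linarith

end P031
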