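import Vale.Agent.Lib.P031.Zeta

/-!
# P031 ZetaShallow: relaxed sequences are above the minimal one; shallow case.
-/

namespace P031

open Finset Real

private theorem zetaShallow_zero (C x : ℕ → ℝ) : BB C x 0 = C 1 := by
  unfold BB
  simp

/-- lower bound for a relaxed sequence `x`: by induction `x k ≥ z k - K_k ε s`, where
`z = zt C m0 0`, since `x k ≥ BB C x k - ε x k ≥ BB C x k - ε s`. -/
theorem relaxed_lower : ∃ K : ℝ, 1 ≤ K ∧ ∀ (C : ℕ → ℝ) (m0 ε s : ℝ) (x : ℕ → ℝ),
    0 ≤ ε → 0 ≤ s → m0 ≤ x 0 → (∀ k, k + 1 < nn → x k ≤ x (k + 1)) →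
    (∀ k, k < nn → x k ≤ s) → (∀ k, k < nn → BB C x k ≤ (1 + ε) * x k) →
    (∀ k, k < nn → zt C m0 0 k - K * (ε * s) ≤ x k) ∧
    BB C (zt C m0 0) nn - K * (ε * s) ≤ BB C x nn := by
  obtain ⟨K0, hK0, hlip⟩ := BB_lip
  have hK1 : 1 ≤ K0 + 1 := by linarith
  have hpow : ∀ k : ℕ, 1 ≤ (K0 + 1) ^ k := fun k => one_le_pow₀ hK1
  refine ⟨K0 * (K0 + 1) ^ nn, ?_, ?_⟩
  · have h1 := hpow nn
    nlinarith
  intro C m0 ε s x hε hs hx0 hmono hxs hB
  have he : 0 ≤ ε * s := mul_nonneg hε hs
  have hBB : ∀ k, k < nn → BB C x k ≤ x k + ε * s := by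
    intro k hk
    have h1 := hB k hk
    have h2 := mul_le_mul_of_nonneg_left (hxs k hk) hε
    linarith
  have key : ∀ k, k < nn → ∀ j, j ≤ k → zt C m0 0 j ≤ x j + (K0 + 1) ^ (k + 1) * (ε * s) := by
    intro k
    induction k with
    | zero =>
      intro hk j hj
      obtain rfl : j = 0 := by omega
      rw [zt_zero, add_zero]
      have h1 := hBB 0 hk
      rw [zetaShallow_zero] at h1
      have h2 : ε * s ≤ (K0 + 1) ^ (0 + 1) * (ε * s) := by
        have h3 := hpow (0 + 1)
        nlinarith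
      apply max_le
      · linarith
      · linarith
    | succ k ih =>
      intro hk j hj
      have ihk := ih (by omega)
      have h3 : (K0 + 1) ^ (k + 1) * (ε * s) ≤ (K0 + 1) ^ (k + 1 + 1) * (ε * s) := by
        apply mul_le_mul_of_nonneg_right _ he
        exact pow_le_pow_right₀ hK1 (by omega)
      rcases Nat.lt_or_ge j (k + 1) with hjk | hjk
      · have h4 := ihk j (by omega)
        linarith
      · obtain rfl : j = k + 1 := by omega
        rw [zt_succ, add_zero]
        apply max_le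
        · have h4 := ihk k le_rfl
          have h5 := hmono k hk
          linarith
        · have h4 := hlip C x (zt C m0 0) ((K0 + 1) ^ (k + 1) * (ε * s)) (k + 1) (by omega)
            (mul_nonneg (by linarith [hpow (k + 1)]) he) (fun i hi => ihk i (by omega))
          have h5 := hBB (k + 1) hk
          have h6 : (K0 + 1) ^ (k + 1 + 1) * (ε * s) =
              K0 * ((K0 + 1) ^ (k + 1) * (ε * s)) + (K0 + 1) ^ (k + 1) * (ε * s) := by ring
          have h7 : ε * s ≤ (K0 + 1) ^ (k + 1) * (ε * s) := by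
            have h8 := hpow (k + 1)
            nlinarith only [he, h8]
          linarith
  have hall : ∀ k, k < nn → zt C m0 0 k ≤ x k + (K0 + 1) ^ nn * (ε * s) := by
    intro k hk
    have h1 := key k hk k le_rfl
    have h2 : (K0 + 1) ^ (k + 1) * (ε * s) ≤ (K0 + 1) ^ nn * (ε * s) := by
      apply mul_le_mul_of_nonneg_right _ he
      exact pow_le_pow_right₀ hK1 (by omega)
    linarith
  have hP : 0 ≤ (K0 + 1) ^ nn * (ε * s) := mul_nonneg (by linarith [hpow nn]) he
  constructor
  · intro k hk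
    have h1 := hall k hk
    have h2 : (K0 + 1) ^ nn * (ε * s) ≤ K0 * (K0 + 1) ^ nn * (ε * s) := by
      rw [mul_assoc]
      nlinarith only [hK0, hP]
    linarith
  · have h1 := hlip C x (zt C m0 0) ((K0 + 1) ^ nn * (ε * s)) nn le_rfl hP hall
    rw [mul_assoc]
    linarith

private theorem zetaShallow_update (C x : ℕ → ℝ) (z : ℝ) {k N : ℕ} (hk : k < N) :
    BB C x N = BB C (Function.update x k z) N + aa (N - k) * (x k - z) := by
  unfold BB
  have hmem : k ∈ Finset.range N := Finset.mem_range.2 hk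
  rw [← Finset.add_sum_erase _ _ hmem, ← Finset.add_sum_erase _ (fun j =>
    aa (N - j) * Function.update x k z j) hmem]
  have h1 : ∑ j ∈ (Finset.range N).erase k, aa (N - j) * Function.update x k z j =
      ∑ j ∈ (Finset.range N).erase k, aa (N - j) * x j := by
    apply Finset.sum_congr rfl
    intro j hj
    rw [Function.update_of_ne (Finset.ne_of_mem_erase hj)]
  rw [h1]
  simp only [Function.update_self]
  ring

/-- Shallow case: a relaxed sequence is in a small box. With `z = zt C m0 0`: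
`(1 + ε) s ≥ BB C x nn ≥ BB C z nn - K ε s + aa 1 (x k - z k)` (for every `k < nn`, by `relaxed_lower` for the other
coordinates and `aa (nn - k) ≥ aa 1`, if `x k ≥ z k`), and `BB C z nn ≥ BB C (zt C m0 τ) nn - K τ > s - τ - K τ`. -/
theorem shallow_box : ∃ K : ℝ, 1 ≤ K ∧ ∀ (C : ℕ → ℝ) (m0 ε s τ : ℝ) (x : ℕ → ℝ),
    0 ≤ ε → 0 ≤ s → 0 ≤ τ → ε * s ≤ τ → m0 ≤ x 0 → (∀ k, k + 1 < nn → x k ≤ x (k + 1)) →
    (∀ k, k < nn → x k ≤ s) → (∀ k, k < nn → BB C x k ≤ (1 + ε) * x k) →
    BB C x nn ≤ (1 + ε) * s → s - τ < BB C (zt C m0 τ) nn →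
    ∀ k, k < nn → zt C m0 0 k - K * (ε * s) ≤ x k ∧ x k ≤ zt C m0 0 k + K * τ := by
  obtain ⟨K0, hK0, hlip⟩ := BB_lip
  obtain ⟨K1, hK1, hrel⟩ := relaxed_lower
  obtain ⟨K2, hK2, htau⟩ := zt_tau
  have ha := aa_one_lo
  have ha0 : 0 < aa 1 := by linarith
  set A : ℝ := (K2 + 2 + K0 * K1) / aa 1 with hA
  have hA0 : 0 ≤ A := by
    apply div_nonneg _ ha0.le
    nlinarith
  refine ⟨K1 + A, by linarith, ?_⟩
  intro C m0 ε s τ x hε hs hτ hετ hx0 hmono hxs hB hBn hsh k hk
  have he : 0 ≤ ε * s := mul_nonneg hε hs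
  obtain ⟨hlow, -⟩ := hrel C m0 ε s x hε hs hx0 hmono hxs hB
  constructor
  · have h1 := hlow k hk
    have h2 : 0 ≤ A * (ε * s) := mul_nonneg hA0 he
    rw [add_mul]
    linarith
  · have hK1τ : 0 ≤ K1 * τ := mul_nonneg (by linarith) hτ
    have hAτ : 0 ≤ A * τ := mul_nonneg hA0 hτ
    rw [add_mul]
    by_cases hxz : x k ≤ zt C m0 0 k
    · linarith
    · have hxz' : 0 < x k - zt C m0 0 k := by linarith [not_le.1 hxz]
      have h1 := zetaShallow_update C x (zt C m0 0 k) hk
      have h2 := hlip C (Function.update x k (zt C m0 0 k)) (zt C m0 0) (K1 * (ε * s)) nn le_rfl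
        (mul_nonneg (by linarith) he) (fun j hj => by
          by_cases hjk : j = k
          · subst hjk
            rw [Function.update_self]
            have := mul_nonneg (show (0 : ℝ) ≤ K1 by linarith) he
            linarith
          · rw [Function.update_of_ne hjk]
            have := hlow j hj
            linarith)
      have h3 := (htau C m0 τ hτ nn le_rfl).2.2.2
      have h4 : aa 1 ≤ aa (nn - k) := aa_mono (by omega)
      have h5 : aa 1 * (x k - zt C m0 0 k) ≤ aa (nn - k) * (x k - zt C m0 0 k) :=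
        mul_le_mul_of_nonneg_right h4 hxz'.le
      have h6 : K0 * (K1 * (ε * s)) ≤ K0 * (K1 * τ) :=
        mul_le_mul_of_nonneg_left (mul_le_mul_of_nonneg_left hετ (by linarith)) (by linarith)
      have h7 : aa 1 * (x k - zt C m0 0 k) ≤ (K2 + 2 + K0 * K1) * τ := by
        have h8 : (K2 + 2 + K0 * K1) * τ = K2 * τ + 2 * τ + K0 * (K1 * τ) := by ring
        have h9 : (1 + ε) * s = s + ε * s := by ring
        rw [h8]
        linarith
      have h8 : x k - zt C m0 0 k ≤ A * τ := by
        rw [hA, div_mul_eq_mul_div, le_div_iff₀ ha0]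
        linarith
      linarith

end P031
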