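import Vale.Agent.Lib.P031.TDefs
import Vale.Agent.Lib.P031.WFacts
import Vale.Agent.Lib.P031.Step
import Vale.Agent.Lib.P031.ZetaShallow
import Vale.Agent.Lib.P031.ZetaDeep
import Vale.Agent.Lib.P031.ZetaNice
import Vale.Agent.Lib.P031.ZetaGrow
import Vale.Agent.Lib.P031.Cell

/-!
# P031 Reg: regularity inputs about `w ∈ WW` (growth data).
-/

namespace P031

open Finset Real

theorem reg_mem_Wfin {σ : ℝ} {w : ℕ} (hw : w ∈ Wfin σ) : 1 ≤ w ∧ w ≤ EE σ - 1 ∧ WW σ w := by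
  classical
  unfold Wfin at hw
  rw [Finset.mem_filter, Finset.mem_Icc] at hw
  exact ⟨hw.1.1, hw.1.2, hw.2⟩

theorem reg_mem_Wfin_of {σ : ℝ} {w : ℕ} (h1 : 1 ≤ w) (h2 : w ≤ EE σ - 1) (h3 : WW σ w) :
    w ∈ Wfin σ := by
  classical
  unfold Wfin
  rw [Finset.mem_filter, Finset.mem_Icc]
  exact ⟨⟨h1, h2⟩, h3⟩

theorem reg_ll_small {n : ℕ} (h : n ≤ 1) : ll n = 0 := by
  unfold ll
  interval_cases n <;> simp

/-- monotonicity of `ll` into a value which is nonnegative -/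
theorem reg_ll_le {m n : ℕ} (h : m ≤ n) (hn : 0 ≤ ll n) : ll m ≤ ll n := by
  rcases Nat.lt_or_ge 1 m with h1 | h1
  · exact ll_mono h1 h
  · rw [reg_ll_small h1]
    exact hn

/-- the rarity functional of `w` when `lowp` is trivial -/
theorem reg_II_le {σ : ℝ} {w : ℕ} (hw1 : 1 ≤ w) (hW : WW σ w) {t : ℝ} (ht : σ ^ 119 ≤ t)
    (hle : ll (PW w) ≤ t) : II σ w ≤ (1 + 2 / σ ^ 4) * t := by
  have hm := mW_spec hW.2.1
  have hne : mW w ≠ 0 := by
    intro h0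
    have h1 := hm.1
    rw [h0, Nat.totient_zero] at h1
    omega
  have hG := (hW.2.2 (mW w) hm.1).2.2 t ht
  have hl : lowp t (mW w) = mW w := by
    refine lowp_eq_self hne fun q hq => ?_
    have h1 := le_maxp hq
    rw [hm.2] at h1
    exact (ll_mono (Nat.prime_of_mem_primeFactors hq).two_le h1).trans hle
  rw [hl, hm.1] at hG
  exact hG

/-- Proof. `N = mW w`, `p = maxp N = PW w`, `w'' = φ(N/p)` (`WW_split`). `PW w'' ≤ maxp (N/p) < p`. The inequality for `CC` is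
`step_CC` with `n = w''` (its prime factors are `≤ maxp (N/p) < p` by `prime_dvd_tot_le`, `Om w'' ≤ Om w ≤ 20 s`).
`CC σ 1 w'' ≤ II σ w + σ^104` by `step_II`, and `II σ w ≤ (1 + 2/σ^4) ll p` by `GoodPre` of `N` at
`t = ll p` (`lowp (ll p) N = N`); finally `σ^104 ≤ ll p/σ^4`. -/
theorem W_growth : ∀ᶠ σ : ℝ in Filter.atTop, ∀ w ∈ Wfin σ, σ ^ 119 ≤ ll (PW w) →
    ∃ w2 ∈ Wfin σ, w = (PW w - 1) * w2 ∧ (PW w).Prime ∧ PW w ≤ EE σ ∧ ll (PW w2) ≤ ll (PW w) ∧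
      (∀ k, 1 ≤ k → k ≤ nn → CC σ (k + 1) w2 + aa k * ll (PW w) - σ ^ 104 ≤ CC σ k w) ∧
      CC σ 1 w2 ≤ (1 + 3 / σ ^ 4) * ll (PW w) := by
  filter_upwards [WW_split, step_CC, step_II, Filter.eventually_ge_atTop (20 : ℝ)] with σ hsplit
    hCC hII hσ w hw hl
  obtain ⟨hw1, hwE, hW⟩ := reg_mem_Wfin hw
  have hm := mW_spec hW.2.1
  have hσ0 : (0 : ℝ) < σ := by linarith
  have hσ1 : (1 : ℝ) < σ := by linarith
  have hlt : σ ^ 111 < ll (PW w) :=
    lt_of_lt_of_le (pow_lt_pow_right₀ hσ1 (by norm_num)) hl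
  have hs := hsplit (mW w) (by rw [hm.1]; exact hW) (by rw [hm.2]; exact hlt)
  rw [hm.2, hm.1] at hs
  obtain ⟨hp, hnorm, hN, hndvd, hne, hmax, htot, hW2⟩ := hs
  set p := PW w with hpdef
  set m' := mW w / p with hm'
  set w2 := Nat.totient m' with hw2
  have hw2pos : 0 < w2 := hW2.1.1
  have hpE : p ≤ EE σ := by
    have h1 : (p - 1) * 1 ≤ (p - 1) * w2 := Nat.mul_le_mul_left _ hw2pos
    have h2 := hp.two_le
    omega
  have hw2le : w2 ≤ w := by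
    rw [htot]
    exact Nat.le_mul_of_pos_left _ (by have := hp.two_le; omega)
  have hllp : ll p ≤ σ ^ 120 + 1 := (le_EE_iff hp.two_le).1 hpE
  have hOm : (Om w2 : ℝ) ≤ σ ^ 121 := by
    refine hW2.1.2.1.trans ?_
    calc 20 * σ ^ 120 ≤ σ * σ ^ 120 := mul_le_mul_of_nonneg_right hσ (by positivity)
      _ = σ ^ 121 := by ring
  have hq : ∀ q ∈ w2.primeFactors, q < p := by
    intro q hq
    have h1 := prime_dvd_tot_le hne (Nat.prime_of_mem_primeFactors hq)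
      (Nat.dvd_of_mem_primeFactors hq)
    exact lt_of_le_of_lt h1 hmax
  have hp0 : 0 ≤ ll p := (by positivity : (0 : ℝ) ≤ σ ^ 119).trans hl
  refine ⟨w2, reg_mem_Wfin_of hw2pos (hw2le.trans hwE) hW2, htot, hp, hpE, ?_, ?_, ?_⟩
  · exact reg_ll_le ((PW_le hw2.symm).trans hmax.le) hp0
  · intro k hk1 hk2
    have h1 := hCC p w2 k hp hnorm hlt hllp hw2pos.ne' hOm hq hk1 (by omega)
    rw [← htot] at h1
    exact h1
  · have h1 := hII p w2 hp hnorm hlt hllp hw2pos.ne' hOm hq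
    rw [← htot] at h1
    have h2 := reg_II_le hw1 hW hl le_rfl
    have h3 : σ ^ 104 ≤ 1 / σ ^ 4 * ll p := by
      rw [div_mul_eq_mul_div, one_mul, le_div_iff₀ (by positivity), ← pow_add]
      exact (pow_le_pow_right₀ hσ1.le (by norm_num)).trans hl
    have h4 : (1 + 3 / σ ^ 4) * ll p = (1 + 2 / σ ^ 4) * ll p + 1 / σ ^ 4 * ll p := by ring
    rw [h4]
    linarith

/-- Proof. `GoodPre` of `mW w` at `t = σ^119` gives `II σ w ≤ 2 σ^119` (`lowp t (mW w) = mW w`). The prime factors of `w`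
are `≤ PW w`, so only the blocks `t ≤ σ^17 + 1` occur; `QQ_growth nn+1` bounds each block by `b C (1 + Qp (w_t))`. -/
theorem W_small : ∃ C : ℝ, 1 ≤ C ∧ ∀ᶠ σ : ℝ in Filter.atTop, ∀ w ∈ Wfin σ, ll (PW w) < σ ^ 119 →
    ∀ k, 1 ≤ k → k ≤ nn + 1 → CC σ k w ≤ C * σ ^ 119 := by
  obtain ⟨C, hC1, hC⟩ := QQ_growth (nn + 1)
  refine ⟨3 * C, by linarith, ?_⟩
  filter_upwards [WW_primeFactors, Filter.eventually_ge_atTop (2 : ℝ)] with σ hpf hσ w hw hl k hk1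
    hk2
  obtain ⟨hw1, hwE, hW⟩ := reg_mem_Wfin hw
  have hσ0 : (0 : ℝ) < σ := by linarith
  have hσ1 : (1 : ℝ) ≤ σ := by linarith
  have hb : (0 : ℝ) < σ ^ 102 := by positivity
  have hII : II σ w ≤ 2 * σ ^ 119 := by
    refine (reg_II_le hw1 hW le_rfl hl.le).trans ?_
    have h1 : 2 / σ ^ 4 ≤ 1 := by
      rw [div_le_one (by positivity)]
      calc (2 : ℝ) ≤ 2 ^ 4 := by norm_num
        _ ≤ σ ^ 4 := pow_le_pow_left₀ (by norm_num) hσ 4
    exact mul_le_mul_of_nonneg_right (by linarith) (by positivity)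
  -- only small blocks occur
  have hcnt : ∀ t : ℕ, 1 ≤ t → ¬ ((t : ℝ) ≤ σ ^ 17) → cnt σ t w = 0 := by
    intro t ht1 ht
    refine cnt_eq_zero fun q hq hblk => ht ?_
    have hqle := (hpf w hW q hq).1
    have h1 : ll q ≤ ll (PW w) := ll_mono (Nat.prime_of_mem_primeFactors hq).two_le hqle
    have h2 : σ ^ 102 ≤ ll q := (one_le_blk_iff hσ1 q).1 (hblk ▸ ht1)
    have h3 := blk_mul_le hσ1 (hb.le.trans h2)
    rw [hblk] at h3
    have h4 : (t : ℝ) * σ ^ 102 ≤ σ ^ 17 * σ ^ 102 := by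
      rw [← pow_add]
      exact (h3.trans h1).trans hl.le
    exact le_of_mul_le_mul_right h4 hb
  have hterm : ∀ t ∈ Finset.Icc 1 (Tm σ),
      σ ^ 102 * (QQ ((k : ℝ) + (cnt σ t w : ℝ) / σ ^ 102) - QQ (k : ℝ)) ≤
      (if (t : ℝ) ≤ σ ^ 17 then C * σ ^ 102 else 0) +
        C * (σ ^ 102 * Qp ((cnt σ t w : ℝ) / σ ^ 102)) := by
    intro t ht
    have hQ := Qp_nonneg ((cnt σ t w : ℝ) / σ ^ 102)
    split_ifs with h
    · have h1 := hC k hk1 hk2 ((cnt σ t w : ℝ) / σ ^ 102) (by positivity)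
      calc σ ^ 102 * (QQ ((k : ℝ) + (cnt σ t w : ℝ) / σ ^ 102) - QQ (k : ℝ))
          ≤ σ ^ 102 * (C * (1 + Qp ((cnt σ t w : ℝ) / σ ^ 102))) :=
            mul_le_mul_of_nonneg_left h1 hb.le
        _ = C * σ ^ 102 + C * (σ ^ 102 * Qp ((cnt σ t w : ℝ) / σ ^ 102)) := by ring
    · rw [hcnt t (Finset.mem_Icc.1 ht).1 h]
      simp only [Nat.cast_zero, zero_div, add_zero, sub_self, mul_zero, zero_add]
      have h0 := Qp_nonneg 0
      have : 0 ≤ C * (σ ^ 102 * Qp 0) := mul_nonneg (by linarith) (mul_nonneg hb.le h0)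
      exact this
  unfold CC
  refine (Finset.sum_le_sum hterm).trans ?_
  rw [Finset.sum_add_distrib, ← Finset.mul_sum]
  have hII' : ∑ t ∈ Finset.Icc 1 (Tm σ), σ ^ 102 * Qp ((cnt σ t w : ℝ) / σ ^ 102) = II σ w := rfl
  rw [hII']
  have hsum : ∑ t ∈ Finset.Icc 1 (Tm σ), (if (t : ℝ) ≤ σ ^ 17 then C * σ ^ 102 else 0) ≤
      C * σ ^ 119 := by
    rw [← Finset.sum_filter, Finset.sum_const, nsmul_eq_mul]
    have hsub : (Finset.Icc 1 (Tm σ)).filter (fun t : ℕ => (t : ℝ) ≤ σ ^ 17) ⊆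
        Finset.Icc 1 ⌊σ ^ 17⌋₊ := by
      intro t ht
      rw [Finset.mem_filter, Finset.mem_Icc] at ht
      rw [Finset.mem_Icc]
      exact ⟨ht.1.1, Nat.le_floor ht.2⟩
    have hcard := Finset.card_le_card hsub
    rw [Nat.card_Icc, Nat.add_sub_cancel] at hcard
    have h1 : (((Finset.Icc 1 (Tm σ)).filter (fun t : ℕ => (t : ℝ) ≤ σ ^ 17)).card : ℝ) ≤
        σ ^ 17 :=
      (Nat.cast_le.2 hcard).trans (Nat.floor_le (by positivity))
    calc (((Finset.Icc 1 (Tm σ)).filter (fun t : ℕ => (t : ℝ) ≤ σ ^ 17)).card : ℝ) *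
        (C * σ ^ 102) ≤ σ ^ 17 * (C * σ ^ 102) :=
          mul_le_mul_of_nonneg_right h1 (mul_nonneg (by linarith) hb.le)
      _ = C * σ ^ 119 := by ring
  have h5 : C * II σ w ≤ C * (2 * σ ^ 119) := mul_le_mul_of_nonneg_left hII (by linarith)
  linarith

end P031
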