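import Vale.Agent.Lib.P031.RegNice

/-!
# P031 RegGrow: growth.

Notation: `C_w j = CC σ j w`, `z_w(τ) = zt C_w (m0 σ w) τ`, `cost w = BB C_w (z_w(0)) nn`, `s = σ^120`.
`w` is nice if `cost w ≤ 0.8 s`.
-/

namespace P031

open Finset Real

private theorem regGrow_ll_small {n : ℕ} (h : n < 2) : ll n = 0 := by
  unfold ll
  interval_cases n <;> simp

/-- cost of a `w` with a relaxed tuple -/
private theorem regGrow_cost (K : ℝ) (hK : 1 ≤ K)
    (hrel : ∀ (C : ℕ → ℝ) (m0 ε s : ℝ) (x : ℕ → ℝ),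
      0 ≤ ε → 0 ≤ s → m0 ≤ x 0 → (∀ k, k + 1 < nn → x k ≤ x (k + 1)) →
      (∀ k, k < nn → x k ≤ s) → (∀ k, k < nn → BB C x k ≤ (1 + ε) * x k) →
      (∀ k, k < nn → zt C m0 0 k - K * (ε * s) ≤ x k) ∧
      BB C (zt C m0 0) nn - K * (ε * s) ≤ BB C x nn)
    (σ : ℝ) (hσ1 : 1 ≤ σ) (hσ2 : 50 * (4 + 3 * K) ≤ σ) (w : ℕ) (hw : (RR σ w).Nonempty) :
    BB (fun j => CC σ j w) (zt (fun j => CC σ j w) (m0 σ w) 0) nn ≤ 1.02 * σ ^ 120 := by
  obtain ⟨p, hp⟩ := hw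
  unfold RR at hp
  rw [Finset.mem_filter, Fintype.mem_piFinset] at hp
  obtain ⟨hp0, hmono, hrange, hB, hBn⟩ := hp
  have hprime : ∀ i, (p i).Prime := fun i => (Finset.mem_filter.mp (hp0 i)).2
  have hxx : ∀ (k : ℕ) (hk : k < nn), xx p k = ll (p ⟨k, hk⟩) := by
    intro k hk
    unfold xx
    rw [dif_pos hk]
  have hnn : 0 < nn := by unfold nn; norm_num
  have hσ0 : 0 < σ := by linarith
  have h4 : (3 : ℝ) / σ ^ 4 ≤ 3 / σ := by
    apply div_le_div_of_nonneg_left (by norm_num) hσ0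
    calc σ = σ ^ 1 := (pow_one σ).symm
      _ ≤ σ ^ 4 := pow_le_pow_right₀ hσ1 (by norm_num)
  have hr := hrel (fun j => CC σ j w) (m0 σ w) (3 / σ ^ 4) (σ ^ 120) (xx p) (by positivity)
    (by positivity)
    (by
      rw [hxx 0 hnn]
      unfold m0
      refine max_le ?_ (hrange _).2.1
      by_cases h2 : PW w < 2
      · rw [regGrow_ll_small h2]
        exact le_trans (by positivity) (hrange ⟨0, hnn⟩).2.1
      · exact ll_mono (by omega) (hrange _).1.le)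
    (by
      intro k hk
      rw [hxx k (by omega), hxx (k + 1) hk]
      refine ll_mono (hprime _).two_le (le_of_lt ?_)
      apply hmono
      rw [Fin.mk_lt_mk]
      omega)
    (by
      intro k hk
      rw [hxx k hk]
      have := (hrange ⟨k, hk⟩).2.2
      linarith)
    hB
  have h5 := hr.2
  have h6 : 0 < σ ^ 120 := by positivity
  have h7 : 0 < σ ^ 4 := by positivity
  have h8 : (4 + 3 * K) / σ ^ 4 ≤ 0.02 := by
    rw [div_le_iff₀ h7]
    have h9 : σ ≤ σ ^ 4 := by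
      calc σ = σ ^ 1 := (pow_one σ).symm
        _ ≤ σ ^ 4 := pow_le_pow_right₀ hσ1 (by norm_num)
    linarith
  have h9 : (4 + 3 * K) / σ ^ 4 * σ ^ 120 ≤ 0.02 * σ ^ 120 :=
    mul_le_mul_of_nonneg_right h8 h6.le
  have h10 : (1 + 4 / σ ^ 4) * σ ^ 120 + K * (3 / σ ^ 4 * σ ^ 120) =
      σ ^ 120 + (4 + 3 * K) / σ ^ 4 * σ ^ 120 := by
    ring
  linarith

/-- Let `W` be the set of `w ∈ Wfin σ` with `RR σ w` nonempty. For such `w`, `relaxed_lower` gives
`cost w ≤ (1 + K/σ^4 · 4) s`. If `ll (PW w) < σ^119`, `w` is nice. Otherwise take `w2` of `W_growth`: by `growth_shift`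
(`e = σ^104`, `ε = 3/σ^4`, `u = m0 = ll (PW w)`, `m2 = m0 σ w2`) `1.29 cost w2 ≤ (1 + 3/σ^4) cost w + K σ^104`, so `w2` is nice.
`w ↦ (PW w, w2)` is injective and `∑_p 1/(p-1) ≤ s + C` over `p ≤ EE σ` (`mert_all`); so
`∑_{w ∈ W} 1/w ≤ (s + C + 1) ∑_{nice} 1/w`, and `TS_nice`. -/
theorem growth : ∃ C : ℝ, 1 ≤ C ∧ ∀ᶠ σ : ℝ in Filter.atTop,
    ∑ w ∈ (Wfin σ).filter (fun w => (RR σ w).Nonempty), 1 / (w : ℝ) ≤
      C * σ ^ 120 / (σ ^ 120) ^ nn * TS σ := by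
  obtain ⟨K1, hK1, hrel⟩ := relaxed_lower
  obtain ⟨K2, hK2, hgs⟩ := growth_shift
  obtain ⟨K3, hK3, hzs⟩ := zt_small
  obtain ⟨C4, hC4, hWs⟩ := W_small
  obtain ⟨C5, hC5, hmert⟩ := mert_all
  obtain ⟨c, hc, hTS⟩ := TS_nice
  refine ⟨max 1 ((3 + C5) / c ^ nn), le_max_left _ _, ?_⟩
  filter_upwards [W_growth, hWs, hTS, Filter.eventually_ge_atTop (1 : ℝ),
    Filter.eventually_ge_atTop (50 * (4 + 3 * K1)), Filter.eventually_ge_atTop (300 : ℝ),
    Filter.eventually_ge_atTop (1000 * K2), Filter.eventually_ge_atTop (2 * (K3 * C4))]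
    with σ hWg hWsσ hTSσ hσ1 hσK1 hσ300 hσK2 hσK3
  classical
  have hσ0 : 0 < σ := by linarith
  have hs0 : 0 < σ ^ 120 := by positivity
  have hs1 : 1 ≤ σ ^ 120 := one_le_pow₀ hσ1
  obtain ⟨cost, hcost⟩ : ∃ cost : ℕ → ℝ, cost = fun w =>
    BB (fun j => CC σ j w) (zt (fun j => CC σ j w) (m0 σ w) 0) nn := ⟨_, rfl⟩
  set Nice : Finset ℕ := (Wfin σ).filter (fun w => cost w ≤ 0.8 * σ ^ 120) with hNice
  set PR : Finset ℕ := (Finset.range (EE σ + 1)).filter Nat.Prime with hPR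
  have hTN : (c * σ ^ 120) ^ nn * ∑ w ∈ Nice, 1 / (w : ℝ) ≤ TS σ := by
    apply hTSσ Nice (Finset.filter_subset _ _)
    intro w hw
    have := (Finset.mem_filter.mp hw).2
    rw [hcost] at this
    exact this
  have hNice0 : 0 ≤ ∑ w ∈ Nice, 1 / (w : ℝ) := Finset.sum_nonneg fun w _ => by positivity
  -- the sum over the primes
  have hPsum : ∑ p ∈ PR, 1 / ((p : ℝ) - 1) ≤ σ ^ 120 + 1 + C5 := by
    apply hmert (σ ^ 120 + 1) (by linarith)
    intro p hp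
    rw [hPR, Finset.mem_filter, Finset.mem_range] at hp
    refine ⟨hp.2, ?_⟩
    rw [← le_EE_iff hp.2.two_le]
    omega
  -- the cover
  have hcover : (Wfin σ).filter (fun w => (RR σ w).Nonempty) ⊆
      Nice ∪ (PR ×ˢ Nice).image (fun q : ℕ × ℕ => (q.1 - 1) * q.2) := by
    intro w hw
    rw [Finset.mem_filter] at hw
    obtain ⟨hwW, hwR⟩ := hw
    have hcw : cost w ≤ 1.02 * σ ^ 120 := by
      rw [hcost]
      exact regGrow_cost K1 hK1 hrel σ hσ1 hσK1 w hwR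
    rw [Finset.mem_union]
    by_cases hsm : ll (PW w) < σ ^ 119
    · left
      rw [hNice, Finset.mem_filter]
      refine ⟨hwW, ?_⟩
      have h1 := hzs (fun j => CC σ j w) (m0 σ w) (C4 * σ ^ 119) (by positivity)
        (by
          unfold m0
          rw [max_eq_right hsm.le]
          have : 0 < σ ^ 119 := by positivity
          nlinarith only [hC4, this])
        (by
          intro j hj hj2
          exact hWsσ w hwW hsm j hj hj2)
      rw [hcost]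
      refine h1.trans ?_
      have h2 : K3 * (C4 * σ ^ 119) = (K3 * C4) * σ ^ 119 := by ring
      have h3 : σ ^ 120 = σ * σ ^ 119 := by ring
      have h4 : 0 < σ ^ 119 := by positivity
      rw [h2, h3]
      nlinarith only [hσK3, hσ0, hs0]
    · right
      push Not at hsm
      obtain ⟨w2, hw2, hww, hpr, hPE, hll2, hCCk, hCC1⟩ := hWg w hwW hsm
      rw [Finset.mem_image]
      refine ⟨(PW w, w2), ?_, hww.symm⟩
      rw [Finset.mem_product]
      refine ⟨?_, ?_⟩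
      · rw [hPR, Finset.mem_filter, Finset.mem_range]
        exact ⟨by simpa using Nat.lt_succ_of_le hPE, hpr⟩
      · rw [hNice, Finset.mem_filter]
        refine ⟨hw2, ?_⟩
        have hσ119 : 0 ≤ σ ^ 119 := by positivity
        have hε1 : (3 : ℝ) / σ ^ 4 ≤ 0.01 := by
          have h7 : 0 < σ ^ 4 := by positivity
          rw [div_le_iff₀ h7]
          have h9 : σ ≤ σ ^ 4 := by
            calc σ = σ ^ 1 := (pow_one σ).symm
              _ ≤ σ ^ 4 := pow_le_pow_right₀ hσ1 (by norm_num)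
          linarith
        have h1 := hgs (fun j => CC σ j w) (fun j => CC σ j w2) (m0 σ w) (m0 σ w2) (ll (PW w))
          (3 / σ ^ 4) (σ ^ 104) (by positivity) (by linarith) (by positivity)
          (by linarith) (le_max_left _ _) (max_le hll2 hsm)
          (le_trans hσ119 (le_max_right _ _))
          (fun j hj => CC_nonneg hσ1 hj w) (fun j _ => CC_mono hσ1 (Nat.le_succ j) w)
          (fun j hj => CC_nonneg hσ1 hj w2) hCC1 hCCk
        have h2 : (1 + 3 / σ ^ 4) * cost w ≤ 1.01 * (1.02 * σ ^ 120) := by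
          have h3 : (1 + 3 / σ ^ 4) * cost w ≤ (1 + 3 / σ ^ 4) * (1.02 * σ ^ 120) :=
            mul_le_mul_of_nonneg_left hcw (by positivity)
          refine h3.trans (mul_le_mul_of_nonneg_right (by linarith) (by positivity))
        have h4 : K2 * σ ^ 104 ≤ 0.001 * σ ^ 120 := by
          have h5 : σ ^ 120 = σ ^ 16 * σ ^ 104 := by ring
          have h6 : σ ≤ σ ^ 16 := by
            calc σ = σ ^ 1 := (pow_one σ).symm
              _ ≤ σ ^ 16 := pow_le_pow_right₀ hσ1 (by norm_num)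
          have h7 : 0 < σ ^ 104 := by positivity
          rw [h5]
          have h8 : K2 ≤ 0.001 * σ ^ 16 := by linarith
          calc K2 * σ ^ 104 ≤ (0.001 * σ ^ 16) * σ ^ 104 := mul_le_mul_of_nonneg_right h8 h7.le
            _ = 0.001 * (σ ^ 16 * σ ^ 104) := by ring
        rw [hcost] at h2 ⊢
        simp only at h2 ⊢
        linarith
  have hnn0 : ∀ w : ℕ, 0 ≤ 1 / (w : ℝ) := fun w => by positivity
  have hsum1 : ∑ w ∈ (Wfin σ).filter (fun w => (RR σ w).Nonempty), 1 / (w : ℝ) ≤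
      ∑ w ∈ Nice, 1 / (w : ℝ) +
      ∑ w ∈ (PR ×ˢ Nice).image (fun q : ℕ × ℕ => (q.1 - 1) * q.2), 1 / (w : ℝ) := by
    refine (Finset.sum_le_sum_of_subset_of_nonneg hcover (fun w _ _ => hnn0 w)).trans ?_
    rw [← Finset.sum_union_inter]
    have : 0 ≤ ∑ w ∈ Nice ∩ (PR ×ˢ Nice).image (fun q : ℕ × ℕ => (q.1 - 1) * q.2),
        1 / (w : ℝ) := Finset.sum_nonneg fun w _ => hnn0 w
    linarith
  have hsum2 : ∑ w ∈ (PR ×ˢ Nice).image (fun q : ℕ × ℕ => (q.1 - 1) * q.2), 1 / (w : ℝ) ≤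
      (∑ p ∈ PR, 1 / ((p : ℝ) - 1)) * ∑ w ∈ Nice, 1 / (w : ℝ) := by
    refine (Finset.sum_image_le_of_nonneg (fun w _ => hnn0 w)).trans (le_of_eq ?_)
    rw [Finset.sum_mul_sum, Finset.sum_product]
    refine Finset.sum_congr rfl fun p hp => Finset.sum_congr rfl fun w _ => ?_
    have hp1 : p.Prime := (Finset.mem_filter.mp hp).2
    simp only
    rw [Nat.cast_mul, Nat.cast_sub hp1.one_lt.le, Nat.cast_one, one_div_mul_one_div]
  have hcs : 0 < (c * σ ^ 120) ^ nn := pow_pos (mul_pos hc hs0) nn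
  have hTN2 : ∑ w ∈ Nice, 1 / (w : ℝ) ≤ TS σ / (c * σ ^ 120) ^ nn := by
    rw [le_div_iff₀ hcs]
    linarith
  have hTS0 : 0 ≤ TS σ := le_trans (mul_nonneg hcs.le hNice0) hTN
  have hfin : ∑ w ∈ (Wfin σ).filter (fun w => (RR σ w).Nonempty), 1 / (w : ℝ) ≤
      ((3 + C5) * σ ^ 120) * (TS σ / (c * σ ^ 120) ^ nn) := by
    have h1 : ∑ w ∈ (Wfin σ).filter (fun w => (RR σ w).Nonempty), 1 / (w : ℝ) ≤
        (σ ^ 120 + 2 + C5) * ∑ w ∈ Nice, 1 / (w : ℝ) := by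
      have h2 := mul_le_mul_of_nonneg_right hPsum hNice0
      have h3 : (σ ^ 120 + 2 + C5) * ∑ w ∈ Nice, 1 / (w : ℝ) =
          ∑ w ∈ Nice, 1 / (w : ℝ) + (σ ^ 120 + 1 + C5) * ∑ w ∈ Nice, 1 / (w : ℝ) := by ring
      rw [h3]
      linarith
    refine h1.trans ?_
    have h4 : σ ^ 120 + 2 + C5 ≤ (3 + C5) * σ ^ 120 := by nlinarith only [hC5, hs1]
    calc (σ ^ 120 + 2 + C5) * ∑ w ∈ Nice, 1 / (w : ℝ)
        ≤ ((3 + C5) * σ ^ 120) * ∑ w ∈ Nice, 1 / (w : ℝ) :=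
          mul_le_mul_of_nonneg_right h4 hNice0
      _ ≤ ((3 + C5) * σ ^ 120) * (TS σ / (c * σ ^ 120) ^ nn) :=
          mul_le_mul_of_nonneg_left hTN2 (by positivity)
  refine hfin.trans ?_
  have h5 : ((3 + C5) * σ ^ 120) * (TS σ / (c * σ ^ 120) ^ nn) =
      ((3 + C5) / c ^ nn) * (σ ^ 120 / (σ ^ 120) ^ nn * TS σ) := by
    rw [mul_pow c]
    have h6 : c ^ nn ≠ 0 := (pow_pos hc nn).ne'
    have h7 : (σ ^ 120) ^ nn ≠ 0 := (pow_pos hs0 nn).ne'
    generalize (σ ^ 120) ^ nn = A at *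
    generalize c ^ nn = B at *
    generalize σ ^ 120 = S at *
    field_simp
  have h8 : max 1 ((3 + C5) / c ^ nn) * σ ^ 120 / (σ ^ 120) ^ nn * TS σ =
      max 1 ((3 + C5) / c ^ nn) * (σ ^ 120 / (σ ^ 120) ^ nn * TS σ) := by ring
  rw [h5, h8]
  exact mul_le_mul_of_nonneg_right (le_max_right _ _)
    (mul_nonneg (div_nonneg hs0.le (pow_pos hs0 _).le) hTS0)

end P031
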