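import Vale.Agent.Lib.P031.Reg

/-!
# P031 RegNice: lower bounds for `TS`.

Notation: `C_w j = CC σ j w`, `z_w(τ) = zt C_w (m0 σ w) τ`, `cost w = BB C_w (z_w(0)) nn`, `s = σ^120`.
`w` is nice if `cost w ≤ 0.8 s`.
-/

namespace P031

open Finset Real

private theorem regNice_mono {x : ℕ → ℝ} (h : ∀ k, k + 1 < nn → x k < x (k + 1)) :
    ∀ d i, i + d + 1 < nn → x i < x (i + d + 1) := by
  intro d
  induction d with
  | zero =>
    intro i hi
    exact h i hi
  | succ d ih =>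
    intro i hi
    have h1 := ih i (by omega)
    have h2 := h (i + d + 1) (by omega)
    exact h1.trans h2

private theorem regNice_xx (p : Fin nn → ℕ) (i : Fin nn) : xx p i.val = ll (p i) := by
  unfold xx
  rw [dif_pos i.isLt]

private theorem regNice_xx' (p : Fin nn → ℕ) {k : ℕ} (h : k < nn) : xx p k = ll (p ⟨k, h⟩) := by
  unfold xx
  rw [dif_pos h]

private theorem regNice_prime {σ : ℝ} {w : ℕ} {p : Fin nn → ℕ} (hp : p ∈ SS σ w) (i : Fin nn) :
    (p i).Prime := by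
  unfold SS at hp
  rw [mem_filter, Fintype.mem_piFinset] at hp
  exact (mem_filter.1 (hp.1 i)).2

private theorem regNice_wt_nonneg {σ : ℝ} {w : ℕ} {p : Fin nn → ℕ} (hp : p ∈ SS σ w) :
    0 ≤ wt p := by
  unfold wt
  refine prod_nonneg fun i _ => ?_
  have h2 : (2 : ℝ) ≤ (p i : ℝ) := by exact_mod_cast (regNice_prime hp i).two_le
  exact div_nonneg zero_le_one (by linarith)

private theorem regNice_m0 {σ : ℝ} (hσ : 1 ≤ σ) (w : ℕ) : 0 ≤ m0 σ w := by
  unfold m0
  exact le_max_of_le_right (by positivity)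

/-- one nice `w` -/
private theorem regNice_single : ∃ κ : ℝ, 0 < κ ∧ ∀ᶠ σ : ℝ in Filter.atTop, ∀ w : ℕ,
    BB (fun j => CC σ j w) (zt (fun j => CC σ j w) (m0 σ w) 0) nn ≤ 0.8 * σ ^ 120 →
    (κ * σ ^ 120) ^ nn ≤ ∑ p ∈ SS σ w, wt p := by
  obtain ⟨c, κ, hc, hκ, hbox⟩ := nice_box
  obtain ⟨C, hC, hlow⟩ := box_lower
  refine ⟨κ / 2, by positivity, ?_⟩
  have e1 : ∀ᶠ σ : ℝ in Filter.atTop, 3 / κ ≤ σ := Filter.eventually_ge_atTop _
  have e2 : ∀ᶠ σ : ℝ in Filter.atTop, 2 * C / κ ≤ σ := Filter.eventually_ge_atTop _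
  have e3 : ∀ᶠ σ : ℝ in Filter.atTop, (20 : ℝ) ≤ σ := Filter.eventually_ge_atTop _
  filter_upwards [e1, e2, e3] with σ h1 h2 h3 w hw
  have hσ : (1 : ℝ) ≤ σ := by linarith
  have hσ0 : (0 : ℝ) < σ := by linarith
  have hs : 0 < σ ^ 120 := by positivity
  have hs1 : σ ≤ σ ^ 120 := by
    calc σ = σ ^ 1 := (pow_one σ).symm
      _ ≤ σ ^ 120 := pow_le_pow_right₀ hσ (by norm_num)
  have hs4 : σ ≤ σ ^ 4 := by
    calc σ = σ ^ 1 := (pow_one σ).symm
      _ ≤ σ ^ 4 := pow_le_pow_right₀ hσ (by norm_num)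
  have hs2 : 20 * σ ≤ σ ^ 120 := by
    calc 20 * σ ≤ σ * σ := mul_le_mul_of_nonneg_right h3 hσ0.le
      _ = σ ^ 2 := by ring
      _ ≤ σ ^ 120 := pow_le_pow_right₀ hσ (by norm_num)
  have hε0 : 0 ≤ 3 / σ ^ 4 := by positivity
  have hε : 3 / σ ^ 4 ≤ κ := by
    rw [div_le_iff₀ (by positivity)]
    rw [div_le_iff₀ hκ] at h1
    nlinarith only [h1, hσ0, hs4]
  have hCκ : 2 * C ≤ κ * σ ^ 120 := by
    rw [div_le_iff₀ hκ] at h2
    nlinarith only [h2, h3, hs2, hε0, hε]
  have hm0 := regNice_m0 hσ w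
  have hCn : ∀ j, 1 ≤ j → 0 ≤ (fun j => CC σ j w) j := fun j hj => CC_nonneg hσ hj w
  have hCm : ∀ j, 1 ≤ j → (fun j => CC σ j w) j ≤ (fun j => CC σ j w) (j + 1) :=
    fun j _ => CC_mono hσ (Nat.le_succ j) w
  have hcs : 0 ≤ c * σ ^ 120 := by positivity
  have hmain := hlow (fun i => zt (fun j => CC σ j w) (m0 σ w) (c * σ ^ 120) i.val)
    (κ * σ ^ 120) (SS σ w) (by linarith)
    (fun i => by
      have := (zt_ge (fun j => CC σ j w) (m0 σ w) (c * σ ^ 120) hcs i.val).1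
      linarith)
    (fun p hp i => regNice_prime hp i)
    (fun p hp => by
      have hx := hbox (fun j => CC σ j w) (m0 σ w) (3 / σ ^ 4) (σ ^ 120) (xx p) hε0 hε hs hm0
        hCn hCm hw (fun k hk => by
          rw [regNice_xx' p hk]
          have := hp ⟨k, hk⟩
          exact ⟨this.2.1, this.2.2.le⟩)
      obtain ⟨hx1, hx2, hx3, hx4⟩ := hx
      have h2le : ∀ i, 2 ≤ p i := fun i => (hp i).1.two_le
      have hi : ∀ i : Fin nn, m0 σ w < ll (p i) ∧ ll (p i) ≤ 0.95 * σ ^ 120 := by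
        intro i
        have := hx4 i.val i.isLt
        rwa [regNice_xx] at this
      unfold SS
      rw [mem_filter, Fintype.mem_piFinset]
      refine ⟨fun i => ?_, ?_, fun i => ⟨?_, ?_, ?_⟩, hx1, hx2⟩
      · rw [mem_filter, mem_range]
        refine ⟨?_, (hp i).1⟩
        have h5 : p i ≤ EE σ := by
          rw [le_EE_iff (h2le i)]
          have := (hi i).2
          linarith
        omega
      · intro i j hij
        refine lt_of_ll_lt (h2le j) ?_
        have hij' : i.val < j.val := hij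
        have h5 := regNice_mono hx3 (j.val - i.val - 1) i.val (by
          have := j.isLt
          omega)
        have h6 : i.val + (j.val - i.val - 1) + 1 = j.val := by omega
        rw [h6, regNice_xx, regNice_xx] at h5
        exact h5
      · exact lt_of_ll_lt (h2le i) ((le_max_left _ _).trans_lt (hi i).1)
      · exact ((le_max_right _ _).trans_lt (hi i).1).le
      · have := (hi i).2
        linarith)
  refine le_trans ?_ hmain
  refine pow_le_pow_left₀ (by positivity) ?_ nn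
  linarith

/-- `nice_box` (with `ε = 3/σ^4`) and `box_lower`: for nice `w` all prime tuples in the box
`z_w(c s) k ≤ ll (p k) < z_w(c s) k + κ s` are in `SS σ w` (`lt_of_ll_lt` for `PW w < p k`; `ll ≤ 0.95 s` so
`p k ≤ EE σ`), so `∑_{p ∈ SS} wt p ≥ (κ s - C)^nn ≥ (κ s/2)^nn`. Sum over the nice `w`. -/
theorem TS_nice : ∃ c : ℝ, 0 < c ∧ ∀ᶠ σ : ℝ in Filter.atTop,
    ∀ W : Finset ℕ, W ⊆ Wfin σ →
    (∀ w ∈ W, BB (fun j => CC σ j w) (zt (fun j => CC σ j w) (m0 σ w) 0) nn ≤ 0.8 * σ ^ 120) →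
    (c * σ ^ 120) ^ nn * ∑ w ∈ W, 1 / (w : ℝ) ≤ TS σ := by
  obtain ⟨κ, hκ, h⟩ := regNice_single
  refine ⟨κ, hκ, ?_⟩
  filter_upwards [h] with σ hσ W hW hn
  unfold TS
  have h1 : (κ * σ ^ 120) ^ nn * ∑ w ∈ W, 1 / (w : ℝ) ≤
      ∑ w ∈ W, (1 / (w : ℝ)) * ∑ p ∈ SS σ w, wt p := by
    rw [mul_sum]
    refine sum_le_sum fun w hw => ?_
    rw [mul_comm]
    exact mul_le_mul_of_nonneg_left (hσ w (hn w hw)) (by positivity)
  refine h1.trans (sum_le_sum_of_subset_of_nonneg hW fun w _ _ => ?_)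
  exact mul_nonneg (by positivity) (sum_nonneg fun p hp => regNice_wt_nonneg hp)

/-- `Wsm` and the constant term: all `w` with `ll (PW w) < σ^119` are nice (`W_small`, `zt_small`); `w = 1`. -/
theorem TS_small : ∃ c : ℝ, 0 < c ∧ ∀ᶠ σ : ℝ in Filter.atTop,
    (c * σ ^ 120) ^ nn * Wsm σ ≤ TS σ ∧ 1 ≤ Wsm σ := by
  obtain ⟨c, hc, hTS⟩ := TS_nice
  obtain ⟨C, hC, hW⟩ := W_small
  obtain ⟨K, hK, hz⟩ := zt_small
  refine ⟨c, hc, ?_⟩
  have e1 : ∀ᶠ σ : ℝ in Filter.atTop, K * C / 0.8 ≤ σ := Filter.eventually_ge_atTop _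
  have e2 : ∀ᶠ σ : ℝ in Filter.atTop, (1 : ℝ) ≤ σ := Filter.eventually_ge_atTop _
  filter_upwards [hTS, hW, WW_one, e1, e2] with σ h1 h2 h3 h4 h5
  have h119 : 0 < σ ^ 119 := by positivity
  constructor
  · refine h1 _ (filter_subset _ _) ?_
    intro w hw
    rw [mem_filter] at hw
    have h6 : m0 σ w ≤ C * σ ^ 119 := by
      unfold m0
      refine max_le ?_ ?_
      · nlinarith only [hw.2, hC, h119]
      · nlinarith only [hC, h119]
    have h7 := hz (fun j => CC σ j w) (m0 σ w) (C * σ ^ 119) (by positivity) h6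
      (fun j hj hj' => h2 w hw.1 hw.2 j hj hj')
    refine h7.trans ?_
    rw [div_le_iff₀ (by norm_num)] at h4
    have h8 : σ ^ 120 = σ * σ ^ 119 := by ring
    rw [h8]
    calc K * (C * σ ^ 119) = (K * C) * σ ^ 119 := by ring
      _ ≤ (σ * 0.8) * σ ^ 119 := mul_le_mul_of_nonneg_right h4 h119.le
      _ = 0.8 * (σ * σ ^ 119) := by ring
  · unfold Wsm
    have hEE : 2 ≤ EE σ := by
      rw [le_EE_iff (le_refl 2)]
      have h6 : ll 2 ≤ 0 := by
        unfold ll
        refine Real.log_nonpos (Real.log_nonneg (by norm_num)) ?_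
        have := Real.log_two_lt_d9
        push_cast
        linarith
      have : 0 < σ ^ 120 := by positivity
      linarith
    have hmem : (1 : ℕ) ∈ (Wfin σ).filter (fun w => ll (PW w) < σ ^ 119) := by
      rw [mem_filter]
      constructor
      · classical
        unfold Wfin
        rw [mem_filter, mem_Icc]
        exact ⟨⟨le_refl 1, by omega⟩, h3.1⟩
      · have h7 : ll (PW 1) = 0 := by
          have h8 : PW 1 = 0 ∨ PW 1 = 1 := by
            have := h3.2
            omega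
          rcases h8 with h8 | h8 <;> rw [h8] <;> simp [ll]
        rw [h7]
        exact h119
    have h6 := single_le_sum (f := fun w : ℕ => 1 / (w : ℝ)) (fun w _ => by positivity) hmem
    simpa using h6

end P031
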