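import Vale.Agent.Lib.P031.RegGrow

/-!
# P031 RegShallow: the shallow `w`.

Notation: `C_w j = CC σ j w`, `z_w(τ) = zt C_w (m0 σ w) τ`, `cost w = BB C_w (z_w(0)) nn`, `s = σ^120`.
`w` is nice if `cost w ≤ 0.8 s`.
-/

namespace P031

open Finset Real

private theorem regshallow_ll {m n : ℕ} {u : ℝ} (h : m < n) (hu : 0 ≤ u) (hn : u ≤ ll n) :
    ll m ≤ ll n := by
  rcases Nat.lt_or_ge m 2 with h2 | h2
  · have h3 : ll m = 0 := by
      have : m = 0 ∨ m = 1 := by omega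
      rcases this with rfl | rfl <;> simp [ll]
    rw [h3]
    linarith
  · exact ll_mono h2 h.le

private theorem regshallow_wt {p : Fin nn → ℕ} (hp : ∀ i, (p i).Prime) : 0 ≤ wt p := by
  unfold wt
  refine Finset.prod_nonneg fun i _ => ?_
  have h := (hp i).one_lt
  have h1 : (1 : ℝ) < (p i : ℝ) := by exact_mod_cast h
  exact div_nonneg zero_le_one (by linarith)

private theorem regshallow_TS (σ : ℝ) : 0 ≤ TS σ := by
  unfold TS
  refine Finset.sum_nonneg fun w _ => mul_nonneg (by positivity) ?_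
  refine Finset.sum_nonneg fun p hp => regshallow_wt fun i => ?_
  unfold SS at hp
  have h1 := (Finset.mem_filter.1 hp).1
  have h2 := Fintype.mem_piFinset.1 h1 i
  exact (Finset.mem_filter.1 h2).2

private theorem regshallow_pow {σ : ℝ} (hσ : 0 < σ) (D C T : ℝ) :
    (D * σ ^ 119) ^ nn * (C * σ ^ 120 / (σ ^ 120) ^ nn * T) = D ^ nn * C / σ * T := by
  have h : (σ ^ 119) ^ nn * σ ^ 120 * σ = (σ ^ 120) ^ nn := by
    unfold nn
    rw [← pow_mul, ← pow_mul, ← pow_add, ← pow_succ]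
  rw [mul_pow]
  have h1 : (σ ^ 120) ^ nn ≠ 0 := by positivity
  have h2 : C * σ ^ 120 / (σ ^ 120) ^ nn * T = C * T * (σ ^ 120 / (σ ^ 120) ^ nn) := by ring
  have h3 : (σ ^ 119) ^ nn * (σ ^ 120 / (σ ^ 120) ^ nn) = 1 / σ := by
    rw [← mul_div_assoc, div_eq_div_iff h1 hσ.ne', one_mul, h]
  calc D ^ nn * (σ ^ 119) ^ nn * (C * σ ^ 120 / (σ ^ 120) ^ nn * T)
      = D ^ nn * C * T * ((σ ^ 119) ^ nn * (σ ^ 120 / (σ ^ 120) ^ nn)) := by rw [h2]; ring
    _ = D ^ nn * C / σ * T := by rw [h3]; ring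

/-- one shallow `w` -/
private theorem regshallow_one : ∃ D : ℝ, 1 ≤ D ∧ ∀ᶠ σ : ℝ in Filter.atTop, ∀ w : ℕ,
    σ ^ 120 - σ ^ 119 <
        BB (fun j => CC σ j w) (zt (fun j => CC σ j w) (m0 σ w) (σ ^ 119)) nn →
      ∑ p ∈ RR σ w, wt p ≤ (D * σ ^ 119) ^ nn := by
  obtain ⟨K, hK1, hK⟩ := shallow_box
  obtain ⟨Cb, hCb1, hCb⟩ := box_upper
  refine ⟨2 * K + Cb, by linarith, ?_⟩
  filter_upwards [Filter.eventually_ge_atTop (2 : ℝ)] with σ hσ w hw
  have hσ0 : (0 : ℝ) < σ := by linarith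
  have hσ1 : (1 : ℝ) ≤ σ := by linarith
  have h119 : (1 : ℝ) ≤ σ ^ 119 := one_le_pow₀ hσ1
  have hes : 4 / σ ^ 4 * σ ^ 120 ≤ σ ^ 119 := by
    have e1 : 4 / σ ^ 4 * σ ^ 120 = 4 * σ ^ 116 := by
      have : σ ^ 120 = σ ^ 4 * σ ^ 116 := by rw [← pow_add]
      rw [this]
      field_simp
    have e2 : σ ^ 119 = σ ^ 3 * σ ^ 116 := by rw [← pow_add]
    rw [e1, e2]
    have e3 : (4 : ℝ) ≤ σ ^ 3 := by
      have : (2 : ℝ) ^ 3 ≤ σ ^ 3 := pow_le_pow_left₀ (by norm_num) hσ 3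
      linarith
    exact mul_le_mul_of_nonneg_right e3 (by positivity)
  have hbox : ∀ p ∈ RR σ w, ∀ i : Fin nn, (p i).Prime ∧
      max 0 (zt (fun j => CC σ j w) (m0 σ w) 0 i - K * (4 / σ ^ 4 * σ ^ 120)) ≤ ll (p i) ∧
      ll (p i) ≤ max 0 (zt (fun j => CC σ j w) (m0 σ w) 0 i - K * (4 / σ ^ 4 * σ ^ 120)) +
        2 * K * σ ^ 119 := by
    intro p hp
    unfold RR at hp
    obtain ⟨hp0, hmono, hrange, hB, hBn⟩ := Finset.mem_filter.1 hp
    have hprime : ∀ i, (p i).Prime := fun i =>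
      (Finset.mem_filter.1 (Fintype.mem_piFinset.1 hp0 i)).2
    have hxx : ∀ k (hk : k < nn), xx p k = ll (p ⟨k, hk⟩) := fun k hk => by
      unfold xx
      rw [dif_pos hk]
    have hx0 : ∀ k, k < nn → 0 ≤ xx p k := fun k hk => by
      rw [hxx k hk]
      linarith [(hrange ⟨k, hk⟩).2.1]
    have key := hK (fun j => CC σ j w) (m0 σ w) (4 / σ ^ 4) (σ ^ 120) (σ ^ 119) (xx p)
      (by positivity) (by positivity) (by positivity) hes
      (by
        have h0 : 0 < nn := by unfold nn; norm_num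
        rw [hxx 0 h0]
        unfold m0
        exact max_le (regshallow_ll (hrange ⟨0, h0⟩).1 (by positivity) (hrange ⟨0, h0⟩).2.1)
          (hrange ⟨0, h0⟩).2.1)
      (by
        intro k hk
        have hk' : k < nn := by omega
        rw [hxx k hk', hxx (k + 1) hk]
        refine ll_mono (hprime _).two_le (hmono ?_).le
        exact Fin.mk_lt_mk.2 (Nat.lt_succ_self k))
      (by
        intro k hk
        rw [hxx k hk]
        linarith [(hrange ⟨k, hk⟩).2.2])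
      (by
        intro k hk
        refine (hB k hk).trans (mul_le_mul_of_nonneg_right ?_ (hx0 k hk))
        have : 3 / σ ^ 4 ≤ 4 / σ ^ 4 := by gcongr; norm_num
        linarith)
      hBn hw
    intro i
    have hi := key i i.isLt
    rw [hxx i i.isLt] at hi
    have hi1 : (⟨(i : ℕ), i.isLt⟩ : Fin nn) = i := rfl
    rw [hi1] at hi
    have hll0 : 0 ≤ ll (p i) := by linarith [(hrange i).2.1]
    refine ⟨hprime i, max_le hll0 hi.1, ?_⟩
    have h1 := le_max_right 0 (zt (fun j => CC σ j w) (m0 σ w) 0 i - K * (4 / σ ^ 4 * σ ^ 120))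
    have h2 : K * (4 / σ ^ 4 * σ ^ 120) ≤ K * σ ^ 119 :=
      mul_le_mul_of_nonneg_left hes (by linarith)
    linarith [hi.2]
  have h1 := hCb (fun i : Fin nn =>
    max 0 (zt (fun j => CC σ j w) (m0 σ w) 0 i - K * (4 / σ ^ 4 * σ ^ 120)))
    (2 * K * σ ^ 119) (RR σ w) (by positivity) (fun i => le_max_left _ _) hbox
  refine h1.trans (pow_le_pow_left₀ (by positivity) ?_ _)
  have : Cb ≤ Cb * σ ^ 119 := le_mul_of_one_le_right (by linarith) h119
  linarith

/-- shallow `w` (`BB C_w (z_w(τ)) nn > s - τ`, `τ = σ^119`): `shallow_box` with `ε = 4/σ^4` and `box_upper` give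
`∑_{p ∈ RR} wt p ≤ (C τ)^nn`; with `growth` the total is at most
`(C σ^119)^nn C σ^120/(σ^120)^nn TS = C' σ^(120 - 121) TS`. -/
theorem shallow_total : ∀ ε : ℝ, 0 < ε → ∀ᶠ σ : ℝ in Filter.atTop,
    ∑ w ∈ (Wfin σ).filter (fun w => σ ^ 120 - σ ^ 119 <
        BB (fun j => CC σ j w) (zt (fun j => CC σ j w) (m0 σ w) (σ ^ 119)) nn),
      (1 / (w : ℝ)) * ∑ p ∈ RR σ w, wt p ≤ ε * TS σ := by
  classical
  intro ε hε
  obtain ⟨D, hD1, hD⟩ := regshallow_one
  obtain ⟨C, hC1, hC⟩ := growth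
  filter_upwards [hD, hC, Filter.eventually_ge_atTop (2 : ℝ),
    Filter.eventually_ge_atTop (D ^ nn * C / ε)] with σ hD hC hσ hσε
  have hσ0 : (0 : ℝ) < σ := by linarith
  have hTS := regshallow_TS σ
  have hD0 : 0 < D := by linarith
  have hDp : 0 ≤ (D * σ ^ 119) ^ nn := by positivity
  calc ∑ w ∈ (Wfin σ).filter (fun w => σ ^ 120 - σ ^ 119 <
        BB (fun j => CC σ j w) (zt (fun j => CC σ j w) (m0 σ w) (σ ^ 119)) nn),
      (1 / (w : ℝ)) * ∑ p ∈ RR σ w, wt p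
      ≤ ∑ w ∈ (Wfin σ).filter (fun w => σ ^ 120 - σ ^ 119 <
          BB (fun j => CC σ j w) (zt (fun j => CC σ j w) (m0 σ w) (σ ^ 119)) nn),
        (if (RR σ w).Nonempty then (D * σ ^ 119) ^ nn * (1 / (w : ℝ)) else 0) := by
        refine Finset.sum_le_sum fun w hw => ?_
        by_cases hne : (RR σ w).Nonempty
        · rw [if_pos hne, mul_comm]
          exact mul_le_mul_of_nonneg_right (hD w (Finset.mem_filter.1 hw).2) (by positivity)
        · rw [if_neg hne, Finset.not_nonempty_iff_eq_empty.1 hne, Finset.sum_empty, mul_zero]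
    _ ≤ ∑ w ∈ Wfin σ,
        (if (RR σ w).Nonempty then (D * σ ^ 119) ^ nn * (1 / (w : ℝ)) else 0) := by
        refine Finset.sum_le_sum_of_subset_of_nonneg (Finset.filter_subset _ _) fun w _ _ => ?_
        split_ifs
        · exact mul_nonneg hDp (div_nonneg zero_le_one (Nat.cast_nonneg w))
        · exact le_rfl
    _ = (D * σ ^ 119) ^ nn *
          ∑ w ∈ (Wfin σ).filter (fun w => (RR σ w).Nonempty), 1 / (w : ℝ) := by
        rw [Finset.mul_sum, Finset.sum_filter]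
    _ ≤ (D * σ ^ 119) ^ nn * (C * σ ^ 120 / (σ ^ 120) ^ nn * TS σ) :=
        mul_le_mul_of_nonneg_left hC hDp
    _ = D ^ nn * C / σ * TS σ := regshallow_pow hσ0 D C (TS σ)
    _ ≤ ε * TS σ := by
        refine mul_le_mul_of_nonneg_right ?_ hTS
        rw [div_le_iff₀ hσ0]
        rw [div_le_iff₀ hε] at hσε
        linarith

end P031
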