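import Vale.Agent.Lib.P031.Brun
import Vale.Agent.Lib.P031.InvDvd

/-!
# P031 SieveR2: upper bound sieve for `r, Ar+1` (and `Br+1`) prime.
-/

namespace P031

open Finset Real

private theorem SieveR2_class (A q : ℕ) (hq : q.Prime) (hqA : ¬ q ∣ A) :
    ∃ c : ℕ, c < q ∧ c ≠ 0 ∧ q ∣ A * c + 1 := by
  have : Fact q.Prime := ⟨hq⟩
  have hA0 : (A : ZMod q) ≠ 0 := by
    intro h
    exact hqA ((ZMod.natCast_eq_zero_iff A q).mp h)
  set x : ZMod q := -(A : ZMod q)⁻¹ with hx
  have hdiv : q ∣ A * x.val + 1 := by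
    rw [← ZMod.natCast_eq_zero_iff]
    push_cast
    rw [ZMod.natCast_zmod_val, hx]
    field_simp
    ring
  refine ⟨x.val, ZMod.val_lt x, ?_, hdiv⟩
  intro h0
  rw [h0, mul_zero, zero_add] at hdiv
  exact hq.one_lt.ne' (Nat.dvd_one.mp hdiv)

private theorem SieveR2_res (A : ℕ) :
    ∃ R : ℕ → Finset ℕ, ∀ q : ℕ, q.Prime →
      R q ⊆ Finset.range q ∧ (R q).card ≤ 3 ∧
      (2 : ℝ) - (if q ∣ A then 1 else 0) ≤ ((R q).card : ℝ) ∧
      ∀ r : ℕ, r.Prime → q < r → (A * r + 1).Prime → 1 ≤ A → r % q ∉ R q := by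
  classical
  have hex : ∀ q : ℕ, ∃ c : ℕ, (q.Prime ∧ ¬ q ∣ A) → (c < q ∧ c ≠ 0 ∧ q ∣ A * c + 1) := by
    intro q
    by_cases h : q.Prime ∧ ¬ q ∣ A
    · obtain ⟨c, hc⟩ := SieveR2_class A q h.1 h.2
      exact ⟨c, fun _ => hc⟩
    · exact ⟨0, fun h' => absurd h' h⟩
  choose c hc using hex
  refine ⟨fun q => if q ∣ A then {0} else {0, c q}, ?_⟩
  intro q hq
  by_cases hqA : q ∣ A
  · simp only [hqA, if_true]
    refine ⟨?_, by simp, by norm_num, ?_⟩
    · intro x hx
      rw [mem_singleton] at hx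
      rw [hx, mem_range]
      exact hq.pos
    · intro r hr hqr _ _ hmem
      rw [mem_singleton] at hmem
      have h1 : q ∣ r := Nat.dvd_of_mod_eq_zero hmem
      have h2 := (Nat.prime_dvd_prime_iff_eq hq hr).mp h1
      omega
  · obtain ⟨h1, h2, h3⟩ := hc q ⟨hq, hqA⟩
    simp only [hqA, if_false]
    have hcard : ({0, c q} : Finset ℕ).card = 2 := Finset.card_pair (Ne.symm h2)
    refine ⟨?_, by rw [hcard]; norm_num, by rw [hcard]; norm_num, ?_⟩
    · intro x hx
      rw [mem_insert, mem_singleton] at hx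
      rw [mem_range]
      rcases hx with hx | hx
      · rw [hx]; exact hq.pos
      · rw [hx]; exact h1
    · intro r hr hqr hAr hA hmem
      rw [mem_insert, mem_singleton] at hmem
      rcases hmem with hmem | hmem
      · have h4 : q ∣ r := Nat.dvd_of_mod_eq_zero hmem
        have h5 := (Nat.prime_dvd_prime_iff_eq hq hr).mp h4
        omega
      · have h4 : q ∣ A * r + 1 := by
          have h5 : A * r + 1 = (A * (r % q) + 1) + q * (A * (r / q)) := by
            have := Nat.div_add_mod r q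
            calc A * r + 1 = A * (q * (r / q) + r % q) + 1 := by rw [this]
              _ = _ := by ring
          rw [h5, hmem]
          exact Dvd.dvd.add h3 (Dvd.intro _ rfl)
        have h5 := (Nat.prime_dvd_prime_iff_eq hq hAr).mp h4
        have h6 : r ≤ A * r := Nat.le_mul_of_pos_left r (by omega)
        omega

private theorem SieveR2_log (CB L : ℝ) (hCB : 1 ≤ CB) (hL : 4 * CB ^ 2 < L) :
    CB * (2 + Real.log L) ≤ L := by
  have hL0 : 0 < L := lt_of_le_of_lt (by positivity) hL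
  have h1 : Real.log (Real.sqrt L) ≤ Real.sqrt L - 1 :=
    Real.log_le_sub_one_of_pos (Real.sqrt_pos.mpr hL0)
  rw [Real.log_sqrt hL0.le] at h1
  have h2 : 2 * CB ≤ Real.sqrt L := by
    apply Real.le_sqrt_of_sq_le
    linarith only [hL]
  have h3 : Real.sqrt L * Real.sqrt L = L := Real.mul_self_sqrt hL0.le
  have h4 : 2 + Real.log L ≤ 2 * Real.sqrt L := by linarith
  have h5 : 0 ≤ Real.sqrt L := Real.sqrt_nonneg L
  calc CB * (2 + Real.log L) ≤ CB * (2 * Real.sqrt L) :=
        mul_le_mul_of_nonneg_left h4 (by linarith)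
    _ = (2 * CB) * Real.sqrt L := by ring
    _ ≤ Real.sqrt L * Real.sqrt L := mul_le_mul_of_nonneg_right h2 h5
    _ = L := h3

private theorem SieveR2_half (L : ℝ) (hL : 0 ≤ L) :
    Real.exp (L / 2) * L ^ 2 ≤ 8 * Real.exp L := by
  have h1 : (L / 2) ^ 2 / 2 ≤ Real.exp (L / 2) := by
    have := Real.pow_div_factorial_le_exp (L / 2) (by positivity) 2
    simpa using this
  have h2 : Real.exp L = Real.exp (L / 2) * Real.exp (L / 2) := by
    rw [← Real.exp_add]; congr 1; ring
  rw [h2]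
  have h3 : L ^ 2 ≤ 8 * Real.exp (L / 2) := by linarith
  calc Real.exp (L / 2) * L ^ 2 ≤ Real.exp (L / 2) * (8 * Real.exp (L / 2)) :=
        mul_le_mul_of_nonneg_left h3 (Real.exp_pos _).le
    _ = _ := by ring

/-- Proof. If `Z` is bounded by a constant the bound is trivial. Otherwise let
`z = exp(log Z/(C' (1 + log log Z))) ≥ 2`; the `r ≤ z` are at most `z`; for `r > z` and every prime `q ≤ z`, `r` avoids
the class `0` and, if `q ∤ A`, also the (different) class of `-1/A` modulo `q`. `brun` with `N = ⌊Z⌋ + 1` gives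
`C Z exp(-2 ∑_{q ≤ z} 1/q + ∑_{q ∣ A} 1/q) ≤ C Z (log z)^(-2) · C U` by `sum_inv_dvd`, and
`(log z)^(-2) ≤ C (1 + log log Z)^2/(log Z)^2 ≤ C U^2/(log Z)^2` as `log log Z ≤ U`. -/
theorem sieve_two : ∃ C : ℝ, 1 ≤ C ∧ ∀ (Z U : ℝ) (A : ℕ), 1 ≤ U → 2 ≤ Z →
    Z ≤ Real.exp (Real.exp U) → 1 ≤ A → (A : ℝ) ≤ Real.exp (Real.exp U) →
    (((Finset.range (⌊Z⌋₊ + 1)).filter (fun r => r.Prime ∧ (A * r + 1).Prime)).card : ℝ) ≤
      C * Z * U ^ 6 / (Real.log Z) ^ 2 := by
  classical
  obtain ⟨CB, hCB, hbrun⟩ := brun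
  obtain ⟨Cm, hCm, hmert⟩ := mert_lo
  obtain ⟨CI, hCI, hinv⟩ := sum_inv_dvd
  have hEpos : 0 < Real.exp (2 * Cm) := Real.exp_pos _
  refine ⟨2 * (4 * CB ^ 2) ^ 2 + 16 + 18 * CB ^ 3 * CI * Real.exp (2 * Cm), ?_, ?_⟩
  · have : 0 ≤ 18 * CB ^ 3 * CI * Real.exp (2 * Cm) := by positivity
    linarith only [sq_nonneg (4 * CB ^ 2), this]
  intro Z U A hU hZ hZU hA hAU
  set K1 : ℝ := 18 * CB ^ 3 * CI * Real.exp (2 * Cm) with hK1
  have hK1nn : 0 ≤ K1 := by rw [hK1]; positivity
  set L : ℝ := Real.log Z with hL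
  have hZpos : 0 < Z := by linarith
  have hL0 : 0 < L := Real.log_pos (by linarith)
  have hexpL : Real.exp L = Z := Real.exp_log hZpos
  have hU6 : 1 ≤ U ^ 6 := one_le_pow₀ hU
  have hfl : ((⌊Z⌋₊ : ℕ) : ℝ) ≤ Z := Nat.floor_le hZpos.le
  rw [le_div_iff₀ (by positivity)]
  rcases le_or_gt L (4 * CB ^ 2) with hs | hl
  · -- trivial bound
    have h1 : (((Finset.range (⌊Z⌋₊ + 1)).filter (fun r => r.Prime ∧ (A * r + 1).Prime)).card : ℝ)
        ≤ 2 * Z := by
      have h2 : ((Finset.range (⌊Z⌋₊ + 1)).filter (fun r => r.Prime ∧ (A * r + 1).Prime)).card ≤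
          ⌊Z⌋₊ + 1 := (card_filter_le _ _).trans (by rw [card_range])
      have h3 : (((Finset.range (⌊Z⌋₊ + 1)).filter
          (fun r => r.Prime ∧ (A * r + 1).Prime)).card : ℝ) ≤ (⌊Z⌋₊ : ℝ) + 1 := by exact_mod_cast h2
      linarith
    have h4 : L ^ 2 ≤ (4 * CB ^ 2) ^ 2 := pow_le_pow_left₀ hL0.le hs 2
    calc _ ≤ (2 * Z) * (4 * CB ^ 2) ^ 2 := by
          exact mul_le_mul h1 h4 (by positivity) (by positivity)
      _ = (2 * (4 * CB ^ 2) ^ 2) * Z * 1 := by ring
      _ ≤ (2 * (4 * CB ^ 2) ^ 2 + 16 + K1) * Z * U ^ 6 := by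
          apply mul_le_mul _ hU6 (by norm_num) (by positivity)
          apply mul_le_mul_of_nonneg_right _ hZpos.le
          linarith
  · -- the sieve
    have hL4 : 4 < L := by nlinarith only [hCB, hl]
    have hLW := SieveR2_log CB L hCB hl
    set W : ℝ := Real.log L with hW
    have hWpos : 0 < W := Real.log_pos (by linarith)
    have hWU : W ≤ U := by
      rw [hW, Real.log_le_iff_le_exp hL0, hL, Real.log_le_iff_le_exp hZpos]
      exact hZU
    set T : ℝ := L / (CB * (2 + W)) with hT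
    have hden : 0 < CB * (2 + W) := by positivity
    have hT1 : 1 ≤ T := by rw [hT, le_div_iff₀ hden, one_mul]; exact hLW
    have hT2 : T ≤ L / 2 := by
      rw [hT, div_le_div_iff₀ hden (by norm_num)]
      have h2 : 2 ≤ CB * (2 + W) := by nlinarith only [hCB, hWpos]
      exact mul_le_mul_of_nonneg_left h2 hL0.le
    set z : ℝ := Real.exp T with hz
    have hz2 : 2 ≤ z := by
      have := Real.add_one_le_exp T
      rw [hz]; linarith
    have hlogz : Real.log z = T := Real.log_exp T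
    set N : ℕ := ⌊Z⌋₊ + 1 with hN
    have hNlo : Z ≤ N := by rw [hN]; push_cast; exact (Nat.lt_floor_add_one Z).le
    have hNhi : (N : ℝ) ≤ 2 * Z := by rw [hN]; push_cast; linarith
    have hNpos : (0 : ℝ) < N := by linarith
    have hZ5 : 5 < Z := by
      have := Real.add_one_le_exp L
      rw [hexpL] at this
      linarith
    have hN3 : 3 ≤ N := by
      have : (3 : ℝ) ≤ N := by linarith
      exact_mod_cast this
    have hlogN : L ≤ Real.log N := Real.log_le_log hZpos hNlo
    have hlogN2 : Real.log N ≤ 2 * L := by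
      calc Real.log N ≤ Real.log (Z * Z) := Real.log_le_log hNpos (by nlinarith only [hNhi, hZ5])
        _ = 2 * L := by rw [Real.log_mul hZpos.ne' hZpos.ne', hL]; ring
    have hllN : Real.log (Real.log N) ≤ 1 + W := by
      calc Real.log (Real.log N) ≤ Real.log (2 * L) := Real.log_le_log (by linarith) hlogN2
        _ = Real.log 2 + W := Real.log_mul (by norm_num) hL0.ne'
        _ ≤ 1 + W := by
          have := Real.log_two_lt_d9
          linarith
    set β : ℝ := Real.log T with hβ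
    have hβ0 : 0 ≤ β := Real.log_nonneg hT1
    have hTpos : 0 < T := by linarith
    obtain ⟨R, hR⟩ := SieveR2_res A
    set Q : Finset ℕ := PI 0 β with hQ
    have hQmem : ∀ q ∈ Q, q.Prime ∧ (q : ℝ) < z := by
      intro q hq
      rw [hQ, PI, mem_filter] at hq
      obtain ⟨_, hp, _, h3⟩ := hq
      refine ⟨hp, ?_⟩
      have hq1 : (1 : ℝ) < q := by exact_mod_cast hp.one_lt
      have hlq : 0 < Real.log q := Real.log_pos hq1
      rw [ll, hβ] at h3
      have h4 : Real.log q < T := (Real.log_lt_log_iff hlq hTpos).mp h3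
      rw [hz]
      exact (Real.log_lt_iff_lt_exp (by linarith)).mp h4
    have hb := hbrun N z Q R hN3 hz2 (fun q hq => ⟨(hQmem q hq).1, (hQmem q hq).2.le⟩)
      (fun q hq => ⟨(hR q (hQmem q hq).1).1, (hR q (hQmem q hq).1).2.1⟩) (by
        rw [hlogz]
        calc CB * T * (1 + Real.log (Real.log N)) ≤ CB * T * (2 + W) := by
              apply mul_le_mul_of_nonneg_left _ (by positivity)
              linarith
          _ = L := by rw [hT]; field_simp
          _ ≤ Real.log N := hlogN)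
    -- the exponential sum
    have hS : 2 * (β - Cm) - ∑ q ∈ A.primeFactors, 1 / (q : ℝ) ≤
        ∑ q ∈ Q, ((R q).card : ℝ) / (q : ℝ) := by
      have h1 : ∑ q ∈ Q, (2 * (1 / (q : ℝ)) - (if q ∣ A then 1 / (q : ℝ) else 0)) ≤
          ∑ q ∈ Q, ((R q).card : ℝ) / (q : ℝ) := by
        refine Finset.sum_le_sum fun q hq => ?_
        have hq0 : (0 : ℝ) < q := by exact_mod_cast (hQmem q hq).1.pos
        have h2 := (hR q (hQmem q hq).1).2.2.1
        rw [div_eq_mul_one_div ((R q).card : ℝ) (q : ℝ)]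
        have h3 : 0 < 1 / (q : ℝ) := by positivity
        have h4 := mul_le_mul_of_nonneg_right h2 h3.le
        refine le_trans (le_of_eq ?_) h4
        split_ifs <;> ring
      have h2 := hmert 0 β le_rfl hβ0
      rw [sub_zero] at h2
      rw [Finset.sum_sub_distrib, ← Finset.mul_sum, ← Finset.sum_filter] at h1
      have h3 : ∑ q ∈ Q.filter (fun q => q ∣ A), 1 / (q : ℝ) ≤
          ∑ q ∈ A.primeFactors, 1 / (q : ℝ) := by
        refine Finset.sum_le_sum_of_subset_of_nonneg ?_ (fun q _ _ => by positivity)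
        intro q hq
        rw [mem_filter] at hq
        rw [Nat.mem_primeFactors]
        exact ⟨(hQmem q hq.1).1, hq.2, by omega⟩
      linarith
    have hexp : Real.exp (- ∑ q ∈ Q, ((R q).card : ℝ) / (q : ℝ)) ≤
        (Real.exp (2 * Cm) / T ^ 2) * (CI * U) := by
      calc Real.exp (- ∑ q ∈ Q, ((R q).card : ℝ) / (q : ℝ)) ≤
          Real.exp ((2 * Cm - 2 * β) + ∑ q ∈ A.primeFactors, 1 / (q : ℝ)) := by
            apply Real.exp_le_exp.mpr
            linarith
        _ = (Real.exp (2 * Cm) / T ^ 2) * Real.exp (∑ q ∈ A.primeFactors, 1 / (q : ℝ)) := by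
            rw [Real.exp_add, Real.exp_sub]
            congr 2
            rw [two_mul, Real.exp_add, hβ, Real.exp_log hTpos]
            ring
        _ ≤ _ := by
            apply mul_le_mul_of_nonneg_left (hinv A U hU hA hAU) (by positivity)
    -- the covering
    have hcov : (Finset.range N).filter (fun r => r.Prime ∧ (A * r + 1).Prime) ⊆
        Finset.range (⌊z⌋₊ + 1) ∪
          (Finset.range N).filter (fun n => ∀ q ∈ Q, n % q ∉ R q) := by
      intro r hr
      rw [mem_filter] at hr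
      rw [mem_union, mem_filter, mem_range]
      rcases lt_or_ge r (⌊z⌋₊ + 1) with hrz | hrz
      · exact Or.inl hrz
      · refine Or.inr ⟨hr.1, fun q hq => ?_⟩
        have hq' := hQmem q hq
        have h1 : z < r := by
          have := Nat.lt_floor_add_one z
          have h2 : ((⌊z⌋₊ + 1 : ℕ) : ℝ) ≤ r := by exact_mod_cast hrz
          push_cast at h2
          linarith
        have h2 : q < r := by
          have : (q : ℝ) < r := by linarith [hq'.2]
          exact_mod_cast this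
        exact (hR q hq'.1).2.2.2 r hr.2.1 h2 hr.2.2 hA
    have hcard : (((Finset.range N).filter (fun r => r.Prime ∧ (A * r + 1).Prime)).card : ℝ) ≤
        2 * Real.exp (L / 2) + CB * N * ((Real.exp (2 * Cm) / T ^ 2) * (CI * U)) := by
      have h1 := (card_le_card hcov).trans (card_union_le _ _)
      rw [card_range] at h1
      have h2 : (((Finset.range N).filter (fun r => r.Prime ∧ (A * r + 1).Prime)).card : ℝ) ≤
          ((⌊z⌋₊ + 1 : ℕ) : ℝ) +
          (((Finset.range N).filter (fun n => ∀ q ∈ Q, n % q ∉ R q)).card : ℝ) := by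
        exact_mod_cast h1
      have h3 : ((⌊z⌋₊ + 1 : ℕ) : ℝ) ≤ 2 * Real.exp (L / 2) := by
        push_cast
        have h4 : (⌊z⌋₊ : ℝ) ≤ z := Nat.floor_le (by linarith)
        have h5 : z ≤ Real.exp (L / 2) := Real.exp_le_exp.mpr hT2
        linarith
      have h4 : (((Finset.range N).filter (fun n => ∀ q ∈ Q, n % q ∉ R q)).card : ℝ) ≤
          CB * N * ((Real.exp (2 * Cm) / T ^ 2) * (CI * U)) :=
        hb.trans (mul_le_mul_of_nonneg_left hexp (by positivity))
      linarith
    have hhalf := SieveR2_half L hL0.le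
    rw [hexpL] at hhalf
    have hmain : CB * N * ((Real.exp (2 * Cm) / T ^ 2) * (CI * U)) * L ^ 2 ≤ K1 * Z * U ^ 3 := by
      have h1 : L ^ 2 / T ^ 2 = (CB * (2 + W)) ^ 2 := by
        rw [hT]; field_simp
      have h2 : (CB * (2 + W)) ^ 2 ≤ (CB * (3 * U)) ^ 2 := by
        apply pow_le_pow_left₀ hden.le
        apply mul_le_mul_of_nonneg_left _ (by linarith)
        linarith
      calc CB * N * ((Real.exp (2 * Cm) / T ^ 2) * (CI * U)) * L ^ 2
          = (CB * Real.exp (2 * Cm) * CI * U) * N * (L ^ 2 / T ^ 2) := by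
            field_simp
        _ ≤ (CB * Real.exp (2 * Cm) * CI * U) * (2 * Z) * (CB * (3 * U)) ^ 2 := by
            rw [h1]
            apply mul_le_mul _ h2 (by positivity) (by positivity)
            apply mul_le_mul_of_nonneg_left hNhi (by positivity)
        _ = K1 * Z * U ^ 3 := by rw [hK1]; ring
    have hU3 : U ^ 3 ≤ U ^ 6 := pow_le_pow_right₀ hU (by norm_num)
    calc (((Finset.range N).filter (fun r => r.Prime ∧ (A * r + 1).Prime)).card : ℝ) * L ^ 2
        ≤ (2 * Real.exp (L / 2) + CB * N * ((Real.exp (2 * Cm) / T ^ 2) * (CI * U))) * L ^ 2 :=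
          mul_le_mul_of_nonneg_right hcard (by positivity)
      _ = 2 * (Real.exp (L / 2) * L ^ 2) +
          CB * N * ((Real.exp (2 * Cm) / T ^ 2) * (CI * U)) * L ^ 2 := by ring
      _ ≤ 2 * (8 * Z) + K1 * Z * U ^ 3 := by linarith
      _ ≤ 16 * Z * U ^ 6 + K1 * Z * U ^ 6 := by
          have h1 : 16 * Z * 1 ≤ 16 * Z * U ^ 6 := mul_le_mul_of_nonneg_left hU6 (by positivity)
          have h2 : K1 * Z * U ^ 3 ≤ K1 * Z * U ^ 6 :=
            mul_le_mul_of_nonneg_left hU3 (by positivity)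
          linarith
      _ ≤ (2 * (4 * CB ^ 2) ^ 2 + 16 + K1) * Z * U ^ 6 := by
          have h1 : 0 ≤ (2 * (4 * CB ^ 2) ^ 2) * Z * U ^ 6 := by positivity
          linarith

end P031
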