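import Vale.Agent.Lib.P031.Brun
import Vale.Agent.Lib.P031.InvDvd

/-!
# P031 SieveR3: upper bound sieve for `r, Ar+1` (and `Br+1`) prime.
-/

namespace P031

open Finset Real

/-- the residue class of `-1/A` modulo `q` -/
private def sieveR3_cl (A q : ℕ) : ℕ := (-(A : ZMod q)⁻¹).val

private theorem sieveR3_cl_dvd {A q r : ℕ} (hq : q.Prime) (hA : ¬ q ∣ A)
    (h : r % q = sieveR3_cl A q) : q ∣ A * r + 1 := by
  have hfact : Fact q.Prime := ⟨hq⟩
  have h1 : (r : ZMod q) = -(A : ZMod q)⁻¹ := by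
    rw [← ZMod.natCast_mod r q, h, sieveR3_cl, ZMod.natCast_zmod_val]
  have hA0 : (A : ZMod q) ≠ 0 := fun h0 => hA ((ZMod.natCast_eq_zero_iff A q).1 h0)
  rw [← ZMod.natCast_eq_zero_iff]
  push_cast
  rw [h1]
  field_simp
  ring

private theorem sieveR3_cl_ne_zero {A q : ℕ} (hq : q.Prime) (hA : ¬ q ∣ A) :
    0 ≠ sieveR3_cl A q := by
  intro h
  have h1 := sieveR3_cl_dvd (r := 0) hq hA (by rw [Nat.zero_mod]; exact h)
  rw [mul_zero, zero_add] at h1
  exact hq.one_lt.ne' (Nat.dvd_one.1 h1)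

private theorem sieveR3_cl_lt {A q : ℕ} (hq : q.Prime) : sieveR3_cl A q < q := by
  have hfact : Fact q.Prime := ⟨hq⟩
  exact ZMod.val_lt _

private theorem sieveR3_cl_ne {A B q : ℕ} (hq : q.Prime) (hA : ¬ q ∣ A) (hB : ¬ q ∣ B)
    (hAB : ¬ q ∣ (A - B) + (B - A)) : sieveR3_cl A q ≠ sieveR3_cl B q := by
  intro h
  have hlt := sieveR3_cl_lt (A := A) hq
  have h1 := sieveR3_cl_dvd (r := sieveR3_cl A q) hq hA (Nat.mod_eq_of_lt hlt)
  have h2 := sieveR3_cl_dvd (r := sieveR3_cl A q) hq hB (by rw [Nat.mod_eq_of_lt hlt]; exact h)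
  obtain ⟨c, hc⟩ : ∃ c, c = sieveR3_cl A q := ⟨_, rfl⟩
  rw [← hc] at h1 h2
  have h3 : (q : ℤ) ∣ ((A : ℤ) - B) * c := by
    have e1 : (q : ℤ) ∣ (A : ℤ) * c + 1 := by exact_mod_cast h1
    have e2 : (q : ℤ) ∣ (B : ℤ) * c + 1 := by exact_mod_cast h2
    have e3 := dvd_sub e1 e2
    have e4 : ((A : ℤ) * c + 1) - ((B : ℤ) * c + 1) = ((A : ℤ) - B) * c := by ring
    rwa [e4] at e3
  have hqi : Prime (q : ℤ) := Nat.prime_iff_prime_int.1 hq
  rcases hqi.dvd_or_dvd h3 with h4 | h4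
  · apply hAB
    rcases le_total A B with h5 | h5
    · have h6 : ((A - B) + (B - A) : ℕ) = B - A := by omega
      rw [h6]
      have h7 : (q : ℤ) ∣ ((B - A : ℕ) : ℤ) := by
        rw [Nat.cast_sub h5]
        have := (dvd_neg.2 h4)
        rwa [neg_sub] at this
      exact_mod_cast h7
    · have h6 : ((A - B) + (B - A) : ℕ) = A - B := by omega
      rw [h6]
      have h7 : (q : ℤ) ∣ ((A - B : ℕ) : ℤ) := by
        rw [Nat.cast_sub h5]
        exact h4
      exact_mod_cast h7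
  · have h5 : q ∣ c := by exact_mod_cast h4
    have h6 : c = 0 := Nat.eq_zero_of_dvd_of_lt h5 (by rw [hc]; exact hlt)
    exact sieveR3_cl_ne_zero hq hA (by rw [← hc, h6])

/-- the discriminant -/
private def sieveR3_D (A B : ℕ) : ℕ := A * B * ((A - B) + (B - A))

open Classical in
/-- the forbidden classes -/
private noncomputable def sieveR3_R (A B q : ℕ) : Finset ℕ :=
  if q ∣ sieveR3_D A B then ∅ else {0, sieveR3_cl A q, sieveR3_cl B q}

private theorem sieveR3_R_card {A B q : ℕ} (hq : q.Prime) (h : ¬ q ∣ sieveR3_D A B) :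
    (sieveR3_R A B q).card = 3 := by
  rw [sieveR3_R, if_neg h]
  unfold sieveR3_D at h
  have hA : ¬ q ∣ A := fun h1 => h (Dvd.dvd.mul_right (Dvd.dvd.mul_right h1 B) _)
  have hB : ¬ q ∣ B := fun h1 => h (Dvd.dvd.mul_right (Dvd.dvd.mul_left h1 A) _)
  have hAB : ¬ q ∣ (A - B) + (B - A) := fun h1 => h (Dvd.dvd.mul_left h1 _)
  exact Finset.card_eq_three.2 ⟨_, _, _, sieveR3_cl_ne_zero hq hA, sieveR3_cl_ne_zero hq hB,
    sieveR3_cl_ne hq hA hB hAB, rfl⟩

private theorem sieveR3_R_prop {A B q : ℕ} (hq : q.Prime) :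
    sieveR3_R A B q ⊆ Finset.range q ∧ (sieveR3_R A B q).card ≤ 3 := by
  by_cases h : q ∣ sieveR3_D A B
  · rw [sieveR3_R, if_pos h]
    simp
  · refine ⟨?_, (sieveR3_R_card hq h).le⟩
    rw [sieveR3_R, if_neg h]
    intro x hx
    simp only [Finset.mem_insert, Finset.mem_singleton] at hx
    rw [Finset.mem_range]
    rcases hx with h1 | h1 | h1
    · rw [h1]; exact hq.pos
    · rw [h1]; exact sieveR3_cl_lt hq
    · rw [h1]; exact sieveR3_cl_lt hq

private theorem sieveR3_avoid {A B q r : ℕ} (hq : q.Prime) (hr : r.Prime)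
    (hA0 : 1 ≤ A) (hB0 : 1 ≤ B)
    (hA : (A * r + 1).Prime) (hB : (B * r + 1).Prime) (hqr : q < r) :
    r % q ∉ sieveR3_R A B q := by
  by_cases h : q ∣ sieveR3_D A B
  · rw [sieveR3_R, if_pos h]
    simp
  · rw [sieveR3_R, if_neg h]
    unfold sieveR3_D at h
    have hqA : ¬ q ∣ A := fun h1 => h (Dvd.dvd.mul_right (Dvd.dvd.mul_right h1 B) _)
    have hqB : ¬ q ∣ B := fun h1 => h (Dvd.dvd.mul_right (Dvd.dvd.mul_left h1 A) _)
    intro hx
    simp only [Finset.mem_insert, Finset.mem_singleton] at hx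
    rcases hx with h1 | h1 | h1
    · have h2 : q ∣ r := Nat.dvd_of_mod_eq_zero h1
      rcases (Nat.dvd_prime hr).1 h2 with h3 | h3
      · exact hq.one_lt.ne' h3
      · omega
    · have h2 := sieveR3_cl_dvd hq hqA h1
      rcases (Nat.dvd_prime hA).1 h2 with h3 | h3
      · exact hq.one_lt.ne' h3
      · have : r ≤ A * r := Nat.le_mul_of_pos_left r hA0
        omega
    · have h2 := sieveR3_cl_dvd hq hqB h1
      rcases (Nat.dvd_prime hB).1 h2 with h3 | h3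
      · exact hq.one_lt.ne' h3
      · have : r ≤ B * r := Nat.le_mul_of_pos_left r hB0
        omega

private theorem sieveR3_D_pos {A B : ℕ} (hA : 1 ≤ A) (hB : 1 ≤ B) (hAB : A ≠ B) :
    1 ≤ sieveR3_D A B := by
  unfold sieveR3_D
  have h1 : 0 < (A - B) + (B - A) := by omega
  have h2 : 0 < A * B := Nat.mul_pos hA hB
  exact Nat.mul_pos h2 h1

private theorem sieveR3_D_le {A B : ℕ} {U : ℝ}
    (hA : (A : ℝ) ≤ Real.exp (Real.exp U)) (hB : (B : ℝ) ≤ Real.exp (Real.exp U)) :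
    (sieveR3_D A B : ℝ) ≤ Real.exp (Real.exp (U + 2)) := by
  have h1 : (((A - B) + (B - A) : ℕ) : ℝ) ≤ Real.exp (Real.exp U) := by
    rcases le_total A B with h | h
    · have h2 : (A - B) + (B - A) ≤ B := by omega
      exact le_trans (by exact_mod_cast h2) hB
    · have h2 : (A - B) + (B - A) ≤ A := by omega
      exact le_trans (by exact_mod_cast h2) hA
  have h2 : (sieveR3_D A B : ℝ) ≤
      Real.exp (Real.exp U) * Real.exp (Real.exp U) * Real.exp (Real.exp U) := by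
    unfold sieveR3_D
    rw [Nat.cast_mul, Nat.cast_mul]
    exact mul_le_mul (mul_le_mul hA hB (Nat.cast_nonneg _) (Real.exp_pos _).le) h1
      (Nat.cast_nonneg _) (by positivity)
  refine h2.trans ?_
  rw [← Real.exp_add, ← Real.exp_add]
  refine Real.exp_le_exp.2 ?_
  rw [Real.exp_add U 2]
  have h3 : (3 : ℝ) ≤ Real.exp 2 := by
    have := Real.add_one_le_exp (2 : ℝ)
    linarith
  have h4 := Real.exp_pos U
  nlinarith only [h3, h4]

/-- the trivial range -/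
private theorem sieveR3_trivial {C Z U : ℝ} (hC : 1 ≤ C) (hU : 1 ≤ U) (hZ : 2 ≤ Z)
    (h : Real.log Z < C * (2 + U)) :
    2 * Z ≤ 54 * C ^ 3 * Z * U ^ 9 / (Real.log Z) ^ 3 := by
  have hl : 0 < Real.log Z := Real.log_pos (by linarith)
  rw [le_div_iff₀ (by positivity)]
  have h1 : Real.log Z ≤ 3 * C * U := by nlinarith only [hC, hU, h]
  have h2 : (Real.log Z) ^ 3 ≤ (3 * C * U) ^ 3 := pow_le_pow_left₀ hl.le h1 3
  have h3 : U ^ 3 ≤ U ^ 9 := pow_le_pow_right₀ hU (by norm_num)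
  have hZ0 : 0 ≤ Z := by linarith
  calc 2 * Z * (Real.log Z) ^ 3 ≤ 2 * Z * (3 * C * U) ^ 3 := by gcongr
    _ = 54 * C ^ 3 * Z * U ^ 3 := by ring
    _ ≤ 54 * C ^ 3 * Z * U ^ 9 := by gcongr

/-- the small `r` -/
private theorem sieveR3_small {C Z U : ℝ} (hC : 1 ≤ C) (hU : 1 ≤ U) (hZ : 2 ≤ Z) :
    2 * Real.exp (Real.log Z / (C * (2 + U))) ≤ 42 * Z * U ^ 9 / (Real.log Z) ^ 3 := by
  have hl : 0 < Real.log Z := Real.log_pos (by linarith)
  obtain ⟨l, hl'⟩ : ∃ l, l = Real.log Z := ⟨_, rfl⟩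
  have hZe : Z = Real.exp l := by rw [hl', Real.exp_log (by linarith)]
  rw [← hl'] at hl ⊢
  rw [le_div_iff₀ (by positivity)]
  have h1 : l / (C * (2 + U)) ≤ l / 3 := by
    apply div_le_div_of_nonneg_left hl.le (by norm_num)
    nlinarith only [hC, hU]
  have h2 : l ^ 3 ≤ 21 * Real.exp (2 * l / 3) := by
    have h3 := Real.pow_div_factorial_le_exp (2 * l / 3) (by positivity) 3
    have h4 : (2 * l / 3) ^ 3 / ((3 : ℕ).factorial : ℝ) = 4 / 81 * l ^ 3 := by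
      simp [Nat.factorial]
      ring
    rw [h4] at h3
    have := Real.exp_pos (2 * l / 3)
    linarith
  have h5 : Real.exp (l / 3) * Real.exp (2 * l / 3) = Z := by
    rw [hZe, ← Real.exp_add]
    congr 1
    ring
  have h6 : 1 ≤ U ^ 9 := one_le_pow₀ hU
  have hZ0 : 0 ≤ Z := by linarith
  calc 2 * Real.exp (l / (C * (2 + U))) * l ^ 3
      ≤ 2 * Real.exp (l / 3) * (21 * Real.exp (2 * l / 3)) := by
        gcongr
    _ = 42 * (Real.exp (l / 3) * Real.exp (2 * l / 3)) := by ring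
    _ = 42 * Z := by rw [h5]
    _ ≤ 42 * Z * U ^ 9 := le_mul_of_one_le_right (by positivity) h6

private theorem sieveR3_sum {CM : ℝ} {A B : ℕ} {β : ℝ} (hD : 1 ≤ sieveR3_D A B)
    (hM : β - CM ≤ ∑ q ∈ PI 0 β, 1 / (q : ℝ)) :
    -∑ q ∈ PI 0 β, ((sieveR3_R A B q).card : ℝ) / (q : ℝ) ≤
      3 * CM - 3 * β + 3 * ∑ q ∈ (sieveR3_D A B).primeFactors, 1 / (q : ℝ) := by
  classical
  have hprime : ∀ q ∈ PI 0 β, q.Prime := fun q hq => (Finset.mem_filter.1 hq).2.1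
  have h1 : ∀ q ∈ PI 0 β, 3 * (1 / (q : ℝ)) - 3 * (if q ∣ sieveR3_D A B then 1 / (q : ℝ) else 0) ≤
      ((sieveR3_R A B q).card : ℝ) / (q : ℝ) := by
    intro q hq
    by_cases h : q ∣ sieveR3_D A B
    · rw [if_pos h, sub_self]
      positivity
    · rw [if_neg h, sieveR3_R_card (hprime q hq) h]
      push_cast
      have : (3 : ℝ) / q = 3 * (1 / q) := by ring
      rw [this]
      linarith
  have h2 := Finset.sum_le_sum h1
  rw [Finset.sum_sub_distrib, ← Finset.mul_sum, ← Finset.mul_sum, ← Finset.sum_filter] at h2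
  have h3 : ∑ q ∈ (PI 0 β).filter (fun q => q ∣ sieveR3_D A B), 1 / (q : ℝ) ≤
      ∑ q ∈ (sieveR3_D A B).primeFactors, 1 / (q : ℝ) := by
    refine Finset.sum_le_sum_of_subset_of_nonneg ?_ fun q _ _ => by positivity
    intro q hq
    rw [Finset.mem_filter] at hq
    exact Nat.mem_primeFactors.2 ⟨hprime q hq.1, hq.2, by omega⟩
  linarith

private theorem sieveR3_cover {A B : ℕ} {Z z : ℝ} (Q : Finset ℕ) (hA0 : 1 ≤ A) (hB0 : 1 ≤ B)
    (hz : 1 ≤ z)
    (hQ : ∀ q ∈ Q, q.Prime ∧ (q : ℝ) ≤ z) :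
    (((Finset.range (⌊Z⌋₊ + 1)).filter
      (fun r => r.Prime ∧ (A * r + 1).Prime ∧ (B * r + 1).Prime)).card : ℝ) ≤
      2 * z + (((Finset.range (⌊Z⌋₊ + 1)).filter
        (fun n => ∀ q ∈ Q, n % q ∉ sieveR3_R A B q)).card : ℝ) := by
  classical
  have hsub : (Finset.range (⌊Z⌋₊ + 1)).filter
      (fun r => r.Prime ∧ (A * r + 1).Prime ∧ (B * r + 1).Prime) ⊆
      Finset.range (⌊z⌋₊ + 1) ∪ (Finset.range (⌊Z⌋₊ + 1)).filter
        (fun n => ∀ q ∈ Q, n % q ∉ sieveR3_R A B q) := by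
    intro r hr
    obtain ⟨hrZ, hr1, hr2, hr3⟩ := Finset.mem_filter.1 hr
    rw [Finset.mem_union]
    rcases Nat.lt_or_ge r (⌊z⌋₊ + 1) with h | h
    · exact Or.inl (Finset.mem_range.2 h)
    · right
      rw [Finset.mem_filter]
      refine ⟨hrZ, fun q hq => ?_⟩
      have h1 : z < r := (Nat.floor_lt (by linarith)).1 (by omega)
      have h2 : (q : ℝ) < r := (hQ q hq).2.trans_lt h1
      exact sieveR3_avoid (hQ q hq).1 hr1 hA0 hB0 hr2 hr3 (by exact_mod_cast h2)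
  have h1 := (Finset.card_le_card hsub).trans (Finset.card_union_le _ _)
  rw [Finset.card_range] at h1
  have h2 : ((⌊z⌋₊ + 1 : ℕ) : ℝ) ≤ 2 * z := by
    push_cast
    have := Nat.floor_le (by linarith : 0 ≤ z)
    linarith
  have h3 := (Nat.cast_le (α := ℝ)).2 h1
  rw [Nat.cast_add] at h3
  linarith

/-- Proof. If `Z` is bounded by a constant the bound is trivial. Otherwise let
`z = exp(log Z/(C' (1 + log log Z))) ≥ 2`; the `r ≤ z` are at most `z`; for `r > z` and every prime `q ≤ z`, `r` avoids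
the class `0` and, for `q ∤ A B |A - B|`, also the classes of `-1/A`, `-1/B` modulo `q` (three different classes).
`A B |A - B| ≤ exp(3 exp U) ≤ exp exp (U + 2)`. `brun` with `N = ⌊Z⌋ + 1` gives
`C Z exp(-3 ∑_{q ≤ z} 1/q + 3 ∑_{q ∣ A B |A-B|} 1/q) ≤ C Z (log z)^(-3) (C (U + 2))^3`, and
`(log z)^(-3) ≤ C (1 + log log Z)^3/(log Z)^3 ≤ C U^3/(log Z)^3` as `log log Z ≤ U`. -/
theorem sieve_three : ∃ C : ℝ, 1 ≤ C ∧ ∀ (Z U : ℝ) (A B : ℕ), 1 ≤ U → 2 ≤ Z →
    Z ≤ Real.exp (Real.exp U) → 1 ≤ A → (A : ℝ) ≤ Real.exp (Real.exp U) →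
    1 ≤ B → (B : ℝ) ≤ Real.exp (Real.exp U) → A ≠ B →
    (((Finset.range (⌊Z⌋₊ + 1)).filter
      (fun r => r.Prime ∧ (A * r + 1).Prime ∧ (B * r + 1).Prime)).card : ℝ) ≤
      C * Z * U ^ 9 / (Real.log Z) ^ 3 := by
  obtain ⟨CB, hCB, hbrun⟩ := brun
  obtain ⟨CM, hCM, hmert⟩ := mert_lo
  obtain ⟨CI, hCI, hinv⟩ := sum_inv_dvd
  refine ⟨54 * CB ^ 3 + 42 + 1458 * CB ^ 4 * Real.exp (3 * CM) * CI ^ 3, ?_, ?_⟩
  · have h1 : (0 : ℝ) ≤ 54 * CB ^ 3 := by positivity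
    have h2 : (0 : ℝ) ≤ 1458 * CB ^ 4 * Real.exp (3 * CM) * CI ^ 3 := by positivity
    linarith
  intro Z U A B hU hZ hZU hA0 hA hB0 hB hAB
  obtain ⟨l, hl'⟩ : ∃ l, l = Real.log Z := ⟨_, rfl⟩
  have hZ0 : 0 < Z := by linarith
  have hl : 0 < l := by rw [hl']; exact Real.log_pos (by linarith)
  have hN2 : ((⌊Z⌋₊ + 1 : ℕ) : ℝ) ≤ 2 * Z := by
    push_cast
    have := Nat.floor_le hZ0.le
    linarith
  have hCB0 : 0 < CB := by linarith
  have hCI0 : 0 < CI := by linarith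
  -- the three parts of the constant
  have hpart : ∀ {x y w : ℝ}, x ≤ 54 * CB ^ 3 * Z * U ^ 9 / l ^ 3 → y ≤ 42 * Z * U ^ 9 / l ^ 3 →
      w ≤ 1458 * CB ^ 4 * Real.exp (3 * CM) * CI ^ 3 * Z * U ^ 9 / l ^ 3 →
      x + y + w ≤ (54 * CB ^ 3 + 42 + 1458 * CB ^ 4 * Real.exp (3 * CM) * CI ^ 3) *
        Z * U ^ 9 / l ^ 3 := by
    intro x y w hx hy hw
    have : (54 * CB ^ 3 + 42 + 1458 * CB ^ 4 * Real.exp (3 * CM) * CI ^ 3) *
        Z * U ^ 9 / l ^ 3 = 54 * CB ^ 3 * Z * U ^ 9 / l ^ 3 + 42 * Z * U ^ 9 / l ^ 3 +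
        1458 * CB ^ 4 * Real.exp (3 * CM) * CI ^ 3 * Z * U ^ 9 / l ^ 3 := by ring
    rw [this]
    linarith
  have hz1 : (0 : ℝ) ≤ 54 * CB ^ 3 * Z * U ^ 9 / l ^ 3 := by positivity
  have hz2 : (0 : ℝ) ≤ 42 * Z * U ^ 9 / l ^ 3 := by positivity
  have hz3 : (0 : ℝ) ≤ 1458 * CB ^ 4 * Real.exp (3 * CM) * CI ^ 3 * Z * U ^ 9 / l ^ 3 := by
    positivity
  rcases lt_or_ge l (CB * (2 + U)) with hcase | hcase
  · -- trivial range
    have h1 : 2 * Z ≤ 54 * CB ^ 3 * Z * U ^ 9 / l ^ 3 := by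
      rw [hl'] at hcase ⊢
      exact sieveR3_trivial hCB hU hZ hcase
    have h2 : (((Finset.range (⌊Z⌋₊ + 1)).filter
        (fun r => r.Prime ∧ (A * r + 1).Prime ∧ (B * r + 1).Prime)).card : ℝ) ≤ 2 * Z := by
      refine le_trans ?_ hN2
      have := Finset.card_filter_le (Finset.range (⌊Z⌋₊ + 1))
        (fun r => r.Prime ∧ (A * r + 1).Prime ∧ (B * r + 1).Prime)
      rw [Finset.card_range] at this
      exact_mod_cast this
    have h3 := hpart (h2.trans h1) hz2 hz3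
    rw [← hl']
    linarith
  · obtain ⟨t, ht⟩ : ∃ t, t = l / (CB * (2 + U)) := ⟨_, rfl⟩
    have hden : 0 < CB * (2 + U) := by positivity
    have ht1 : 1 ≤ t := by
      rw [ht, le_div_iff₀ hden]
      linarith
    have ht0 : 0 < t := by linarith
    have htl : t * (CB * (2 + U)) = l := by
      rw [ht]
      field_simp
    have hβ : 0 ≤ Real.log t := Real.log_nonneg ht1
    have hexpβ : Real.exp (Real.log t) = t := Real.exp_log ht0
    have hQ : ∀ q ∈ PI 0 (Real.log t), q.Prime ∧ (q : ℝ) ≤ Real.exp t := by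
      intro q hq
      obtain ⟨h1, h2, -⟩ := Finset.mem_filter.1 hq
      refine ⟨h2, ?_⟩
      rw [hexpβ, Finset.mem_range, Nat.lt_succ_iff] at h1
      exact (Nat.le_floor_iff (Real.exp_pos _).le).1 h1
    have hze : 2 ≤ Real.exp t := by
      have := Real.add_one_le_exp t
      linarith
    have hN3 : 3 ≤ ⌊Z⌋₊ + 1 := by
      have : 2 ≤ ⌊Z⌋₊ := Nat.le_floor (by exact_mod_cast hZ)
      omega
    have hNZ : Z ≤ ((⌊Z⌋₊ + 1 : ℕ) : ℝ) := by
      push_cast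
      exact (Nat.lt_floor_add_one Z).le
    have hlogN : l ≤ Real.log ((⌊Z⌋₊ + 1 : ℕ) : ℝ) := by
      rw [hl']
      exact Real.log_le_log hZ0 hNZ
    have hloglog : 1 + Real.log (Real.log ((⌊Z⌋₊ + 1 : ℕ) : ℝ)) ≤ 2 + U := by
      have h1 : Real.log ((⌊Z⌋₊ + 1 : ℕ) : ℝ) ≤ 2 * Real.exp U := by
        have h2 : Real.log ((⌊Z⌋₊ + 1 : ℕ) : ℝ) ≤ Real.log (2 * Z) :=
          Real.log_le_log (by positivity) hN2
        rw [Real.log_mul (by norm_num) hZ0.ne'] at h2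
        have h3 : Real.log Z ≤ Real.exp U := by
          rw [Real.log_le_iff_le_exp hZ0]
          exact hZU
        have h4 : Real.log 2 ≤ 1 := by
          have := Real.log_two_lt_d9
          linarith
        have h5 : 1 ≤ Real.exp U := Real.one_le_exp (by linarith)
        linarith
      have h2 : Real.log (Real.log ((⌊Z⌋₊ + 1 : ℕ) : ℝ)) ≤ Real.log (2 * Real.exp U) :=
        Real.log_le_log (by linarith) h1
      rw [Real.log_mul (by norm_num) (Real.exp_pos _).ne', Real.log_exp] at h2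
      have h4 : Real.log 2 ≤ 1 := by
        have := Real.log_two_lt_d9
        linarith
      linarith
    have hcond : CB * Real.log (Real.exp t) *
        (1 + Real.log (Real.log ((⌊Z⌋₊ + 1 : ℕ) : ℝ))) ≤
        Real.log ((⌊Z⌋₊ + 1 : ℕ) : ℝ) := by
      rw [Real.log_exp]
      calc CB * t * (1 + Real.log (Real.log ((⌊Z⌋₊ + 1 : ℕ) : ℝ)))
          ≤ CB * t * (2 + U) := mul_le_mul_of_nonneg_left hloglog (by positivity)
        _ = l := by rw [← htl]; ring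
        _ ≤ _ := hlogN
    have hb := hbrun (⌊Z⌋₊ + 1) (Real.exp t) (PI 0 (Real.log t)) (sieveR3_R A B) hN3 hze hQ
      (fun q hq => sieveR3_R_prop (hQ q hq).1) hcond
    have hD := sieveR3_D_pos hA0 hB0 hAB
    have hs := sieveR3_sum (A := A) (B := B) hD (hmert 0 (Real.log t) le_rfl hβ |> fun h => by
      rwa [sub_zero] at h)
    have hI := hinv (sieveR3_D A B) (U + 2) (by linarith) hD (sieveR3_D_le hA hB)
    obtain ⟨sD, hsD⟩ : ∃ sD, sD = ∑ q ∈ (sieveR3_D A B).primeFactors, 1 / (q : ℝ) := ⟨_, rfl⟩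
    rw [← hsD] at hs hI
    have hexp : Real.exp (-∑ q ∈ PI 0 (Real.log t), ((sieveR3_R A B q).card : ℝ) / (q : ℝ)) ≤
        Real.exp (3 * CM) * (1 / t ^ 3) * (CI * (3 * U)) ^ 3 := by
      refine (Real.exp_le_exp.2 hs).trans ?_
      have e1 : Real.exp (3 * CM - 3 * Real.log t + 3 * sD) =
          Real.exp (3 * CM) * (1 / t ^ 3) * (Real.exp sD) ^ 3 := by
        rw [Real.exp_add, Real.exp_sub]
        have e2 : Real.exp (3 * Real.log t) = t ^ 3 := by
          have : 3 * Real.log t = Real.log t * (3 : ℕ) := by push_cast; ring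
          rw [this, Real.exp_mul, hexpβ, Real.rpow_natCast]
        have e3 : Real.exp (3 * sD) = (Real.exp sD) ^ 3 := by
          rw [← Real.exp_nat_mul]
          norm_num
        rw [e2, e3]
        ring
      rw [e1]
      have e4 : Real.exp sD ≤ CI * (3 * U) := by
        refine hI.trans (mul_le_mul_of_nonneg_left (by linarith) hCI0.le)
      have := Real.exp_pos sD
      gcongr
    have hcov := sieveR3_cover (A := A) (B := B) (Z := Z) (PI 0 (Real.log t)) hA0 hB0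
      (by linarith) hQ
    have hsmall : 2 * Real.exp t ≤ 42 * Z * U ^ 9 / l ^ 3 := by
      rw [ht, hl']
      exact sieveR3_small hCB hU hZ
    have hmain : CB * ((⌊Z⌋₊ + 1 : ℕ) : ℝ) *
        Real.exp (-∑ q ∈ PI 0 (Real.log t), ((sieveR3_R A B q).card : ℝ) / (q : ℝ)) ≤
        1458 * CB ^ 4 * Real.exp (3 * CM) * CI ^ 3 * Z * U ^ 9 / l ^ 3 := by
      calc CB * ((⌊Z⌋₊ + 1 : ℕ) : ℝ) *
            Real.exp (-∑ q ∈ PI 0 (Real.log t), ((sieveR3_R A B q).card : ℝ) / (q : ℝ))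
          ≤ CB * (2 * Z) * (Real.exp (3 * CM) * (1 / t ^ 3) * (CI * (3 * U)) ^ 3) := by
            gcongr
        _ = (54 * CB * Real.exp (3 * CM) * CI ^ 3 * Z * U ^ 3) * (1 / t ^ 3) := by ring
        _ = (54 * CB * Real.exp (3 * CM) * CI ^ 3 * Z * U ^ 3) * ((CB * (2 + U)) ^ 3 / l ^ 3) := by
            congr 1
            rw [← htl]
            field_simp
        _ ≤ (54 * CB * Real.exp (3 * CM) * CI ^ 3 * Z * U ^ 3) * ((CB * (3 * U)) ^ 3 / l ^ 3) := by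
            have : 2 + U ≤ 3 * U := by linarith
            gcongr
        _ = 1458 * CB ^ 4 * Real.exp (3 * CM) * CI ^ 3 * Z * U ^ 6 / l ^ 3 := by ring
        _ ≤ 1458 * CB ^ 4 * Real.exp (3 * CM) * CI ^ 3 * Z * U ^ 9 / l ^ 3 := by
            have : U ^ 6 ≤ U ^ 9 := pow_le_pow_right₀ hU (by norm_num)
            gcongr
    have hfin := hpart hz1 hsmall (hb.trans hmain)
    rw [← hl']
    linarith

end P031
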