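import Vale.Agent.Lib.P031.PDefs

/-!
# P031 TDefs: further definitions on tuples.
-/

namespace P031

open Finset

/-- minimal height above `w` -/
noncomputable def m0 (σ : ℝ) (w : ℕ) : ℝ := max (ll (PW w)) (σ ^ 119)

/-- `w ∏_{i<k} (p_i - 1)` -/
def vt (w : ℕ) (p : Fin nn → ℕ) (k : ℕ) : ℕ :=
  w * ∏ i ∈ Finset.univ.filter (fun i : Fin nn => i.val < k), (p i - 1)

open Classical in
/-- relaxed tuples with a coordinate near the top -/
noncomputable def RN (σ : ℝ) (w : ℕ) : Finset (Fin nn → ℕ) :=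
  (Fintype.piFinset (fun _ => (Finset.range (EE σ + 1)).filter Nat.Prime)).filter (fun p =>
    StrictMono p ∧ (∀ i, PW w < p i ∧ σ ^ 119 ≤ ll (p i)) ∧ (∃ i, σ ^ 120 - σ < ll (p i)) ∧
    (∀ k, k < nn → BB (fun j => CC σ j w) (xx p) k ≤ (1 + 3 / σ ^ 4) * xx p k) ∧
    BB (fun j => CC σ j w) (xx p) nn ≤ (1 + 4 / σ ^ 4) * σ ^ 120)

open Classical in
/-- total weight of the small `w` -/
noncomputable def Wsm (σ : ℝ) : ℝ :=
  ∑ w ∈ (Wfin σ).filter (fun w => ll (PW w) < σ ^ 119), 1 / (w : ℝ)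

open Classical in
/-- the prime factors above `y1` -/
noncomputable def bigP (σ : ℝ) (m : ℕ) : Finset ℕ := m.primeFactors.filter (fun p => σ ^ 111 < ll p)

open Classical in
/-- the primes `> y1` of `p_{k-1} … p_0 (mW w)` -/
noncomputable def PP (σ : ℝ) (w : ℕ) (p : Fin nn → ℕ) (k : ℕ) : Finset ℕ :=
  (Finset.univ.filter (fun i : Fin nn => i.val < k)).image p ∪ bigP σ (mW w)

/-- smooth tail of `w` -/
noncomputable def ff (σ : ℝ) (w : ℕ) : ℕ := Nat.totient (lowp (σ ^ 111) (mW w))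

end P031
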