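import Vale.Agent.Lib.P031.Basic
import Vale.Agent.Lib.P031.SieveP
import Vale.Agent.Lib.P031.RankinW

/-!
# P031 Thin: primes `p` with `Om (p-1) < ll p / 2` have a convergent sum of reciprocals.

Proof. For `τ` large, `u = log log τ`, `z = τ^(1/(C u))`. For a thin prime `√τ < p ≤ τ` write `p - 1 = a m` with `a`
the part composed of the primes `≤ z`; `Om a ≤ u/2`, so `a ≤ z^(u/2) ≤ √τ`. By `sieve_primes` with `Q` = primes `≤ z`
the number of these `p` is at most `∑_a C (τ/a) u^3/(log τ) exp(-∑_{q ≤ z} 1/q) ≤ C τ/(log τ) u^4 e^{-u} ∑_a 1/a`, and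
`∑_a 1/a ≤ 2^(u/2) ∑_a 2^(-Om a)/a ≤ 2^(u/2) exp(u/2 + C)` by `rankin_w` with `g = 1/2`. As `1 - 1/2 - (log 2)/2 > 0.15`, the number
of thin `p ∈ (τ/2, τ]` is at most `C τ/(log τ)^(1.15) u^4`; sum over `τ = 2^j`.
-/

namespace P031

open Finset Real

/-- the part of `n` composed of the primes `≤ z` -/
private theorem Thin_split (n : ℕ) (hn : n ≠ 0) (z : ℝ) (hz : 0 ≤ z) :
    ∃ a b : ℕ, a * b = n ∧ 1 ≤ a ∧ 1 ≤ b ∧ Om a ≤ Om n ∧ (∀ q ∈ a.primeFactors, (q : ℝ) ≤ z) ∧
      (∀ q : ℕ, q.Prime → (q : ℝ) ≤ z → ¬ q ∣ b) ∧ (a : ℝ) ≤ z ^ Om a := by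
  classical
  set l := n.primeFactorsList with hl
  set l1 := l.filter (fun q : ℕ => decide ((q : ℝ) ≤ z)) with hl1
  set l2 := l.filter (fun q : ℕ => !decide ((q : ℝ) ≤ z)) with hl2
  have hperm : (l1 ++ l2).Perm l := List.filter_append_perm _ _
  have hprod : l1.prod * l2.prod = n := by
    rw [← List.prod_append, hperm.prod_eq, hl, Nat.prod_primeFactorsList hn]
  have hp : ∀ q ∈ l, q.Prime := fun q hq => Nat.prime_of_mem_primeFactorsList hq
  have hp1 : ∀ q ∈ l1, q.Prime := fun q hq => hp q (List.mem_of_mem_filter hq)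
  have hp2 : ∀ q ∈ l2, q.Prime := fun q hq => hp q (List.mem_of_mem_filter hq)
  have ha0 : l1.prod ≠ 0 := by
    intro h0
    rw [h0, zero_mul] at hprod
    exact hn hprod.symm
  have hb0 : l2.prod ≠ 0 := by
    intro h0
    rw [h0, mul_zero] at hprod
    exact hn hprod.symm
  have hq1 : l1.Perm l1.prod.primeFactorsList := Nat.primeFactorsList_unique rfl hp1
  have hq2 : l2.Perm l2.prod.primeFactorsList := Nat.primeFactorsList_unique rfl hp2
  have hOm : Om l1.prod = l1.length := by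
    unfold Om
    rw [hq1.length_eq]
  refine ⟨l1.prod, l2.prod, hprod, Nat.one_le_iff_ne_zero.2 ha0, Nat.one_le_iff_ne_zero.2 hb0,
    ?_, ?_, ?_, ?_⟩
  · rw [hOm]
    exact List.length_filter_le _ _
  · intro q hq
    have h1 : q ∈ l1.prod.primeFactorsList := by
      rw [Nat.mem_primeFactorsList ha0]
      exact ⟨Nat.prime_of_mem_primeFactors hq, Nat.dvd_of_mem_primeFactors hq⟩
    have h2 := hq1.mem_iff.2 h1
    have h3 := (List.mem_filter.1 h2).2
    simpa using h3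
  · intro q hq hqz hdvd
    have h1 : q ∈ l2.prod.primeFactorsList := by
      rw [Nat.mem_primeFactorsList hb0]
      exact ⟨hq, hdvd⟩
    have h2 := hq2.mem_iff.2 h1
    have h3 := (List.mem_filter.1 h2).2
    simp only [Bool.not_eq_true', decide_eq_false_iff_not] at h3
    exact h3 hqz
  · rw [hOm]
    have h4 : ∀ q ∈ l1, q ≤ ⌊z⌋₊ := by
      intro q hq
      have h3 := (List.mem_filter.1 hq).2
      exact Nat.le_floor (by simpa using h3)
    have h5 := List.prod_le_pow_card l1 ⌊z⌋₊ h4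
    calc (l1.prod : ℝ) ≤ ((⌊z⌋₊ ^ l1.length : ℕ) : ℝ) := by exact_mod_cast h5
      _ = (⌊z⌋₊ : ℝ) ^ l1.length := by push_cast; rfl
      _ ≤ z ^ l1.length := by
        gcongr
        exact Nat.floor_le hz

private theorem Thin_euler (Q : Finset ℕ) (hQ : ∀ q ∈ Q, q.Prime) :
    ∏ q ∈ Q, (1 - (1 / 2 : ℝ) / q)⁻¹ ≤ Real.exp (1 / 2 * ∑ q ∈ Q, 1 / ((q : ℝ) - 1)) := by
  rw [Finset.mul_sum, Real.exp_sum]
  apply Finset.prod_le_prod
  · intro q hq
    have h2 : (2 : ℝ) ≤ q := by exact_mod_cast (hQ q hq).two_le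
    apply inv_nonneg.2
    have : (1 / 2 : ℝ) / q ≤ 1 := by
      rw [div_le_one (by linarith)]; linarith
    linarith
  · intro q hq
    have h2 : (2 : ℝ) ≤ q := by exact_mod_cast (hQ q hq).two_le
    have hpos : 0 < 1 - (1 / 2 : ℝ) / q := by
      have : (1 / 2 : ℝ) / q < 1 := by
        rw [div_lt_one (by linarith)]; linarith
      linarith
    rw [inv_le_iff_one_le_mul₀ hpos]
    have h3 : 1 + 1 / 2 * (1 / ((q : ℝ) - 1)) ≤ Real.exp (1 / 2 * (1 / ((q : ℝ) - 1))) := by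
      have := Real.add_one_le_exp (1 / 2 * (1 / ((q : ℝ) - 1)))
      linarith
    have h4 : 1 ≤ (1 + 1 / 2 * (1 / ((q : ℝ) - 1))) * (1 - (1 / 2 : ℝ) / q) := by
      have hq1 : (0:ℝ) < q - 1 := by linarith
      have hq0 : (0:ℝ) < q := by linarith
      have e : (1 + 1 / 2 * (1 / ((q : ℝ) - 1))) * (1 - (1 / 2 : ℝ) / q) =
          1 + 1 / (4 * q * (q - 1)) := by
        field_simp
        ring
      rw [e]
      have : 0 < 1 / (4 * (q : ℝ) * (q - 1)) := by positivity
      linarith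
    exact le_trans h4 (mul_le_mul_of_nonneg_right h3 hpos.le)

/-- the main count -/
private theorem Thin_count : ∃ K T : ℝ, 1 ≤ K ∧ ∀ (τ : ℝ) (S : Finset ℕ), T ≤ τ →
    (∀ p ∈ S, p.Prime ∧ 2 * (Om (p - 1) : ℝ) < ll p ∧ (p : ℝ) ≤ τ) →
    (S.card : ℝ) ≤ K * τ * Real.exp (-(11 / 10 * Real.log (Real.log τ))) := by
  classical
  obtain ⟨C1, hC1, hsieve⟩ := sieve_primes
  obtain ⟨C2, hC2, hmert⟩ := mert_all
  obtain ⟨C3, hC3, hlo⟩ := mert_lo
  obtain ⟨T0, hT0⟩ : ∃ T0 : ℝ, ∀ L : ℝ, T0 ≤ L → C1 * Real.log L ≤ L := by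
    have h1 := (Real.isLittleO_log_id_atTop.bound (show (0:ℝ) < 1 / C1 by positivity))
    obtain ⟨T, hT⟩ := Filter.eventually_atTop.1 (h1.and (Filter.eventually_ge_atTop 1))
    refine ⟨T, fun L hL => ?_⟩
    obtain ⟨h2, h3⟩ := hT L hL
    rw [Real.norm_of_nonneg (Real.log_nonneg h3), Real.norm_of_nonneg (by
      simp only [id]; linarith)] at h2
    simp only [id] at h2
    calc C1 * Real.log L ≤ C1 * (1 / C1 * L) := by gcongr
      _ = L := by field_simp
  refine ⟨C1 * Real.exp C3 * C1 * Real.exp (C2 / 2) * (24 * 20 ^ 4),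
    max C1 (max (Real.exp (Real.exp 1)) (Real.exp T0)), ?_, ?_⟩
  · have e1 : 1 ≤ Real.exp C3 := Real.one_le_exp (by linarith)
    have e2 : 1 ≤ Real.exp (C2 / 2) := Real.one_le_exp (by linarith)
    have h1 : 1 ≤ C1 * Real.exp C3 := one_le_mul_of_one_le_of_one_le hC1 e1
    have h2 : 1 ≤ C1 * Real.exp C3 * C1 := one_le_mul_of_one_le_of_one_le h1 hC1
    have h3 : 1 ≤ C1 * Real.exp C3 * C1 * Real.exp (C2 / 2) :=
      one_le_mul_of_one_le_of_one_le h2 e2
    exact one_le_mul_of_one_le_of_one_le h3 (by norm_num)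
  intro τ S hτ hS
  have hτ1 : C1 ≤ τ := le_trans (le_max_left _ _) hτ
  have hτ2 : Real.exp (Real.exp 1) ≤ τ :=
    le_trans (le_trans (le_max_left _ _) (le_max_right _ _)) hτ
  have hτ3 : Real.exp T0 ≤ τ := le_trans (le_trans (le_max_right _ _) (le_max_right _ _)) hτ
  have hτ0 : 0 < τ := lt_of_lt_of_le (Real.exp_pos _) hτ2
  set L := Real.log τ with hL
  have hL1 : Real.exp 1 ≤ L := (Real.le_log_iff_exp_le hτ0).2 hτ2
  have hL0 : 0 < L := lt_of_lt_of_le (Real.exp_pos _) hL1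
  have hLT : T0 ≤ L := (Real.le_log_iff_exp_le hτ0).2 hτ3
  set u := Real.log L with hu
  have hu1 : 1 ≤ u := (Real.le_log_iff_exp_le hL0).2 hL1
  have hu0 : 0 < u := by linarith
  have hCu : C1 * u ≤ L := hT0 L hLT
  have hCu0 : 0 < C1 * u := by positivity
  set z := Real.exp (L / (C1 * u)) with hz
  have hz0 : 0 < z := Real.exp_pos _
  have hlogz : Real.log z = L / (C1 * u) := Real.log_exp _
  have hlogz1 : 1 ≤ Real.log z := by
    rw [hlogz, le_div_iff₀ hCu0]; linarith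
  set Q := (Finset.range (⌊z⌋₊ + 1)).filter Nat.Prime with hQ
  have hQmem : ∀ q, q ∈ Q ↔ q.Prime ∧ (q : ℝ) ≤ z := by
    intro q
    rw [hQ, Finset.mem_filter, Finset.mem_range, Nat.lt_succ_iff, Nat.le_floor_iff hz0.le]
    tauto
  set β := Real.log (Real.log z) with hβ
  have hβ0 : 0 ≤ β := Real.log_nonneg hlogz1
  have hβe : Real.exp (-β) = C1 * u * Real.exp (-u) := by
    rw [Real.exp_neg, hβ, Real.exp_log (by linarith), hlogz, Real.exp_neg, hu, Real.exp_log hL0]
    field_simp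
  have hsum : β - C3 ≤ ∑ q ∈ Q, 1 / (q : ℝ) := by
    have h1 := hlo 0 β le_rfl hβ0
    have h2 : ∑ p ∈ PI 0 β, 1 / (p : ℝ) ≤ ∑ q ∈ Q, 1 / (q : ℝ) := by
      apply Finset.sum_le_sum_of_subset_of_nonneg
      · intro p hp
        unfold PI at hp
        rw [Finset.mem_filter] at hp
        obtain ⟨_, hpp, _, hlt⟩ := hp
        rw [hQmem]
        refine ⟨hpp, ?_⟩
        have hp2 : (2 : ℝ) ≤ p := by exact_mod_cast hpp.two_le
        have hlp : 0 < Real.log (p : ℝ) := Real.log_pos (by linarith)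
        have h3 : Real.log (p : ℝ) < Real.log z := by
          unfold ll at hlt
          exact (Real.log_lt_log_iff hlp (by linarith)).1 hlt
        exact ((Real.log_lt_log_iff (by linarith) hz0).1 h3).le
      · intro i _ _
        positivity
    linarith
  have hexps : Real.exp (-∑ q ∈ Q, 1 / (q : ℝ)) ≤ Real.exp C3 * (C1 * u * Real.exp (-u)) := by
    rw [← hβe, ← Real.exp_add]
    apply Real.exp_le_exp.2
    linarith
  have hsum2 : ∑ q ∈ Q, 1 / ((q : ℝ) - 1) ≤ u + C2 := by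
    apply hmert u hu0.le Q
    intro q hq
    rw [hQmem] at hq
    refine ⟨hq.1, ?_⟩
    have hq2 : (2 : ℝ) ≤ q := by exact_mod_cast hq.1.two_le
    have hlq : 0 < Real.log (q : ℝ) := Real.log_pos (by linarith)
    unfold ll
    rw [hu]
    apply Real.log_le_log hlq
    have h3 : Real.log (q : ℝ) ≤ Real.log z := Real.log_le_log (by linarith) hq.2
    rw [hlogz] at h3
    refine le_trans h3 ?_
    rw [div_le_iff₀ hCu0]
    have : 1 ≤ C1 * u := one_le_mul_of_one_le_of_one_le hC1 hu1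
    nlinarith only [hCu, this]
  -- the smooth parts
  set A : Finset ℕ := (Finset.range (⌊Real.sqrt τ⌋₊ + 1)).filter (fun a : ℕ =>
    1 ≤ a ∧ (∀ q : ℕ, q ∈ a.primeFactors → (q : ℝ) ≤ z) ∧ (Om a : ℝ) ≤ u / 2) with hA
  set F : ℕ → Finset ℕ := fun a => (Finset.range (⌊τ⌋₊ + 1)).filter
      (fun p => p.Prime ∧ a ∣ p - 1 ∧ ∀ q ∈ Q, ¬ q ∣ (p - 1) / a) with hF
  have hcover : S ⊆ A.biUnion F := by
    intro p hp
    obtain ⟨hpp, hthin, hpτ⟩ := hS p hp
    have hp2 : 2 ≤ p := hpp.two_le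
    have hp2' : (2 : ℝ) ≤ p := by exact_mod_cast hp2
    obtain ⟨a, b, hab, ha1, hb1, hOma, haz, hbz, hale⟩ :=
      Thin_split (p - 1) (by omega) z hz0.le
    have hllp : ll p ≤ u := by
      unfold ll
      have hlp : 0 < Real.log (p : ℝ) := Real.log_pos (by linarith)
      exact Real.log_le_log hlp (Real.log_le_log (by linarith) hpτ)
    have hOm2 : (Om a : ℝ) ≤ u / 2 := by
      have : (Om a : ℝ) ≤ (Om (p - 1) : ℝ) := by exact_mod_cast hOma
      linarith
    have hasq : (a : ℝ) ≤ Real.sqrt τ := by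
      refine le_trans hale ?_
      have e1 : z ^ Om a = Real.exp ((Om a : ℝ) * (L / (C1 * u))) := by
        rw [Real.exp_nat_mul]
      have e2 : Real.sqrt τ = Real.exp (L / 2) := by
        rw [Real.sqrt_eq_iff_mul_self_eq hτ0.le (Real.exp_pos _).le, ← Real.exp_add]
        have : L / 2 + L / 2 = L := by ring
        rw [this, hL, Real.exp_log hτ0]
      rw [e1, e2]
      apply Real.exp_le_exp.2
      calc (Om a : ℝ) * (L / (C1 * u)) ≤ (u / 2) * (L / (C1 * u)) := by gcongr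
        _ = L / 2 / C1 := by field_simp
        _ ≤ L / 2 := div_le_self (by positivity) hC1
    rw [Finset.mem_biUnion]
    refine ⟨a, ?_, ?_⟩
    · rw [hA, Finset.mem_filter, Finset.mem_range, Nat.lt_succ_iff]
      exact ⟨Nat.le_floor hasq, ha1, haz, hOm2⟩
    · rw [hF]
      simp only
      rw [Finset.mem_filter, Finset.mem_range, Nat.lt_succ_iff]
      refine ⟨Nat.le_floor hpτ, hpp, ⟨b, hab.symm⟩, ?_⟩
      intro q hq
      rw [hQmem] at hq
      have : (p - 1) / a = b := by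
        rw [← hab, Nat.mul_div_cancel_left _ (by omega)]
      rw [this]
      exact hbz q hq.1 hq.2
  have hQs : ∀ q ∈ Q, q.Prime ∧ C1 * Real.log (q : ℝ) * Real.log (Real.log τ) ≤ Real.log τ := by
    intro q hq
    rw [hQmem] at hq
    refine ⟨hq.1, ?_⟩
    have hq2 : (2 : ℝ) ≤ q := by exact_mod_cast hq.1.two_le
    have h3 : Real.log (q : ℝ) ≤ Real.log z := Real.log_le_log (by linarith) hq.2
    rw [hlogz, le_div_iff₀ hCu0] at h3
    calc C1 * Real.log (q : ℝ) * u = Real.log (q : ℝ) * (C1 * u) := by ring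
      _ ≤ L := h3
  set M := C1 * τ * u ^ 3 / L * Real.exp (-∑ q ∈ Q, 1 / (q : ℝ)) with hM
  have hM0 : 0 ≤ M := by positivity
  have hFa : ∀ a ∈ A, ((F a).card : ℝ) ≤ M * (1 / (a : ℝ)) := by
    intro a ha
    rw [hA, Finset.mem_filter, Finset.mem_range, Nat.lt_succ_iff,
      Nat.le_floor_iff (Real.sqrt_nonneg τ)] at ha
    have h1 := hsieve τ a Q hτ1 ha.2.1 ha.1 hQs
    refine le_trans h1 (le_of_eq ?_)
    rw [hM]
    ring
  have hcard : (S.card : ℝ) ≤ M * ∑ a ∈ A, 1 / (a : ℝ) := by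
    calc (S.card : ℝ) ≤ ((A.biUnion F).card : ℝ) := by exact_mod_cast Finset.card_le_card hcover
      _ ≤ ((∑ a ∈ A, (F a).card : ℕ) : ℝ) := by exact_mod_cast Finset.card_biUnion_le
      _ = ∑ a ∈ A, ((F a).card : ℝ) := by push_cast; rfl
      _ ≤ ∑ a ∈ A, M * (1 / (a : ℝ)) := Finset.sum_le_sum hFa
      _ = M * ∑ a ∈ A, 1 / (a : ℝ) := by rw [Finset.mul_sum]
  have hAsum : ∑ a ∈ A, 1 / (a : ℝ) ≤
      Real.exp (u / 2 * Real.log 2) * Real.exp (1 / 2 * (u + C2)) := by
    have h1 := rankin_w Q (fun _ => 1 / 2) A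
      (fun q hq => ⟨((hQmem q).1 hq).1, by norm_num, by
        have : (2 : ℝ) ≤ q := by exact_mod_cast ((hQmem q).1 hq).1.two_le
        linarith⟩)
      (fun a ha => by
        rw [hA, Finset.mem_filter] at ha
        refine ⟨by omega, fun q hq => (hQmem q).2 ⟨Nat.prime_of_mem_primeFactors hq,
          ha.2.2.1 q hq⟩⟩)
    have h2 : ∏ q ∈ Q, (1 - (1 / 2 : ℝ) / q)⁻¹ ≤ Real.exp (1 / 2 * (u + C2)) := by
      refine le_trans (Thin_euler Q (fun q hq => ((hQmem q).1 hq).1)) ?_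
      apply Real.exp_le_exp.2
      linarith
    have h3 : ∑ a ∈ A, 1 / (a : ℝ) ≤ Real.exp (u / 2 * Real.log 2) *
        ∑ a ∈ A, (a.primeFactorsList.map (fun _ => (1 / 2 : ℝ))).prod / (a : ℝ) := by
      rw [Finset.mul_sum]
      apply Finset.sum_le_sum
      intro a ha
      rw [hA, Finset.mem_filter] at ha
      have ha0 : (0 : ℝ) < a := by exact_mod_cast ha.2.1
      rw [List.map_const', List.prod_replicate, ← mul_div_assoc]
      apply div_le_div_of_nonneg_right _ ha0.le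
      have e1 : (1 / 2 : ℝ) ^ a.primeFactorsList.length =
          Real.exp (-((Om a : ℝ) * Real.log 2)) := by
        rw [Real.exp_neg, Real.exp_nat_mul, Real.exp_log (by norm_num), one_div, inv_pow]
        rfl
      rw [e1, ← Real.exp_add]
      apply Real.one_le_exp
      have := ha.2.2.2
      have hlog2 : 0 < Real.log 2 := Real.log_pos (by norm_num)
      nlinarith only [this, hlog2]
    calc _ ≤ _ := h3
      _ ≤ Real.exp (u / 2 * Real.log 2) * ∏ q ∈ Q, (1 - (1 / 2 : ℝ) / q)⁻¹ := by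
        gcongr
      _ ≤ _ := by gcongr
  have hu4 : u ^ 4 ≤ 24 * 20 ^ 4 * Real.exp (1 / 20 * u) := by
    have h1 := Real.pow_div_factorial_le_exp (1 / 20 * u) (by positivity) 4
    have e : (1 / 20 * u) ^ 4 / (Nat.factorial 4 : ℝ) = u ^ 4 / (24 * 20 ^ 4) := by
      have : (Nat.factorial 4 : ℝ) = 24 := by norm_num [Nat.factorial]
      rw [this]
      ring
    rw [e, div_le_iff₀ (by norm_num)] at h1
    linarith
  have hLe : L = Real.exp u := by rw [hu, Real.exp_log hL0]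
  calc (S.card : ℝ) ≤ M * ∑ a ∈ A, 1 / (a : ℝ) := hcard
    _ ≤ (C1 * τ * u ^ 3 / L * (Real.exp C3 * (C1 * u * Real.exp (-u)))) *
        (Real.exp (u / 2 * Real.log 2) * Real.exp (1 / 2 * (u + C2))) := by
        apply mul_le_mul _ hAsum (Finset.sum_nonneg fun a _ => by positivity) (by positivity)
        rw [hM]
        gcongr
    _ = (C1 * Real.exp C3 * C1 * Real.exp (C2 / 2)) * τ * (u ^ 4 *
        Real.exp (-u + -u + u / 2 * Real.log 2 + 1 / 2 * u)) := by
        rw [hLe, Real.exp_add, Real.exp_add, Real.exp_add]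
        have e1 : Real.exp (1 / 2 * (u + C2)) = Real.exp (1 / 2 * u) * Real.exp (C2 / 2) := by
          rw [← Real.exp_add]; congr 1; ring
        have e2 : C1 * τ * u ^ 3 / Real.exp u = C1 * τ * u ^ 3 * Real.exp (-u) := by
          rw [Real.exp_neg]; rfl
        rw [e1, e2]
        ring
    _ ≤ (C1 * Real.exp C3 * C1 * Real.exp (C2 / 2)) * τ * ((24 * 20 ^ 4 *
        Real.exp (1 / 20 * u)) * Real.exp (-u + -u + u / 2 * Real.log 2 + 1 / 2 * u)) := by
        gcongr
    _ = (C1 * Real.exp C3 * C1 * Real.exp (C2 / 2) * (24 * 20 ^ 4)) * τ *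
        Real.exp (1 / 20 * u + (-u + -u + u / 2 * Real.log 2 + 1 / 2 * u)) := by
        rw [Real.exp_add (1 / 20 * u)]
        ring
    _ ≤ (C1 * Real.exp C3 * C1 * Real.exp (C2 / 2) * (24 * 20 ^ 4)) * τ *
        Real.exp (-(11 / 10 * u)) := by
        have hlog2 := Real.log_two_lt_d9
        apply mul_le_mul_of_nonneg_left _ (by positivity)
        apply Real.exp_le_exp.2
        nlinarith only [hu0, hlog2]

theorem thin : ∃ C : ℝ, 1 ≤ C ∧ ∀ S : Finset ℕ,
    (∀ p ∈ S, p.Prime ∧ 2 * (Om (p - 1) : ℝ) < ll p) →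
    ∑ p ∈ S, 1 / ((p : ℝ) - 1) ≤ C := by
  classical
  obtain ⟨K, T, hK, hcount⟩ := Thin_count
  obtain ⟨J, hJ⟩ : ∃ J : ℕ, ∀ j : ℕ, J ≤ j → T ≤ (2:ℝ) ^ (j + 1) := by
    obtain ⟨J, hJ⟩ := pow_unbounded_of_one_lt T (show (1:ℝ) < 2 by norm_num)
    refine ⟨J, fun j hj => le_trans hJ.le ?_⟩
    exact pow_le_pow_right₀ (by norm_num) (by omega)
  have hlog2 : 0 < Real.log 2 := Real.log_pos (by norm_num)
  set g : ℕ → ℝ := fun j => 4 * K * Real.log 2 ^ (-(11 / 10) : ℝ) *
    (1 / ((j + 1 : ℕ) : ℝ) ^ (11 / 10 : ℝ)) with hg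
  have hsummable : Summable g := by
    have h1 : Summable (fun n : ℕ => 1 / (n : ℝ) ^ (11 / 10 : ℝ)) :=
      Real.summable_one_div_nat_rpow.2 (by norm_num)
    have h2 := (summable_nat_add_iff 1).2 h1
    exact h2.mul_left _
  have hg0 : ∀ j, 0 ≤ g j := by
    intro j
    rw [hg]
    positivity
  refine ⟨1 + (4 * J + ∑' j, g j), ?_, ?_⟩
  · have h1 : 0 ≤ ∑' j, g j := tsum_nonneg hg0
    have h2 : (0:ℝ) ≤ 4 * J := by positivity
    linarith
  intro S hS
  have hfib : ∑ p ∈ S, 1 / ((p : ℝ) - 1) =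
      ∑ j ∈ Finset.range (S.sup id + 1), ∑ p ∈ S.filter (fun p => Nat.log 2 p = j),
        1 / ((p : ℝ) - 1) := by
    symm
    apply Finset.sum_fiberwise_of_maps_to
    intro p hp
    rw [Finset.mem_range, Nat.lt_succ_iff]
    exact le_trans (Nat.log_le_self 2 p) (Finset.le_sup (f := id) hp)
  have hterm : ∀ j : ℕ, ∑ p ∈ S.filter (fun p => Nat.log 2 p = j), 1 / ((p : ℝ) - 1) ≤
      (4 / (2:ℝ) ^ (j + 1)) * ((S.filter (fun p => Nat.log 2 p = j)).card : ℝ) := by
    intro j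
    rw [mul_comm, ← nsmul_eq_mul, ← Finset.sum_const]
    apply Finset.sum_le_sum
    intro p hp
    rw [Finset.mem_filter] at hp
    have hpp := (hS p hp.1).1
    have hp2 : (2 : ℝ) ≤ p := by exact_mod_cast hpp.two_le
    have h1 : 2 ^ j ≤ p := by
      rw [← hp.2]
      exact Nat.pow_log_le_self 2 hpp.ne_zero
    have h1' : (2:ℝ) ^ j ≤ p := by exact_mod_cast h1
    have h2 : (2:ℝ) ^ (j + 1) / 4 ≤ (p : ℝ) - 1 := by
      rw [pow_succ]
      linarith
    calc 1 / ((p : ℝ) - 1) ≤ 1 / ((2:ℝ) ^ (j + 1) / 4) := by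
          apply one_div_le_one_div_of_le (by positivity) h2
      _ = _ := by rw [one_div_div]
  have hlt : ∀ j : ℕ, ∀ p ∈ S.filter (fun p => Nat.log 2 p = j), p < 2 ^ (j + 1) := by
    intro j p hp
    rw [Finset.mem_filter] at hp
    rw [← hp.2]
    exact Nat.lt_pow_succ_log_self (by norm_num) p
  have hsmall : ∀ j : ℕ, ∑ p ∈ S.filter (fun p => Nat.log 2 p = j), 1 / ((p : ℝ) - 1) ≤ 4 := by
    intro j
    refine le_trans (hterm j) ?_
    have h1 : (S.filter (fun p => Nat.log 2 p = j)) ⊆ Finset.range (2 ^ (j + 1)) := by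
      intro p hp
      rw [Finset.mem_range]
      exact hlt j p hp
    have h2 := Finset.card_le_card h1
    rw [Finset.card_range] at h2
    have h3 : ((S.filter (fun p => Nat.log 2 p = j)).card : ℝ) ≤ (2:ℝ) ^ (j + 1) := by
      exact_mod_cast h2
    calc _ ≤ (4 / (2:ℝ) ^ (j + 1)) * (2:ℝ) ^ (j + 1) := by gcongr
      _ = 4 := by field_simp
  have hlarge : ∀ j : ℕ, J ≤ j →
      ∑ p ∈ S.filter (fun p => Nat.log 2 p = j), 1 / ((p : ℝ) - 1) ≤ g j := by
    intro j hj
    refine le_trans (hterm j) ?_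
    have h1 := hcount ((2:ℝ) ^ (j + 1)) (S.filter (fun p => Nat.log 2 p = j)) (hJ j hj) (by
      intro p hp
      have h2 := hlt j p hp
      rw [Finset.mem_filter] at hp
      refine ⟨(hS p hp.1).1, (hS p hp.1).2, ?_⟩
      have : p ≤ 2 ^ (j + 1) := h2.le
      exact_mod_cast this)
    have e1 : Real.exp (-(11 / 10 * Real.log (Real.log ((2:ℝ) ^ (j + 1))))) =
        Real.log 2 ^ (-(11 / 10) : ℝ) * (1 / ((j + 1 : ℕ) : ℝ) ^ (11 / 10 : ℝ)) := by
      have hj1 : (0:ℝ) < ((j + 1 : ℕ) : ℝ) := by positivity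
      rw [Real.log_pow, Real.log_mul hj1.ne' hlog2.ne', one_div, ← Real.rpow_neg hj1.le,
        Real.rpow_def_of_pos hlog2, Real.rpow_def_of_pos hj1, ← Real.exp_add]
      congr 1
      ring
    rw [e1] at h1
    calc _ ≤ (4 / (2:ℝ) ^ (j + 1)) * (K * (2:ℝ) ^ (j + 1) *
          (Real.log 2 ^ (-(11 / 10) : ℝ) * (1 / ((j + 1 : ℕ) : ℝ) ^ (11 / 10 : ℝ)))) := by gcongr
      _ = g j := by
        rw [hg]
        field_simp
  rw [hfib]
  calc _ ≤ ∑ j ∈ Finset.range (S.sup id + 1), ((if j < J then (4:ℝ) else 0) + g j) := by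
        apply Finset.sum_le_sum
        intro j _
        split_ifs with h
        · have := hsmall j
          have := hg0 j
          linarith
        · have := hlarge j (not_lt.1 h)
          linarith
    _ = ∑ j ∈ Finset.range (S.sup id + 1), (if j < J then (4:ℝ) else 0) +
        ∑ j ∈ Finset.range (S.sup id + 1), g j := Finset.sum_add_distrib
    _ ≤ 4 * J + ∑' j, g j := by
        have h1 : ∑ j ∈ Finset.range (S.sup id + 1), (if j < J then (4:ℝ) else 0) ≤ 4 * J := by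
          rw [← Finset.sum_filter, Finset.sum_const, nsmul_eq_mul]
          have h2 : ((Finset.range (S.sup id + 1)).filter (fun j => j < J)).card ≤ J := by
            have : (Finset.range (S.sup id + 1)).filter (fun j => j < J) ⊆ Finset.range J := by
              intro j hj
              rw [Finset.mem_filter] at hj
              exact Finset.mem_range.2 hj.2
            have := Finset.card_le_card this
            rwa [Finset.card_range] at this
          have h3 : (((Finset.range (S.sup id + 1)).filter (fun j => j < J)).card : ℝ) ≤ J := by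
            exact_mod_cast h2
          linarith
        have h2 := hsummable.sum_le_tsum (Finset.range (S.sup id + 1)) (fun j _ => hg0 j)
        linarith
    _ ≤ 1 + (4 * J + ∑' j, g j) := by linarith

end P031
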