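import Vale.Agent.Lib.P031.BasicQ

/-!
# P031 Zeta: the minimal sequence `z` with `z 0 = max m0 (C 1) + τ`,
`z (k+1) = max (z k) (BB C z (k+1)) + τ`, and its comparison properties.
Recall `BB C x k = ∑_{j<k} aa (k-j) x j + C (k+1)`, with `aa i > 0` for `i ≥ 1`.
-/

namespace P031

open Finset Real

noncomputable def zt (C : ℕ → ℝ) (m0 τ : ℝ) : ℕ → ℝ
  | 0 => max m0 (C 1) + τ
  | (k + 1) => max (zt C m0 τ k)
      ((∑ j : Fin (k + 1), aa (k + 1 - j) * zt C m0 τ j) + C (k + 2)) + τ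
termination_by k => k

theorem zt_zero (C : ℕ → ℝ) (m0 τ : ℝ) : zt C m0 τ 0 = max m0 (C 1) + τ := by
  rw [zt]

theorem zt_succ (C : ℕ → ℝ) (m0 τ : ℝ) (k : ℕ) :
    zt C m0 τ (k + 1) = max (zt C m0 τ k) (BB C (zt C m0 τ) (k + 1)) + τ := by
  rw [zt]
  have h : (∑ j : Fin (k + 1), aa (k + 1 - j) * zt C m0 τ j) =
      ∑ j ∈ Finset.range (k + 1), aa (k + 1 - j) * zt C m0 τ j :=
    Fin.sum_univ_eq_sum_range (fun j => aa (k + 1 - j) * zt C m0 τ j) (k + 1)
  rw [h]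
  rfl

/-- `BB` is monotone in `x` -/
theorem BB_mono (C : ℕ → ℝ) {x y : ℕ → ℝ} {k : ℕ} (h : ∀ j, j < k → x j ≤ y j) :
    BB C x k ≤ BB C y k := by
  unfold BB
  have h1 : ∑ j ∈ Finset.range k, aa (k - j) * x j ≤ ∑ j ∈ Finset.range k, aa (k - j) * y j := by
    refine Finset.sum_le_sum fun j hj => ?_
    have hj' : j < k := Finset.mem_range.1 hj
    exact mul_le_mul_of_nonneg_left (h j hj') (aa_pos (by omega)).le
  linarith

/-- `BB` is affine in `x` -/
theorem BB_affine (C : ℕ → ℝ) (x y : ℕ → ℝ) (μ : ℝ) (k : ℕ) :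
    BB C (fun j => (1 - μ) * x j + μ * y j) k = (1 - μ) * BB C x k + μ * BB C y k := by
  unfold BB
  have h1 : ∑ j ∈ Finset.range k, aa (k - j) * ((1 - μ) * x j + μ * y j) =
      (1 - μ) * (∑ j ∈ Finset.range k, aa (k - j) * x j) +
        μ * (∑ j ∈ Finset.range k, aa (k - j) * y j) := by
    rw [Finset.mul_sum, Finset.mul_sum, ← Finset.sum_add_distrib]
    refine Finset.sum_congr rfl fun j _ => ?_
    ring
  simp only [h1]
  ring

/-- `BB` is Lipschitz in `x` for `k ≤ nn` -/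
theorem BB_lip : ∃ K : ℝ, 1 ≤ K ∧ ∀ (C : ℕ → ℝ) (x y : ℕ → ℝ) (e : ℝ) (k : ℕ), k ≤ nn → 0 ≤ e →
    (∀ j, j < k → y j ≤ x j + e) → BB C y k ≤ BB C x k + K * e := by
  have hpos : 0 < aa nn := aa_pos (by unfold nn; norm_num)
  refine ⟨1 + nn * aa nn, by linarith only [mul_nonneg (Nat.cast_nonneg (α := ℝ) nn) hpos.le],
    fun C x y e k hk he h => ?_⟩
  have h1 : BB C y k ≤ BB C (fun j => x j + e) k := BB_mono C h
  have h2 : BB C (fun j => x j + e) k = BB C x k + (∑ j ∈ Finset.range k, aa (k - j)) * e := by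
    unfold BB
    have h3 : ∑ j ∈ Finset.range k, aa (k - j) * (x j + e) =
        (∑ j ∈ Finset.range k, aa (k - j) * x j) + (∑ j ∈ Finset.range k, aa (k - j)) * e := by
      rw [Finset.sum_mul, ← Finset.sum_add_distrib]
      refine Finset.sum_congr rfl fun j _ => ?_
      ring
    simp only [h3]
    ring
  have h4 : ∑ j ∈ Finset.range k, aa (k - j) ≤ (nn : ℝ) * aa nn := by
    have h5 : ∑ j ∈ Finset.range k, aa (k - j) ≤ ∑ _j ∈ Finset.range k, aa nn := by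
      refine Finset.sum_le_sum fun j hj => ?_
      exact aa_mono (by omega)
    refine h5.trans ?_
    rw [Finset.sum_const, Finset.card_range, nsmul_eq_mul]
    have h6 : (k : ℝ) ≤ (nn : ℝ) := by exact_mod_cast hk
    exact mul_le_mul_of_nonneg_right h6 hpos.le
  have h7 : (∑ j ∈ Finset.range k, aa (k - j)) * e ≤ (1 + nn * aa nn) * e := by
    refine mul_le_mul_of_nonneg_right ?_ he
    linarith
  linarith

private theorem Zeta_le_tau (C : ℕ → ℝ) (m0 τ : ℝ) (hτ : 0 ≤ τ) (k : ℕ) :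
    zt C m0 0 k ≤ zt C m0 τ k := by
  induction k using Nat.strong_induction_on with
  | _ k ih =>
    rcases k with _ | k
    · rw [zt_zero, zt_zero]
      linarith
    · rw [zt_succ, zt_succ]
      have h1 : zt C m0 0 k ≤ zt C m0 τ k := ih k (Nat.lt_succ_self k)
      have h2 : BB C (zt C m0 0) (k + 1) ≤ BB C (zt C m0 τ) (k + 1) := BB_mono C ih
      have h3 := max_le_max h1 h2
      linarith

private theorem Zeta_tau_le {K : ℝ} (hK1 : 1 ≤ K)
    (hK : ∀ (C : ℕ → ℝ) (x y : ℕ → ℝ) (e : ℝ) (k : ℕ), k ≤ nn → 0 ≤ e →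
    (∀ j, j < k → y j ≤ x j + e) → BB C y k ≤ BB C x k + K * e)
    (C : ℕ → ℝ) (m0 τ : ℝ) (hτ : 0 ≤ τ) (k : ℕ) (hk : k ≤ nn) :
    ∀ i, i ≤ k → zt C m0 τ i ≤ zt C m0 0 i + (K + 1) ^ k * τ := by
  induction k with
  | zero =>
    intro i hi
    have hi0 : i = 0 := Nat.le_zero.1 hi
    subst hi0
    rw [zt_zero, zt_zero]
    simp
  | succ k ih =>
    intro i hi
    have ih' := ih (Nat.le_of_succ_le hk)
    have hp : 1 ≤ (K + 1) ^ k := one_le_pow₀ (by linarith)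
    have hpτ : 0 ≤ (K + 1) ^ k * τ := mul_nonneg (by linarith) hτ
    have hexp : (K + 1) ^ (k + 1) * τ = K * ((K + 1) ^ k * τ) + (K + 1) ^ k * τ := by ring
    have hKp : 0 ≤ K * ((K + 1) ^ k * τ) := mul_nonneg (by linarith) hpτ
    rcases Nat.lt_or_ge i (k + 1) with h | h
    · have := ih' i (Nat.lt_succ_iff.1 h)
      rw [hexp]
      linarith
    · have hik : i = k + 1 := le_antisymm hi h
      subst hik
      rw [zt_succ, zt_succ]
      have h1 : zt C m0 τ k ≤ zt C m0 0 k + (K + 1) ^ k * τ := ih' k le_rfl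
      have h2 : BB C (zt C m0 τ) (k + 1) ≤ BB C (zt C m0 0) (k + 1) + K * ((K + 1) ^ k * τ) :=
        hK C _ _ _ (k + 1) hk hpτ (fun j hj => ih' j (Nat.lt_succ_iff.1 hj))
      have hτp : τ ≤ (K + 1) ^ k * τ := by nlinarith only [hp, hpτ]
      have hKp2 : (K + 1) ^ k * τ ≤ K * ((K + 1) ^ k * τ) := by nlinarith only [hK1, hpτ]
      have h3 : max (zt C m0 τ k) (BB C (zt C m0 τ) (k + 1)) ≤
          max (zt C m0 0 k) (BB C (zt C m0 0) (k + 1)) + K * ((K + 1) ^ k * τ) := by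
        apply max_le
        · have := le_max_left (zt C m0 0 k) (BB C (zt C m0 0) (k + 1))
          linarith
        · have := le_max_right (zt C m0 0 k) (BB C (zt C m0 0) (k + 1))
          linarith
      rw [hexp]
      linarith

/-- comparison of `τ = 0` and general `τ`. By induction, `zt C m0 τ k ≤ zt C m0 0 k + K_k τ`. -/
theorem zt_tau : ∃ K : ℝ, 1 ≤ K ∧ ∀ (C : ℕ → ℝ) (m0 τ : ℝ), 0 ≤ τ → ∀ k, k ≤ nn →
    zt C m0 0 k ≤ zt C m0 τ k ∧ zt C m0 τ k ≤ zt C m0 0 k + K * τ ∧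
    BB C (zt C m0 0) k ≤ BB C (zt C m0 τ) k ∧
    BB C (zt C m0 τ) k ≤ BB C (zt C m0 0) k + K * τ := by
  obtain ⟨K, hK1, hK⟩ := BB_lip
  have hp : 1 ≤ (K + 1) ^ nn := one_le_pow₀ (by linarith)
  refine ⟨K * (K + 1) ^ nn, by nlinarith, fun C m0 τ hτ k hk => ?_⟩
  have h0 := Zeta_tau_le hK1 hK C m0 τ hτ nn le_rfl
  have hpτ : 0 ≤ (K + 1) ^ nn * τ := mul_nonneg (by linarith) hτ
  have hKp2 : (K + 1) ^ nn * τ ≤ K * (K + 1) ^ nn * τ := by nlinarith
  refine ⟨Zeta_le_tau C m0 τ hτ k, ?_, BB_mono C fun j _ => Zeta_le_tau C m0 τ hτ j, ?_⟩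
  · have := h0 k hk
    linarith
  · have := hK C (zt C m0 0) (zt C m0 τ) _ k hk hpτ (fun j hj => h0 j (hj.le.trans hk))
    linarith

theorem zt_ge (C : ℕ → ℝ) (m0 τ : ℝ) (hτ : 0 ≤ τ) (k : ℕ) :
    m0 + τ ≤ zt C m0 τ k ∧ BB C (zt C m0 τ) k + τ ≤ zt C m0 τ k ∧
    zt C m0 τ k + τ ≤ zt C m0 τ (k + 1) := by
  have hstep : ∀ k, zt C m0 τ k + τ ≤ zt C m0 τ (k + 1) := by
    intro k
    rw [zt_succ]
    have := le_max_left (zt C m0 τ k) (BB C (zt C m0 τ) (k + 1))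
    linarith
  refine ⟨?_, ?_, hstep k⟩
  · induction k with
    | zero =>
      rw [zt_zero]
      have := le_max_left m0 (C 1)
      linarith
    | succ k ih =>
      have := hstep k
      linarith
  · rcases k with _ | k
    · rw [zt_zero]
      have h1 : BB C (zt C m0 τ) 0 = C 1 := by
        unfold BB
        rw [Finset.sum_range_zero, zero_add]
      rw [h1]
      have := le_max_right m0 (C 1)
      linarith
    · rw [zt_succ C m0 τ k]
      have := le_max_right (zt C m0 τ k) (BB C (zt C m0 τ) (k + 1))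
      linarith

/-- Bound for the top coordinate. Let `z = zt C m0 τ`, `N = nn - 1`. Either `z N - τ = BB C z N`, and since
`aa (N - j) ≤ aa (nn - j)`, `C nn ≤ C (nn + 1)`, `BB C z N ≤ BB C z nn - aa 1 z N`, so `(1 + aa 1) z N ≤ BB C z nn + τ`;
or `z N - τ = z (N-1)` and `BB C z nn ≥ aa 1 z N + aa 2 z (N-1)`, `aa 1 + aa 2 ≥ 1.295`. -/
theorem zt_top (C : ℕ → ℝ) (m0 τ : ℝ) (hτ : 0 ≤ τ) (hm0 : 0 ≤ m0) (hC : ∀ j, 1 ≤ j → 0 ≤ C j)
    (hCm : ∀ j, 1 ≤ j → C j ≤ C (j + 1)) :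
    1.29 * zt C m0 τ (nn - 1) ≤ BB C (zt C m0 τ) nn + 2 * τ := by
  have hz : ∀ j, 0 ≤ zt C m0 τ j := fun j => by
    have := (zt_ge C m0 τ hτ j).1
    linarith
  have hn1 : nn - 1 = 120 := by unfold nn; rfl
  have hn : nn = 121 := by unfold nn; rfl
  rw [hn1, hn]
  have ha1 := aa_one_lo
  have ha2 := aa_two_lo
  have hz120 := hz 120
  have hz119 := hz 119
  rcases max_cases (zt C m0 τ 119) (BB C (zt C m0 τ) 120) with ⟨h, _⟩ | ⟨h, _⟩
  · -- `z 120 = z 119 + τ`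
    have h1 : zt C m0 τ 120 = zt C m0 τ 119 + τ := by
      have h0 := zt_succ C m0 τ 119
      norm_num at h0
      rw [h0, h]
    have h2 : aa 1 * zt C m0 τ 120 + aa 2 * zt C m0 τ 119 ≤ BB C (zt C m0 τ) 121 := by
      unfold BB
      rw [Finset.sum_range_succ, Finset.sum_range_succ]
      have h3 : 0 ≤ ∑ j ∈ Finset.range 119, aa (121 - j) * zt C m0 τ j := by
        refine Finset.sum_nonneg fun j hj => ?_
        have hj' : j < 119 := Finset.mem_range.1 hj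
        exact mul_nonneg (aa_pos (by omega)).le (hz j)
      have h4 : 0 ≤ C (121 + 1) := hC _ (by norm_num)
      have e1 : (121 - 120 : ℕ) = 1 := by norm_num
      have e2 : (121 - 119 : ℕ) = 2 := by norm_num
      rw [e1, e2]
      linarith
    nlinarith only [hτ, ha1, ha2, hz119, h1, h2]
  · have h1 : zt C m0 τ 120 = BB C (zt C m0 τ) 120 + τ := by
      have h0 := zt_succ C m0 τ 119
      norm_num at h0
      rw [h0, h]
    have h2 : BB C (zt C m0 τ) 120 + aa 1 * zt C m0 τ 120 ≤ BB C (zt C m0 τ) 121 := by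
      unfold BB
      rw [Finset.sum_range_succ (fun j => aa (121 - j) * zt C m0 τ j) 120]
      have h3 : ∑ j ∈ Finset.range 120, aa (120 - j) * zt C m0 τ j ≤
          ∑ j ∈ Finset.range 120, aa (121 - j) * zt C m0 τ j := by
        refine Finset.sum_le_sum fun j hj => ?_
        exact mul_le_mul_of_nonneg_right (aa_mono (by omega)) (hz j)
      have h4 : C (120 + 1) ≤ C (121 + 1) := hCm 121 (by norm_num)
      have e1 : (121 - 120 : ℕ) = 1 := by norm_num
      rw [e1]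
      linarith
    nlinarith only [hτ, ha1, hz120, h1, h2]

end P031
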